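import Crest.Agent.S0047_aux.Checker

set_option autoImplicit false
set_option maxRecDepth 100000
namespace Crest.Agent.SnakyAux
open Cert
def t30 : Tbl := Tbl.nil
theorem t30_valid : t30.Valid := Tbl.valid_nil
def c30 : Cert :=
(mv 1038 (cons (cons (cons (mv 1039 (cons (cons (mv 973 (cons (fin 1041 3 973)
(mv 972 (cons (fin 1037 3 972)
(fin 971 0 971)))))
(mv 1037 (cons (cons (mv 972 (cons (fin 973 3 972)
(mv 971 (cons (fin 1036 3 971)
(mv 976 (cons (fin 977 2 973)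
(mv 1101 (cons (fin 1100 1 1036)
(mv 910 (cons (fin 846 5 845)
(mv 1165 (cons (fin 1102 5 909)
(fin 1229 6 973)))))))))))))
(mv 972 (cons (fin 973 3 972)
(mv 976 (cons (fin 977 2 973)
(mv 1036 (cons (fin 971 3 971)
(mv 1104 (cons (fin 1103 0 1036)
(fin 1105 0 1037))))))))))
(cons (mv 976 (cons (fin 977 2 973)
(mv 1100 (cons (fin 1101 1 1036)
(mv 1036 (cons (fin 1099 1 1035)
(mv 1104 (cons (fin 1103 0 1036)
(fin 1105 0 1037)))))))))
(cons (mv 972 (cons (fin 973 3 972)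
(mv 971 (cons (fin 1036 3 971)
(mv 1101 (cons (fin 1100 1 1036)
(mv 910 (cons (fin 846 5 845)
(mv 1165 (cons (fin 1102 5 909)
(fin 1229 6 973)))))))))))
(mv 972 (cons (fin 973 3 972)
(mv 976 (cons (fin 977 2 973)
(mv 1101 (cons (fin 1100 1 1036)
(mv 910 (cons (fin 846 5 845)
(mv 1165 (cons (fin 1102 5 909)
(fin 1229 6 973))))))))))))))))
(cons (mv 1037 (cons (cons (mv 976 (cons (fin 977 2 973)
(mv 1100 (cons (fin 1101 1 1036)
(mv 1036 (cons (fin 1099 1 1035)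
(mv 1104 (cons (fin 1103 0 1036)
(fin 1105 0 1037)))))))))
(mv 976 (cons (fin 977 2 973)
(mv 1104 (cons (fin 1105 0 1037)
(mv 1036 (cons (fin 1103 0 1036)
(mv 971 (cons (fin 972 3 971)
(mv 1035 (cons (fin 970 3 970)
(mv 1099 (cons (fin 1098 1 1034)
(fin 1100 1 1035))))))))))))))
(cons (mv 976 (cons (fin 977 2 973)
(mv 1101 (cons (fin 1100 1 1036)
(mv 910 (cons (fin 846 5 845)
(mv 1102 (cons (fin 1041 1 1037)
(fin 1165 5 909)))))))))
(cons (mv 976 (cons (fin 977 2 973)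
(mv 1104 (cons (fin 1105 0 1037)
(mv 1103 (cons (fin 1036 0 1036)
(mv 912 (cons (fin 848 5 847)
(fin 1167 5 911)))))))))
(mv 1100 (cons (fin 1101 1 1036)
(mv 1036 (cons (fin 1099 1 1035)
(mv 1104 (cons (fin 1103 0 1036)
(fin 1105 0 1037)))))))))))
(mv 1041 (cons (fin 973 3 973)
(mv 977 (cons (fin 978 2 974)
(mv 1102 (cons (fin 1101 1 1037)
(mv 1042 (cons (fin 1103 1 1038)
(mv 1106 (cons (fin 1105 0 1038)
(fin 1107 0 1039))))))))))))))
(cons (mv 1102 (cons (cons (mv 910 (cons (cons (mv 845 (cons (fin 909 7 845)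
(mv 781 (cons (fin 846 7 781)
(mv 847 (cons (fin 911 6 846)
(mv 1101 (cons (fin 1165 5 909)
(mv 1103 (cons (fin 1167 4 910)
(mv 1104 (cons (fin 1041 2 1037)
(mv 1037 (cons (fin 1036 3 1036)
(fin 1105 3 1037)))))))))))))))
(mv 845 (cons (fin 909 7 845)
(mv 846 (cons (fin 781 7 781)
(mv 847 (cons (fin 783 6 782)
(fin 911 6 846))))))))
(cons (mv 847 (cons (fin 911 6 846)
(mv 783 (cons (fin 846 6 782)
(mv 1101 (cons (fin 1165 5 909)
(mv 1103 (cons (fin 1167 4 910)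
(mv 1104 (cons (fin 1041 2 1037)
(mv 1037 (cons (fin 1036 3 1036)
(fin 1105 3 1037)))))))))))))
(cons (mv 845 (cons (fin 909 7 845)
(mv 781 (cons (fin 846 7 781)
(mv 1101 (cons (fin 1165 5 909)
(mv 1103 (cons (fin 1167 4 910)
(mv 1104 (cons (fin 1041 2 1037)
(mv 1037 (cons (fin 1036 3 1036)
(fin 1105 3 1037)))))))))))))
(mv 845 (cons (fin 909 7 845)
(mv 847 (cons (fin 911 6 846)
(mv 1101 (cons (fin 1165 5 909)
(mv 1103 (cons (fin 1167 4 910)
(mv 1104 (cons (fin 1041 2 1037)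
(mv 1037 (cons (fin 1036 3 1036)
(fin 1105 3 1037)))))))))))))))))
(cons (mv 1166 (cons (cons (mv 909 (cons (fin 973 7 909)
(mv 1229 (cons (fin 1165 5 973)
(mv 1230 (cons (fin 1293 5 1037)
(mv 1231 (cons (fin 1167 4 974)
(fin 1295 4 1038)))))))))
(mv 1229 (cons (fin 1165 5 973)
(mv 1230 (cons (fin 1293 5 1037)
(mv 1231 (cons (fin 1167 4 974)
(fin 1295 4 1038))))))))
(cons (mv 973 (cons (fin 909 7 909)
(mv 1230 (cons (fin 1037 7 973)
(mv 1231 (cons (fin 1167 4 974)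
(fin 1295 4 1038)))))))
(cons (mv 973 (cons (fin 909 7 909)
(mv 1229 (cons (fin 1165 5 973)
(mv 1230 (cons (fin 1037 7 973)
(fin 1293 5 1037)))))))
(mv 909 (cons (fin 973 7 909)
(mv 1165 (cons (fin 1229 5 973)
(mv 1167 (cons (fin 1231 4 974)
(mv 1168 (cons (mv 1101 (cons (fin 1100 3 1100)
(fin 1169 3 1101)))
(cons (mv 1104 (cons (fin 1105 2 1101)
(mv 1103 (cons (fin 1164 2 1100)
(mv 912 (cons (fin 976 5 911)
(mv 1169 (cons (fin 1170 3 1102)
(mv 1233 (cons (fin 1232 0 1165)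
(fin 1234 0 1166)))))))))))
(mv 1100 (cons (fin 1101 3 1100)
(mv 1104 (cons (fin 1105 2 1101)
(mv 1164 (cons (fin 1099 3 1099)
(fin 1103 2 1100))))))))))))))))))))
(mv 910 (cons (cons (mv 845 (cons (fin 909 7 845)
(mv 846 (cons (fin 781 7 781)
(mv 847 (cons (fin 783 6 782)
(fin 911 6 846)))))))
(mv 847 (cons (fin 911 6 846)
(mv 846 (cons (fin 783 6 782)
(mv 781 (cons (fin 845 7 781)
(mv 782 (cons (fin 717 7 717)
(mv 1037 (cons (fin 973 5 781)
(fin 1101 5 845))))))))))))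
(cons (mv 847 (cons (fin 911 6 846)
(mv 846 (cons (fin 783 6 782)
(mv 1037 (cons (fin 1101 5 845)
(mv 973 (cons (fin 782 5 781)
(mv 1166 (cons (fin 909 7 909)
(fin 1230 7 973)))))))))))
(cons (mv 845 (cons (fin 909 7 845)
(mv 846 (cons (fin 781 7 781)
(mv 1037 (cons (fin 1101 5 845)
(mv 973 (cons (fin 782 5 781)
(mv 1166 (cons (fin 1230 7 973)
(mv 1167 (cons (fin 1103 4 910)
(fin 1231 4 974)))))))))))))
(mv 847 (cons (fin 911 6 846)
(mv 909 (cons (fin 845 7 845)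
(mv 1166 (cons (fin 973 7 909)
(mv 1167 (cons (fin 1103 4 910)
(fin 1231 4 974)))))))))))))))
(cons (cons (mv 1166 (cons (cons (mv 1165 (cons (fin 1229 5 973)
(mv 910 (cons (fin 1101 5 909)
(mv 1167 (cons (fin 1103 4 910)
(fin 1231 4 974)))))))
(mv 1167 (cons (fin 1231 4 974)
(mv 910 (cons (fin 1103 4 910)
(mv 847 (cons (fin 911 6 846)
(mv 846 (cons (fin 783 6 782)
(mv 781 (cons (fin 845 7 781)
(mv 782 (cons (fin 717 7 717)
(mv 1037 (cons (fin 973 5 781)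
(fin 1101 5 845))))))))))))))))
(cons (mv 1229 (cons (fin 1165 5 973)
(mv 1230 (cons (fin 1293 5 1037)
(mv 1037 (cons (fin 973 7 973)
(mv 1294 (cons (fin 1101 7 1037)
(mv 1295 (cons (fin 1231 4 1038)
(fin 1359 4 1102)))))))))))
(cons (mv 1229 (cons (fin 1165 5 973)
(mv 1230 (cons (fin 1293 5 1037)
(mv 1037 (cons (fin 973 7 973)
(mv 1101 (cons (fin 1294 7 1037)
(mv 910 (cons (fin 846 5 845)
(mv 847 (cons (fin 911 6 846)
(mv 1103 (cons (fin 1167 4 910)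
(mv 1036 (cons (fin 1104 3 1036)
(fin 1035 0 1035)))))))))))))))))
(mv 1165 (cons (fin 1229 5 973)
(mv 1167 (cons (fin 1231 4 974)
(mv 1103 (cons (fin 910 4 910)
(mv 1104 (cons (fin 1105 1 1101)
(fin 1164 2 1100)))))))))))))
(mv 910 (cons (cons (mv 845 (cons (fin 909 7 845)
(mv 846 (cons (fin 781 7 781)
(mv 847 (cons (fin 783 6 782)
(fin 911 6 846)))))))
(mv 847 (cons (fin 911 6 846)
(mv 846 (cons (fin 783 6 782)
(mv 1101 (cons (fin 1037 5 845)
(fin 1165 5 909))))))))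
(cons (mv 845 (cons (fin 909 7 845)
(mv 846 (cons (fin 781 7 781)
(mv 1101 (cons (fin 1037 5 845)
(fin 1165 5 909)))))))
(mv 847 (cons (fin 911 6 846)
(mv 909 (cons (fin 845 7 845)
(mv 1165 (cons (fin 1101 5 909)
(mv 1166 (cons (fin 973 7 909)
(fin 1229 5 973)))))))))))))
(cons (mv 1166 (cons (cons (mv 909 (cons (fin 973 7 909)
(mv 845 (cons (fin 910 7 845)
(mv 1229 (cons (fin 1165 5 973)
(mv 1230 (cons (fin 1293 5 1037)
(mv 1231 (cons (fin 1167 4 974)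
(fin 1295 4 1038)))))))))))
(mv 973 (cons (fin 909 7 909)
(mv 1229 (cons (fin 1165 5 973)
(mv 1230 (cons (fin 1037 7 973)
(fin 1293 5 1037))))))))
(cons (mv 1165 (cons (fin 1229 5 973)
(mv 1167 (cons (fin 1231 4 974)
(mv 910 (cons (fin 1103 4 910)
(mv 845 (cons (fin 909 7 845)
(mv 846 (cons (fin 781 7 781)
(mv 847 (cons (fin 783 6 782)
(fin 911 6 846)))))))))))))
(cons (mv 1165 (cons (fin 1229 5 973)
(mv 1167 (cons (fin 1231 4 974)
(mv 1103 (cons (fin 910 4 910)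
(mv 1104 (cons (fin 1105 1 1101)
(fin 1164 2 1100)))))))))
(mv 909 (cons (fin 973 7 909)
(mv 910 (cons (fin 845 7 845)
(mv 1167 (cons (fin 1103 4 910)
(fin 1231 4 974)))))))))))
(mv 910 (cons (cons (mv 845 (cons (fin 909 7 845)
(mv 781 (cons (fin 846 7 781)
(mv 847 (cons (fin 911 6 846)
(mv 1165 (cons (fin 1101 5 909)
(mv 1166 (cons (fin 1229 5 973)
(mv 1167 (cons (fin 1103 4 910)
(fin 1231 4 974)))))))))))))
(mv 847 (cons (fin 911 6 846)
(mv 783 (cons (fin 846 6 782)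
(mv 1165 (cons (fin 1101 5 909)
(mv 1166 (cons (fin 1229 5 973)
(mv 1167 (cons (fin 1103 4 910)
(fin 1231 4 974))))))))))))
(cons (mv 845 (cons (fin 909 7 845)
(mv 846 (cons (fin 781 7 781)
(mv 847 (cons (fin 783 6 782)
(fin 911 6 846)))))))
(cons (mv 845 (cons (fin 909 7 845)
(mv 781 (cons (fin 846 7 781)
(mv 1165 (cons (fin 1101 5 909)
(mv 1166 (cons (fin 1229 5 973)
(mv 1167 (cons (fin 1103 4 910)
(fin 1231 4 974)))))))))))
(mv 845 (cons (fin 909 7 845)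
(mv 847 (cons (fin 911 6 846)
(mv 1165 (cons (fin 1101 5 909)
(mv 1166 (cons (fin 1229 5 973)
(mv 1167 (cons (fin 1103 4 910)
(fin 1231 4 974)))))))))))))))))))
(mv 1039 (cons (cons (cons (mv 1037 (cons (cons (mv 976 (cons (fin 977 2 973)
(mv 1100 (cons (fin 1101 1 1036)
(mv 1036 (cons (fin 1099 1 1035)
(mv 1104 (cons (fin 1103 0 1036)
(fin 1105 0 1037)))))))))
(mv 976 (cons (fin 977 2 973)
(mv 1104 (cons (fin 1105 0 1037)
(mv 1036 (cons (fin 1103 0 1036)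
(mv 971 (cons (fin 972 3 971)
(mv 1035 (cons (fin 970 3 970)
(mv 1099 (cons (fin 1098 1 1034)
(fin 1100 1 1035))))))))))))))
(cons (mv 976 (cons (fin 977 2 973)
(mv 1101 (cons (fin 1100 1 1036)
(mv 910 (cons (fin 846 5 845)
(mv 1102 (cons (fin 1041 1 1037)
(fin 1165 5 909)))))))))
(cons (mv 976 (cons (fin 977 2 973)
(mv 1104 (cons (fin 1105 0 1037)
(mv 1103 (cons (fin 1036 0 1036)
(mv 912 (cons (fin 848 5 847)
(fin 1167 5 911)))))))))
(mv 1100 (cons (fin 1101 1 1036)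
(mv 1036 (cons (fin 1099 1 1035)
(mv 1104 (cons (fin 1103 0 1036)
(fin 1105 0 1037)))))))))))
(mv 1041 (cons (cons (mv 977 (cons (fin 978 2 974)
(mv 1102 (cons (fin 1101 1 1037)
(mv 1042 (cons (fin 1103 1 1038)
(mv 1106 (cons (fin 1105 0 1038)
(fin 1107 0 1039)))))))))
(mv 978 (cons (fin 977 2 974)
(mv 1042 (cons (fin 979 2 975)
(mv 1106 (cons (fin 1105 0 1038)
(fin 1107 0 1039))))))))
(cons (mv 977 (cons (fin 978 2 974)
(mv 1102 (cons (fin 1101 1 1037)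
(mv 1103 (cons (fin 1042 1 1038)
(mv 910 (cons (fin 846 4 846)
(fin 1167 4 910)))))))))
(cons (mv 1102 (cons (fin 1101 1 1037)
(mv 1042 (cons (fin 1103 1 1038)
(mv 1106 (cons (fin 1105 0 1038)
(fin 1107 0 1039)))))))
(mv 977 (cons (fin 978 2 974)
(mv 1101 (cons (fin 1102 1 1037)
(mv 1105 (cons (fin 1106 0 1038)
(mv 1169 (cons (mv 976 (cons (fin 912 7 912)
(fin 1233 7 976)))
(cons (mv 1168 (cons (fin 1232 5 976)
(mv 913 (cons (fin 1104 5 912)
(mv 848 (cons (fin 912 7 848)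
(mv 849 (cons (fin 784 7 784)
(mv 850 (cons (fin 786 6 785)
(fin 914 6 849)))))))))))
(mv 976 (cons (fin 1233 7 976)
(mv 1168 (cons (fin 1232 5 976)
(mv 913 (cons (fin 1104 5 912)
(mv 849 (cons (fin 785 5 784)
(mv 850 (cons (fin 786 6 785)
(fin 914 6 849)))))))))))))))))))))))))
(cons (mv 1037 (cons (cons (mv 976 (cons (fin 977 2 973)
(mv 1100 (cons (fin 1101 1 1036)
(mv 1036 (cons (fin 1099 1 1035)
(mv 1104 (cons (fin 1103 0 1036)
(fin 1105 0 1037)))))))))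
(mv 976 (cons (fin 977 2 973)
(mv 1104 (cons (fin 1105 0 1037)
(mv 1036 (cons (fin 1103 0 1036)
(mv 971 (cons (fin 972 3 971)
(mv 1035 (cons (fin 970 3 970)
(mv 1099 (cons (fin 1098 1 1034)
(fin 1100 1 1035))))))))))))))
(cons (mv 976 (cons (fin 977 2 973)
(mv 1101 (cons (fin 1100 1 1036)
(mv 910 (cons (fin 846 5 845)
(mv 1165 (cons (fin 1102 5 909)
(fin 1229 6 973)))))))))
(cons (mv 976 (cons (fin 977 2 973)
(mv 1104 (cons (fin 1105 0 1037)
(mv 1103 (cons (fin 1036 0 1036)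
(mv 912 (cons (fin 848 5 847)
(fin 1167 5 911)))))))))
(mv 1100 (cons (fin 1101 1 1036)
(mv 1036 (cons (fin 1099 1 1035)
(mv 1104 (cons (fin 1103 0 1036)
(fin 1105 0 1037)))))))))))
(mv 1037 (cons (cons (mv 976 (cons (fin 977 2 973)
(mv 1101 (cons (fin 1100 1 1036)
(mv 846 (cons (fin 910 5 845)
(mv 1041 (cons (fin 1102 1 1037)
(mv 1105 (cons (fin 1104 0 1037)
(fin 1106 0 1038)))))))))))
(mv 977 (cons (fin 976 2 973)
(mv 1041 (cons (fin 978 2 974)
(mv 1105 (cons (fin 1104 0 1037)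
(fin 1106 0 1038))))))))
(cons (mv 1101 (cons (fin 1100 1 1036)
(mv 846 (cons (fin 910 5 845)
(mv 1041 (cons (fin 1102 1 1037)
(mv 1105 (cons (fin 1104 0 1037)
(fin 1106 0 1038)))))))))
(cons (mv 976 (cons (fin 977 2 973)
(mv 1101 (cons (fin 1100 1 1036)
(mv 910 (cons (fin 846 5 845)
(mv 1102 (cons (fin 1041 1 1037)
(fin 1165 5 909)))))))))
(mv 976 (cons (fin 977 2 973)
(mv 1101 (cons (fin 1100 1 1036)
(mv 910 (cons (fin 846 5 845)
(mv 1165 (cons (fin 1102 5 909)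
(fin 1229 6 973)))))))))))))))
(cons (cons (mv 1103 (cons (cons (mv 910 (cons (fin 846 4 846)
(mv 1167 (cons (fin 1231 7 974)
(fin 1102 4 910)))))
(mv 846 (cons (fin 910 4 846)
(mv 1037 (cons (mv 1104 (cons (fin 1036 0 1036)
(fin 1105 0 1037)))
(cons (mv 977 (cons (fin 976 2 973)
(mv 1041 (cons (fin 978 2 974)
(mv 1042 (cons (fin 1102 1 1038)
(mv 1106 (cons (fin 1105 0 1038)
(fin 1107 0 1039)))))))))
(mv 976 (cons (fin 977 2 973)
(mv 848 (cons (fin 912 5 847)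
(mv 1036 (cons (fin 1104 0 1036)
(mv 971 (cons (fin 972 3 971)
(mv 1035 (cons (fin 970 3 970)
(fin 1102 0 1035)))))))))))))))))
(cons (mv 1167 (cons (fin 1231 7 974)
(mv 1037 (cons (mv 1104 (cons (fin 1036 0 1036)
(fin 1105 0 1037)))
(cons (mv 977 (cons (fin 976 2 973)
(mv 1041 (cons (fin 978 2 974)
(mv 1042 (cons (fin 1102 1 1038)
(mv 1106 (cons (fin 1105 0 1038)
(fin 1107 0 1039)))))))))
(mv 976 (cons (fin 977 2 973)
(mv 912 (cons (fin 848 5 847)
(fin 1104 5 911))))))))))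
(mv 846 (cons (fin 910 4 846)
(mv 1167 (cons (fin 1231 7 974)
(mv 976 (cons (mv 912 (cons (fin 848 5 847)
(fin 1104 5 911)))
(mv 977 (cons (fin 1037 2 973)
(mv 978 (cons (fin 979 1 975)
(fin 1041 2 974))))))))))))))
(mv 1103 (cons (cons (mv 910 (cons (fin 846 4 846)
(mv 1167 (cons (fin 1231 7 974)
(fin 1102 4 910)))))
(mv 846 (cons (fin 910 4 846)
(mv 1037 (cons (cons (mv 976 (cons (fin 977 2 973)
(mv 848 (cons (fin 912 5 847)
(mv 1036 (cons (fin 1104 0 1036)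
(mv 1100 (cons (fin 1099 1 1035)
(fin 1101 1 1036)))))))))
(mv 976 (cons (fin 977 2 973)
(mv 848 (cons (fin 912 5 847)
(mv 1036 (cons (fin 1104 0 1036)
(mv 971 (cons (fin 972 3 971)
(mv 1035 (cons (fin 970 3 970)
(fin 1102 0 1035))))))))))))
(cons (mv 976 (cons (fin 977 2 973)
(mv 848 (cons (fin 912 5 847)
(mv 1101 (cons (fin 1100 1 1036)
(mv 1102 (cons (fin 1041 1 1037)
(mv 1165 (cons (fin 1229 6 973)
(mv 1164 (cons (fin 1104 1 1100)
(mv 1163 (cons (fin 1162 2 1098)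
(fin 1166 2 1099)))))))))))))))
(cons (mv 1036 (cons (fin 1104 0 1036)
(mv 1100 (cons (fin 1099 1 1035)
(fin 1101 1 1036)))))
(mv 976 (cons (fin 977 2 973)
(mv 848 (cons (fin 912 5 847)
(mv 1100 (cons (fin 1101 1 1036)
(mv 1036 (cons (fin 1099 1 1035)
(mv 971 (cons (fin 972 3 971)
(mv 1035 (cons (fin 970 3 970)
(fin 1102 0 1035))))))))))))))))))))
(cons (mv 1167 (cons (fin 1231 7 974)
(mv 1101 (cons (cons (mv 1100 (cons (fin 1037 1 1036)
(fin 1102 2 1036)))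
(mv 1037 (cons (fin 1100 1 1036)
(mv 976 (cons (fin 977 2 973)
(mv 912 (cons (fin 848 5 847)
(fin 1104 5 911))))))))
(cons (mv 1041 (cons (fin 1102 1 1037)
(mv 977 (cons (fin 978 2 974)
(mv 976 (cons (fin 1037 2 973)
(mv 912 (cons (fin 848 5 847)
(fin 1104 5 911)))))))))
(mv 1102 (cons (fin 1041 1 1037)
(fin 1100 2 1036))))))))
(mv 846 (cons (fin 910 4 846)
(mv 1167 (cons (fin 1231 7 974)
(mv 976 (cons (mv 912 (cons (fin 848 5 847)
(fin 1104 5 911)))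
(mv 977 (cons (fin 1037 2 973)
(mv 978 (cons (fin 979 1 975)
(fin 1041 2 974)))))))))))))))
(cons (mv 1037 (cons (cons (mv 1100 (cons (fin 1101 1 1036)
(mv 1036 (cons (fin 1099 1 1035)
(mv 1104 (cons (fin 1103 0 1036)
(fin 1105 0 1037)))))))
(mv 1104 (cons (fin 1105 0 1037)
(mv 1036 (cons (fin 1103 0 1036)
(mv 971 (cons (fin 972 3 971)
(mv 1035 (cons (fin 970 3 970)
(mv 1099 (cons (fin 1098 1 1034)
(fin 1100 1 1035))))))))))))
(cons (mv 1101 (cons (fin 1100 1 1036)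
(mv 910 (cons (fin 846 5 845)
(mv 1102 (cons (fin 1041 1 1037)
(fin 1165 5 909)))))))
(mv 1104 (cons (fin 1105 0 1037)
(mv 1103 (cons (fin 1036 0 1036)
(mv 910 (cons (fin 846 4 846)
(mv 1167 (cons (fin 1231 7 974)
(fin 1102 4 910))))))))))))
(cons (mv 977 (cons (cons (mv 976 (cons (fin 1037 2 973)
(mv 978 (cons (fin 979 1 975)
(fin 1041 2 974)))))
(mv 1041 (cons (fin 978 2 974)
(mv 1105 (cons (fin 1106 0 1038)
(mv 1169 (cons (mv 976 (cons (fin 912 7 912)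
(fin 1233 7 976)))
(cons (mv 1168 (cons (fin 1232 5 976)
(mv 913 (cons (fin 1104 5 912)
(mv 848 (cons (fin 912 7 848)
(mv 849 (cons (fin 784 7 784)
(mv 850 (cons (fin 786 6 785)
(fin 914 6 849)))))))))))
(mv 976 (cons (fin 1233 7 976)
(mv 1168 (cons (fin 1232 5 976)
(mv 913 (cons (fin 1104 5 912)
(mv 849 (cons (fin 785 5 784)
(mv 850 (cons (fin 786 6 785)
(fin 914 6 849)))))))))))))))))))
(cons (mv 1037 (cons (fin 976 2 973)
(mv 1100 (cons (fin 1101 1 1036)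
(mv 1036 (cons (fin 1099 1 1035)
(mv 1104 (cons (fin 1103 0 1036)
(fin 1105 0 1037)))))))))
(mv 1041 (cons (fin 978 2 974)
(mv 1105 (cons (fin 1106 0 1038)
(mv 1104 (cons (fin 1037 0 1037)
(mv 913 (cons (fin 849 5 848)
(fin 1168 5 912))))))))))))
(mv 1041 (cons (cons (mv 977 (cons (fin 978 2 974)
(mv 976 (cons (fin 1037 2 973)
(mv 1101 (cons (fin 1102 1 1037)
(mv 1105 (cons (fin 1106 0 1038)
(mv 912 (cons (fin 1169 7 912)
(fin 848 4 848)))))))))))
(mv 977 (cons (fin 978 2 974)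
(mv 976 (cons (fin 1037 2 973)
(mv 1105 (cons (fin 1106 0 1038)
(mv 912 (cons (fin 1169 7 912)
(fin 848 4 848))))))))))
(cons (mv 1102 (cons (fin 1101 1 1037)
(mv 1042 (cons (fin 1103 1 1038)
(mv 1106 (cons (fin 1105 0 1038)
(fin 1107 0 1039)))))))
(mv 977 (cons (fin 978 2 974)
(mv 976 (cons (fin 1037 2 973)
(mv 1102 (cons (fin 1101 1 1037)
(mv 1103 (cons (fin 1042 1 1038)
(mv 910 (cons (fin 846 4 846)
(fin 1167 4 910)))))))))))))))))))))
(cons (mv 910 (cons (cons (mv 846 (cons (cons (mv 781 (cons (fin 845 7 781)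
(mv 717 (cons (fin 782 7 717)
(mv 783 (cons (fin 847 6 782)
(mv 1101 (cons (fin 1037 5 845)
(mv 1102 (cons (fin 1165 5 909)
(mv 1103 (cons (fin 1039 4 846)
(fin 1167 4 910)))))))))))))
(cons (mv 781 (cons (fin 845 7 781)
(mv 717 (cons (fin 782 7 717)
(mv 847 (cons (fin 783 6 782)
(mv 1102 (cons (fin 911 6 846)
(mv 1103 (cons (fin 1039 4 846)
(fin 1167 4 910)))))))))))
(mv 783 (cons (fin 847 6 782)
(mv 719 (cons (fin 782 6 718)
(mv 1101 (cons (fin 1037 5 845)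
(mv 1102 (cons (fin 1165 5 909)
(mv 1103 (cons (fin 1039 4 846)
(fin 1167 4 910)))))))))))))
(cons (cons (mv 781 (cons (fin 845 7 781)
(mv 717 (cons (fin 782 7 717)
(mv 1101 (cons (fin 1037 5 845)
(mv 1102 (cons (fin 1165 5 909)
(mv 1103 (cons (fin 1039 4 846)
(fin 1167 4 910)))))))))))
(mv 781 (cons (fin 845 7 781)
(mv 717 (cons (fin 782 7 717)
(mv 847 (cons (fin 783 6 782)
(mv 1101 (cons (fin 1037 5 845)
(mv 1102 (cons (fin 1165 5 909)
(fin 911 6 846))))))))))))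
(cons (mv 781 (cons (fin 845 7 781)
(mv 717 (cons (fin 782 7 717)
(mv 847 (cons (fin 783 6 782)
(mv 1037 (cons (fin 1101 5 845)
(mv 1039 (cons (fin 1103 4 846)
(mv 972 (cons (fin 973 3 972)
(mv 971 (cons (fin 1036 3 971)
(mv 976 (cons (fin 977 2 973)
(mv 1104 (cons (fin 1105 0 1037)
(mv 912 (cons (fin 911 7 847)
(mv 849 (cons (fin 913 6 848)
(mv 848 (cons (fin 909 1 845)
(fin 785 6 784)))))))))))))))))))))))))
(mv 781 (cons (fin 845 7 781)
(mv 783 (cons (fin 847 6 782)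
(mv 1101 (cons (fin 1037 5 845)
(mv 1102 (cons (fin 1165 5 909)
(mv 1103 (cons (fin 1039 4 846)
(fin 1167 4 910)))))))))))))))
(cons (mv 1102 (cons (cons (mv 845 (cons (fin 909 7 845)
(mv 847 (cons (fin 911 6 846)
(mv 1101 (cons (fin 1165 5 909)
(mv 1103 (cons (fin 1167 4 910)
(mv 1100 (cons (fin 1039 2 1036)
(mv 1035 (cons (fin 1036 3 1035)
(mv 1099 (cons (fin 1034 3 1034)
(mv 1163 (cons (fin 1162 1 1098)
(fin 1164 1 1099)))))))))))))))))
(mv 847 (cons (fin 911 6 846)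
(mv 1101 (cons (fin 1165 5 909)
(mv 1103 (cons (fin 1167 4 910)
(mv 1100 (cons (fin 1039 2 1036)
(mv 1035 (cons (fin 1036 3 1035)
(mv 1099 (cons (fin 1034 3 1034)
(mv 1163 (cons (fin 1162 1 1098)
(fin 1164 1 1099))))))))))))))))
(cons (mv 847 (cons (fin 911 6 846)
(mv 909 (cons (fin 845 7 845)
(mv 1166 (cons (fin 973 7 909)
(mv 1167 (cons (fin 1103 4 910)
(fin 1231 4 974)))))))))
(cons (mv 847 (cons (fin 911 6 846)
(mv 909 (cons (fin 845 7 845)
(mv 1165 (cons (fin 1101 5 909)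
(mv 1166 (cons (fin 973 7 909)
(fin 1229 5 973)))))))))
(mv 845 (cons (fin 909 7 845)
(mv 1101 (cons (fin 1165 5 909)
(mv 1103 (cons (fin 1167 4 910)
(mv 1100 (cons (fin 1039 2 1036)
(mv 1035 (cons (fin 1036 3 1035)
(mv 1099 (cons (fin 1034 3 1034)
(mv 1163 (cons (fin 1162 1 1098)
(fin 1164 1 1099)))))))))))))))))))
(mv 846 (cons (cons (mv 781 (cons (fin 845 7 781)
(mv 717 (cons (fin 782 7 717)
(mv 847 (cons (fin 783 6 782)
(mv 1037 (cons (fin 1101 5 845)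
(mv 1039 (cons (fin 1103 4 846)
(mv 972 (cons (fin 973 3 972)
(mv 971 (cons (fin 1036 3 971)
(mv 976 (cons (fin 977 2 973)
(mv 1104 (cons (fin 1105 0 1037)
(mv 912 (cons (fin 911 7 847)
(mv 849 (cons (fin 913 6 848)
(mv 848 (cons (fin 909 1 845)
(fin 785 6 784)))))))))))))))))))))))))
(mv 781 (cons (fin 845 7 781)
(mv 782 (cons (fin 717 7 717)
(mv 783 (cons (fin 719 6 718)
(fin 847 6 782))))))))
(cons (mv 783 (cons (fin 847 6 782)
(mv 782 (cons (fin 719 6 718)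
(mv 1037 (cons (fin 973 5 781)
(fin 1101 5 845)))))))
(cons (mv 781 (cons (fin 845 7 781)
(mv 782 (cons (fin 717 7 717)
(mv 1037 (cons (fin 973 5 781)
(fin 1101 5 845)))))))
(mv 781 (cons (fin 845 7 781)
(mv 847 (cons (fin 783 6 782)
(mv 1037 (cons (fin 1101 5 845)
(mv 1039 (cons (fin 1103 4 846)
(mv 972 (cons (fin 973 3 972)
(mv 971 (cons (fin 1036 3 971)
(mv 976 (cons (fin 977 2 973)
(mv 1104 (cons (fin 1105 0 1037)
(mv 912 (cons (fin 911 7 847)
(mv 849 (cons (fin 913 6 848)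
(mv 848 (cons (fin 909 1 845)
(fin 785 6 784)))))))))))))))))))))))))))))
(cons (cons (mv 846 (cons (cons (mv 781 (cons (fin 845 7 781)
(mv 717 (cons (fin 782 7 717)
(mv 847 (cons (fin 783 6 782)
(mv 1102 (cons (fin 911 6 846)
(mv 1103 (cons (fin 1039 4 846)
(fin 1167 4 910)))))))))))
(cons (mv 783 (cons (fin 847 6 782)
(mv 782 (cons (fin 719 6 718)
(mv 717 (cons (fin 781 7 717)
(mv 718 (cons (fin 653 7 653)
(mv 973 (cons (fin 909 5 717)
(fin 1037 5 781)))))))))))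
(mv 781 (cons (fin 845 7 781)
(mv 782 (cons (fin 717 7 717)
(mv 719 (cons (fin 783 6 718)
(mv 718 (cons (fin 655 6 654)
(mv 973 (cons (fin 909 5 717)
(fin 1037 5 781)))))))))))))
(cons (mv 783 (cons (fin 847 6 782)
(mv 782 (cons (fin 719 6 718)
(mv 973 (cons (fin 1037 5 781)
(mv 909 (cons (fin 718 5 717)
(mv 1102 (cons (fin 845 7 845)
(fin 1166 7 909)))))))))))
(cons (mv 781 (cons (fin 845 7 781)
(mv 782 (cons (fin 717 7 717)
(mv 973 (cons (fin 1037 5 781)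
(mv 909 (cons (fin 718 5 717)
(mv 1039 (cons (fin 1103 4 846)
(mv 972 (cons (fin 971 0 971)
(mv 911 (cons (fin 912 1 908)
(mv 1102 (cons (fin 1166 7 909)
(fin 847 6 846)))))))))))))))))
(mv 781 (cons (fin 845 7 781)
(mv 847 (cons (fin 783 6 782)
(mv 1102 (cons (fin 911 6 846)
(mv 1103 (cons (fin 1039 4 846)
(fin 1167 4 910)))))))))))))
(mv 1102 (cons (cons (mv 847 (cons (fin 911 6 846)
(mv 783 (cons (fin 846 6 782)
(mv 1101 (cons (fin 1165 5 909)
(mv 1103 (cons (fin 1167 4 910)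
(mv 1100 (cons (fin 1039 2 1036)
(mv 1035 (cons (fin 1036 3 1035)
(mv 1099 (cons (fin 1034 3 1034)
(mv 1163 (cons (fin 1162 1 1098)
(fin 1164 1 1099)))))))))))))))))
(cons (mv 847 (cons (fin 911 6 846)
(mv 783 (cons (fin 846 6 782)
(mv 1167 (cons (fin 1103 4 910)
(mv 1166 (cons (fin 1231 4 974)
(mv 973 (cons (fin 909 7 909)
(mv 1229 (cons (fin 1165 5 973)
(mv 1230 (cons (fin 1037 7 973)
(fin 1293 5 1037)))))))))))))))
(mv 847 (cons (fin 911 6 846)
(mv 783 (cons (fin 846 6 782)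
(mv 1165 (cons (fin 1101 5 909)
(mv 1166 (cons (fin 1229 5 973)
(mv 973 (cons (fin 909 7 909)
(mv 1230 (cons (fin 1037 7 973)
(mv 1231 (cons (fin 1167 4 974)
(fin 1295 4 1038)))))))))))))))))
(cons (cons (mv 847 (cons (fin 911 6 846)
(mv 846 (cons (fin 783 6 782)
(mv 1103 (cons (fin 1039 4 846)
(fin 1167 4 910)))))))
(mv 847 (cons (fin 911 6 846)
(mv 783 (cons (fin 846 6 782)
(mv 1165 (cons (fin 1101 5 909)
(mv 1166 (cons (fin 1229 5 973)
(mv 973 (cons (fin 909 7 909)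
(mv 1037 (cons (fin 1230 7 973)
(mv 972 (cons (fin 1039 3 972)
(mv 971 (cons (fin 970 0 970)
(mv 906 (cons (fin 907 3 906)
(mv 1035 (cons (fin 1034 1 970)
(mv 1036 (cons (fin 1103 0 1035)
(mv 1099 (cons (fin 1098 1 1034)
(mv 908 (cons (fin 844 5 843)
(fin 1163 6 907))))))))))))))))))))))))))))
(cons (mv 1101 (cons (fin 1165 5 909)
(mv 846 (cons (fin 1037 5 845)
(mv 1103 (cons (fin 1039 4 846)
(fin 1167 4 910)))))))
(mv 847 (cons (fin 911 6 846)
(mv 1101 (cons (fin 1165 5 909)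
(mv 1103 (cons (fin 1167 4 910)
(mv 1100 (cons (fin 1039 2 1036)
(mv 1035 (cons (fin 1036 3 1035)
(mv 1099 (cons (fin 1034 3 1034)
(mv 1163 (cons (fin 1162 1 1098)
(fin 1164 1 1099))))))))))))))))))))
(cons (mv 846 (cons (cons (mv 781 (cons (fin 845 7 781)
(mv 717 (cons (fin 782 7 717)
(mv 847 (cons (fin 783 6 782)
(mv 1101 (cons (fin 1037 5 845)
(mv 1102 (cons (fin 1165 5 909)
(fin 911 6 846)))))))))))
(mv 781 (cons (fin 845 7 781)
(mv 782 (cons (fin 717 7 717)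
(mv 783 (cons (fin 719 6 718)
(fin 847 6 782))))))))
(cons (mv 783 (cons (fin 847 6 782)
(mv 782 (cons (fin 719 6 718)
(mv 1037 (cons (fin 973 5 781)
(fin 1101 5 845)))))))
(cons (mv 781 (cons (fin 845 7 781)
(mv 782 (cons (fin 717 7 717)
(mv 1037 (cons (fin 973 5 781)
(fin 1101 5 845)))))))
(mv 781 (cons (fin 845 7 781)
(mv 847 (cons (fin 783 6 782)
(mv 1101 (cons (fin 1037 5 845)
(mv 1102 (cons (fin 1165 5 909)
(fin 911 6 846)))))))))))))
(mv 1102 (cons (cons (mv 845 (cons (fin 909 7 845)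
(mv 781 (cons (fin 846 7 781)
(mv 1101 (cons (fin 1165 5 909)
(mv 1103 (cons (fin 1167 4 910)
(mv 1100 (cons (fin 1039 2 1036)
(mv 1035 (cons (fin 1036 3 1035)
(mv 1099 (cons (fin 1034 3 1034)
(mv 1163 (cons (fin 1162 1 1098)
(fin 1164 1 1099)))))))))))))))))
(mv 845 (cons (fin 909 7 845)
(mv 846 (cons (fin 781 7 781)
(mv 1103 (cons (fin 1039 4 846)
(fin 1167 4 910))))))))
(cons (mv 845 (cons (fin 909 7 845)
(mv 846 (cons (fin 781 7 781)
(mv 1101 (cons (fin 1037 5 845)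
(fin 1165 5 909)))))))
(cons (mv 1101 (cons (fin 1165 5 909)
(mv 846 (cons (fin 1037 5 845)
(mv 1103 (cons (fin 1039 4 846)
(fin 1167 4 910)))))))
(mv 845 (cons (fin 909 7 845)
(mv 1101 (cons (fin 1165 5 909)
(mv 1103 (cons (fin 1167 4 910)
(mv 1100 (cons (fin 1039 2 1036)
(mv 1035 (cons (fin 1036 3 1035)
(mv 1099 (cons (fin 1034 3 1034)
(mv 1163 (cons (fin 1162 1 1098)
(fin 1164 1 1099)))))))))))))))))))))))
(cons (mv 1039 (cons (cons (mv 973 (cons (fin 1041 3 973)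
(mv 972 (cons (fin 1037 3 972)
(fin 971 0 971)))))
(mv 1037 (cons (cons (mv 972 (cons (fin 973 3 972)
(mv 976 (cons (fin 977 2 973)
(mv 1036 (cons (fin 971 3 971)
(mv 1100 (cons (fin 1099 1 1035)
(fin 1101 1 1036)))))))))
(mv 972 (cons (fin 973 3 972)
(mv 976 (cons (fin 977 2 973)
(mv 1036 (cons (fin 971 3 971)
(mv 1104 (cons (fin 1103 0 1036)
(fin 1105 0 1037))))))))))
(cons (mv 976 (cons (fin 977 2 973)
(mv 1100 (cons (fin 1101 1 1036)
(mv 1036 (cons (fin 1099 1 1035)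
(mv 1104 (cons (fin 1103 0 1036)
(fin 1105 0 1037)))))))))
(cons (mv 972 (cons (fin 973 3 972)
(mv 1036 (cons (fin 971 3 971)
(mv 1100 (cons (fin 1099 1 1035)
(fin 1101 1 1036)))))))
(mv 973 (cons (fin 972 3 972)
(mv 976 (cons (fin 977 2 973)
(mv 1101 (cons (fin 1100 1 1036)
(mv 910 (cons (fin 846 5 845)
(fin 1165 6 909))))))))))))))
(cons (mv 977 (cons (cons (mv 976 (cons (fin 1037 2 973)
(mv 978 (cons (fin 979 1 975)
(fin 1041 2 974)))))
(mv 1041 (cons (fin 978 2 974)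
(mv 1105 (cons (fin 1106 0 1038)
(mv 1169 (cons (mv 976 (cons (fin 912 7 912)
(fin 1233 7 976)))
(cons (mv 1168 (cons (fin 1232 5 976)
(mv 913 (cons (fin 1104 5 912)
(mv 848 (cons (fin 912 7 848)
(mv 849 (cons (fin 784 7 784)
(mv 850 (cons (fin 786 6 785)
(fin 914 6 849)))))))))))
(mv 976 (cons (fin 1233 7 976)
(mv 1168 (cons (fin 1232 5 976)
(mv 913 (cons (fin 1104 5 912)
(mv 849 (cons (fin 785 5 784)
(mv 850 (cons (fin 786 6 785)
(fin 914 6 849)))))))))))))))))))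
(cons (mv 1037 (cons (fin 976 2 973)
(mv 1100 (cons (fin 1101 1 1036)
(mv 1036 (cons (fin 1099 1 1035)
(mv 1104 (cons (fin 1103 0 1036)
(fin 1105 0 1037)))))))))
(mv 1041 (cons (fin 978 2 974)
(mv 1105 (cons (fin 1106 0 1038)
(mv 1104 (cons (fin 1037 0 1037)
(mv 913 (cons (fin 849 5 848)
(fin 1168 5 912))))))))))))
(mv 1041 (cons (fin 973 3 973)
(mv 978 (cons (fin 977 2 974)
(mv 1042 (cons (fin 979 2 975)
(mv 1106 (cons (fin 1105 0 1038)
(fin 1107 0 1039))))))))))))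
(mv 1039 (cons (cons (mv 973 (cons (fin 1041 3 973)
(mv 972 (cons (fin 1037 3 972)
(fin 971 0 971)))))
(mv 1037 (cons (cons (mv 972 (cons (fin 973 3 972)
(mv 976 (cons (fin 977 2 973)
(mv 1036 (cons (fin 971 3 971)
(mv 1100 (cons (fin 1099 1 1035)
(fin 1101 1 1036)))))))))
(mv 976 (cons (fin 977 2 973)
(mv 1100 (cons (fin 1101 1 1036)
(mv 1036 (cons (fin 1099 1 1035)
(mv 1104 (cons (fin 1103 0 1036)
(fin 1105 0 1037))))))))))
(cons (mv 972 (cons (fin 973 3 972)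
(mv 976 (cons (fin 977 2 973)
(mv 1036 (cons (fin 971 3 971)
(mv 1104 (cons (fin 1103 0 1036)
(fin 1105 0 1037)))))))))
(cons (mv 972 (cons (fin 973 3 972)
(mv 1036 (cons (fin 971 3 971)
(mv 1100 (cons (fin 1099 1 1035)
(fin 1101 1 1036)))))))
(mv 973 (cons (fin 972 3 972)
(mv 976 (cons (fin 977 2 973)
(mv 1101 (cons (fin 1100 1 1036)
(mv 1104 (cons (fin 1105 0 1037)
(mv 1165 (cons (fin 1229 6 973)
(mv 1164 (cons (fin 1228 5 972)
(mv 1102 (cons (fin 1103 1 1100)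
(mv 909 (cons (fin 1166 7 909)
(fin 845 4 845))))))))))))))))))))))
(cons (mv 1037 (cons (cons (mv 976 (cons (fin 977 2 973)
(mv 1100 (cons (fin 1101 1 1036)
(mv 1036 (cons (fin 1099 1 1035)
(mv 1104 (cons (fin 1103 0 1036)
(fin 1105 0 1037)))))))))
(mv 976 (cons (fin 977 2 973)
(mv 1104 (cons (fin 1105 0 1037)
(mv 1036 (cons (fin 1103 0 1036)
(mv 971 (cons (fin 972 3 971)
(mv 1035 (cons (fin 970 3 970)
(mv 1099 (cons (fin 1098 1 1034)
(fin 1100 1 1035))))))))))))))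
(cons (mv 977 (cons (fin 976 2 973)
(mv 1041 (cons (fin 978 2 974)
(mv 1101 (cons (fin 1100 1 1036)
(fin 1102 1 1037)))))))
(cons (mv 976 (cons (fin 977 2 973)
(mv 1104 (cons (fin 1105 0 1037)
(mv 1103 (cons (fin 1036 0 1036)
(mv 912 (cons (fin 848 5 847)
(fin 1167 5 911)))))))))
(mv 1100 (cons (fin 1101 1 1036)
(mv 1036 (cons (fin 1099 1 1035)
(mv 1104 (cons (fin 1103 0 1036)
(fin 1105 0 1037)))))))))))
(mv 1041 (cons (fin 973 3 973)
(mv 977 (cons (fin 978 2 974)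
(mv 1102 (cons (fin 1101 1 1037)
(mv 1042 (cons (fin 1103 1 1038)
(mv 1106 (cons (fin 1105 0 1038)
(fin 1107 0 1039)))))))))))))))))
(cons (cons (mv 910 (cons (cons (mv 1102 (cons (cons (mv 845 (cons (fin 909 7 845)
(mv 781 (cons (fin 846 7 781)
(mv 847 (cons (fin 911 6 846)
(mv 1101 (cons (fin 1165 5 909)
(mv 1039 (cons (fin 1041 1 1037)
(mv 1100 (cons (fin 1099 2 1035)
(fin 1103 2 1036)))))))))))))
(mv 845 (cons (fin 909 7 845)
(mv 846 (cons (fin 781 7 781)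
(mv 847 (cons (fin 783 6 782)
(fin 911 6 846))))))))
(cons (mv 847 (cons (fin 911 6 846)
(mv 783 (cons (fin 846 6 782)
(mv 1101 (cons (fin 1165 5 909)
(mv 1039 (cons (fin 1041 1 1037)
(mv 1100 (cons (fin 1099 2 1035)
(fin 1103 2 1036)))))))))))
(cons (mv 845 (cons (fin 909 7 845)
(mv 781 (cons (fin 846 7 781)
(mv 1101 (cons (fin 1165 5 909)
(mv 1039 (cons (fin 1041 1 1037)
(mv 1100 (cons (fin 1099 2 1035)
(fin 1103 2 1036)))))))))))
(mv 845 (cons (fin 909 7 845)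
(mv 847 (cons (fin 911 6 846)
(mv 1101 (cons (fin 1165 5 909)
(mv 1039 (cons (fin 1041 1 1037)
(mv 1100 (cons (fin 1099 2 1035)
(fin 1103 2 1036)))))))))))))))
(cons (mv 846 (cons (cons (mv 781 (cons (fin 845 7 781)
(mv 717 (cons (fin 782 7 717)
(mv 783 (cons (fin 847 6 782)
(mv 1039 (cons (fin 1103 4 846)
(mv 1041 (cons (fin 973 3 973)
(mv 978 (cons (fin 977 2 974)
(mv 1042 (cons (fin 979 2 975)
(mv 1106 (cons (fin 1105 0 1038)
(fin 1107 0 1039)))))))))))))))))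
(mv 781 (cons (fin 845 7 781)
(mv 782 (cons (fin 717 7 717)
(mv 783 (cons (fin 719 6 718)
(fin 847 6 782))))))))
(cons (mv 783 (cons (fin 847 6 782)
(mv 719 (cons (fin 782 6 718)
(mv 1039 (cons (fin 1103 4 846)
(mv 1041 (cons (fin 973 3 973)
(mv 978 (cons (fin 977 2 974)
(mv 1042 (cons (fin 979 2 975)
(mv 1106 (cons (fin 1105 0 1038)
(fin 1107 0 1039)))))))))))))))
(cons (mv 781 (cons (fin 845 7 781)
(mv 717 (cons (fin 782 7 717)
(mv 1039 (cons (fin 1103 4 846)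
(mv 1041 (cons (fin 973 3 973)
(mv 978 (cons (fin 977 2 974)
(mv 1042 (cons (fin 979 2 975)
(mv 1106 (cons (fin 1105 0 1038)
(fin 1107 0 1039)))))))))))))))
(mv 781 (cons (fin 845 7 781)
(mv 783 (cons (fin 847 6 782)
(mv 1039 (cons (fin 1103 4 846)
(mv 1041 (cons (fin 973 3 973)
(mv 978 (cons (fin 977 2 974)
(mv 1042 (cons (fin 979 2 975)
(mv 1106 (cons (fin 1105 0 1038)
(fin 1107 0 1039)))))))))))))))))))
(mv 1102 (cons (cons (mv 845 (cons (fin 909 7 845)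
(mv 847 (cons (fin 911 6 846)
(mv 1101 (cons (fin 1165 5 909)
(mv 1039 (cons (fin 1041 1 1037)
(mv 1100 (cons (fin 1099 2 1035)
(fin 1103 2 1036)))))))))))
(cons (mv 847 (cons (fin 911 6 846)
(mv 909 (cons (fin 845 7 845)
(mv 1103 (cons (fin 1167 4 910)
(mv 1166 (cons (fin 973 7 909)
(mv 1229 (cons (fin 1165 5 973)
(mv 1230 (cons (fin 1293 5 1037)
(mv 1294 (cons (fin 1039 6 1038)
(mv 1295 (cons (fin 1231 4 1038)
(fin 1359 4 1102)))))))))))))))))
(mv 847 (cons (fin 911 6 846)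
(mv 1101 (cons (fin 1165 5 909)
(mv 1039 (cons (fin 1041 1 1037)
(mv 1100 (cons (fin 1099 2 1035)
(fin 1103 2 1036)))))))))))
(cons (mv 847 (cons (fin 911 6 846)
(mv 909 (cons (fin 845 7 845)
(mv 973 (cons (fin 1166 7 909)
(mv 1041 (cons (fin 1039 3 973)
(mv 1103 (cons (fin 1167 4 910)
(mv 1104 (cons (fin 1101 2 1037)
(mv 1105 (cons (fin 1042 2 1038)
(mv 1169 (cons (fin 1170 0 1102)
(mv 976 (cons (fin 1233 7 976)
(fin 912 4 912)))))))))))))))))))
(cons (mv 847 (cons (fin 911 6 846)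
(mv 909 (cons (fin 845 7 845)
(mv 1165 (cons (fin 1101 5 909)
(mv 1166 (cons (fin 973 7 909)
(fin 1229 5 973)))))))))
(mv 845 (cons (fin 909 7 845)
(mv 1101 (cons (fin 1165 5 909)
(mv 1039 (cons (fin 1041 1 1037)
(mv 1100 (cons (fin 1099 2 1035)
(fin 1103 2 1036)))))))))))))))
(cons (cons (mv 1102 (cons (cons (mv 845 (cons (fin 909 7 845)
(mv 781 (cons (fin 846 7 781)
(mv 847 (cons (fin 911 6 846)
(mv 1165 (cons (fin 1101 5 909)
(mv 1166 (cons (fin 1229 5 973)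
(mv 1167 (cons (fin 1103 4 910)
(fin 1231 4 974)))))))))))))
(mv 847 (cons (fin 911 6 846)
(mv 783 (cons (fin 846 6 782)
(mv 1165 (cons (fin 1101 5 909)
(mv 1166 (cons (fin 1229 5 973)
(mv 1167 (cons (fin 1103 4 910)
(fin 1231 4 974))))))))))))
(cons (mv 845 (cons (fin 909 7 845)
(mv 846 (cons (fin 781 7 781)
(mv 847 (cons (fin 783 6 782)
(fin 911 6 846)))))))
(cons (mv 845 (cons (fin 909 7 845)
(mv 781 (cons (fin 846 7 781)
(mv 1165 (cons (fin 1101 5 909)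
(mv 1166 (cons (fin 1229 5 973)
(mv 1167 (cons (fin 1103 4 910)
(fin 1231 4 974)))))))))))
(mv 845 (cons (fin 909 7 845)
(mv 847 (cons (fin 911 6 846)
(mv 1165 (cons (fin 1101 5 909)
(mv 1166 (cons (fin 1229 5 973)
(mv 1167 (cons (fin 1103 4 910)
(fin 1231 4 974)))))))))))))))
(mv 1039 (cons (mv 846 (cons (fin 1103 4 846)
(mv 783 (cons (fin 847 6 782)
(mv 719 (cons (fin 782 6 718)
(mv 1041 (cons (fin 973 3 973)
(mv 978 (cons (fin 977 2 974)
(mv 1042 (cons (fin 979 2 975)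
(mv 1106 (cons (fin 1105 0 1038)
(fin 1107 0 1039)))))))))))))))
(cons (mv 1103 (cons (fin 846 4 846)
(mv 1167 (cons (fin 1231 7 974)
(fin 1102 4 910)))))
(mv 1041 (cons (fin 973 3 973)
(mv 978 (cons (fin 977 2 974)
(mv 1042 (cons (fin 979 2 975)
(mv 1106 (cons (fin 1105 0 1038)
(fin 1107 0 1039)))))))))))))
(cons (mv 846 (cons (cons (mv 781 (cons (fin 845 7 781)
(mv 782 (cons (fin 717 7 717)
(mv 783 (cons (fin 719 6 718)
(fin 847 6 782)))))))
(mv 847 (cons (fin 783 6 782)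
(mv 911 (cons (fin 1102 6 846)
(mv 912 (cons (mv 913 (cons (fin 914 3 846)
(fin 973 1 909)))
(mv 976 (cons (fin 1104 7 847)
(mv 909 (cons (fin 977 0 909)
(mv 848 (cons (fin 849 1 845)
(fin 908 2 844))))))))))))))
(cons (mv 782 (cons (cons (mv 781 (cons (fin 717 7 717)
(fin 845 7 781)))
(mv 719 (cons (fin 783 6 718)
(mv 718 (cons (fin 655 6 654)
(mv 653 (cons (fin 717 7 653)
(mv 654 (cons (fin 589 7 589)
(mv 909 (cons (fin 845 5 653)
(fin 973 5 717))))))))))))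
(cons (mv 717 (cons (fin 781 7 717)
(mv 718 (cons (fin 653 7 653)
(mv 719 (cons (fin 655 6 654)
(fin 783 6 718)))))))
(mv 719 (cons (fin 783 6 718)
(mv 718 (cons (fin 655 6 654)
(mv 845 (cons (fin 781 7 781)
(mv 909 (cons (fin 1102 7 845)
(fin 654 5 653))))))))))))
(mv 845 (cons (fin 781 7 781)
(mv 911 (cons (mv 1102 (cons (fin 909 7 845)
(fin 847 6 846)))
(cons (mv 844 (cons (fin 843 0 843)
(mv 912 (cons (fin 909 3 844)
(fin 913 3 845)))))
(mv 844 (cons (fin 843 0 843)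
(mv 847 (cons (fin 912 0 844)
(fin 1102 6 846)))))))))))))
(mv 1102 (cons (cons (mv 845 (cons (fin 909 7 845)
(mv 781 (cons (fin 846 7 781)
(mv 1101 (cons (fin 1165 5 909)
(mv 1039 (cons (fin 1041 1 1037)
(mv 1100 (cons (fin 1099 2 1035)
(fin 1103 2 1036)))))))))))
(mv 909 (cons (fin 845 7 845)
(mv 1165 (cons (fin 1101 5 909)
(mv 1166 (cons (fin 973 7 909)
(fin 1229 5 973))))))))
(cons (mv 845 (cons (fin 909 7 845)
(mv 846 (cons (fin 781 7 781)
(mv 1103 (cons (fin 1039 4 846)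
(fin 1167 4 910)))))))
(mv 1101 (cons (fin 1165 5 909)
(mv 1039 (cons (fin 1041 1 1037)
(mv 1100 (cons (fin 1099 2 1035)
(fin 1103 2 1036))))))))))))))
(cons (mv 1039 (cons (cons (mv 973 (cons (fin 1041 3 973)
(mv 972 (cons (fin 1037 3 972)
(fin 971 0 971)))))
(mv 1037 (cons (cons (mv 972 (cons (fin 973 3 972)
(mv 976 (cons (fin 977 2 973)
(mv 1036 (cons (fin 971 3 971)
(mv 1104 (cons (fin 1103 0 1036)
(fin 1105 0 1037)))))))))
(cons (mv 976 (cons (fin 977 2 973)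
(mv 1104 (cons (fin 1105 0 1037)
(mv 1036 (cons (fin 1103 0 1036)
(mv 1099 (cons (fin 1100 1 1035)
(mv 1035 (cons (fin 1098 1 1034)
(mv 970 (cons (fin 971 3 970)
(mv 1034 (cons (fin 969 3 969)
(fin 973 2 970)))))))))))))))
(mv 976 (cons (fin 977 2 973)
(mv 1104 (cons (fin 1105 0 1037)
(mv 1036 (cons (fin 1103 0 1036)
(mv 971 (cons (fin 972 3 971)
(mv 1035 (cons (fin 970 3 970)
(mv 1099 (cons (fin 1098 1 1034)
(fin 1100 1 1035)))))))))))))))
(cons (mv 976 (cons (fin 977 2 973)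
(mv 1036 (cons (cons (mv 972 (cons (fin 971 3 971)
(fin 973 3 972)))
(mv 1099 (cons (fin 1100 1 1035)
(mv 1035 (cons (fin 1098 1 1034)
(mv 970 (cons (fin 971 3 970)
(mv 1034 (cons (fin 969 3 969)
(fin 973 2 970))))))))))
(cons (mv 971 (cons (fin 972 3 971)
(mv 1035 (cons (fin 970 3 970)
(mv 1099 (cons (fin 1098 1 1034)
(fin 1100 1 1035)))))))
(mv 973 (cons (fin 972 3 972)
(mv 1035 (cons (fin 1034 2 970)
(mv 1099 (cons (fin 1098 1 1034)
(fin 1100 1 1035))))))))))))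
(cons (mv 972 (cons (fin 973 3 972)
(mv 1036 (cons (fin 971 3 971)
(mv 1104 (cons (fin 1103 0 1036)
(fin 1105 0 1037)))))))
(mv 972 (cons (fin 973 3 972)
(mv 976 (cons (fin 977 2 973)
(mv 1104 (cons (fin 1105 0 1037)
(mv 1168 (cons (cons (mv 1167 (cons (fin 1231 5 975)
(mv 912 (cons (fin 1103 5 911)
(mv 847 (cons (fin 911 7 847)
(mv 848 (cons (fin 783 7 783)
(mv 849 (cons (fin 785 6 784)
(fin 913 6 848)))))))))))
(mv 1233 (cons (fin 1169 4 976)
(mv 1232 (cons (fin 1297 4 1040)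
(mv 1295 (cons (fin 1231 5 1039)
(mv 1296 (cons (fin 1103 7 1039)
(fin 1359 5 1103))))))))))
(cons (mv 1233 (cons (fin 1169 4 976)
(mv 1232 (cons (fin 1297 4 1040)
(mv 1103 (cons (fin 1296 7 1039)
(mv 912 (cons (fin 848 5 847)
(fin 1167 5 911)))))))))
(mv 1231 (cons (fin 1167 5 975)
(mv 1232 (cons (fin 1295 5 1039)
(mv 1233 (cons (fin 1169 4 976)
(fin 1297 4 1040)))))))))))))))))))))
(cons (mv 1103 (cons (cons (mv 910 (cons (fin 846 4 846)
(mv 1167 (cons (fin 1231 7 974)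
(fin 1102 4 910)))))
(mv 846 (cons (fin 910 4 846)
(mv 1037 (cons (mv 1104 (cons (fin 1036 0 1036)
(fin 1105 0 1037)))
(cons (mv 977 (cons (fin 976 2 973)
(mv 1041 (cons (fin 978 2 974)
(mv 1042 (cons (fin 1102 1 1038)
(mv 1106 (cons (fin 1105 0 1038)
(fin 1107 0 1039)))))))))
(mv 976 (cons (fin 977 2 973)
(mv 848 (cons (fin 912 5 847)
(mv 1036 (cons (fin 1104 0 1036)
(mv 971 (cons (fin 972 3 971)
(mv 1035 (cons (fin 970 3 970)
(fin 1102 0 1035)))))))))))))))))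
(cons (mv 1167 (cons (fin 1231 7 974)
(mv 1037 (cons (mv 1104 (cons (fin 1036 0 1036)
(fin 1105 0 1037)))
(cons (mv 977 (cons (fin 976 2 973)
(mv 1041 (cons (fin 978 2 974)
(mv 1042 (cons (fin 1102 1 1038)
(mv 1106 (cons (fin 1105 0 1038)
(fin 1107 0 1039)))))))))
(mv 976 (cons (fin 977 2 973)
(mv 912 (cons (fin 848 5 847)
(fin 1104 5 911))))))))))
(mv 846 (cons (fin 910 4 846)
(mv 1167 (cons (fin 1231 7 974)
(mv 976 (cons (mv 912 (cons (fin 848 5 847)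
(fin 1104 5 911)))
(mv 977 (cons (fin 1037 2 973)
(mv 978 (cons (fin 979 1 975)
(fin 1041 2 974))))))))))))))
(mv 1041 (cons (fin 973 3 973)
(mv 978 (cons (fin 977 2 974)
(mv 1042 (cons (fin 979 2 975)
(mv 1106 (cons (fin 1105 0 1038)
(fin 1107 0 1039))))))))))))
(mv 910 (cons (cons (cons (mv 1102 (cons (cons (mv 845 (cons (fin 909 7 845)
(mv 781 (cons (fin 846 7 781)
(mv 847 (cons (fin 911 6 846)
(mv 1101 (cons (fin 1165 5 909)
(mv 1039 (cons (fin 1041 1 1037)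
(mv 1100 (cons (fin 1037 1 1036)
(fin 1099 2 1035)))))))))))))
(mv 845 (cons (fin 909 7 845)
(mv 846 (cons (fin 781 7 781)
(mv 847 (cons (fin 783 6 782)
(fin 911 6 846))))))))
(cons (mv 847 (cons (fin 911 6 846)
(mv 783 (cons (fin 846 6 782)
(mv 1101 (cons (fin 1165 5 909)
(mv 1039 (cons (fin 1041 1 1037)
(mv 1100 (cons (fin 1037 1 1036)
(fin 1099 2 1035)))))))))))
(cons (mv 845 (cons (fin 909 7 845)
(mv 781 (cons (fin 846 7 781)
(mv 1101 (cons (fin 1165 5 909)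
(mv 1039 (cons (fin 1041 1 1037)
(mv 1100 (cons (fin 1037 1 1036)
(fin 1099 2 1035)))))))))))
(mv 845 (cons (fin 909 7 845)
(mv 847 (cons (fin 911 6 846)
(mv 1101 (cons (fin 1165 5 909)
(mv 1039 (cons (fin 1041 1 1037)
(mv 1100 (cons (fin 1037 1 1036)
(fin 1099 2 1035)))))))))))))))
(mv 846 (cons (cons (mv 781 (cons (fin 845 7 781)
(mv 782 (cons (fin 717 7 717)
(mv 783 (cons (fin 719 6 718)
(fin 847 6 782)))))))
(mv 783 (cons (fin 847 6 782)
(mv 782 (cons (fin 719 6 718)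
(mv 1037 (cons (fin 973 5 781)
(fin 1101 5 845))))))))
(cons (mv 781 (cons (fin 845 7 781)
(mv 782 (cons (fin 717 7 717)
(mv 1037 (cons (fin 973 5 781)
(fin 1101 5 845)))))))
(mv 781 (cons (fin 845 7 781)
(mv 847 (cons (fin 783 6 782)
(mv 1037 (cons (fin 1101 5 845)
(mv 1039 (cons (mv 973 (cons (fin 972 3 972)
(fin 1041 3 973)))
(mv 976 (cons (fin 977 2 973)
(mv 1104 (cons (fin 1105 0 1037)
(mv 912 (cons (fin 911 7 847)
(mv 849 (cons (fin 913 6 848)
(mv 848 (cons (fin 909 1 845)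
(fin 785 6 784)))))))))))))))))))))))
(cons (mv 1102 (cons (cons (mv 845 (cons (fin 909 7 845)
(mv 847 (cons (fin 911 6 846)
(mv 1101 (cons (fin 1165 5 909)
(mv 1039 (cons (fin 1041 1 1037)
(mv 1100 (cons (fin 1037 1 1036)
(fin 1099 2 1035)))))))))))
(cons (mv 847 (cons (fin 911 6 846)
(mv 909 (cons (fin 845 7 845)
(mv 973 (cons (fin 1166 7 909)
(mv 1039 (cons (fin 1041 3 973)
(mv 972 (cons (fin 1037 3 972)
(fin 971 0 971)))))))))))
(mv 847 (cons (fin 911 6 846)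
(mv 1101 (cons (fin 1165 5 909)
(mv 1039 (cons (fin 1041 1 1037)
(mv 1100 (cons (fin 1037 1 1036)
(fin 1099 2 1035)))))))))))
(cons (mv 845 (cons (fin 909 7 845)
(mv 1101 (cons (fin 1165 5 909)
(mv 1039 (cons (fin 1041 1 1037)
(mv 1100 (cons (fin 1037 1 1036)
(fin 1099 2 1035)))))))))
(cons (mv 847 (cons (fin 911 6 846)
(mv 909 (cons (fin 845 7 845)
(mv 1101 (cons (fin 1165 5 909)
(mv 1166 (cons (fin 973 7 909)
(mv 1231 (cons (fin 1167 4 974)
(mv 1230 (cons (fin 1295 4 1038)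
(mv 1293 (cons (fin 1229 5 1037)
(mv 1294 (cons (fin 1037 7 1037)
(fin 1357 5 1101)))))))))))))))))
(mv 847 (cons (fin 911 6 846)
(mv 909 (cons (fin 845 7 845)
(mv 1165 (cons (fin 1101 5 909)
(mv 1166 (cons (fin 973 7 909)
(fin 1229 5 973)))))))))))))
(mv 846 (cons (cons (mv 781 (cons (fin 845 7 781)
(mv 782 (cons (fin 717 7 717)
(mv 783 (cons (fin 719 6 718)
(fin 847 6 782)))))))
(cons (mv 783 (cons (fin 847 6 782)
(mv 782 (cons (fin 719 6 718)
(mv 717 (cons (fin 781 7 717)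
(mv 718 (cons (fin 653 7 653)
(mv 973 (cons (fin 909 5 717)
(fin 1037 5 781)))))))))))
(mv 781 (cons (fin 845 7 781)
(mv 782 (cons (fin 717 7 717)
(mv 719 (cons (fin 783 6 718)
(mv 718 (cons (fin 655 6 654)
(mv 973 (cons (fin 909 5 717)
(fin 1037 5 781)))))))))))))
(cons (mv 783 (cons (fin 847 6 782)
(mv 782 (cons (fin 719 6 718)
(mv 973 (cons (fin 1037 5 781)
(mv 909 (cons (fin 718 5 717)
(mv 1102 (cons (fin 845 7 845)
(fin 1166 7 909)))))))))))
(cons (mv 781 (cons (fin 845 7 781)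
(mv 782 (cons (fin 717 7 717)
(mv 973 (cons (fin 1037 5 781)
(mv 909 (cons (fin 718 5 717)
(mv 1039 (cons (fin 1041 3 973)
(mv 972 (cons (fin 971 0 971)
(mv 911 (cons (fin 912 1 908)
(mv 1102 (cons (fin 1166 7 909)
(fin 847 6 846)))))))))))))))))
(mv 845 (cons (fin 781 7 781)
(mv 847 (cons (fin 783 6 782)
(mv 1102 (cons (fin 909 7 845)
(fin 911 6 846)))))))))))))
(cons (cons (mv 846 (cons (cons (mv 783 (cons (fin 847 6 782)
(mv 782 (cons (fin 719 6 718)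
(mv 1037 (cons (fin 973 5 781)
(fin 1101 5 845)))))))
(mv 847 (cons (fin 783 6 782)
(mv 911 (cons (fin 1102 6 846)
(mv 912 (cons (mv 913 (cons (fin 914 3 846)
(fin 973 1 909)))
(mv 976 (cons (fin 1104 7 847)
(mv 909 (cons (fin 977 0 909)
(mv 848 (cons (fin 849 1 845)
(fin 908 2 844))))))))))))))
(cons (mv 1037 (cons (fin 1101 5 845)
(mv 782 (cons (fin 973 5 781)
(mv 717 (cons (fin 781 7 717)
(mv 718 (cons (fin 653 7 653)
(mv 719 (cons (fin 655 6 654)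
(fin 783 6 718)))))))))))
(cons (mv 1037 (cons (fin 1101 5 845)
(mv 973 (cons (fin 782 5 781)
(mv 1039 (cons (fin 972 3 972)
(fin 1041 3 973)))))))
(mv 847 (cons (fin 783 6 782)
(mv 1101 (cons (fin 1037 5 845)
(mv 1102 (cons (fin 1165 5 909)
(fin 911 6 846)))))))))))
(mv 1102 (cons (cons (mv 845 (cons (fin 909 7 845)
(mv 781 (cons (fin 846 7 781)
(mv 1101 (cons (fin 1165 5 909)
(mv 1039 (cons (fin 1041 1 1037)
(mv 1100 (cons (fin 1037 1 1036)
(fin 1099 2 1035)))))))))))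
(mv 909 (cons (fin 845 7 845)
(mv 973 (cons (fin 1166 7 909)
(mv 1039 (cons (fin 1041 3 973)
(mv 972 (cons (fin 1037 3 972)
(fin 971 0 971))))))))))
(cons (mv 1101 (cons (fin 1165 5 909)
(mv 1037 (cons (fin 846 5 845)
(mv 1039 (cons (fin 1100 1 1036)
(fin 1041 1 1037)))))))
(cons (mv 845 (cons (fin 909 7 845)
(mv 846 (cons (fin 781 7 781)
(mv 1101 (cons (fin 1037 5 845)
(fin 1165 5 909)))))))
(mv 909 (cons (fin 845 7 845)
(mv 1165 (cons (fin 1101 5 909)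
(mv 1166 (cons (fin 973 7 909)
(fin 1229 5 973))))))))))))
(cons (mv 846 (cons (cons (mv 781 (cons (fin 845 7 781)
(mv 717 (cons (fin 782 7 717)
(mv 847 (cons (fin 783 6 782)
(mv 1101 (cons (fin 1037 5 845)
(mv 1102 (cons (fin 1165 5 909)
(fin 911 6 846)))))))))))
(mv 783 (cons (fin 847 6 782)
(mv 782 (cons (fin 719 6 718)
(mv 1037 (cons (fin 973 5 781)
(fin 1101 5 845))))))))
(cons (mv 781 (cons (fin 845 7 781)
(mv 782 (cons (fin 717 7 717)
(mv 1037 (cons (fin 973 5 781)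
(fin 1101 5 845)))))))
(cons (mv 781 (cons (fin 845 7 781)
(mv 782 (cons (fin 717 7 717)
(mv 783 (cons (fin 719 6 718)
(fin 847 6 782)))))))
(mv 781 (cons (fin 845 7 781)
(mv 847 (cons (fin 783 6 782)
(mv 1101 (cons (fin 1037 5 845)
(mv 1102 (cons (fin 1165 5 909)
(fin 911 6 846)))))))))))))
(mv 846 (cons (cons (mv 781 (cons (fin 845 7 781)
(mv 782 (cons (fin 717 7 717)
(mv 783 (cons (fin 719 6 718)
(fin 847 6 782)))))))
(mv 847 (cons (fin 783 6 782)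
(mv 911 (cons (fin 1102 6 846)
(mv 912 (cons (mv 913 (cons (fin 914 3 846)
(fin 973 1 909)))
(mv 976 (cons (fin 1104 7 847)
(mv 909 (cons (fin 977 0 909)
(mv 848 (cons (fin 849 1 845)
(fin 908 2 844))))))))))))))
(cons (mv 782 (cons (cons (mv 781 (cons (fin 717 7 717)
(fin 845 7 781)))
(mv 719 (cons (fin 783 6 718)
(mv 718 (cons (fin 655 6 654)
(mv 653 (cons (fin 717 7 653)
(mv 654 (cons (fin 589 7 589)
(mv 909 (cons (fin 845 5 653)
(fin 973 5 717))))))))))))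
(cons (mv 717 (cons (fin 781 7 717)
(mv 718 (cons (fin 653 7 653)
(mv 719 (cons (fin 655 6 654)
(fin 783 6 718)))))))
(mv 719 (cons (fin 783 6 718)
(mv 718 (cons (fin 655 6 654)
(mv 845 (cons (fin 781 7 781)
(mv 909 (cons (fin 1102 7 845)
(fin 654 5 653))))))))))))
(mv 845 (cons (fin 781 7 781)
(mv 911 (cons (mv 1102 (cons (fin 909 7 845)
(fin 847 6 846)))
(cons (mv 844 (cons (fin 843 0 843)
(mv 912 (cons (fin 909 3 844)
(fin 913 3 845)))))
(mv 844 (cons (fin 843 0 843)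
(mv 847 (cons (fin 912 0 844)
(fin 1102 6 846)))))))))))))))))))
(cons (cons (mv 1039 (cons (cons (mv 973 (cons (fin 1041 3 973)
(mv 972 (cons (fin 1037 3 972)
(fin 971 0 971)))))
(mv 1037 (cons (cons (cons (mv 972 (cons (fin 973 3 972)
(mv 971 (cons (fin 1036 3 971)
(mv 976 (cons (fin 977 2 973)
(mv 1101 (cons (fin 1100 1 1036)
(mv 910 (cons (fin 846 5 845)
(mv 1165 (cons (fin 1102 5 909)
(fin 1229 6 973)))))))))))))
(mv 972 (cons (fin 973 3 972)
(mv 976 (cons (fin 977 2 973)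
(mv 1036 (cons (fin 971 3 971)
(mv 1099 (cons (fin 1100 1 1035)
(mv 1035 (cons (fin 1098 1 1034)
(mv 1103 (cons (fin 1102 0 1035)
(fin 1104 0 1036))))))))))))))
(cons (mv 976 (cons (fin 977 2 973)
(mv 1100 (cons (fin 1101 1 1036)
(mv 1036 (cons (fin 1099 1 1035)
(mv 1103 (cons (fin 1104 0 1036)
(mv 846 (cons (fin 910 4 846)
(mv 848 (cons (fin 912 5 847)
(mv 1035 (cons (fin 1102 0 1035)
(mv 970 (cons (fin 971 3 970)
(mv 1034 (cons (fin 969 3 969)
(fin 973 2 970)))))))))))))))))))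
(mv 976 (cons (fin 977 2 973)
(mv 1100 (cons (fin 1101 1 1036)
(mv 1036 (cons (fin 1099 1 1035)
(mv 971 (cons (fin 972 3 971)
(mv 970 (cons (fin 1035 3 970)
(mv 1103 (cons (fin 1104 0 1036)
(mv 848 (cons (fin 912 5 847)
(mv 910 (cons (fin 846 4 846)
(mv 1167 (cons (fin 1231 7 974)
(fin 1102 4 910)))))))))))))))))))))
(cons (cons (mv 972 (cons (fin 973 3 972)
(mv 976 (cons (fin 977 2 973)
(mv 1036 (cons (fin 971 3 971)
(mv 1103 (cons (fin 1104 0 1036)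
(mv 848 (cons (fin 912 5 847)
(mv 910 (cons (fin 846 4 846)
(mv 1102 (cons (fin 1035 0 1035)
(fin 1167 4 910)))))))))))))))
(mv 972 (cons (fin 973 3 972)
(mv 971 (cons (fin 1036 3 971)
(mv 1101 (cons (fin 1100 1 1036)
(mv 910 (cons (fin 846 5 845)
(mv 1165 (cons (fin 1102 5 909)
(fin 1229 6 973))))))))))))
(cons (mv 972 (cons (fin 973 3 972)
(mv 976 (cons (fin 977 2 973)
(mv 1101 (cons (fin 1100 1 1036)
(mv 910 (cons (fin 846 5 845)
(mv 1165 (cons (fin 1102 5 909)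
(fin 1229 6 973)))))))))))
(mv 972 (cons (fin 973 3 972)
(mv 976 (cons (fin 977 2 973)
(mv 1036 (cons (fin 971 3 971)
(mv 1100 (cons (fin 1099 1 1035)
(fin 1101 1 1036))))))))))))))
(cons (mv 1103 (cons (cons (mv 910 (cons (fin 846 4 846)
(mv 1167 (cons (fin 1231 7 974)
(fin 1102 4 910)))))
(mv 846 (cons (fin 910 4 846)
(mv 1037 (cons (cons (mv 976 (cons (fin 977 2 973)
(mv 848 (cons (fin 912 5 847)
(mv 1036 (cons (fin 1104 0 1036)
(mv 1100 (cons (fin 1099 1 1035)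
(fin 1101 1 1036)))))))))
(mv 976 (cons (fin 977 2 973)
(mv 848 (cons (fin 912 5 847)
(mv 1036 (cons (fin 1104 0 1036)
(mv 971 (cons (fin 972 3 971)
(mv 1035 (cons (fin 970 3 970)
(fin 1102 0 1035))))))))))))
(cons (mv 976 (cons (fin 977 2 973)
(mv 848 (cons (fin 912 5 847)
(mv 1101 (cons (fin 1100 1 1036)
(mv 1102 (cons (fin 1041 1 1037)
(mv 1165 (cons (fin 1229 6 973)
(mv 1164 (cons (fin 1104 1 1100)
(mv 1163 (cons (fin 1162 2 1098)
(fin 1166 2 1099)))))))))))))))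
(cons (mv 1036 (cons (fin 1104 0 1036)
(mv 1100 (cons (fin 1099 1 1035)
(fin 1101 1 1036)))))
(mv 976 (cons (fin 977 2 973)
(mv 848 (cons (fin 912 5 847)
(mv 1100 (cons (fin 1101 1 1036)
(mv 1036 (cons (fin 1099 1 1035)
(mv 971 (cons (fin 972 3 971)
(mv 1035 (cons (fin 970 3 970)
(fin 1102 0 1035))))))))))))))))))))
(cons (mv 1167 (cons (fin 1231 7 974)
(mv 1101 (cons (cons (mv 1100 (cons (fin 1037 1 1036)
(fin 1102 2 1036)))
(mv 1037 (cons (fin 1100 1 1036)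
(mv 976 (cons (fin 977 2 973)
(mv 912 (cons (fin 848 5 847)
(fin 1104 5 911))))))))
(cons (mv 1041 (cons (fin 1102 1 1037)
(mv 977 (cons (fin 978 2 974)
(mv 976 (cons (fin 1037 2 973)
(mv 912 (cons (fin 848 5 847)
(fin 1104 5 911)))))))))
(mv 1102 (cons (fin 1041 1 1037)
(fin 1100 2 1036))))))))
(mv 846 (cons (fin 910 4 846)
(mv 1167 (cons (fin 1231 7 974)
(mv 976 (cons (mv 912 (cons (fin 848 5 847)
(fin 1104 5 911)))
(mv 977 (cons (fin 1037 2 973)
(mv 978 (cons (fin 979 1 975)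
(fin 1041 2 974))))))))))))))
(mv 1041 (cons (fin 973 3 973)
(mv 977 (cons (fin 978 2 974)
(mv 1102 (cons (fin 1101 1 1037)
(mv 1103 (cons (fin 1042 1 1038)
(mv 910 (cons (fin 846 4 846)
(fin 1167 4 910))))))))))))))
(mv 1039 (cons (cons (mv 973 (cons (fin 1041 3 973)
(mv 972 (cons (fin 1037 3 972)
(fin 971 0 971)))))
(mv 910 (cons (cons (mv 846 (cons (fin 1103 4 846)
(mv 781 (cons (fin 845 7 781)
(mv 717 (cons (fin 782 7 717)
(mv 847 (cons (fin 783 6 782)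
(mv 911 (cons (fin 1102 6 846)
(mv 1037 (cons (fin 1101 5 845)
(mv 972 (cons (fin 973 3 972)
(mv 976 (cons (fin 977 2 973)
(mv 1036 (cons (fin 971 3 971)
(mv 1099 (cons (fin 1100 1 1035)
(mv 1035 (cons (fin 1098 1 1034)
(mv 908 (cons (fin 844 5 843)
(mv 909 (cons (fin 907 2 843)
(fin 848 2 844)))))))))))))))))))))))))))
(cons (mv 1102 (cons (cons (mv 845 (cons (fin 909 7 845)
(mv 847 (cons (fin 911 6 846)
(mv 1101 (cons (fin 1165 5 909)
(mv 1100 (cons (fin 1037 1 1036)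
(fin 1099 2 1035)))))))))
(mv 847 (cons (fin 911 6 846)
(mv 909 (cons (fin 845 7 845)
(mv 973 (cons (fin 1166 7 909)
(mv 972 (cons (fin 1037 3 972)
(fin 971 0 971))))))))))
(cons (mv 847 (cons (fin 911 6 846)
(mv 1101 (cons (fin 1165 5 909)
(mv 1100 (cons (fin 1037 1 1036)
(fin 1099 2 1035)))))))
(cons (mv 845 (cons (fin 909 7 845)
(mv 1101 (cons (fin 1165 5 909)
(mv 1100 (cons (fin 1037 1 1036)
(fin 1099 2 1035)))))))
(mv 845 (cons (fin 909 7 845)
(mv 847 (cons (fin 911 6 846)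
(mv 1101 (cons (fin 1165 5 909)
(mv 1100 (cons (fin 1099 2 1035)
(fin 1103 2 1036)))))))))))))
(mv 1037 (cons (mv 1101 (cons (fin 1100 1 1036)
(fin 846 5 845)))
(cons (mv 973 (cons (fin 972 3 972)
(mv 846 (cons (fin 782 5 781)
(mv 781 (cons (fin 845 7 781)
(mv 847 (cons (fin 783 6 782)
(mv 976 (cons (fin 977 2 973)
(mv 1102 (cons (fin 911 6 846)
(mv 1166 (cons (fin 909 7 909)
(fin 1230 7 973)))))))))))))))
(mv 972 (cons (fin 973 3 972)
(mv 971 (cons (fin 1036 3 971)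
(mv 976 (cons (fin 977 2 973)
(mv 1101 (cons (fin 1100 1 1036)
(mv 1165 (cons (fin 1102 5 909)
(fin 1229 6 973))))))))))))))))
(cons (mv 846 (cons (fin 1103 4 846)
(mv 781 (cons (fin 845 7 781)
(mv 782 (cons (fin 717 7 717)
(mv 783 (cons (fin 719 6 718)
(fin 847 6 782)))))))))
(cons (mv 846 (cons (fin 1103 4 846)
(mv 783 (cons (fin 847 6 782)
(mv 782 (cons (fin 719 6 718)
(mv 1037 (cons (fin 973 5 781)
(fin 1101 5 845)))))))))
(mv 846 (cons (fin 1103 4 846)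
(mv 781 (cons (fin 845 7 781)
(mv 782 (cons (fin 717 7 717)
(mv 1037 (cons (fin 973 5 781)
(fin 1101 5 845))))))))))))))
(cons (mv 1041 (cons (cons (mv 977 (cons (fin 978 2 974)
(mv 976 (cons (fin 1037 2 973)
(mv 1101 (cons (fin 1102 1 1037)
(mv 1105 (cons (fin 1106 0 1038)
(mv 912 (cons (fin 1169 7 912)
(fin 848 4 848)))))))))))
(mv 977 (cons (fin 978 2 974)
(mv 976 (cons (fin 1037 2 973)
(mv 1105 (cons (fin 1106 0 1038)
(mv 912 (cons (fin 1169 7 912)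
(fin 848 4 848))))))))))
(cons (mv 1102 (cons (fin 1101 1 1037)
(mv 1042 (cons (fin 1103 1 1038)
(mv 1106 (cons (fin 1105 0 1038)
(fin 1107 0 1039)))))))
(mv 977 (cons (fin 978 2 974)
(mv 976 (cons (fin 1037 2 973)
(mv 1102 (cons (fin 1101 1 1037)
(mv 1103 (cons (fin 1042 1 1038)
(mv 910 (cons (fin 846 4 846)
(fin 1167 4 910))))))))))))))
(mv 1041 (cons (fin 973 3 973)
(mv 977 (cons (fin 978 2 974)
(mv 1102 (cons (fin 1101 1 1037)
(mv 1042 (cons (fin 1103 1 1038)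
(mv 1106 (cons (fin 1105 0 1038)
(fin 1107 0 1039)))))))))))))))
(cons (mv 1039 (cons (cons (mv 973 (cons (fin 1041 3 973)
(mv 972 (cons (fin 1037 3 972)
(fin 971 0 971)))))
(mv 1037 (cons (cons (mv 972 (cons (fin 973 3 972)
(mv 971 (cons (fin 1036 3 971)
(mv 1101 (cons (fin 1100 1 1036)
(mv 910 (cons (fin 846 5 845)
(mv 1165 (cons (fin 1102 5 909)
(fin 1229 6 973)))))))))))
(mv 972 (cons (fin 973 3 972)
(mv 1036 (cons (fin 971 3 971)
(mv 1104 (cons (fin 1103 0 1036)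
(fin 1105 0 1037))))))))
(cons (mv 1100 (cons (fin 1101 1 1036)
(mv 1036 (cons (fin 1099 1 1035)
(mv 1104 (cons (fin 1103 0 1036)
(fin 1105 0 1037)))))))
(mv 972 (cons (fin 973 3 972)
(mv 1101 (cons (fin 1100 1 1036)
(mv 910 (cons (fin 846 5 845)
(mv 1165 (cons (fin 1102 5 909)
(fin 1229 6 973)))))))))))))
(cons (mv 1041 (cons (cons (mv 977 (cons (fin 978 2 974)
(mv 1101 (cons (fin 1102 1 1037)
(mv 1037 (cons (fin 1100 1 1036)
(mv 1105 (cons (fin 1104 0 1037)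
(fin 1106 0 1038)))))))))
(mv 977 (cons (fin 978 2 974)
(mv 1105 (cons (fin 1106 0 1038)
(mv 1104 (cons (fin 1037 0 1037)
(mv 913 (cons (fin 849 5 848)
(fin 1168 5 912))))))))))
(cons (mv 977 (cons (fin 978 2 974)
(mv 1102 (cons (fin 1101 1 1037)
(mv 1103 (cons (fin 1042 1 1038)
(mv 910 (cons (fin 846 4 846)
(fin 1167 4 910)))))))))
(mv 1101 (cons (fin 1102 1 1037)
(mv 1037 (cons (fin 1100 1 1036)
(mv 1105 (cons (fin 1104 0 1037)
(fin 1106 0 1038))))))))))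
(mv 1041 (cons (fin 973 3 973)
(mv 977 (cons (fin 978 2 974)
(mv 1102 (cons (fin 1101 1 1037)
(mv 1042 (cons (fin 1103 1 1038)
(mv 1106 (cons (fin 1105 0 1038)
(fin 1107 0 1039))))))))))))))
(mv 973 (cons (cons (mv 1039 (cons (fin 1041 3 973)
(mv 972 (cons (fin 1037 3 972)
(fin 971 0 971)))))
(mv 1102 (cons (cons (mv 909 (cons (fin 1166 7 909)
(mv 845 (cons (fin 910 7 845)
(fin 781 4 781)))))
(mv 910 (cons (cons (mv 845 (cons (fin 909 7 845)
(mv 781 (cons (fin 846 7 781)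
(mv 847 (cons (fin 911 6 846)
(mv 1101 (cons (fin 1165 5 909)
(mv 1103 (cons (fin 1167 4 910)
(mv 1104 (cons (fin 1041 2 1037)
(mv 1037 (cons (fin 1036 3 1036)
(fin 1105 3 1037)))))))))))))))
(mv 847 (cons (fin 911 6 846)
(mv 783 (cons (fin 846 6 782)
(mv 1101 (cons (fin 1165 5 909)
(mv 1103 (cons (fin 1167 4 910)
(mv 1104 (cons (fin 1041 2 1037)
(mv 1037 (cons (fin 1036 3 1036)
(fin 1105 3 1037))))))))))))))
(cons (mv 845 (cons (fin 909 7 845)
(mv 846 (cons (fin 781 7 781)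
(mv 847 (cons (fin 783 6 782)
(fin 911 6 846)))))))
(cons (mv 845 (cons (fin 909 7 845)
(mv 781 (cons (fin 846 7 781)
(mv 1101 (cons (fin 1165 5 909)
(mv 1103 (cons (fin 1167 4 910)
(mv 1104 (cons (fin 1041 2 1037)
(mv 1037 (cons (fin 1036 3 1036)
(fin 1105 3 1037)))))))))))))
(mv 845 (cons (fin 909 7 845)
(mv 847 (cons (fin 911 6 846)
(mv 1101 (cons (fin 1165 5 909)
(mv 1103 (cons (fin 1167 4 910)
(mv 1104 (cons (fin 1041 2 1037)
(mv 1037 (cons (fin 1036 3 1036)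
(fin 1105 3 1037))))))))))))))))))
(cons (mv 910 (cons (cons (mv 847 (cons (fin 911 6 846)
(mv 783 (cons (fin 846 6 782)
(mv 1101 (cons (fin 1165 5 909)
(mv 1103 (cons (fin 1167 4 910)
(mv 1104 (cons (fin 1041 2 1037)
(mv 1037 (cons (fin 1036 3 1036)
(fin 1105 3 1037)))))))))))))
(cons (mv 847 (cons (fin 911 6 846)
(mv 783 (cons (fin 846 6 782)
(mv 1167 (cons (fin 1103 4 910)
(mv 1166 (cons (fin 1231 4 974)
(mv 1229 (cons (fin 1165 5 973)
(mv 1230 (cons (fin 1037 7 973)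
(fin 1293 5 1037)))))))))))))
(mv 847 (cons (fin 911 6 846)
(mv 846 (cons (fin 783 6 782)
(mv 1037 (cons (fin 782 5 781)
(fin 1101 5 845)))))))))
(cons (cons (mv 1101 (cons (fin 1165 5 909)
(mv 846 (cons (fin 1037 5 845)
(mv 781 (cons (fin 845 7 781)
(mv 782 (cons (fin 717 7 717)
(mv 783 (cons (fin 719 6 718)
(fin 847 6 782)))))))))))
(mv 1101 (cons (fin 1165 5 909)
(mv 1037 (cons (fin 846 5 845)
(mv 1103 (cons (fin 1167 4 910)
(mv 1036 (cons (fin 1104 3 1036)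
(fin 1035 0 1035))))))))))
(cons (mv 847 (cons (fin 911 6 846)
(mv 783 (cons (fin 846 6 782)
(mv 1165 (cons (fin 1101 5 909)
(mv 1166 (cons (fin 1229 5 973)
(mv 1167 (cons (fin 1103 4 910)
(fin 1231 4 974)))))))))))
(mv 847 (cons (fin 911 6 846)
(mv 1101 (cons (fin 1165 5 909)
(mv 1103 (cons (fin 1167 4 910)
(mv 1104 (cons (fin 1041 2 1037)
(mv 1037 (cons (fin 1036 3 1036)
(fin 1105 3 1037)))))))))))))))
(cons (mv 909 (cons (fin 1166 7 909)
(mv 845 (cons (fin 781 4 781)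
(fin 1037 4 845)))))
(mv 909 (cons (fin 1166 7 909)
(mv 910 (cons (cons (mv 847 (cons (fin 911 6 846)
(mv 783 (cons (fin 846 6 782)
(mv 1101 (cons (fin 1165 5 909)
(mv 1103 (cons (fin 1167 4 910)
(mv 1104 (cons (fin 1041 2 1037)
(mv 1037 (cons (fin 1036 3 1036)
(fin 1105 3 1037)))))))))))))
(cons (mv 1101 (cons (fin 1165 5 909)
(mv 846 (cons (fin 1037 5 845)
(mv 782 (cons (fin 718 5 717)
(mv 783 (cons (fin 719 6 718)
(fin 847 6 782)))))))))
(mv 847 (cons (fin 911 6 846)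
(mv 846 (cons (fin 783 6 782)
(mv 782 (cons (fin 718 5 717)
(fin 1037 5 781)))))))))
(cons (mv 1101 (cons (fin 1165 5 909)
(mv 846 (cons (fin 1037 5 845)
(mv 718 (cons (fin 782 5 717)
(mv 1103 (cons (fin 1167 4 910)
(mv 1104 (cons (fin 1041 2 1037)
(mv 1169 (cons (fin 1168 0 1101)
(mv 1105 (cons (fin 1170 0 1102)
(mv 912 (cons (fin 976 4 912)
(mv 911 (cons (fin 972 1 908)
(fin 913 1 909)))))))))))))))))))
(cons (mv 847 (cons (fin 911 6 846)
(mv 1101 (cons (fin 1165 5 909)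
(mv 1103 (cons (fin 1167 4 910)
(mv 1104 (cons (fin 1041 2 1037)
(mv 1037 (cons (fin 1036 3 1036)
(fin 1105 3 1037)))))))))))
(mv 911 (cons (fin 847 6 846)
(mv 912 (cons (fin 972 1 908)
(fin 913 1 909))))))))))))))))
(cons (mv 909 (cons (cons (mv 845 (cons (fin 781 4 781)
(mv 1102 (cons (fin 910 7 845)
(fin 1166 7 909)))))
(mv 1102 (cons (fin 1166 7 909)
(mv 910 (cons (mv 847 (cons (fin 911 6 846)
(mv 846 (cons (fin 783 6 782)
(mv 782 (cons (fin 718 5 717)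
(fin 1037 5 781)))))))
(cons (mv 1101 (cons (fin 1165 5 909)
(mv 846 (cons (fin 1037 5 845)
(mv 1103 (cons (fin 1039 4 846)
(fin 1167 4 910)))))))
(mv 911 (cons (fin 847 6 846)
(mv 912 (cons (fin 972 1 908)
(fin 913 1 909)))))))))))
(cons (mv 845 (cons (fin 781 4 781)
(mv 1037 (cons (cons (mv 780 (cons (fin 844 7 780)
(mv 782 (cons (fin 846 6 781)
(mv 1039 (cons (fin 972 3 972)
(mv 976 (cons (fin 977 2 973)
(mv 1104 (cons (fin 1105 0 1037)
(mv 1103 (cons (fin 1036 0 1036)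
(mv 912 (cons (fin 848 5 847)
(fin 1167 5 911)))))))))))))))
(mv 780 (cons (fin 844 7 780)
(mv 1039 (cons (fin 972 3 972)
(mv 976 (cons (fin 977 2 973)
(mv 1104 (cons (fin 1105 0 1037)
(mv 1103 (cons (fin 1036 0 1036)
(mv 912 (cons (fin 848 5 847)
(fin 1167 5 911))))))))))))))
(cons (mv 780 (cons (fin 844 7 780)
(mv 846 (cons (fin 782 6 781)
(mv 910 (cons (fin 1101 5 845)
(mv 847 (cons (fin 783 6 782)
(mv 848 (cons (fin 908 1 844)
(fin 849 1 845)))))))))))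
(cons (mv 782 (cons (fin 846 6 781)
(mv 1039 (cons (fin 972 3 972)
(mv 976 (cons (fin 977 2 973)
(mv 1104 (cons (fin 1105 0 1037)
(mv 1103 (cons (fin 1036 0 1036)
(mv 912 (cons (fin 848 5 847)
(fin 1167 5 911)))))))))))))
(mv 780 (cons (fin 844 7 780)
(mv 782 (cons (fin 846 6 781)
(mv 1039 (cons (fin 972 3 972)
(mv 976 (cons (fin 977 2 973)
(mv 1104 (cons (fin 1105 0 1037)
(mv 1103 (cons (fin 1036 0 1036)
(mv 1167 (cons (fin 1231 7 974)
(fin 912 5 911)))))))))))))))))))))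
(mv 845 (cons (fin 781 4 781)
(mv 1102 (cons (fin 1166 7 909)
(fin 1037 4 845))))))))
(cons (mv 1039 (cons (fin 1041 3 973)
(mv 909 (cons (cons (mv 845 (cons (fin 781 4 781)
(mv 1102 (cons (fin 910 7 845)
(fin 1166 7 909)))))
(mv 845 (cons (fin 781 4 781)
(mv 1037 (cons (cons (mv 780 (cons (fin 844 7 780)
(mv 782 (cons (fin 846 6 781)
(mv 976 (cons (fin 977 2 973)
(mv 1104 (cons (fin 1105 0 1037)
(mv 1103 (cons (fin 1036 0 1036)
(mv 912 (cons (fin 848 5 847)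
(fin 1167 5 911)))))))))))))
(mv 780 (cons (fin 844 7 780)
(mv 976 (cons (fin 977 2 973)
(mv 1104 (cons (fin 1105 0 1037)
(mv 1103 (cons (fin 1036 0 1036)
(mv 912 (cons (fin 848 5 847)
(fin 1167 5 911))))))))))))
(cons (mv 782 (cons (fin 846 6 781)
(mv 976 (cons (fin 977 2 973)
(mv 1104 (cons (fin 1105 0 1037)
(mv 1103 (cons (fin 1036 0 1036)
(mv 912 (cons (fin 848 5 847)
(fin 1167 5 911)))))))))))
(cons (mv 780 (cons (fin 844 7 780)
(mv 846 (cons (fin 782 6 781)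
(mv 910 (cons (fin 1101 5 845)
(fin 1103 4 846)))))))
(mv 780 (cons (fin 844 7 780)
(mv 846 (cons (fin 782 6 781)
(mv 910 (cons (fin 1101 5 845)
(mv 847 (cons (fin 783 6 782)
(mv 848 (cons (fin 908 1 844)
(fin 849 1 845))))))))))))))))))
(cons (mv 1102 (cons (fin 1166 7 909)
(mv 910 (cons (mv 1103 (cons (fin 846 4 846)
(fin 1167 4 910)))
(cons (mv 847 (cons (fin 911 6 846)
(mv 846 (cons (fin 783 6 782)
(mv 782 (cons (fin 718 5 717)
(fin 1037 5 781)))))))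
(mv 911 (cons (fin 847 6 846)
(mv 912 (cons (fin 913 1 909)
(mv 848 (cons (fin 849 2 845)
(mv 976 (cons (fin 977 0 909)
(fin 1103 5 847))))))))))))))
(mv 845 (cons (fin 781 4 781)
(mv 1102 (cons (fin 1166 7 909)
(fin 1037 4 845))))))))))
(mv 1039 (cons (fin 1041 3 973)
(mv 971 (cons (fin 972 0 971)
(mv 910 (cons (cons (mv 846 (cons (fin 1103 4 846)
(mv 781 (cons (fin 845 7 781)
(mv 717 (cons (fin 782 7 717)
(mv 847 (cons (fin 783 6 782)
(mv 911 (cons (fin 1102 6 846)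
(mv 912 (cons (fin 913 1 909)
(mv 976 (cons (fin 1104 7 847)
(mv 909 (cons (fin 977 0 909)
(mv 848 (cons (fin 849 1 845)
(fin 908 2 844)))))))))))))))))))
(cons (mv 1102 (cons (mv 909 (cons (fin 845 7 845)
(fin 1166 7 909)))
(cons (mv 847 (cons (fin 911 6 846)
(mv 1165 (cons (fin 1101 5 909)
(mv 1166 (cons (fin 1229 5 973)
(mv 1167 (cons (fin 1103 4 910)
(fin 1231 4 974)))))))))
(mv 909 (cons (fin 845 7 845)
(mv 911 (cons (fin 847 6 846)
(mv 912 (cons (fin 913 1 909)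
(mv 848 (cons (fin 849 2 845)
(mv 976 (cons (fin 977 0 909)
(fin 1103 5 847))))))))))))))
(mv 847 (cons (cons (mv 783 (cons (fin 846 6 782)
(mv 911 (cons (fin 719 5 718)
(fin 1102 6 846)))))
(mv 783 (cons (fin 846 6 782)
(mv 911 (cons (fin 719 5 718)
(mv 912 (cons (fin 913 1 909)
(mv 976 (cons (fin 848 7 783)
(fin 1104 7 847))))))))))
(cons (mv 846 (cons (fin 783 6 782)
(mv 845 (cons (fin 781 7 781)
(mv 909 (cons (fin 1102 7 845)
(mv 848 (cons (fin 908 1 844)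
(fin 849 1 845)))))))))
(cons (mv 911 (cons (fin 1102 6 846)
(mv 719 (cons (fin 783 5 718)
(mv 912 (cons (fin 913 1 909)
(mv 976 (cons (fin 1104 7 847)
(mv 909 (cons (fin 977 0 909)
(mv 845 (cons (fin 844 3 844)
(fin 781 4 781)))))))))))))
(mv 911 (cons (fin 1102 6 846)
(mv 912 (cons (fin 913 1 909)
(mv 976 (cons (fin 1104 7 847)
(mv 909 (cons (fin 977 0 909)
(mv 845 (cons (fin 844 3 844)
(fin 781 4 781)))))))))))))))))
(cons (mv 846 (cons (fin 1103 4 846)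
(mv 781 (cons (fin 845 7 781)
(mv 782 (cons (fin 717 7 717)
(mv 783 (cons (fin 719 6 718)
(fin 847 6 782)))))))))
(cons (mv 846 (cons (fin 1103 4 846)
(mv 783 (cons (fin 847 6 782)
(mv 782 (cons (fin 719 6 718)
(mv 717 (cons (fin 781 7 717)
(mv 718 (cons (fin 653 7 653)
(fin 909 5 717)))))))))))
(mv 846 (cons (fin 1103 4 846)
(mv 781 (cons (fin 845 7 781)
(mv 782 (cons (fin 717 7 717)
(mv 718 (cons (fin 909 5 717)
(mv 719 (cons (fin 655 6 654)
(fin 783 6 718))))))))))))))))))))))))))))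
def l30 : Lem := ⟨11781361728633673533054441723117730079171283746239247440356909899588005244909514899260159721150817405942924420470662491174673842036557007391209044253460063708080530407354770956693342717623350878333880262063391977041189311657559161319740834448813323445848447489700891174053752382374267171085078592036680673850818560, 15728022448660181087115902893348640325884942716383456501415048400627641400669148215648691591708252798468485046808556520038673748364824006173523723373458170866281194929258174651757427351941160320554406912413444707496275706582182436841847918319568352260231437523771629604658518835442938465231629122301812894635157623730397081151607014837413333507393067730791656039943293261404981838903040029107794150481719197696, 15728022448660181087115902893348640325884942716383456501415048400627641400669148215648691591708252798468485046808556520038673748364824006173523723373458170866281194929258174651757427351941160320554406912413444707496275706582182436841847918319568352260231437523771629604658518835442938465231629122301812894635157623730397081151607014837413333507393067730791656039943293261404981838903040029107794150481719197696,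 17, 33⟩
theorem l30_valid : l30.Valid :=
  Lem.valid_of_chk t30 t30_valid [974, 1040] c30 l30 (by decide +kernel)
end Crest.Agent.SnakyAux
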