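import Crest.Agent.S0047_aux.Checker

set_option autoImplicit false
set_option maxRecDepth 100000
namespace Crest.Agent.SnakyAux
open Cert
def t31 : Tbl := Tbl.nil
theorem t31_valid : t31.Valid := Tbl.valid_nil
def c31 : Cert :=
(mv 976 (cons (cons (cons (mv 975 (cons (cons (mv 973 (cons (fin 1041 0 973)
(mv 908 (cons (fin 909 3 908)
(mv 972 (cons (fin 907 3 907)
(fin 1039 0 972)))))))
(mv 977 (cons (cons (mv 909 (cons (fin 910 3 909)
(mv 913 (cons (fin 914 2 910)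
(mv 849 (cons (fin 785 5 784)
(mv 1041 (cons (fin 1042 0 974)
(fin 1104 5 848)))))))))
(mv 910 (cons (fin 909 3 909)
(mv 911 (cons (fin 978 3 910)
(mv 847 (cons (fin 783 4 783)
(mv 1104 (cons (fin 912 7 847)
(fin 1168 7 911))))))))))
(cons (mv 913 (cons (fin 914 2 910)
(mv 849 (cons (fin 785 5 784)
(mv 1041 (cons (fin 1042 0 974)
(fin 1104 5 848)))))))
(mv 909 (cons (fin 910 3 909)
(mv 913 (cons (fin 914 2 910)
(mv 849 (cons (fin 785 5 784)
(mv 1041 (cons (fin 1042 0 974)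
(mv 786 (cons (fin 850 6 785)
(mv 848 (cons (fin 784 7 784)
(mv 912 (cons (fin 1105 7 848)
(mv 847 (cons (fin 783 7 783)
(mv 846 (cons (fin 845 0 845)
(mv 782 (cons (fin 781 3 781)
(mv 1039 (cons (fin 911 7 782)
(fin 1103 5 847)))))))))))))))))))))))))))
(cons (mv 973 (cons (mv 908 (cons (fin 909 3 908)
(mv 972 (cons (fin 907 3 907)
(fin 1039 0 972)))))
(cons (mv 909 (cons (fin 908 3 908)
(mv 910 (cons (fin 977 3 909)
(mv 912 (cons (fin 913 2 909)
(mv 1037 (cons (fin 1036 1 972)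
(mv 846 (cons (fin 782 5 781)
(fin 1101 6 845)))))))))))
(mv 912 (cons (fin 913 2 909)
(mv 972 (cons (fin 911 2 908)
(fin 1039 0 972))))))))
(cons (mv 973 (cons (fin 1041 0 973)
(mv 908 (cons (fin 909 3 908)
(mv 912 (cons (fin 913 2 909)
(mv 972 (cons (fin 907 3 907)
(fin 911 2 908)))))))))
(mv 973 (cons (fin 1041 0 973)
(mv 912 (cons (fin 913 2 909)
(mv 972 (cons (fin 911 2 908)
(fin 1039 0 972)))))))))))
(cons (mv 912 (cons (cons (cons (mv 848 (cons (cons (mv 783 (cons (fin 847 7 783)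
(mv 719 (cons (fin 784 7 719)
(mv 785 (cons (fin 849 6 784)
(mv 1103 (cons (fin 1039 5 847)
(mv 1104 (cons (fin 1167 5 911)
(mv 1105 (cons (fin 1041 4 848)
(fin 1169 4 912)))))))))))))
(cons (mv 783 (cons (fin 847 7 783)
(mv 719 (cons (fin 784 7 719)
(mv 1103 (cons (fin 1039 5 847)
(mv 1104 (cons (fin 1167 5 911)
(mv 1105 (cons (fin 1041 4 848)
(fin 1169 4 912)))))))))))
(mv 785 (cons (fin 849 6 784)
(mv 721 (cons (fin 784 6 720)
(mv 1103 (cons (fin 1039 5 847)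
(mv 1104 (cons (fin 1167 5 911)
(mv 1105 (cons (fin 1041 4 848)
(fin 1169 4 912)))))))))))))
(cons (cons (mv 783 (cons (fin 847 7 783)
(mv 719 (cons (fin 784 7 719)
(mv 849 (cons (fin 785 6 784)
(mv 1103 (cons (fin 1039 5 847)
(mv 1104 (cons (fin 1167 5 911)
(fin 913 6 848)))))))))))
(mv 783 (cons (fin 847 7 783)
(mv 719 (cons (fin 784 7 719)
(mv 849 (cons (fin 785 6 784)
(mv 1104 (cons (fin 913 6 848)
(mv 1105 (cons (fin 1041 4 848)
(fin 1169 4 912))))))))))))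
(cons (mv 783 (cons (fin 847 7 783)
(mv 784 (cons (fin 719 7 719)
(mv 785 (cons (fin 721 6 720)
(fin 849 6 784)))))))
(mv 783 (cons (fin 847 7 783)
(mv 785 (cons (fin 849 6 784)
(mv 1103 (cons (fin 1039 5 847)
(mv 1104 (cons (fin 1167 5 911)
(mv 1105 (cons (fin 1041 4 848)
(fin 1169 4 912)))))))))))))))
(mv 1104 (cons (cons (mv 847 (cons (fin 911 7 847)
(mv 849 (cons (fin 913 6 848)
(mv 1167 (cons (fin 1103 5 911)
(mv 1168 (cons (fin 1231 5 975)
(mv 1169 (cons (fin 1105 4 912)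
(fin 1233 4 976)))))))))))
(cons (mv 847 (cons (fin 911 7 847)
(mv 1167 (cons (fin 1103 5 911)
(mv 1168 (cons (fin 1231 5 975)
(mv 1169 (cons (fin 1105 4 912)
(fin 1233 4 976)))))))))
(mv 847 (cons (fin 911 7 847)
(mv 913 (cons (fin 849 6 848)
(mv 1167 (cons (fin 1103 5 911)
(mv 1168 (cons (fin 1231 5 975)
(fin 977 6 912)))))))))))
(cons (mv 847 (cons (fin 911 7 847)
(mv 913 (cons (fin 849 6 848)
(mv 1168 (cons (fin 977 6 912)
(mv 1169 (cons (fin 1105 4 912)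
(fin 1233 4 976)))))))))
(cons (mv 849 (cons (fin 913 6 848)
(mv 1167 (cons (fin 1103 5 911)
(mv 1168 (cons (fin 1231 5 975)
(mv 1169 (cons (fin 1105 4 912)
(fin 1233 4 976)))))))))
(mv 911 (cons (fin 847 7 847)
(mv 913 (cons (fin 849 6 848)
(mv 910 (cons (fin 973 1 909)
(mv 977 (cons (fin 909 0 909)
(fin 978 0 910))))))))))))))
(cons (mv 848 (cons (cons (mv 783 (cons (fin 847 7 783)
(mv 784 (cons (fin 719 7 719)
(mv 785 (cons (fin 721 6 720)
(fin 849 6 784)))))))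
(mv 783 (cons (fin 847 7 783)
(mv 784 (cons (fin 719 7 719)
(mv 1041 (cons (fin 977 4 784)
(fin 1105 4 848))))))))
(cons (mv 785 (cons (fin 849 6 784)
(mv 784 (cons (fin 721 6 720)
(mv 1041 (cons (fin 977 4 784)
(fin 1105 4 848)))))))
(mv 847 (cons (fin 783 7 783)
(mv 849 (cons (fin 785 6 784)
(mv 1039 (cons (fin 1103 5 847)
(mv 1041 (cons (fin 1105 4 848)
(mv 850 (cons (mv 911 (cons (fin 910 1 846)
(fin 851 1 847)))
(mv 786 (cons (fin 787 2 783)
(mv 913 (cons (fin 977 6 785)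
(mv 846 (cons (fin 845 0 845)
(fin 914 0 846))))))))))))))))))))
(mv 1104 (cons (cons (mv 847 (cons (fin 911 7 847)
(mv 783 (cons (fin 848 7 783)
(mv 1103 (cons (fin 1167 5 911)
(mv 1169 (cons (fin 1105 4 912)
(mv 1168 (cons (fin 1233 4 976)
(mv 977 (cons (fin 913 6 912)
(mv 1101 (cons (fin 1102 0 1101)
(mv 1170 (cons (fin 1171 3 1103)
(mv 1232 (cons (fin 1041 6 976)
(mv 1295 (cons (fin 1231 5 1039)
(mv 1296 (cons (fin 1039 7 1039)
(fin 1359 5 1103)))))))))))))))))))))))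
(cons (mv 847 (cons (fin 911 7 847)
(mv 783 (cons (fin 848 7 783)
(mv 1167 (cons (fin 1103 5 911)
(mv 1168 (cons (fin 1231 5 975)
(mv 977 (cons (fin 913 6 912)
(mv 1232 (cons (fin 1041 6 976)
(mv 1233 (cons (fin 1169 4 976)
(fin 1297 4 1040)))))))))))))))
(mv 847 (cons (fin 911 7 847)
(mv 783 (cons (fin 848 7 783)
(mv 1169 (cons (fin 1105 4 912)
(mv 1168 (cons (fin 1233 4 976)
(mv 977 (cons (fin 913 6 912)
(mv 1231 (cons (fin 1167 5 975)
(mv 1232 (cons (fin 1295 5 1039)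
(fin 1041 6 976)))))))))))))))))
(cons (cons (mv 847 (cons (fin 911 7 847)
(mv 848 (cons (fin 783 7 783)
(mv 1103 (cons (fin 1039 5 847)
(fin 1167 5 911)))))))
(mv 847 (cons (fin 911 7 847)
(mv 848 (cons (fin 783 7 783)
(mv 1105 (cons (fin 1041 4 848)
(fin 1169 4 912))))))))
(cons (mv 1103 (cons (fin 1167 5 911)
(mv 848 (cons (fin 1039 5 847)
(mv 1105 (cons (fin 1041 4 848)
(fin 1169 4 912)))))))
(mv 847 (cons (fin 911 7 847)
(mv 1103 (cons (fin 1167 5 911)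
(mv 1169 (cons (fin 1105 4 912)
(mv 1168 (cons (fin 1233 4 976)
(mv 977 (cons (fin 913 6 912)
(mv 1101 (cons (fin 1102 0 1101)
(mv 1170 (cons (fin 1171 3 1103)
(mv 1232 (cons (fin 1041 6 976)
(mv 1295 (cons (fin 1231 5 1039)
(mv 1296 (cons (fin 1039 7 1039)
(fin 1359 5 1103)))))))))))))))))))))))))))
(cons (cons (mv 848 (cons (cons (mv 783 (cons (fin 847 7 783)
(mv 719 (cons (fin 784 7 719)
(mv 849 (cons (fin 785 6 784)
(mv 1103 (cons (fin 1039 5 847)
(mv 1104 (cons (fin 1167 5 911)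
(fin 913 6 848)))))))))))
(cons (mv 783 (cons (fin 847 7 783)
(mv 784 (cons (fin 719 7 719)
(mv 721 (cons (fin 785 6 720)
(mv 720 (cons (fin 657 6 656)
(mv 977 (cons (fin 913 4 720)
(fin 1041 4 784)))))))))))
(mv 785 (cons (fin 849 6 784)
(mv 784 (cons (fin 721 6 720)
(mv 719 (cons (fin 783 7 719)
(mv 720 (cons (fin 655 7 655)
(mv 977 (cons (fin 913 4 720)
(fin 1041 4 784)))))))))))))
(cons (cons (mv 783 (cons (fin 847 7 783)
(mv 784 (cons (fin 719 7 719)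
(mv 977 (cons (fin 1041 4 784)
(mv 913 (cons (fin 720 4 720)
(mv 1104 (cons (fin 849 6 848)
(fin 1168 6 912)))))))))))
(mv 785 (cons (fin 849 6 784)
(mv 784 (cons (fin 721 6 720)
(mv 977 (cons (fin 1041 4 784)
(mv 913 (cons (fin 720 4 720)
(mv 1039 (cons (fin 1103 5 847)
(mv 978 (cons (fin 979 1 975)
(mv 911 (cons (fin 910 0 910)
(mv 1104 (cons (fin 847 7 847)
(fin 1168 6 912))))))))))))))))))
(cons (mv 783 (cons (fin 847 7 783)
(mv 849 (cons (fin 785 6 784)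
(mv 1103 (cons (fin 1039 5 847)
(mv 1104 (cons (fin 1167 5 911)
(fin 913 6 848)))))))))
(mv 783 (cons (fin 847 7 783)
(mv 784 (cons (fin 719 7 719)
(mv 785 (cons (fin 721 6 720)
(fin 849 6 784)))))))))))
(mv 1104 (cons (cons (mv 849 (cons (fin 913 6 848)
(mv 785 (cons (fin 848 6 784)
(mv 1167 (cons (fin 1103 5 911)
(mv 1168 (cons (fin 1231 5 975)
(mv 1169 (cons (fin 1105 4 912)
(fin 1233 4 976)))))))))))
(mv 1103 (cons (fin 1167 5 911)
(mv 848 (cons (fin 1039 5 847)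
(mv 1105 (cons (fin 1041 4 848)
(fin 1169 4 912))))))))
(cons (mv 849 (cons (fin 913 6 848)
(mv 848 (cons (fin 785 6 784)
(mv 1103 (cons (fin 1039 5 847)
(fin 1167 5 911)))))))
(cons (mv 849 (cons (fin 913 6 848)
(mv 848 (cons (fin 785 6 784)
(mv 1105 (cons (fin 1041 4 848)
(fin 1169 4 912)))))))
(mv 849 (cons (fin 913 6 848)
(mv 1167 (cons (fin 1103 5 911)
(mv 1168 (cons (fin 1231 5 975)
(mv 1169 (cons (fin 1105 4 912)
(fin 1233 4 976))))))))))))))
(cons (mv 848 (cons (cons (mv 783 (cons (fin 847 7 783)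
(mv 719 (cons (fin 784 7 719)
(mv 849 (cons (fin 785 6 784)
(mv 1104 (cons (fin 913 6 848)
(mv 1105 (cons (fin 1041 4 848)
(fin 1169 4 912)))))))))))
(mv 783 (cons (fin 847 7 783)
(mv 784 (cons (fin 719 7 719)
(mv 1041 (cons (fin 977 4 784)
(fin 1105 4 848))))))))
(cons (mv 785 (cons (fin 849 6 784)
(mv 784 (cons (fin 721 6 720)
(mv 1041 (cons (fin 977 4 784)
(fin 1105 4 848)))))))
(cons (mv 783 (cons (fin 847 7 783)
(mv 784 (cons (fin 719 7 719)
(mv 785 (cons (fin 721 6 720)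
(fin 849 6 784)))))))
(mv 783 (cons (fin 847 7 783)
(mv 849 (cons (fin 785 6 784)
(mv 1104 (cons (fin 913 6 848)
(mv 1105 (cons (fin 1041 4 848)
(fin 1169 4 912)))))))))))))
(mv 848 (cons (cons (mv 783 (cons (fin 847 7 783)
(mv 719 (cons (fin 784 7 719)
(mv 785 (cons (fin 849 6 784)
(mv 1103 (cons (fin 1039 5 847)
(mv 1104 (cons (fin 1167 5 911)
(mv 1105 (cons (fin 1041 4 848)
(fin 1169 4 912)))))))))))))
(mv 785 (cons (fin 849 6 784)
(mv 721 (cons (fin 784 6 720)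
(mv 1103 (cons (fin 1039 5 847)
(mv 1104 (cons (fin 1167 5 911)
(mv 1105 (cons (fin 1041 4 848)
(fin 1169 4 912))))))))))))
(cons (mv 783 (cons (fin 847 7 783)
(mv 784 (cons (fin 719 7 719)
(mv 785 (cons (fin 721 6 720)
(fin 849 6 784)))))))
(cons (mv 783 (cons (fin 847 7 783)
(mv 719 (cons (fin 784 7 719)
(mv 1103 (cons (fin 1039 5 847)
(mv 1104 (cons (fin 1167 5 911)
(mv 1105 (cons (fin 1041 4 848)
(fin 1169 4 912)))))))))))
(mv 783 (cons (fin 847 7 783)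
(mv 785 (cons (fin 849 6 784)
(mv 1103 (cons (fin 1039 5 847)
(mv 1104 (cons (fin 1167 5 911)
(mv 1105 (cons (fin 1041 4 848)
(fin 1169 4 912)))))))))))))))))))
(mv 912 (cons (cons (cons (mv 848 (cons (cons (cons (mv 783 (cons (fin 847 7 783)
(mv 719 (cons (fin 784 7 719)
(mv 785 (cons (fin 849 6 784)
(mv 1103 (cons (fin 1039 5 847)
(mv 1104 (cons (fin 1167 5 911)
(mv 1105 (cons (fin 1041 4 848)
(fin 1169 4 912)))))))))))))
(mv 785 (cons (fin 849 6 784)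
(mv 721 (cons (fin 784 6 720)
(mv 1103 (cons (fin 1039 5 847)
(mv 1104 (cons (fin 1167 5 911)
(mv 1105 (cons (fin 1041 4 848)
(fin 1169 4 912))))))))))))
(cons (mv 783 (cons (fin 847 7 783)
(mv 719 (cons (fin 784 7 719)
(mv 1103 (cons (fin 1039 5 847)
(mv 1104 (cons (fin 1167 5 911)
(mv 1105 (cons (fin 1041 4 848)
(fin 1169 4 912)))))))))))
(mv 783 (cons (fin 847 7 783)
(mv 719 (cons (fin 784 7 719)
(mv 849 (cons (fin 785 6 784)
(mv 1041 (cons (fin 1105 4 848)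
(mv 1104 (cons (fin 913 6 848)
(mv 1167 (cons (fin 1103 5 911)
(mv 1168 (cons (fin 1231 5 975)
(mv 911 (cons (fin 975 7 911)
(mv 850 (cons (fin 851 1 847)
(mv 909 (cons (fin 910 2 845)
(mv 1232 (cons (fin 977 6 976)
(mv 1233 (cons (fin 1169 4 976)
(fin 1297 4 1040)))))))))))))))))))))))))))
(cons (cons (mv 783 (cons (fin 847 7 783)
(mv 719 (cons (fin 784 7 719)
(mv 849 (cons (fin 785 6 784)
(mv 1039 (cons (fin 1103 5 847)
(mv 1104 (cons (fin 913 6 848)
(mv 1169 (cons (fin 1105 4 912)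
(mv 1168 (cons (fin 1233 4 976)
(mv 975 (cons (fin 911 7 911)
(fin 1232 7 975)))))))))))))))))
(mv 783 (cons (fin 847 7 783)
(mv 719 (cons (fin 784 7 719)
(mv 849 (cons (fin 785 6 784)
(mv 1104 (cons (fin 913 6 848)
(mv 1105 (cons (fin 1041 4 848)
(fin 1169 4 912))))))))))))
(cons (mv 783 (cons (fin 847 7 783)
(mv 719 (cons (fin 784 7 719)
(mv 849 (cons (fin 785 6 784)
(mv 1103 (cons (fin 1039 5 847)
(mv 1104 (cons (fin 1167 5 911)
(fin 913 6 848)))))))))))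
(cons (mv 783 (cons (fin 847 7 783)
(mv 785 (cons (fin 849 6 784)
(mv 1103 (cons (fin 1039 5 847)
(mv 1104 (cons (fin 1167 5 911)
(mv 1105 (cons (fin 1041 4 848)
(fin 1169 4 912)))))))))))
(mv 783 (cons (fin 847 7 783)
(mv 719 (cons (fin 784 7 719)
(mv 849 (cons (fin 785 6 784)
(mv 1039 (cons (fin 1103 5 847)
(mv 1041 (cons (fin 1105 4 848)
(mv 1042 (cons (fin 975 3 974)
(mv 978 (cons (fin 979 2 975)
(mv 1106 (cons (fin 1107 0 1039)
(mv 913 (cons (fin 914 7 849)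
(fin 977 4 849))))))))))))))))))))))))
(mv 1104 (cons (cons (mv 847 (cons (fin 911 7 847)
(mv 849 (cons (fin 913 6 848)
(mv 1167 (cons (fin 1103 5 911)
(mv 1168 (cons (fin 1231 5 975)
(mv 1169 (cons (fin 1105 4 912)
(fin 1233 4 976)))))))))))
(mv 847 (cons (fin 911 7 847)
(mv 1167 (cons (fin 1103 5 911)
(mv 1168 (cons (fin 1231 5 975)
(mv 1169 (cons (fin 1105 4 912)
(fin 1233 4 976))))))))))
(cons (mv 849 (cons (fin 913 6 848)
(mv 1167 (cons (fin 1103 5 911)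
(mv 1168 (cons (fin 1231 5 975)
(mv 1169 (cons (fin 1105 4 912)
(fin 1233 4 976)))))))))
(cons (mv 847 (cons (fin 911 7 847)
(mv 913 (cons (fin 849 6 848)
(mv 977 (cons (fin 1168 6 912)
(mv 914 (cons (fin 975 2 910)
(mv 915 (cons (fin 916 1 912)
(mv 851 (cons (fin 852 2 848)
(mv 979 (cons (fin 980 0 912)
(mv 978 (cons (fin 1039 1 975)
(mv 787 (cons (fin 723 5 722)
(fin 1042 5 786)))))))))))))))))))
(mv 911 (cons (fin 847 7 847)
(mv 913 (cons (fin 849 6 848)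
(mv 914 (cons (fin 975 1 910)
(mv 850 (cons (fin 851 2 847)
(mv 978 (cons (fin 979 0 911)
(mv 977 (cons (fin 910 0 910)
(mv 786 (cons (fin 722 5 721)
(fin 1041 5 785))))))))))))))))))))
(cons (mv 848 (cons (cons (mv 783 (cons (fin 847 7 783)
(mv 719 (cons (fin 784 7 719)
(mv 849 (cons (fin 785 6 784)
(mv 1039 (cons (fin 1103 5 847)
(mv 1041 (cons (fin 1105 4 848)
(mv 1042 (cons (fin 975 3 974)
(mv 978 (cons (fin 979 2 975)
(mv 1106 (cons (fin 1107 0 1039)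
(mv 913 (cons (fin 914 7 849)
(fin 977 4 849)))))))))))))))))))
(mv 783 (cons (fin 847 7 783)
(mv 784 (cons (fin 719 7 719)
(mv 785 (cons (fin 721 6 720)
(fin 849 6 784))))))))
(cons (mv 785 (cons (fin 849 6 784)
(mv 784 (cons (fin 721 6 720)
(mv 1039 (cons (fin 975 5 783)
(fin 1103 5 847)))))))
(cons (mv 783 (cons (fin 847 7 783)
(mv 784 (cons (fin 719 7 719)
(mv 1039 (cons (fin 975 5 783)
(fin 1103 5 847)))))))
(mv 783 (cons (fin 847 7 783)
(mv 849 (cons (fin 785 6 784)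
(mv 1039 (cons (fin 1103 5 847)
(mv 1041 (cons (fin 1105 4 848)
(mv 1042 (cons (fin 975 3 974)
(mv 978 (cons (fin 979 2 975)
(mv 1106 (cons (fin 1107 0 1039)
(mv 913 (cons (fin 914 7 849)
(fin 977 4 849)))))))))))))))))))))
(mv 1104 (cons (cons (mv 849 (cons (fin 913 6 848)
(mv 785 (cons (fin 848 6 784)
(mv 1105 (cons (fin 1169 4 912)
(mv 1167 (cons (fin 1103 5 911)
(mv 1168 (cons (fin 1231 5 975)
(mv 975 (cons (fin 911 7 911)
(mv 1106 (cons (fin 1107 1 1103)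
(mv 1165 (cons (fin 1166 2 1101)
(mv 1232 (cons (fin 1039 7 975)
(mv 1041 (cons (fin 977 6 976)
(fin 1296 6 1040)))))))))))))))))))))
(cons (mv 1103 (cons (fin 1167 5 911)
(mv 848 (cons (fin 1039 5 847)
(mv 1105 (cons (fin 1041 4 848)
(fin 1169 4 912)))))))
(mv 849 (cons (fin 913 6 848)
(mv 785 (cons (fin 848 6 784)
(mv 1169 (cons (fin 1105 4 912)
(mv 1168 (cons (fin 1233 4 976)
(mv 975 (cons (fin 911 7 911)
(mv 1231 (cons (fin 1167 5 975)
(mv 1232 (cons (fin 1039 7 975)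
(fin 1295 5 1039)))))))))))))))))
(cons (cons (mv 849 (cons (fin 913 6 848)
(mv 785 (cons (fin 848 6 784)
(mv 1167 (cons (fin 1103 5 911)
(mv 1168 (cons (fin 1231 5 975)
(mv 975 (cons (fin 911 7 911)
(mv 1232 (cons (fin 1039 7 975)
(mv 1233 (cons (fin 1169 4 976)
(fin 1297 4 1040)))))))))))))))
(mv 849 (cons (fin 913 6 848)
(mv 848 (cons (fin 785 6 784)
(mv 1105 (cons (fin 1041 4 848)
(fin 1169 4 912))))))))
(cons (mv 849 (cons (fin 913 6 848)
(mv 785 (cons (fin 848 6 784)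
(mv 1167 (cons (fin 1103 5 911)
(mv 1168 (cons (fin 1231 5 975)
(mv 975 (cons (fin 911 7 911)
(mv 1232 (cons (fin 1039 7 975)
(mv 1041 (cons (fin 977 6 976)
(mv 1296 (cons (fin 1105 6 1040)
(mv 1297 (cons (fin 1233 4 1040)
(fin 1361 4 1104)))))))))))))))))))
(mv 849 (cons (fin 913 6 848)
(mv 1105 (cons (fin 1169 4 912)
(mv 1167 (cons (fin 1103 5 911)
(mv 1168 (cons (fin 1231 5 975)
(mv 975 (cons (fin 911 7 911)
(mv 1106 (cons (fin 1107 1 1103)
(mv 1165 (cons (fin 1166 2 1101)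
(mv 1232 (cons (fin 1039 7 975)
(mv 1041 (cons (fin 977 6 976)
(fin 1296 6 1040)))))))))))))))))))))))))
(cons (cons (mv 1104 (cons (cons (mv 847 (cons (fin 911 7 847)
(mv 783 (cons (fin 848 7 783)
(mv 1103 (cons (fin 1167 5 911)
(mv 1169 (cons (fin 1105 4 912)
(mv 1168 (cons (fin 1233 4 976)
(mv 977 (cons (fin 913 6 912)
(mv 1041 (cons (fin 1232 6 976)
(mv 1042 (cons (fin 975 0 974)
(mv 1102 (cons (fin 1039 1 1038)
(fin 1101 2 1037)))))))))))))))))))
(cons (mv 1103 (cons (fin 1167 5 911)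
(mv 848 (cons (fin 1039 5 847)
(mv 1105 (cons (fin 1041 4 848)
(fin 1169 4 912)))))))
(mv 847 (cons (fin 911 7 847)
(mv 783 (cons (fin 848 7 783)
(mv 1169 (cons (fin 1105 4 912)
(mv 1168 (cons (fin 1233 4 976)
(mv 977 (cons (fin 913 6 912)
(mv 1231 (cons (fin 1167 5 975)
(mv 1232 (cons (fin 1295 5 1039)
(fin 1041 6 976)))))))))))))))))
(cons (cons (mv 847 (cons (fin 911 7 847)
(mv 783 (cons (fin 848 7 783)
(mv 1167 (cons (fin 1103 5 911)
(mv 1168 (cons (fin 1231 5 975)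
(mv 977 (cons (fin 913 6 912)
(mv 1232 (cons (fin 1041 6 976)
(mv 1233 (cons (fin 1169 4 976)
(fin 1297 4 1040)))))))))))))))
(mv 847 (cons (fin 911 7 847)
(mv 783 (cons (fin 848 7 783)
(mv 1169 (cons (fin 1105 4 912)
(mv 1168 (cons (fin 1233 4 976)
(mv 977 (cons (fin 913 6 912)
(mv 1232 (cons (fin 1041 6 976)
(mv 1039 (cons (fin 975 7 975)
(mv 978 (cons (fin 979 1 975)
(mv 1295 (cons (fin 1231 5 1039)
(mv 1296 (cons (fin 1103 7 1039)
(fin 1359 5 1103))))))))))))))))))))))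
(cons (mv 847 (cons (fin 911 7 847)
(mv 848 (cons (fin 783 7 783)
(mv 1103 (cons (fin 1039 5 847)
(fin 1167 5 911)))))))
(mv 847 (cons (fin 911 7 847)
(mv 1103 (cons (fin 1167 5 911)
(mv 1169 (cons (fin 1105 4 912)
(mv 1168 (cons (fin 1233 4 976)
(mv 977 (cons (fin 913 6 912)
(mv 1041 (cons (fin 1232 6 976)
(mv 1042 (cons (fin 975 0 974)
(mv 1102 (cons (fin 1039 1 1038)
(fin 1101 2 1037)))))))))))))))))))))
(mv 848 (cons (cons (mv 783 (cons (fin 847 7 783)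
(mv 719 (cons (fin 784 7 719)
(mv 849 (cons (fin 785 6 784)
(mv 1104 (cons (fin 913 6 848)
(mv 1105 (cons (fin 1041 4 848)
(fin 1169 4 912)))))))))))
(cons (mv 785 (cons (fin 849 6 784)
(mv 784 (cons (fin 721 6 720)
(mv 1041 (cons (fin 977 4 784)
(fin 1105 4 848)))))))
(mv 783 (cons (fin 847 7 783)
(mv 784 (cons (fin 719 7 719)
(mv 1041 (cons (fin 977 4 784)
(fin 1105 4 848)))))))))
(cons (mv 783 (cons (fin 847 7 783)
(mv 719 (cons (fin 784 7 719)
(mv 849 (cons (fin 785 6 784)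
(mv 1104 (cons (fin 913 6 848)
(mv 1169 (cons (fin 1105 4 912)
(mv 1168 (cons (fin 1233 4 976)
(mv 975 (cons (fin 911 7 911)
(mv 1231 (cons (fin 1167 5 975)
(mv 1232 (cons (fin 1039 7 975)
(fin 1295 5 1039)))))))))))))))))))
(cons (mv 783 (cons (fin 847 7 783)
(mv 784 (cons (fin 719 7 719)
(mv 785 (cons (fin 721 6 720)
(fin 849 6 784)))))))
(mv 783 (cons (fin 847 7 783)
(mv 849 (cons (fin 785 6 784)
(mv 1104 (cons (fin 913 6 848)
(mv 1105 (cons (fin 1041 4 848)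
(fin 1169 4 912))))))))))))))
(cons (mv 848 (cons (cons (mv 783 (cons (fin 847 7 783)
(mv 719 (cons (fin 784 7 719)
(mv 849 (cons (fin 785 6 784)
(mv 1103 (cons (fin 1039 5 847)
(mv 1104 (cons (fin 1167 5 911)
(fin 913 6 848)))))))))))
(mv 785 (cons (fin 849 6 784)
(mv 784 (cons (fin 721 6 720)
(mv 1039 (cons (fin 975 5 783)
(fin 1103 5 847))))))))
(cons (mv 783 (cons (fin 847 7 783)
(mv 784 (cons (fin 719 7 719)
(mv 1039 (cons (fin 975 5 783)
(fin 1103 5 847)))))))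
(cons (mv 783 (cons (fin 847 7 783)
(mv 784 (cons (fin 719 7 719)
(mv 785 (cons (fin 721 6 720)
(fin 849 6 784)))))))
(mv 783 (cons (fin 847 7 783)
(mv 849 (cons (fin 785 6 784)
(mv 1103 (cons (fin 1039 5 847)
(mv 1104 (cons (fin 1167 5 911)
(fin 913 6 848)))))))))))))
(cons (mv 848 (cons (cons (mv 783 (cons (fin 847 7 783)
(mv 719 (cons (fin 784 7 719)
(mv 785 (cons (fin 849 6 784)
(mv 1103 (cons (fin 1039 5 847)
(mv 1104 (cons (fin 1167 5 911)
(mv 1105 (cons (fin 1041 4 848)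
(fin 1169 4 912)))))))))))))
(mv 783 (cons (fin 847 7 783)
(mv 784 (cons (fin 719 7 719)
(mv 785 (cons (fin 721 6 720)
(fin 849 6 784))))))))
(cons (mv 785 (cons (fin 849 6 784)
(mv 721 (cons (fin 784 6 720)
(mv 1103 (cons (fin 1039 5 847)
(mv 1104 (cons (fin 1167 5 911)
(mv 1105 (cons (fin 1041 4 848)
(fin 1169 4 912)))))))))))
(cons (mv 783 (cons (fin 847 7 783)
(mv 719 (cons (fin 784 7 719)
(mv 1103 (cons (fin 1039 5 847)
(mv 1104 (cons (fin 1167 5 911)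
(mv 1105 (cons (fin 1041 4 848)
(fin 1169 4 912)))))))))))
(mv 783 (cons (fin 847 7 783)
(mv 785 (cons (fin 849 6 784)
(mv 1103 (cons (fin 1039 5 847)
(mv 1104 (cons (fin 1167 5 911)
(mv 1105 (cons (fin 1041 4 848)
(fin 1169 4 912)))))))))))))))
(mv 1104 (cons (cons (mv 847 (cons (fin 911 7 847)
(mv 783 (cons (fin 848 7 783)
(mv 849 (cons (fin 913 6 848)
(mv 1167 (cons (fin 1103 5 911)
(mv 1168 (cons (fin 1231 5 975)
(mv 1169 (cons (fin 1105 4 912)
(fin 1233 4 976)))))))))))))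
(cons (mv 847 (cons (fin 911 7 847)
(mv 783 (cons (fin 848 7 783)
(mv 1167 (cons (fin 1103 5 911)
(mv 1168 (cons (fin 1231 5 975)
(mv 1169 (cons (fin 1105 4 912)
(fin 1233 4 976)))))))))))
(mv 849 (cons (fin 913 6 848)
(mv 785 (cons (fin 848 6 784)
(mv 1167 (cons (fin 1103 5 911)
(mv 1168 (cons (fin 1231 5 975)
(mv 1169 (cons (fin 1105 4 912)
(fin 1233 4 976)))))))))))))
(cons (cons (mv 847 (cons (fin 911 7 847)
(mv 783 (cons (fin 848 7 783)
(mv 913 (cons (fin 849 6 848)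
(mv 1167 (cons (fin 1103 5 911)
(mv 1168 (cons (fin 1231 5 975)
(fin 977 6 912)))))))))))
(mv 847 (cons (fin 911 7 847)
(mv 783 (cons (fin 848 7 783)
(mv 913 (cons (fin 849 6 848)
(mv 977 (cons (fin 1168 6 912)
(mv 914 (cons (fin 975 2 910)
(mv 915 (cons (fin 916 1 912)
(mv 851 (cons (fin 852 2 848)
(mv 979 (cons (fin 980 0 912)
(mv 1105 (cons (fin 1169 4 912)
(mv 850 (cons (fin 1041 6 849)
(mv 786 (cons (fin 722 5 721)
(mv 785 (cons (fin 784 0 783)
(mv 978 (cons (fin 721 7 721)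
(mv 787 (cons (fin 723 5 722)
(fin 1042 5 786))))))))))))))))))))))))))))))
(cons (mv 847 (cons (fin 911 7 847)
(mv 848 (cons (fin 783 7 783)
(mv 849 (cons (fin 785 6 784)
(fin 913 6 848)))))))
(mv 847 (cons (fin 911 7 847)
(mv 849 (cons (fin 913 6 848)
(mv 1167 (cons (fin 1103 5 911)
(mv 1168 (cons (fin 1231 5 975)
(mv 1169 (cons (fin 1105 4 912)
(fin 1233 4 976))))))))))))))))))))))
(cons (cons (mv 975 (cons (cons (mv 973 (cons (mv 908 (cons (fin 909 3 908)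
(mv 972 (cons (fin 907 3 907)
(fin 1039 0 972)))))
(cons (mv 909 (cons (fin 908 3 908)
(mv 910 (cons (fin 977 3 909)
(mv 912 (cons (fin 913 2 909)
(mv 1037 (cons (fin 1036 1 972)
(mv 846 (cons (fin 782 5 781)
(fin 1101 6 845)))))))))))
(mv 912 (cons (fin 913 2 909)
(mv 972 (cons (fin 911 2 908)
(fin 1039 0 972))))))))
(cons (mv 911 (cons (cons (mv 847 (cons (fin 783 4 783)
(mv 1104 (cons (fin 912 7 847)
(fin 1168 7 911)))))
(mv 783 (cons (fin 847 4 783)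
(mv 977 (cons (mv 910 (cons (fin 909 3 909)
(fin 978 3 910)))
(cons (mv 914 (cons (fin 913 2 910)
(mv 978 (cons (fin 915 2 911)
(mv 979 (cons (fin 912 3 911)
(fin 1039 1 975)))))))
(mv 910 (cons (fin 909 3 909)
(mv 913 (cons (fin 914 2 910)
(mv 849 (cons (fin 785 5 784)
(mv 912 (cons (fin 850 2 846)
(mv 846 (cons (fin 845 3 845)
(mv 782 (cons (fin 719 6 718)
(fin 718 4 718)))))))))))))))))))
(cons (mv 1104 (cons (fin 1168 7 911)
(mv 912 (cons (mv 913 (cons (fin 914 1 910)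
(fin 849 6 848)))
(cons (mv 1103 (cons (fin 1167 5 911)
(mv 848 (cons (fin 1039 5 847)
(mv 784 (cons (fin 720 5 719)
(mv 785 (cons (fin 721 6 720)
(fin 849 6 784)))))))))
(mv 913 (cons (fin 914 1 910)
(mv 1103 (cons (fin 1167 5 911)
(mv 1039 (cons (fin 848 5 847)
(mv 910 (cons (fin 846 7 846)
(mv 909 (cons (fin 977 3 909)
(fin 908 0 908))))))))))))))))
(mv 847 (cons (fin 783 4 783)
(mv 1104 (cons (fin 1168 7 911)
(fin 1039 4 847))))))))
(mv 973 (cons (mv 908 (cons (fin 909 3 908)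
(mv 972 (cons (fin 907 3 907)
(fin 1039 0 972)))))
(cons (mv 909 (cons (fin 908 3 908)
(mv 910 (cons (fin 977 3 909)
(mv 912 (cons (fin 913 2 909)
(mv 1037 (cons (fin 1036 1 972)
(mv 846 (cons (fin 782 5 781)
(fin 1101 6 845)))))))))))
(mv 912 (cons (fin 913 2 909)
(mv 972 (cons (fin 1039 0 972)
(mv 1036 (cons (fin 1035 1 971)
(fin 1037 1 972))))))))))))
(cons (cons (mv 973 (cons (cons (mv 908 (cons (fin 909 3 908)
(mv 972 (cons (fin 907 3 907)
(fin 1039 0 972)))))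
(mv 908 (cons (fin 909 3 908)
(mv 912 (cons (fin 913 2 909)
(mv 1036 (cons (fin 1037 1 972)
(mv 848 (cons (mv 1039 (cons (fin 784 5 783)
(fin 1103 5 847)))
(cons (mv 783 (cons (fin 847 7 783)
(mv 784 (cons (fin 719 7 719)
(mv 785 (cons (fin 721 6 720)
(fin 849 6 784)))))))
(mv 783 (cons (fin 847 7 783)
(mv 785 (cons (fin 849 6 784)
(mv 1103 (cons (fin 1039 5 847)
(mv 1104 (cons (fin 1167 5 911)
(mv 1168 (cons (fin 911 7 911)
(mv 1169 (cons (fin 1105 4 912)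
(fin 1233 4 976)))))))))))))))))))))))
(cons (mv 912 (cons (fin 913 2 909)
(mv 972 (cons (fin 911 2 908)
(fin 1039 0 972)))))
(mv 908 (cons (fin 909 3 908)
(mv 912 (cons (fin 913 2 909)
(mv 972 (cons (fin 907 3 907)
(fin 911 2 908))))))))))
(mv 973 (cons (mv 908 (cons (fin 909 3 908)
(mv 972 (cons (fin 907 3 907)
(fin 1039 0 972)))))
(cons (mv 909 (cons (fin 908 3 908)
(mv 910 (cons (fin 977 3 909)
(mv 1037 (cons (fin 1036 1 972)
(mv 846 (cons (fin 782 5 781)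
(fin 1101 6 845)))))))))
(mv 972 (cons (fin 1039 0 972)
(mv 1036 (cons (fin 1035 1 971)
(fin 1037 1 972)))))))))
(cons (mv 973 (cons (cons (mv 912 (cons (fin 913 2 909)
(mv 972 (cons (fin 911 2 908)
(fin 1039 0 972)))))
(mv 912 (cons (fin 913 2 909)
(mv 1036 (cons (fin 1037 1 972)
(mv 848 (cons (mv 1039 (cons (fin 784 5 783)
(fin 1103 5 847)))
(cons (mv 783 (cons (fin 847 7 783)
(mv 784 (cons (fin 719 7 719)
(mv 785 (cons (fin 721 6 720)
(fin 849 6 784)))))))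
(mv 783 (cons (fin 847 7 783)
(mv 785 (cons (fin 849 6 784)
(mv 1103 (cons (fin 1039 5 847)
(mv 1104 (cons (fin 1167 5 911)
(mv 1168 (cons (fin 911 7 911)
(mv 1169 (cons (fin 1105 4 912)
(fin 1233 4 976)))))))))))))))))))))
(cons (mv 972 (cons (fin 1039 0 972)
(mv 1036 (cons (fin 1035 1 971)
(fin 1037 1 972)))))
(mv 912 (cons (fin 913 2 909)
(mv 911 (cons (fin 972 2 908)
(mv 847 (cons (fin 1104 7 847)
(fin 783 4 783))))))))))
(mv 973 (cons (cons (mv 908 (cons (fin 909 3 908)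
(mv 912 (cons (fin 913 2 909)
(mv 972 (cons (fin 907 3 907)
(fin 911 2 908)))))))
(mv 908 (cons (fin 909 3 908)
(mv 972 (cons (fin 907 3 907)
(mv 1036 (cons (fin 1035 1 971)
(fin 1037 1 972))))))))
(cons (mv 912 (cons (fin 913 2 909)
(mv 911 (cons (fin 972 2 908)
(mv 847 (cons (fin 1104 7 847)
(fin 783 4 783)))))))
(mv 909 (cons (fin 908 3 908)
(mv 910 (cons (fin 977 3 909)
(mv 912 (cons (fin 913 2 909)
(mv 1037 (cons (fin 1036 1 972)
(mv 846 (cons (fin 782 5 781)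
(fin 1101 6 845))))))))))))))))))
(mv 975 (cons (cons (mv 973 (cons (fin 1041 0 973)
(mv 908 (cons (fin 909 3 908)
(mv 972 (cons (fin 907 3 907)
(fin 1039 0 972)))))))
(mv 977 (cons (cons (mv 909 (cons (fin 910 3 909)
(mv 913 (cons (fin 914 2 910)
(mv 849 (cons (fin 785 5 784)
(mv 1041 (cons (fin 1042 0 974)
(fin 1104 5 848)))))))))
(mv 910 (cons (fin 909 3 909)
(mv 911 (cons (fin 978 3 910)
(mv 847 (cons (fin 783 4 783)
(mv 1104 (cons (fin 1168 7 911)
(fin 1039 4 847))))))))))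
(cons (mv 913 (cons (fin 914 2 910)
(mv 849 (cons (fin 785 5 784)
(mv 1041 (cons (fin 1042 0 974)
(fin 1104 5 848)))))))
(mv 909 (cons (fin 910 3 909)
(mv 914 (cons (fin 913 2 910)
(mv 978 (cons (fin 915 2 911)
(mv 979 (cons (fin 1039 1 975)
(mv 1041 (cons (fin 980 1 976)
(fin 1042 0 974)))))))))))))))
(cons (mv 973 (cons (mv 908 (cons (fin 909 3 908)
(mv 972 (cons (fin 907 3 907)
(fin 1039 0 972)))))
(cons (mv 909 (cons (fin 908 3 908)
(mv 910 (cons (fin 977 3 909)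
(mv 1037 (cons (fin 1036 1 972)
(mv 846 (cons (fin 782 5 781)
(fin 1101 6 845)))))))))
(mv 972 (cons (fin 1039 0 972)
(mv 1036 (cons (fin 1035 1 971)
(fin 1037 1 972))))))))
(cons (mv 973 (cons (fin 1041 0 973)
(mv 908 (cons (fin 909 3 908)
(mv 972 (cons (fin 907 3 907)
(mv 1036 (cons (fin 1035 1 971)
(fin 1037 1 972)))))))))
(mv 973 (cons (fin 1041 0 973)
(mv 972 (cons (fin 1039 0 972)
(mv 1036 (cons (fin 1035 1 971)
(fin 1037 1 972))))))))))))
(cons (mv 975 (cons (cons (mv 973 (cons (fin 1041 0 973)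
(mv 908 (cons (fin 909 3 908)
(mv 972 (cons (fin 907 3 907)
(fin 1039 0 972)))))))
(mv 977 (cons (cons (mv 909 (cons (fin 910 3 909)
(mv 913 (cons (fin 914 2 910)
(mv 849 (cons (fin 785 5 784)
(mv 1041 (cons (fin 1042 0 974)
(mv 786 (cons (fin 850 6 785)
(mv 848 (cons (fin 784 7 784)
(mv 912 (cons (fin 1105 7 848)
(mv 847 (cons (fin 783 7 783)
(mv 846 (cons (fin 845 0 845)
(mv 782 (cons (fin 781 3 781)
(mv 1039 (cons (fin 911 7 782)
(fin 1103 5 847)))))))))))))))))))))))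
(cons (mv 910 (cons (fin 909 3 909)
(mv 911 (cons (fin 978 3 910)
(mv 783 (cons (fin 847 4 783)
(mv 913 (cons (fin 914 2 910)
(mv 849 (cons (fin 785 5 784)
(mv 912 (cons (fin 850 2 846)
(mv 846 (cons (fin 845 3 845)
(mv 782 (cons (fin 719 6 718)
(fin 718 4 718)))))))))))))))))
(mv 913 (cons (fin 914 2 910)
(mv 849 (cons (fin 785 5 784)
(mv 1041 (cons (fin 1042 0 974)
(mv 786 (cons (fin 850 6 785)
(mv 848 (cons (fin 784 7 784)
(mv 912 (cons (fin 1105 7 848)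
(mv 847 (cons (fin 783 7 783)
(mv 846 (cons (fin 845 0 845)
(mv 782 (cons (fin 781 3 781)
(mv 1039 (cons (fin 911 7 782)
(fin 1103 5 847)))))))))))))))))))))))
(cons (mv 910 (cons (fin 909 3 909)
(mv 978 (cons (fin 911 3 910)
(mv 914 (cons (fin 915 2 911)
(mv 979 (cons (fin 1039 1 975)
(mv 1041 (cons (fin 980 1 976)
(fin 1042 0 974)))))))))))
(cons (mv 910 (cons (fin 909 3 909)
(mv 978 (cons (fin 911 3 910)
(mv 979 (cons (fin 1039 1 975)
(mv 1041 (cons (fin 980 1 976)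
(fin 1042 0 974)))))))))
(mv 909 (cons (fin 910 3 909)
(mv 913 (cons (fin 914 2 910)
(mv 849 (cons (fin 785 5 784)
(mv 1041 (cons (fin 1042 0 974)
(mv 786 (cons (fin 850 6 785)
(mv 848 (cons (fin 784 7 784)
(mv 1105 (cons (fin 912 7 848)
(mv 1169 (cons (fin 1233 7 976)
(mv 1170 (cons (fin 1106 4 913)
(fin 1234 4 977))))))))))))))))))))))))
(cons (mv 973 (cons (mv 908 (cons (fin 909 3 908)
(mv 972 (cons (fin 907 3 907)
(fin 1039 0 972)))))
(cons (mv 909 (cons (fin 908 3 908)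
(mv 910 (cons (fin 977 3 909)
(mv 912 (cons (fin 913 2 909)
(mv 1037 (cons (fin 1036 1 972)
(mv 846 (cons (fin 782 5 781)
(fin 1101 6 845)))))))))))
(mv 912 (cons (fin 913 2 909)
(mv 972 (cons (fin 911 2 908)
(fin 1039 0 972))))))))
(cons (mv 973 (cons (fin 1041 0 973)
(mv 908 (cons (fin 909 3 908)
(mv 912 (cons (fin 913 2 909)
(mv 972 (cons (fin 907 3 907)
(fin 911 2 908)))))))))
(mv 973 (cons (fin 1041 0 973)
(mv 912 (cons (fin 913 2 909)
(mv 972 (cons (fin 911 2 908)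
(fin 1039 0 972)))))))))))
(mv 975 (cons (cons (mv 973 (cons (fin 1041 0 973)
(mv 908 (cons (fin 909 3 908)
(mv 972 (cons (fin 907 3 907)
(fin 1039 0 972)))))))
(mv 911 (cons (cons (mv 847 (cons (fin 783 4 783)
(mv 1104 (cons (fin 912 7 847)
(fin 1168 7 911)))))
(mv 1104 (cons (fin 1168 7 911)
(mv 912 (cons (mv 913 (cons (fin 914 1 910)
(fin 849 6 848)))
(mv 1103 (cons (fin 1167 5 911)
(mv 848 (cons (fin 1039 5 847)
(mv 1105 (cons (fin 1041 4 848)
(fin 1169 4 912))))))))))))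
(cons (mv 847 (cons (fin 783 4 783)
(mv 1039 (cons (cons (mv 782 (cons (fin 846 7 782)
(mv 848 (cons (fin 784 6 783)
(mv 912 (cons (fin 1103 5 847)
(mv 1041 (cons (fin 1042 3 974)
(fin 1105 4 848)))))))))
(cons (mv 846 (cons (fin 782 7 782)
(mv 1041 (cons (fin 1042 3 974)
(mv 1103 (cons (fin 910 7 846)
(mv 1167 (cons (fin 912 6 911)
(fin 1231 6 975)))))))))
(mv 848 (cons (fin 784 6 783)
(mv 912 (cons (fin 1103 5 847)
(mv 1041 (cons (fin 1042 3 974)
(fin 1105 4 848)))))))))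
(cons (mv 782 (cons (fin 846 7 782)
(mv 848 (cons (fin 784 6 783)
(mv 912 (cons (fin 1103 5 847)
(mv 849 (cons (fin 785 6 784)
(mv 850 (cons (fin 910 1 846)
(fin 851 1 847)))))))))))
(cons (mv 782 (cons (fin 846 7 782)
(mv 848 (cons (fin 784 6 783)
(mv 1041 (cons (fin 1042 3 974)
(mv 912 (cons (fin 1105 4 848)
(mv 849 (cons (fin 785 6 784)
(mv 850 (cons (fin 910 1 846)
(fin 851 1 847)))))))))))))
(mv 784 (cons (fin 848 6 783)
(mv 846 (cons (fin 782 7 782)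
(mv 1041 (cons (fin 1042 3 974)
(mv 1103 (cons (fin 910 7 846)
(mv 1166 (cons (fin 1102 5 910)
(mv 1167 (cons (fin 1230 5 974)
(fin 1231 6 975)))))))))))))))))))
(mv 847 (cons (fin 783 4 783)
(mv 1104 (cons (fin 1168 7 911)
(fin 1039 4 847)))))))))
(cons (mv 973 (cons (cons (mv 908 (cons (fin 909 3 908)
(mv 972 (cons (fin 907 3 907)
(fin 1039 0 972)))))
(mv 908 (cons (fin 909 3 908)
(mv 912 (cons (fin 913 2 909)
(mv 1036 (cons (fin 1037 1 972)
(mv 848 (cons (mv 1039 (cons (fin 784 5 783)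
(fin 1103 5 847)))
(cons (mv 783 (cons (fin 847 7 783)
(mv 784 (cons (fin 719 7 719)
(mv 785 (cons (fin 721 6 720)
(fin 849 6 784)))))))
(mv 783 (cons (fin 847 7 783)
(mv 785 (cons (fin 849 6 784)
(mv 1103 (cons (fin 1039 5 847)
(mv 1104 (cons (fin 1167 5 911)
(mv 1168 (cons (fin 911 7 911)
(mv 1169 (cons (fin 1105 4 912)
(fin 1233 4 976)))))))))))))))))))))))
(cons (mv 912 (cons (fin 913 2 909)
(mv 972 (cons (fin 911 2 908)
(fin 1039 0 972)))))
(mv 908 (cons (fin 909 3 908)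
(mv 912 (cons (fin 913 2 909)
(mv 972 (cons (fin 907 3 907)
(fin 911 2 908))))))))))
(mv 973 (cons (fin 1041 0 973)
(mv 908 (cons (fin 909 3 908)
(mv 912 (cons (fin 913 2 909)
(mv 972 (cons (fin 907 3 907)
(fin 911 2 908)))))))))))))))
(cons (cons (cons (mv 975 (cons (cons (mv 973 (cons (fin 1041 0 973)
(mv 908 (cons (fin 909 3 908)
(mv 912 (cons (fin 913 2 909)
(mv 972 (cons (fin 907 3 907)
(fin 911 2 908)))))))))
(cons (mv 977 (cons (cons (mv 909 (cons (fin 910 3 909)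
(mv 913 (cons (fin 914 2 910)
(mv 849 (cons (fin 785 5 784)
(mv 1041 (cons (fin 1042 0 974)
(fin 1104 5 848)))))))))
(mv 910 (cons (fin 909 3 909)
(mv 911 (cons (fin 978 3 910)
(mv 847 (cons (fin 783 4 783)
(mv 1104 (cons (fin 912 7 847)
(fin 1168 7 911))))))))))
(cons (mv 913 (cons (fin 914 2 910)
(mv 849 (cons (fin 785 5 784)
(mv 1041 (cons (fin 1042 0 974)
(fin 1104 5 848)))))))
(mv 909 (cons (fin 910 3 909)
(mv 913 (cons (fin 914 2 910)
(mv 849 (cons (fin 785 5 784)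
(mv 1041 (cons (fin 1042 0 974)
(mv 786 (cons (fin 850 6 785)
(mv 848 (cons (fin 784 7 784)
(mv 1105 (cons (fin 912 7 848)
(mv 1169 (cons (fin 1233 7 976)
(mv 1170 (cons (fin 1106 4 913)
(fin 1234 4 977))))))))))))))))))))))
(mv 973 (cons (cons (mv 908 (cons (fin 909 3 908)
(mv 912 (cons (fin 913 2 909)
(mv 972 (cons (fin 907 3 907)
(fin 911 2 908)))))))
(mv 908 (cons (fin 909 3 908)
(mv 972 (cons (fin 907 3 907)
(mv 1036 (cons (fin 1035 1 971)
(fin 1037 1 972))))))))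
(cons (mv 912 (cons (fin 913 2 909)
(mv 911 (cons (fin 972 2 908)
(mv 847 (cons (fin 1104 7 847)
(fin 783 4 783)))))))
(mv 909 (cons (fin 908 3 908)
(mv 910 (cons (fin 977 3 909)
(mv 912 (cons (fin 913 2 909)
(mv 1037 (cons (fin 1036 1 972)
(mv 846 (cons (fin 782 5 781)
(fin 1101 6 845))))))))))))))))
(cons (mv 973 (cons (fin 1041 0 973)
(mv 908 (cons (fin 909 3 908)
(mv 912 (cons (fin 913 2 909)
(mv 972 (cons (fin 907 3 907)
(mv 1036 (cons (fin 1035 1 971)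
(fin 1037 1 972)))))))))))
(cons (mv 973 (cons (fin 1041 0 973)
(mv 908 (cons (fin 909 3 908)
(mv 972 (cons (fin 907 3 907)
(mv 1036 (cons (fin 1035 1 971)
(fin 1037 1 972)))))))))
(mv 973 (cons (fin 1041 0 973)
(mv 912 (cons (fin 913 2 909)
(mv 911 (cons (fin 972 2 908)
(mv 847 (cons (fin 1104 7 847)
(fin 783 4 783)))))))))))))
(mv 912 (cons (cons (cons (mv 848 (cons (cons (mv 783 (cons (fin 847 7 783)
(mv 719 (cons (fin 784 7 719)
(mv 785 (cons (fin 849 6 784)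
(mv 1039 (cons (fin 1103 5 847)
(mv 1041 (cons (fin 1105 4 848)
(mv 975 (cons (fin 1042 3 974)
(fin 973 0 973)))))))))))))
(mv 783 (cons (fin 847 7 783)
(mv 784 (cons (fin 719 7 719)
(mv 785 (cons (fin 721 6 720)
(fin 849 6 784))))))))
(cons (mv 785 (cons (fin 849 6 784)
(mv 721 (cons (fin 784 6 720)
(mv 1039 (cons (fin 1103 5 847)
(mv 1041 (cons (fin 1105 4 848)
(mv 975 (cons (fin 1042 3 974)
(fin 973 0 973)))))))))))
(cons (mv 783 (cons (fin 847 7 783)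
(mv 719 (cons (fin 784 7 719)
(mv 1039 (cons (fin 1103 5 847)
(mv 1041 (cons (fin 1105 4 848)
(mv 975 (cons (fin 1042 3 974)
(fin 973 0 973)))))))))))
(mv 783 (cons (fin 847 7 783)
(mv 785 (cons (fin 849 6 784)
(mv 1039 (cons (fin 1103 5 847)
(mv 1041 (cons (fin 1105 4 848)
(mv 975 (cons (fin 1042 3 974)
(fin 973 0 973)))))))))))))))
(mv 1104 (cons (cons (mv 847 (cons (fin 911 7 847)
(mv 1167 (cons (fin 1103 5 911)
(mv 1168 (cons (fin 1231 5 975)
(mv 1169 (cons (fin 1105 4 912)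
(fin 1233 4 976)))))))))
(mv 1167 (cons (fin 1103 5 911)
(mv 1168 (cons (fin 1231 5 975)
(mv 1169 (cons (fin 1105 4 912)
(fin 1233 4 976))))))))
(cons (mv 911 (cons (fin 847 7 847)
(mv 975 (cons (fin 1168 7 911)
(mv 973 (cons (fin 972 2 908)
(fin 1041 0 973)))))))
(mv 911 (cons (fin 847 7 847)
(mv 1103 (cons (fin 1167 5 911)
(mv 1105 (cons (fin 1169 4 912)
(mv 1102 (cons (mv 1041 (cons (fin 1101 2 1037)
(fin 1042 2 1038)))
(cons (mv 1165 (cons (fin 1166 1 1101)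
(mv 1101 (cons (fin 1164 1 1100)
(mv 1036 (cons (fin 1037 3 1036)
(mv 1100 (cons (fin 1035 3 1035)
(fin 1039 2 1036)))))))))
(mv 1041 (cons (fin 1042 2 1038)
(mv 975 (cons (fin 973 0 973)
(mv 1166 (cons (fin 1165 1 1101)
(fin 1039 5 910))))))))))))))))))))
(cons (mv 848 (cons (cons (mv 783 (cons (fin 847 7 783)
(mv 784 (cons (fin 719 7 719)
(mv 785 (cons (fin 721 6 720)
(fin 849 6 784)))))))
(mv 785 (cons (fin 849 6 784)
(mv 784 (cons (fin 721 6 720)
(mv 1039 (cons (fin 975 5 783)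
(fin 1103 5 847))))))))
(cons (mv 783 (cons (fin 847 7 783)
(mv 784 (cons (fin 719 7 719)
(mv 1039 (cons (fin 975 5 783)
(fin 1103 5 847)))))))
(mv 785 (cons (fin 849 6 784)
(mv 847 (cons (fin 783 7 783)
(mv 1039 (cons (fin 1103 5 847)
(mv 1104 (cons (fin 911 7 847)
(mv 1169 (cons (fin 1105 4 912)
(mv 1168 (cons (fin 1233 4 976)
(mv 975 (cons (fin 1232 7 975)
(mv 973 (cons (fin 972 0 972)
(mv 909 (cons (fin 908 3 908)
(mv 910 (cons (fin 977 3 909)
(mv 846 (cons (fin 782 4 782)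
(mv 1037 (cons (fin 1036 1 972)
(fin 1101 6 845))))))))))))))))))))))))))))
(mv 848 (cons (cons (mv 783 (cons (fin 847 7 783)
(mv 719 (cons (fin 784 7 719)
(mv 785 (cons (fin 849 6 784)
(mv 1041 (cons (fin 1105 4 848)
(mv 975 (cons (fin 973 0 973)
(mv 1042 (cons (fin 1039 3 974)
(fin 977 0 974)))))))))))))
(mv 783 (cons (fin 847 7 783)
(mv 784 (cons (fin 719 7 719)
(mv 785 (cons (fin 721 6 720)
(fin 849 6 784))))))))
(cons (mv 785 (cons (fin 849 6 784)
(mv 721 (cons (fin 784 6 720)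
(mv 1041 (cons (fin 1105 4 848)
(mv 975 (cons (fin 973 0 973)
(mv 1042 (cons (fin 1039 3 974)
(fin 977 0 974)))))))))))
(cons (mv 783 (cons (fin 847 7 783)
(mv 719 (cons (fin 784 7 719)
(mv 1041 (cons (fin 1105 4 848)
(mv 975 (cons (fin 973 0 973)
(mv 1042 (cons (fin 1039 3 974)
(fin 977 0 974)))))))))))
(mv 783 (cons (fin 847 7 783)
(mv 785 (cons (fin 849 6 784)
(mv 1041 (cons (fin 1105 4 848)
(mv 975 (cons (fin 973 0 973)
(mv 1042 (cons (fin 1039 3 974)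
(fin 977 0 974)))))))))))))))))
(cons (cons (mv 848 (cons (cons (mv 785 (cons (fin 849 6 784)
(mv 721 (cons (fin 784 6 720)
(mv 1039 (cons (fin 1103 5 847)
(mv 1041 (cons (fin 1105 4 848)
(mv 975 (cons (fin 1042 3 974)
(fin 973 0 973)))))))))))
(cons (mv 785 (cons (fin 849 6 784)
(mv 784 (cons (fin 721 6 720)
(mv 1039 (cons (fin 975 5 783)
(fin 1103 5 847)))))))
(mv 785 (cons (fin 849 6 784)
(mv 721 (cons (fin 784 6 720)
(mv 1041 (cons (fin 1105 4 848)
(mv 975 (cons (fin 973 0 973)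
(mv 977 (cons (fin 1042 0 974)
(mv 910 (cons (fin 909 3 909)
(mv 978 (cons (fin 911 3 910)
(mv 915 (cons (fin 914 2 911)
(mv 979 (cons (fin 980 1 976)
(fin 916 2 912)))))))))))))))))))))
(cons (mv 1039 (cons (fin 1103 5 847)
(mv 784 (cons (fin 975 5 783)
(mv 1041 (cons (fin 977 4 784)
(fin 1105 4 848)))))))
(cons (mv 785 (cons (fin 849 6 784)
(mv 1039 (cons (fin 1103 5 847)
(mv 1041 (cons (fin 1105 4 848)
(mv 975 (cons (fin 1042 3 974)
(fin 973 0 973)))))))))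
(mv 785 (cons (fin 849 6 784)
(mv 721 (cons (fin 784 6 720)
(mv 1103 (cons (fin 1039 5 847)
(mv 1104 (cons (fin 1167 5 911)
(mv 1105 (cons (fin 1041 4 848)
(fin 1169 4 912)))))))))))))))
(mv 848 (cons (cons (mv 783 (cons (fin 847 7 783)
(mv 784 (cons (fin 719 7 719)
(mv 785 (cons (fin 721 6 720)
(fin 849 6 784)))))))
(mv 785 (cons (fin 849 6 784)
(mv 784 (cons (fin 721 6 720)
(mv 1039 (cons (fin 975 5 783)
(fin 1103 5 847))))))))
(cons (mv 783 (cons (fin 847 7 783)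
(mv 784 (cons (fin 719 7 719)
(mv 1039 (cons (fin 975 5 783)
(fin 1103 5 847)))))))
(mv 785 (cons (fin 849 6 784)
(mv 847 (cons (fin 783 7 783)
(mv 1103 (cons (fin 1039 5 847)
(mv 1104 (cons (fin 911 7 847)
(fin 1167 5 911)))))))))))))
(cons (mv 848 (cons (cons (mv 783 (cons (fin 847 7 783)
(mv 719 (cons (fin 784 7 719)
(mv 785 (cons (fin 849 6 784)
(mv 1103 (cons (fin 1039 5 847)
(mv 1104 (cons (fin 1167 5 911)
(mv 1105 (cons (fin 1041 4 848)
(fin 1169 4 912)))))))))))))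
(mv 785 (cons (fin 849 6 784)
(mv 721 (cons (fin 784 6 720)
(mv 1103 (cons (fin 1039 5 847)
(mv 1104 (cons (fin 1167 5 911)
(mv 1105 (cons (fin 1041 4 848)
(fin 1169 4 912))))))))))))
(cons (mv 783 (cons (fin 847 7 783)
(mv 784 (cons (fin 719 7 719)
(mv 785 (cons (fin 721 6 720)
(fin 849 6 784)))))))
(cons (mv 783 (cons (fin 847 7 783)
(mv 719 (cons (fin 784 7 719)
(mv 1103 (cons (fin 1039 5 847)
(mv 1104 (cons (fin 1167 5 911)
(mv 1105 (cons (fin 1041 4 848)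
(fin 1169 4 912)))))))))))
(mv 783 (cons (fin 847 7 783)
(mv 785 (cons (fin 849 6 784)
(mv 1103 (cons (fin 1039 5 847)
(mv 1104 (cons (fin 1167 5 911)
(mv 1105 (cons (fin 1041 4 848)
(fin 1169 4 912)))))))))))))))
(mv 848 (cons (cons (mv 783 (cons (fin 847 7 783)
(mv 719 (cons (fin 784 7 719)
(mv 785 (cons (fin 849 6 784)
(mv 1041 (cons (fin 1105 4 848)
(mv 975 (cons (fin 973 0 973)
(mv 977 (cons (fin 1042 0 974)
(mv 910 (cons (fin 909 3 909)
(mv 782 (cons (fin 846 6 718)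
(mv 978 (cons (fin 911 3 910)
(mv 915 (cons (fin 914 2 911)
(mv 979 (cons (fin 980 1 976)
(fin 916 2 912)))))))))))))))))))))))
(mv 783 (cons (fin 847 7 783)
(mv 784 (cons (fin 719 7 719)
(mv 785 (cons (fin 721 6 720)
(fin 849 6 784))))))))
(cons (mv 785 (cons (fin 849 6 784)
(mv 721 (cons (fin 784 6 720)
(mv 1041 (cons (fin 1105 4 848)
(mv 975 (cons (fin 973 0 973)
(mv 977 (cons (fin 1042 0 974)
(mv 910 (cons (fin 909 3 909)
(mv 978 (cons (fin 911 3 910)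
(mv 915 (cons (fin 914 2 911)
(mv 979 (cons (fin 980 1 976)
(fin 916 2 912)))))))))))))))))))
(cons (mv 783 (cons (fin 847 7 783)
(mv 719 (cons (fin 784 7 719)
(mv 1041 (cons (fin 1105 4 848)
(mv 975 (cons (fin 973 0 973)
(mv 977 (cons (fin 1042 0 974)
(mv 910 (cons (fin 909 3 909)
(mv 782 (cons (fin 846 6 718)
(mv 978 (cons (fin 911 3 910)
(mv 915 (cons (fin 914 2 911)
(mv 979 (cons (fin 980 1 976)
(fin 916 2 912)))))))))))))))))))))
(mv 783 (cons (fin 847 7 783)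
(mv 785 (cons (fin 849 6 784)
(mv 1041 (cons (fin 1105 4 848)
(mv 975 (cons (fin 973 0 973)
(mv 977 (cons (fin 1042 0 974)
(mv 910 (cons (fin 909 3 909)
(mv 978 (cons (fin 911 3 910)
(mv 915 (cons (fin 914 2 911)
(mv 979 (cons (fin 980 1 976)
(fin 916 2 912))))))))))))))))))))))))))))
(cons (mv 975 (cons (cons (mv 973 (cons (fin 1041 0 973)
(mv 908 (cons (fin 909 3 908)
(mv 972 (cons (fin 907 3 907)
(fin 1039 0 972)))))))
(mv 912 (cons (cons (mv 848 (cons (mv 1039 (cons (fin 784 5 783)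
(fin 1103 5 847)))
(cons (mv 783 (cons (fin 847 7 783)
(mv 719 (cons (fin 784 7 719)
(mv 849 (cons (fin 785 6 784)
(mv 913 (cons (fin 1104 6 848)
(mv 914 (cons (fin 915 1 911)
(fin 977 2 910)))))))))))
(mv 783 (cons (fin 847 7 783)
(mv 785 (cons (fin 849 6 784)
(mv 1039 (cons (fin 1103 5 847)
(mv 1041 (cons (fin 1042 3 974)
(fin 1105 4 848))))))))))))
(cons (mv 1104 (cons (cons (mv 849 (cons (fin 913 6 848)
(mv 1105 (cons (fin 1169 4 912)
(mv 1167 (cons (fin 1103 5 911)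
(mv 1168 (cons (fin 1231 5 975)
(mv 1106 (cons (fin 1107 1 1103)
(mv 1165 (cons (fin 1166 2 1101)
(mv 1232 (cons (fin 1039 7 975)
(mv 1041 (cons (fin 977 6 976)
(fin 1296 6 1040)))))))))))))))))
(mv 1105 (cons (fin 1169 4 912)
(mv 1167 (cons (fin 1103 5 911)
(mv 1168 (cons (fin 1231 5 975)
(mv 1106 (cons (fin 1107 1 1103)
(mv 1165 (cons (fin 1166 2 1101)
(mv 1232 (cons (fin 1039 7 975)
(mv 1041 (cons (fin 977 6 976)
(fin 1296 6 1040))))))))))))))))
(cons (mv 913 (cons (fin 849 6 848)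
(mv 914 (cons (fin 915 1 911)
(fin 977 2 910)))))
(mv 849 (cons (fin 913 6 848)
(mv 1105 (cons (fin 1169 4 912)
(mv 1167 (cons (fin 1103 5 911)
(mv 1168 (cons (fin 1231 5 975)
(mv 1106 (cons (fin 1107 1 1103)
(mv 1165 (cons (fin 1166 2 1101)
(mv 1232 (cons (fin 1039 7 975)
(mv 1296 (cons (fin 1041 6 1040)
(mv 1297 (cons (fin 1233 4 1040)
(fin 1361 4 1104))))))))))))))))))))))
(mv 977 (cons (mv 909 (cons (fin 910 3 909)
(mv 913 (cons (fin 914 2 910)
(mv 849 (cons (fin 785 5 784)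
(fin 1104 6 848)))))))
(cons (mv 909 (cons (fin 910 3 909)
(mv 1041 (cons (fin 1042 0 974)
(mv 848 (cons (fin 784 4 784)
(fin 1105 4 848)))))))
(mv 913 (cons (fin 914 2 910)
(mv 849 (cons (fin 785 5 784)
(fin 1104 6 848))))))))))
(cons (cons (mv 848 (cons (mv 1039 (cons (fin 784 5 783)
(fin 1103 5 847)))
(cons (mv 783 (cons (fin 847 7 783)
(mv 719 (cons (fin 784 7 719)
(mv 849 (cons (fin 785 6 784)
(mv 1104 (cons (fin 913 6 848)
(mv 1105 (cons (fin 1041 4 848)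
(fin 1169 4 912)))))))))))
(mv 783 (cons (fin 847 7 783)
(mv 785 (cons (fin 849 6 784)
(mv 1039 (cons (fin 1103 5 847)
(mv 1041 (cons (fin 1042 3 974)
(fin 1105 4 848))))))))))))
(mv 848 (cons (mv 1039 (cons (fin 784 5 783)
(fin 1103 5 847)))
(cons (mv 783 (cons (fin 847 7 783)
(mv 784 (cons (fin 719 7 719)
(mv 785 (cons (fin 721 6 720)
(fin 849 6 784)))))))
(mv 783 (cons (fin 847 7 783)
(mv 785 (cons (fin 849 6 784)
(mv 1039 (cons (fin 1103 5 847)
(mv 1041 (cons (fin 1042 3 974)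
(fin 1105 4 848)))))))))))))
(cons (mv 848 (cons (mv 1039 (cons (fin 784 5 783)
(fin 1103 5 847)))
(cons (mv 783 (cons (fin 847 7 783)
(mv 719 (cons (fin 784 7 719)
(mv 849 (cons (fin 785 6 784)
(mv 913 (cons (fin 1104 6 848)
(mv 914 (cons (fin 915 1 911)
(fin 977 2 910)))))))))))
(mv 783 (cons (fin 847 7 783)
(mv 849 (cons (fin 785 6 784)
(mv 913 (cons (fin 1104 6 848)
(mv 914 (cons (fin 915 1 911)
(fin 977 2 910))))))))))))
(mv 848 (cons (mv 1039 (cons (fin 784 5 783)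
(fin 1103 5 847)))
(cons (mv 783 (cons (fin 847 7 783)
(mv 784 (cons (fin 719 7 719)
(mv 1041 (cons (fin 977 4 784)
(fin 1105 4 848)))))))
(mv 783 (cons (fin 847 7 783)
(mv 1039 (cons (fin 1103 5 847)
(mv 1041 (cons (fin 1042 3 974)
(fin 1105 4 848)))))))))))))))
(cons (mv 973 (cons (mv 908 (cons (fin 909 3 908)
(mv 972 (cons (fin 907 3 907)
(fin 1039 0 972)))))
(cons (mv 909 (cons (fin 908 3 908)
(mv 910 (cons (fin 977 3 909)
(mv 912 (cons (fin 913 2 909)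
(mv 1037 (cons (fin 1036 1 972)
(mv 846 (cons (fin 782 5 781)
(fin 1101 6 845)))))))))))
(mv 912 (cons (fin 913 2 909)
(mv 972 (cons (fin 1039 0 972)
(mv 1036 (cons (fin 1035 1 971)
(fin 1037 1 972))))))))))
(cons (mv 973 (cons (fin 1041 0 973)
(mv 908 (cons (fin 909 3 908)
(mv 912 (cons (fin 913 2 909)
(mv 972 (cons (fin 907 3 907)
(mv 1036 (cons (fin 1035 1 971)
(fin 1037 1 972)))))))))))
(mv 973 (cons (fin 1041 0 973)
(mv 912 (cons (fin 913 2 909)
(mv 972 (cons (fin 1039 0 972)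
(mv 1036 (cons (fin 1035 1 971)
(fin 1037 1 972)))))))))))))
(mv 975 (cons (cons (mv 973 (cons (fin 1041 0 973)
(mv 908 (cons (fin 909 3 908)
(mv 972 (cons (fin 907 3 907)
(fin 1039 0 972)))))))
(mv 977 (cons (cons (mv 909 (cons (fin 910 3 909)
(mv 913 (cons (fin 914 2 910)
(mv 849 (cons (fin 785 5 784)
(mv 1041 (cons (fin 1042 0 974)
(fin 1104 5 848)))))))))
(mv 910 (cons (fin 909 3 909)
(mv 978 (cons (fin 911 3 910)
(mv 914 (cons (fin 915 2 911)
(mv 979 (cons (fin 1039 1 975)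
(mv 1041 (cons (fin 980 1 976)
(fin 1042 0 974))))))))))))
(cons (mv 909 (cons (fin 910 3 909)
(mv 913 (cons (fin 914 2 910)
(mv 849 (cons (fin 785 5 784)
(mv 1104 (cons (fin 912 6 848)
(fin 1168 6 912)))))))))
(cons (mv 913 (cons (fin 914 2 910)
(mv 849 (cons (fin 785 5 784)
(mv 1041 (cons (fin 1042 0 974)
(fin 1104 5 848)))))))
(mv 910 (cons (fin 909 3 909)
(mv 978 (cons (fin 911 3 910)
(mv 979 (cons (fin 1039 1 975)
(mv 1041 (cons (fin 980 1 976)
(fin 1042 0 974))))))))))))))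
(cons (mv 973 (cons (mv 908 (cons (fin 909 3 908)
(mv 972 (cons (fin 907 3 907)
(fin 1039 0 972)))))
(cons (mv 909 (cons (fin 908 3 908)
(mv 910 (cons (fin 977 3 909)
(mv 912 (cons (fin 913 2 909)
(mv 1037 (cons (fin 1036 1 972)
(mv 846 (cons (fin 782 5 781)
(fin 1101 6 845)))))))))))
(mv 912 (cons (fin 913 2 909)
(mv 972 (cons (fin 911 2 908)
(fin 1039 0 972))))))))
(cons (mv 973 (cons (fin 1041 0 973)
(mv 908 (cons (fin 909 3 908)
(mv 912 (cons (fin 913 2 909)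
(mv 972 (cons (fin 907 3 907)
(fin 911 2 908)))))))))
(mv 973 (cons (fin 1041 0 973)
(mv 912 (cons (fin 913 2 909)
(mv 972 (cons (fin 911 2 908)
(fin 1039 0 972)))))))))))))
(cons (cons (mv 975 (cons (cons (mv 973 (cons (fin 1041 0 973)
(mv 908 (cons (fin 909 3 908)
(mv 972 (cons (fin 907 3 907)
(fin 1039 0 972)))))))
(mv 977 (cons (cons (mv 909 (cons (fin 910 3 909)
(mv 914 (cons (fin 913 2 910)
(mv 978 (cons (fin 915 2 911)
(mv 979 (cons (fin 1039 1 975)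
(mv 1041 (cons (fin 980 1 976)
(fin 1042 0 974)))))))))))
(mv 910 (cons (fin 909 3 909)
(mv 911 (cons (fin 978 3 910)
(mv 847 (cons (fin 783 4 783)
(mv 1104 (cons (fin 912 7 847)
(fin 1168 7 911))))))))))
(cons (mv 914 (cons (fin 913 2 910)
(mv 978 (cons (fin 915 2 911)
(mv 979 (cons (fin 1039 1 975)
(mv 1041 (cons (fin 980 1 976)
(fin 1042 0 974)))))))))
(mv 909 (cons (fin 910 3 909)
(mv 913 (cons (fin 914 2 910)
(mv 1041 (cons (fin 1042 0 974)
(mv 1104 (cons (fin 1168 6 912)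
(mv 912 (cons (mv 848 (cons (fin 1105 7 848)
(fin 784 4 784)))
(cons (mv 847 (cons (fin 911 7 847)
(mv 848 (cons (fin 783 7 783)
(fin 784 4 784)))))
(mv 847 (cons (fin 911 7 847)
(mv 1103 (cons (fin 1167 5 911)
(mv 1101 (cons (fin 1102 2 1037)
(mv 1105 (cons (fin 1169 7 912)
(mv 1106 (cons (fin 1170 4 913)
(mv 1107 (cons (fin 1039 3 1039)
(fin 1108 3 1040))))))))))))))))))))))))))))
(cons (mv 973 (cons (mv 908 (cons (fin 909 3 908)
(mv 972 (cons (fin 907 3 907)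
(fin 1039 0 972)))))
(cons (mv 909 (cons (fin 908 3 908)
(mv 910 (cons (fin 977 3 909)
(mv 912 (cons (fin 913 2 909)
(mv 1037 (cons (fin 1036 1 972)
(mv 846 (cons (fin 782 5 781)
(fin 1101 6 845)))))))))))
(mv 912 (cons (fin 913 2 909)
(mv 972 (cons (fin 911 2 908)
(fin 1039 0 972))))))))
(cons (mv 973 (cons (fin 1041 0 973)
(mv 908 (cons (fin 909 3 908)
(mv 912 (cons (fin 913 2 909)
(mv 972 (cons (fin 907 3 907)
(fin 911 2 908)))))))))
(mv 973 (cons (fin 1041 0 973)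
(mv 912 (cons (fin 913 2 909)
(mv 972 (cons (fin 911 2 908)
(fin 1039 0 972)))))))))))
(mv 975 (cons (cons (mv 973 (cons (fin 1041 0 973)
(mv 912 (cons (fin 913 2 909)
(mv 972 (cons (fin 911 2 908)
(fin 1039 0 972)))))))
(cons (mv 977 (cons (cons (mv 913 (cons (fin 914 2 910)
(mv 849 (cons (fin 785 5 784)
(mv 1041 (cons (fin 1042 0 974)
(fin 1104 5 848)))))))
(mv 1041 (cons (fin 1042 0 974)
(mv 978 (cons (mv 979 (cons (fin 1039 1 975)
(fin 980 1 976)))
(cons (mv 911 (cons (fin 910 3 910)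
(mv 783 (cons (fin 847 4 783)
(mv 914 (cons (fin 915 2 911)
(mv 786 (cons (fin 850 5 785)
(mv 1104 (cons (fin 1168 7 911)
(mv 1105 (cons (fin 1169 6 913)
(mv 912 (cons (fin 848 4 848)
(mv 1103 (cons (fin 1167 5 911)
(mv 1102 (cons (fin 1101 2 1037)
(mv 1166 (cons (fin 1165 1 1101)
(fin 1039 5 910)))))))))))))))))))))
(mv 910 (cons (fin 911 3 910)
(mv 915 (cons (fin 914 2 911)
(mv 979 (cons (fin 980 1 976)
(fin 916 2 912)))))))))))))
(cons (mv 913 (cons (fin 914 2 910)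
(mv 849 (cons (fin 785 5 784)
(mv 1104 (cons (fin 912 6 848)
(fin 1168 6 912)))))))
(cons (mv 1041 (cons (fin 1042 0 974)
(mv 911 (cons (cons (mv 783 (cons (fin 847 4 783)
(mv 978 (cons (fin 910 3 910)
(mv 979 (cons (fin 912 3 911)
(fin 1039 1 975)))))))
(mv 847 (cons (fin 783 4 783)
(mv 1104 (cons (fin 912 7 847)
(fin 1168 7 911))))))
(cons (mv 978 (cons (fin 910 3 910)
(mv 979 (cons (fin 912 3 911)
(fin 1039 1 975)))))
(mv 783 (cons (fin 847 4 783)
(mv 978 (cons (fin 910 3 910)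
(mv 979 (cons (fin 1039 1 975)
(fin 980 1 976))))))))))))
(mv 913 (cons (fin 914 2 910)
(mv 849 (cons (fin 785 5 784)
(mv 1041 (cons (fin 1042 0 974)
(mv 786 (cons (fin 850 6 785)
(mv 848 (cons (fin 784 7 784)
(mv 912 (cons (fin 1105 7 848)
(mv 847 (cons (fin 783 7 783)
(mv 846 (cons (fin 845 0 845)
(mv 782 (cons (fin 781 3 781)
(mv 1039 (cons (fin 911 7 782)
(fin 1103 5 847)))))))))))))))))))))))))
(mv 973 (cons (cons (mv 912 (cons (fin 913 2 909)
(mv 972 (cons (fin 911 2 908)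
(fin 1039 0 972)))))
(mv 912 (cons (fin 913 2 909)
(mv 1036 (cons (fin 1037 1 972)
(mv 848 (cons (mv 1039 (cons (fin 784 5 783)
(fin 1103 5 847)))
(cons (mv 783 (cons (fin 847 7 783)
(mv 784 (cons (fin 719 7 719)
(mv 785 (cons (fin 721 6 720)
(fin 849 6 784)))))))
(mv 783 (cons (fin 847 7 783)
(mv 785 (cons (fin 849 6 784)
(mv 1103 (cons (fin 1039 5 847)
(mv 1104 (cons (fin 1167 5 911)
(mv 1168 (cons (fin 911 7 911)
(mv 1169 (cons (fin 1105 4 912)
(fin 1233 4 976)))))))))))))))))))))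
(cons (mv 972 (cons (fin 1039 0 972)
(mv 1036 (cons (fin 1035 1 971)
(fin 1037 1 972)))))
(mv 912 (cons (fin 913 2 909)
(mv 911 (cons (fin 972 2 908)
(mv 847 (cons (fin 1104 7 847)
(fin 783 4 783))))))))))))
(cons (mv 973 (cons (fin 1041 0 973)
(mv 912 (cons (fin 913 2 909)
(mv 911 (cons (fin 972 2 908)
(mv 847 (cons (fin 1104 7 847)
(fin 783 4 783)))))))))
(cons (mv 973 (cons (fin 1041 0 973)
(mv 912 (cons (fin 913 2 909)
(mv 972 (cons (fin 1039 0 972)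
(mv 1036 (cons (fin 1035 1 971)
(fin 1037 1 972)))))))))
(mv 973 (cons (fin 1041 0 973)
(mv 972 (cons (fin 1039 0 972)
(mv 1036 (cons (fin 1035 1 971)
(fin 1037 1 972))))))))))))
(cons (mv 975 (cons (cons (mv 973 (cons (fin 1041 0 973)
(mv 908 (cons (fin 909 3 908)
(mv 972 (cons (fin 907 3 907)
(fin 1039 0 972)))))))
(mv 1104 (cons (cons (mv 911 (cons (fin 1168 7 911)
(mv 847 (cons (fin 912 7 847)
(fin 783 4 783)))))
(mv 912 (cons (cons (mv 847 (cons (fin 911 7 847)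
(mv 783 (cons (fin 848 7 783)
(mv 913 (cons (fin 849 6 848)
(mv 914 (cons (fin 915 1 911)
(fin 977 2 910)))))))))
(mv 849 (cons (fin 913 6 848)
(mv 848 (cons (fin 785 6 784)
(mv 1039 (cons (fin 784 5 783)
(fin 1103 5 847))))))))
(cons (mv 847 (cons (fin 911 7 847)
(mv 848 (cons (fin 783 7 783)
(mv 1039 (cons (fin 784 5 783)
(fin 1103 5 847)))))))
(mv 847 (cons (fin 911 7 847)
(mv 913 (cons (fin 849 6 848)
(mv 914 (cons (fin 915 1 911)
(fin 977 2 910)))))))))))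
(cons (mv 1168 (cons (cons (mv 913 (cons (fin 977 6 912)
(mv 849 (cons (fin 912 6 848)
(mv 1167 (cons (fin 1231 5 975)
(mv 1232 (cons (fin 1039 7 975)
(mv 1233 (cons (fin 1169 4 976)
(fin 1297 4 1040)))))))))))
(cons (mv 913 (cons (fin 977 6 912)
(mv 912 (cons (fin 849 6 848)
(mv 1167 (cons (fin 1103 5 911)
(fin 1231 5 975)))))))
(mv 1039 (cons (fin 1232 7 975)
(mv 1041 (cons (fin 1042 3 974)
(mv 1167 (cons (fin 1231 5 975)
(mv 912 (cons (fin 1103 5 911)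
(mv 848 (cons (fin 784 5 783)
(fin 1105 4 848)))))))))))))
(cons (mv 913 (cons (fin 977 6 912)
(mv 849 (cons (fin 912 6 848)
(mv 1169 (cons (fin 1233 4 976)
(mv 1232 (cons (fin 1039 7 975)
(mv 1295 (cons (fin 1231 5 1039)
(mv 1296 (cons (fin 1359 5 1103)
(mv 1105 (cons (fin 1041 6 1040)
(fin 1360 6 1104)))))))))))))))
(cons (mv 913 (cons (fin 977 6 912)
(mv 849 (cons (fin 912 6 848)
(mv 1232 (cons (fin 1039 7 975)
(mv 1233 (cons (fin 1169 4 976)
(fin 1297 4 1040)))))))))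
(mv 913 (cons (fin 977 6 912)
(mv 1167 (cons (fin 1231 5 975)
(mv 1232 (cons (fin 1039 7 975)
(mv 1233 (cons (fin 1169 4 976)
(fin 1297 4 1040)))))))))))))
(mv 911 (cons (fin 1168 7 911)
(mv 847 (cons (fin 783 4 783)
(fin 1039 4 847)))))))))
(cons (mv 973 (cons (cons (mv 908 (cons (fin 909 3 908)
(mv 972 (cons (fin 907 3 907)
(fin 1039 0 972)))))
(mv 908 (cons (fin 909 3 908)
(mv 912 (cons (fin 913 2 909)
(mv 1036 (cons (fin 1037 1 972)
(mv 848 (cons (mv 1039 (cons (fin 784 5 783)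
(fin 1103 5 847)))
(cons (mv 783 (cons (fin 847 7 783)
(mv 784 (cons (fin 719 7 719)
(mv 785 (cons (fin 721 6 720)
(fin 849 6 784)))))))
(mv 783 (cons (fin 847 7 783)
(mv 785 (cons (fin 849 6 784)
(mv 1103 (cons (fin 1039 5 847)
(mv 1104 (cons (fin 1167 5 911)
(mv 1168 (cons (fin 911 7 911)
(mv 1169 (cons (fin 1105 4 912)
(fin 1233 4 976)))))))))))))))))))))))
(cons (mv 912 (cons (fin 913 2 909)
(mv 972 (cons (fin 911 2 908)
(fin 1039 0 972)))))
(mv 908 (cons (fin 909 3 908)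
(mv 912 (cons (fin 913 2 909)
(mv 972 (cons (fin 907 3 907)
(fin 911 2 908))))))))))
(mv 973 (cons (fin 1041 0 973)
(mv 908 (cons (fin 909 3 908)
(mv 912 (cons (fin 913 2 909)
(mv 972 (cons (fin 907 3 907)
(fin 911 2 908))))))))))))
(mv 1041 (cons (cons (mv 975 (cons (fin 973 0 973)
(mv 1042 (cons (fin 1039 3 974)
(fin 977 0 974)))))
(mv 912 (cons (cons (mv 848 (cons (fin 1105 4 848)
(mv 783 (cons (fin 847 7 783)
(mv 784 (cons (fin 719 7 719)
(fin 977 4 784)))))))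
(mv 1104 (cons (cons (mv 847 (cons (fin 911 7 847)
(mv 849 (cons (fin 913 6 848)
(mv 1103 (cons (fin 1167 5 911)
(mv 1101 (cons (fin 1102 2 1037)
(mv 1169 (cons (fin 1105 4 912)
(mv 1168 (cons (fin 1233 4 976)
(mv 1170 (cons (fin 1171 3 1103)
(mv 1232 (cons (fin 977 6 976)
(mv 1295 (cons (fin 1231 5 1039)
(mv 1296 (cons (fin 1039 7 1039)
(fin 1359 5 1103)))))))))))))))))))))
(cons (mv 847 (cons (fin 911 7 847)
(mv 849 (cons (fin 913 6 848)
(mv 1103 (cons (fin 1167 5 911)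
(mv 1102 (cons (fin 1101 2 1037)
(mv 1042 (cons (fin 1039 1 1038)
(fin 1105 2 1038)))))))))))
(mv 847 (cons (fin 911 7 847)
(mv 849 (cons (fin 913 6 848)
(mv 1167 (cons (fin 1103 5 911)
(mv 1168 (cons (fin 1231 5 975)
(mv 1232 (cons (fin 977 6 976)
(mv 1233 (cons (fin 1169 4 976)
(fin 1297 4 1040)))))))))))))))
(cons (cons (mv 847 (cons (fin 911 7 847)
(mv 1103 (cons (fin 1167 5 911)
(mv 1101 (cons (fin 1102 2 1037)
(mv 1169 (cons (fin 1105 4 912)
(mv 1168 (cons (fin 1233 4 976)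
(mv 1170 (cons (fin 1171 3 1103)
(mv 1232 (cons (fin 977 6 976)
(mv 1295 (cons (fin 1231 5 1039)
(mv 1296 (cons (fin 1039 7 1039)
(fin 1359 5 1103)))))))))))))))))))
(mv 847 (cons (fin 911 7 847)
(mv 849 (cons (fin 913 6 848)
(mv 1169 (cons (fin 1105 4 912)
(mv 1168 (cons (fin 1233 4 976)
(mv 1231 (cons (fin 1167 5 975)
(mv 1232 (cons (fin 1295 5 1039)
(fin 977 6 976))))))))))))))
(cons (mv 847 (cons (fin 911 7 847)
(mv 913 (cons (fin 849 6 848)
(mv 977 (cons (fin 1168 6 912)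
(mv 1105 (cons (fin 1169 7 912)
(mv 1106 (cons (fin 1170 4 913)
(mv 1107 (cons (fin 1039 3 1039)
(fin 1108 3 1040)))))))))))))
(mv 849 (cons (fin 913 6 848)
(mv 1103 (cons (fin 1167 5 911)
(mv 1101 (cons (fin 1102 2 1037)
(mv 1169 (cons (fin 1105 4 912)
(mv 1168 (cons (fin 1233 4 976)
(mv 1170 (cons (fin 1171 3 1103)
(mv 1232 (cons (fin 977 6 976)
(mv 1295 (cons (fin 1231 5 1039)
(mv 1296 (cons (fin 1039 7 1039)
(fin 1359 5 1103))))))))))))))))))))))))
(cons (mv 848 (cons (mv 783 (cons (fin 847 7 783)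
(mv 784 (cons (fin 719 7 719)
(fin 977 4 784)))))
(cons (mv 783 (cons (fin 847 7 783)
(mv 849 (cons (fin 785 6 784)
(mv 1103 (cons (fin 1039 5 847)
(mv 1104 (cons (fin 1167 5 911)
(fin 913 6 848)))))))))
(mv 784 (cons (fin 977 4 784)
(mv 785 (cons (fin 721 6 720)
(fin 849 6 784))))))))
(cons (mv 848 (cons (fin 1105 4 848)
(mv 783 (cons (fin 847 7 783)
(mv 719 (cons (fin 784 7 719)
(mv 849 (cons (fin 785 6 784)
(mv 1103 (cons (fin 1039 5 847)
(mv 1104 (cons (fin 1167 5 911)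
(fin 913 6 848)))))))))))))
(mv 848 (cons (fin 1105 4 848)
(mv 784 (cons (fin 977 4 784)
(mv 785 (cons (fin 721 6 720)
(fin 849 6 784))))))))))))
(cons (mv 973 (cons (fin 975 0 973)
(mv 912 (cons (cons (mv 848 (cons (fin 1105 4 848)
(mv 783 (cons (fin 847 7 783)
(mv 784 (cons (fin 719 7 719)
(fin 977 4 784)))))))
(mv 1104 (cons (cons (cons (mv 847 (cons (fin 911 7 847)
(mv 849 (cons (fin 913 6 848)
(mv 1103 (cons (fin 1167 5 911)
(mv 1101 (cons (fin 1102 2 1037)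
(mv 1169 (cons (fin 1105 4 912)
(mv 1168 (cons (fin 1233 4 976)
(mv 1170 (cons (fin 1171 3 1103)
(mv 1232 (cons (fin 977 6 976)
(mv 1295 (cons (fin 1231 5 1039)
(mv 1296 (cons (fin 1039 7 1039)
(fin 1359 5 1103)))))))))))))))))))))
(mv 847 (cons (fin 911 7 847)
(mv 1103 (cons (fin 1167 5 911)
(mv 1101 (cons (fin 1102 2 1037)
(mv 1169 (cons (fin 1105 4 912)
(mv 1168 (cons (fin 1233 4 976)
(mv 1170 (cons (fin 1171 3 1103)
(mv 1232 (cons (fin 977 6 976)
(mv 1295 (cons (fin 1231 5 1039)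
(mv 1296 (cons (fin 1039 7 1039)
(fin 1359 5 1103))))))))))))))))))))
(cons (mv 847 (cons (fin 911 7 847)
(mv 849 (cons (fin 913 6 848)
(mv 1167 (cons (fin 1103 5 911)
(mv 1168 (cons (fin 1231 5 975)
(mv 1232 (cons (fin 977 6 976)
(mv 1296 (cons (fin 1105 6 1040)
(mv 1297 (cons (fin 1233 4 1040)
(fin 1361 4 1104)))))))))))))))
(mv 847 (cons (fin 911 7 847)
(mv 849 (cons (fin 913 6 848)
(mv 1167 (cons (fin 1103 5 911)
(mv 1168 (cons (fin 1231 5 975)
(mv 1232 (cons (fin 977 6 976)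
(mv 1233 (cons (fin 1169 4 976)
(fin 1297 4 1040)))))))))))))))
(cons (cons (mv 849 (cons (fin 913 6 848)
(mv 1103 (cons (fin 1167 5 911)
(mv 1101 (cons (fin 1102 2 1037)
(mv 1169 (cons (fin 1105 4 912)
(mv 1168 (cons (fin 1233 4 976)
(mv 1170 (cons (fin 1171 3 1103)
(mv 1232 (cons (fin 977 6 976)
(mv 1295 (cons (fin 1231 5 1039)
(mv 1296 (cons (fin 1039 7 1039)
(fin 1359 5 1103)))))))))))))))))))
(mv 847 (cons (fin 911 7 847)
(mv 849 (cons (fin 913 6 848)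
(mv 1169 (cons (fin 1105 4 912)
(mv 1168 (cons (fin 1233 4 976)
(mv 1231 (cons (fin 1167 5 975)
(mv 1232 (cons (fin 1295 5 1039)
(fin 977 6 976))))))))))))))
(cons (mv 847 (cons (fin 911 7 847)
(mv 913 (cons (fin 849 6 848)
(mv 977 (cons (fin 1168 6 912)
(mv 1105 (cons (fin 1169 7 912)
(mv 1106 (cons (fin 1170 4 913)
(mv 1107 (cons (fin 1039 3 1039)
(fin 1108 3 1040)))))))))))))
(cons (mv 847 (cons (fin 911 7 847)
(mv 849 (cons (fin 913 6 848)
(mv 1167 (cons (fin 1103 5 911)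
(mv 1168 (cons (fin 1231 5 975)
(mv 1169 (cons (fin 1105 4 912)
(fin 1233 4 976)))))))))))
(mv 911 (cons (fin 847 7 847)
(mv 913 (cons (fin 910 1 909)
(fin 849 6 848)))))))))))
(cons (mv 848 (cons (mv 783 (cons (fin 847 7 783)
(mv 784 (cons (fin 719 7 719)
(fin 977 4 784)))))
(cons (mv 783 (cons (fin 847 7 783)
(mv 849 (cons (fin 785 6 784)
(mv 1103 (cons (fin 1039 5 847)
(mv 1104 (cons (fin 1167 5 911)
(fin 913 6 848)))))))))
(mv 784 (cons (fin 977 4 784)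
(mv 785 (cons (fin 721 6 720)
(fin 849 6 784))))))))
(cons (mv 848 (cons (fin 1105 4 848)
(mv 783 (cons (fin 847 7 783)
(mv 719 (cons (fin 784 7 719)
(mv 849 (cons (fin 785 6 784)
(mv 1103 (cons (fin 1039 5 847)
(mv 1104 (cons (fin 1167 5 911)
(fin 913 6 848)))))))))))))
(mv 848 (cons (fin 1105 4 848)
(mv 784 (cons (fin 977 4 784)
(mv 785 (cons (fin 721 6 720)
(fin 849 6 784)))))))))))))
(cons (mv 973 (cons (fin 975 0 973)
(mv 912 (cons (cons (mv 848 (cons (fin 1105 4 848)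
(mv 783 (cons (fin 847 7 783)
(mv 719 (cons (fin 784 7 719)
(mv 849 (cons (fin 785 6 784)
(mv 1103 (cons (fin 1039 5 847)
(mv 1104 (cons (fin 1167 5 911)
(fin 913 6 848)))))))))))))
(cons (mv 1104 (cons (cons (mv 847 (cons (fin 911 7 847)
(mv 849 (cons (fin 913 6 848)
(mv 1103 (cons (fin 1167 5 911)
(mv 1102 (cons (fin 1101 2 1037)
(mv 1042 (cons (fin 1039 1 1038)
(fin 1105 2 1038)))))))))))
(mv 911 (cons (fin 847 7 847)
(mv 913 (cons (fin 910 1 909)
(fin 849 6 848))))))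
(cons (mv 849 (cons (fin 913 6 848)
(mv 1103 (cons (fin 1167 5 911)
(mv 1102 (cons (fin 1101 2 1037)
(mv 1042 (cons (fin 1039 1 1038)
(fin 1105 2 1038)))))))))
(mv 847 (cons (fin 911 7 847)
(mv 1103 (cons (fin 1167 5 911)
(mv 1102 (cons (fin 1101 2 1037)
(mv 1042 (cons (fin 1039 1 1038)
(fin 1105 2 1038))))))))))))
(mv 1104 (cons (cons (mv 847 (cons (fin 911 7 847)
(mv 848 (cons (fin 783 7 783)
(mv 849 (cons (fin 785 6 784)
(fin 913 6 848)))))))
(mv 849 (cons (fin 913 6 848)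
(mv 848 (cons (fin 785 6 784)
(mv 1103 (cons (fin 1039 5 847)
(fin 1167 5 911))))))))
(cons (mv 847 (cons (fin 911 7 847)
(mv 848 (cons (fin 783 7 783)
(mv 1103 (cons (fin 1039 5 847)
(fin 1167 5 911)))))))
(mv 911 (cons (fin 847 7 847)
(mv 913 (cons (fin 910 1 909)
(fin 849 6 848))))))))))
(cons (mv 848 (cons (fin 1105 4 848)
(mv 783 (cons (fin 847 7 783)
(mv 784 (cons (fin 719 7 719)
(mv 785 (cons (fin 721 6 720)
(fin 849 6 784)))))))))
(cons (mv 848 (cons (fin 1105 4 848)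
(mv 847 (cons (fin 783 7 783)
(mv 911 (cons (fin 1104 7 847)
(mv 910 (cons (fin 913 1 909)
(mv 909 (cons (fin 972 1 908)
(fin 908 2 844)))))))))))
(mv 848 (cons (fin 1105 4 848)
(mv 849 (cons (fin 785 6 784)
(mv 1103 (cons (fin 1039 5 847)
(mv 1104 (cons (fin 1167 5 911)
(fin 913 6 848)))))))))))))))
(mv 975 (cons (fin 973 0 973)
(mv 977 (cons (fin 1042 0 974)
(mv 910 (cons (fin 909 3 909)
(mv 911 (cons (fin 978 3 910)
(mv 847 (cons (fin 783 4 783)
(mv 1104 (cons (fin 912 7 847)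
(fin 1168 7 911))))))))))))))))))))))
def l31 : Lem := ⟨11781361728633673533054441723117730079171283746239247440356909899588005244909514899260159721150817405942924420470662491174673842036557007391209044253460063708080530407354770956693342717623350878333880262063391977041189311657559161319740834448813323445848447489700891174053752382374267171085078592036680673850818560, 88076925712497014063020825709885637302558498402541620847326692593427158496396285368635923334562235851093817391059655150600863394371380176002650225830675562092436974336565746640881319526458550575643480561213091961742691189848441779785332439469517905776667341171374394394765386335418373605710121241198746972447546227203659485056987105733807167751529252040075846048368721777703099932187982329105453209764510040064, 88076925712497014063020825709885637302558498402541620847326692593427158496396285368635923334562235851093817391059655150600863394371380176002650225830675562092436974336565746640881319526458550575643480561213091961742691189848441779785332439469517905776667341171374394394765386335418373605710121241198746972447546227203659485056987105733807167751529252040075846048368721777703099932187982329105453209764510040064,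 18, 33⟩
theorem l31_valid : l31.Valid :=
  Lem.valid_of_chk t31 t31_valid [974, 1040] c31 l31 (by decide +kernel)
end Crest.Agent.SnakyAux
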