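import Crest.Agent.S0047_aux.Checker

set_option autoImplicit false
set_option maxRecDepth 100000
namespace Crest.Agent.SnakyAux
open Cert
def t32 : Tbl := Tbl.nil
theorem t32_valid : t32.Valid := Tbl.valid_nil
def c32 : Cert :=
(mv 1038 (cons (cons (cons (mv 1039 (cons (cons (mv 973 (cons (fin 1041 3 973)
(mv 972 (cons (fin 1037 3 972)
(fin 971 0 971)))))
(mv 1037 (cons (cons (mv 972 (cons (fin 973 3 972)
(mv 971 (cons (fin 1036 3 971)
(mv 976 (cons (fin 977 2 973)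
(mv 1101 (cons (fin 1100 1 1036)
(mv 910 (cons (fin 846 5 845)
(mv 1165 (cons (fin 1102 5 909)
(fin 1229 6 973)))))))))))))
(mv 976 (cons (fin 977 2 973)
(mv 975 (cons (fin 1036 2 972)
(mv 1100 (cons (fin 1101 1 1036)
(mv 1104 (cons (fin 1105 0 1037)
(mv 1168 (cons (fin 1232 7 975)
(mv 1167 (cons (fin 1231 5 975)
(mv 1103 (cons (fin 910 7 910)
(fin 912 5 911))))))))))))))))
(cons (mv 972 (cons (fin 973 3 972)
(mv 976 (cons (fin 977 2 973)
(mv 1036 (cons (fin 971 3 971)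
(fin 975 2 972)))))))
(cons (mv 972 (cons (fin 973 3 972)
(mv 971 (cons (fin 1036 3 971)
(mv 1101 (cons (fin 1100 1 1036)
(mv 910 (cons (fin 846 5 845)
(mv 1165 (cons (fin 1102 5 909)
(fin 1229 6 973)))))))))))
(mv 972 (cons (fin 973 3 972)
(mv 976 (cons (fin 977 2 973)
(mv 1101 (cons (fin 1100 1 1036)
(mv 910 (cons (fin 846 5 845)
(mv 1165 (cons (fin 1102 5 909)
(fin 1229 6 973))))))))))))))))
(cons (mv 1041 (cons (cons (mv 975 (cons (fin 1042 3 974)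
(mv 977 (cons (fin 978 2 974)
(mv 976 (cons (fin 1037 1 973)
(mv 909 (cons (fin 910 3 909)
(mv 913 (cons (fin 914 2 910)
(mv 849 (cons (fin 785 5 784)
(fin 1104 5 848)))))))))))))
(mv 977 (cons (fin 978 2 974)
(mv 976 (cons (fin 1037 2 973)
(mv 1101 (cons (fin 1102 1 1037)
(mv 1105 (cons (fin 1106 0 1038)
(mv 912 (cons (fin 1169 7 912)
(fin 848 4 848))))))))))))
(cons (mv 975 (cons (fin 1042 3 974)
(mv 1101 (cons (fin 1102 1 1037)
(mv 1037 (cons (fin 1100 1 1036)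
(mv 1036 (cons (fin 1035 2 971)
(fin 976 2 972)))))))))
(mv 975 (cons (fin 1042 3 974)
(mv 977 (cons (fin 978 2 974)
(mv 1102 (cons (fin 1101 1 1037)
(mv 1105 (cons (fin 1106 0 1038)
(mv 1166 (cons (fin 1230 6 974)
(mv 1165 (cons (fin 1229 5 973)
(mv 1103 (cons (fin 1104 1 1101)
(mv 910 (cons (fin 1167 7 910)
(fin 846 4 846))))))))))))))))))))
(mv 973 (cons (fin 1041 3 973)
(mv 972 (cons (fin 971 0 971)
(fin 975 0 972))))))))
(cons (mv 1102 (cons (cons (cons (mv 1166 (cons (cons (mv 909 (cons (fin 973 7 909)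
(mv 845 (cons (fin 910 7 845)
(mv 1229 (cons (fin 1165 5 973)
(mv 1230 (cons (fin 1293 5 1037)
(mv 1231 (cons (fin 1167 4 974)
(fin 1295 4 1038)))))))))))
(mv 909 (cons (fin 973 7 909)
(mv 910 (cons (fin 845 7 845)
(mv 1167 (cons (fin 1103 4 910)
(fin 1231 4 974))))))))
(cons (mv 909 (cons (fin 973 7 909)
(mv 910 (cons (fin 845 7 845)
(mv 1165 (cons (fin 1101 5 909)
(fin 1229 5 973)))))))
(cons (mv 1165 (cons (fin 1229 5 973)
(mv 910 (cons (fin 1101 5 909)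
(mv 1167 (cons (fin 1103 4 910)
(fin 1231 4 974)))))))
(mv 909 (cons (fin 973 7 909)
(mv 1229 (cons (fin 1165 5 973)
(mv 1230 (cons (fin 1293 5 1037)
(mv 1231 (cons (fin 1167 4 974)
(fin 1295 4 1038)))))))))))))
(mv 910 (cons (cons (mv 845 (cons (fin 909 7 845)
(mv 781 (cons (fin 846 7 781)
(mv 1101 (cons (fin 1165 5 909)
(mv 1103 (cons (fin 1167 4 910)
(mv 1104 (cons (fin 1041 2 1037)
(mv 1037 (cons (fin 1036 3 1036)
(fin 1105 3 1037)))))))))))))
(cons (mv 1103 (cons (fin 1167 4 910)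
(mv 846 (cons (cons (mv 845 (cons (fin 781 7 781)
(fin 909 7 845)))
(mv 783 (cons (fin 847 6 782)
(mv 782 (cons (fin 719 6 718)
(mv 717 (cons (fin 781 7 717)
(mv 718 (cons (fin 653 7 653)
(mv 973 (cons (fin 909 5 717)
(fin 1037 5 781))))))))))))
(cons (mv 783 (cons (fin 847 6 782)
(mv 782 (cons (fin 719 6 718)
(mv 909 (cons (fin 845 7 845)
(mv 973 (cons (fin 718 5 717)
(fin 1037 5 781)))))))))
(mv 781 (cons (fin 845 7 781)
(mv 782 (cons (fin 717 7 717)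
(mv 783 (cons (fin 719 6 718)
(fin 847 6 782))))))))))))
(mv 1101 (cons (fin 1165 5 909)
(mv 1037 (cons (fin 846 5 845)
(mv 1103 (cons (fin 1167 4 910)
(mv 1036 (cons (fin 1104 3 1036)
(fin 1035 0 1035)))))))))))
(cons (mv 845 (cons (fin 909 7 845)
(mv 846 (cons (fin 781 7 781)
(mv 1101 (cons (fin 1037 5 845)
(fin 1165 5 909)))))))
(cons (mv 845 (cons (fin 909 7 845)
(mv 1101 (cons (fin 1165 5 909)
(mv 1103 (cons (fin 1167 4 910)
(mv 1104 (cons (fin 1041 2 1037)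
(mv 1037 (cons (fin 1036 3 1036)
(fin 1105 3 1037)))))))))))
(mv 909 (cons (fin 845 7 845)
(mv 1101 (cons (fin 1165 5 909)
(mv 1103 (cons (fin 1167 4 910)
(mv 1104 (cons (fin 1041 2 1037)
(mv 1169 (cons (fin 1168 0 1101)
(mv 1105 (cons (fin 1170 0 1102)
(mv 976 (cons (fin 912 4 912)
(mv 975 (cons (fin 977 3 909)
(mv 908 (cons (fin 973 3 908)
(fin 907 0 907))))))))))))))))))))))))
(cons (mv 1166 (cons (cons (mv 909 (cons (fin 973 7 909)
(mv 1229 (cons (fin 1165 5 973)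
(mv 1230 (cons (fin 1293 5 1037)
(mv 1231 (cons (fin 1167 4 974)
(fin 1295 4 1038)))))))))
(mv 1229 (cons (fin 1165 5 973)
(mv 1230 (cons (fin 1293 5 1037)
(mv 1231 (cons (fin 1167 4 974)
(fin 1295 4 1038))))))))
(cons (mv 973 (cons (fin 909 7 909)
(mv 1230 (cons (fin 1037 7 973)
(mv 1231 (cons (fin 1167 4 974)
(fin 1295 4 1038)))))))
(cons (mv 973 (cons (fin 909 7 909)
(mv 1229 (cons (fin 1165 5 973)
(mv 1230 (cons (fin 1037 7 973)
(fin 1293 5 1037)))))))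
(mv 909 (cons (fin 973 7 909)
(mv 1165 (cons (fin 1229 5 973)
(mv 1167 (cons (fin 1231 4 974)
(mv 1168 (cons (mv 1101 (cons (fin 1100 3 1100)
(fin 1169 3 1101)))
(cons (mv 1104 (cons (fin 1105 2 1101)
(mv 1103 (cons (fin 1164 2 1100)
(mv 912 (cons (fin 976 5 911)
(mv 1169 (cons (fin 1170 3 1102)
(mv 1233 (cons (fin 1232 0 1165)
(fin 1234 0 1166)))))))))))
(mv 1100 (cons (fin 1101 3 1100)
(mv 1104 (cons (fin 1105 2 1101)
(mv 1164 (cons (fin 1099 3 1099)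
(fin 1103 2 1100))))))))))))))))))))
(mv 1166 (cons (cons (mv 909 (cons (fin 973 7 909)
(mv 910 (cons (fin 845 7 845)
(mv 1167 (cons (fin 1103 4 910)
(fin 1231 4 974)))))))
(mv 973 (cons (fin 909 7 909)
(mv 1230 (cons (fin 1037 7 973)
(mv 1293 (cons (fin 1229 5 1037)
(mv 1294 (cons (fin 1357 5 1101)
(mv 1295 (cons (fin 1231 4 1038)
(fin 1359 4 1102))))))))))))
(cons (mv 1167 (cons (fin 1231 4 974)
(mv 1103 (cons (fin 910 4 910)
(mv 1101 (cons (mv 1100 (cons (fin 1099 0 1099)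
(fin 1168 0 1100)))
(cons (mv 1099 (cons (fin 1100 0 1099)
(mv 1104 (cons (fin 1041 2 1037)
(mv 1037 (cons (fin 1036 3 1036)
(fin 1105 3 1037)))))))
(mv 1104 (cons (fin 1041 2 1037)
(mv 1037 (cons (fin 1036 3 1036)
(fin 1105 3 1037))))))))))))
(mv 909 (cons (fin 973 7 909)
(mv 910 (cons (fin 845 7 845)
(mv 1103 (cons (fin 1167 4 910)
(mv 1104 (cons (cons (mv 1037 (cons (fin 1105 3 1037)
(mv 1036 (cons (fin 1101 3 1036)
(fin 1035 0 1035)))))
(mv 1041 (cons (fin 1101 2 1037)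
(mv 1105 (cons (fin 1042 2 1038)
(mv 1169 (cons (fin 1170 0 1102)
(mv 976 (cons (fin 1233 7 976)
(fin 912 4 912))))))))))
(cons (mv 1105 (cons (fin 1037 3 1037)
(mv 1041 (cons (fin 1042 2 1038)
(mv 1169 (cons (fin 1170 0 1102)
(mv 976 (cons (fin 1233 7 976)
(fin 912 4 912)))))))))
(mv 1101 (cons (fin 1041 2 1037)
(mv 1037 (cons (fin 1036 3 1036)
(fin 846 5 845)))))))))))))))))))
(cons (cons (mv 1166 (cons (cons (mv 1165 (cons (fin 1229 5 973)
(mv 910 (cons (fin 1101 5 909)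
(mv 1167 (cons (fin 1103 4 910)
(fin 1231 4 974)))))))
(cons (mv 1231 (cons (fin 1167 4 974)
(mv 1230 (cons (fin 1295 4 1038)
(mv 1037 (cons (fin 973 7 973)
(mv 1293 (cons (fin 1229 5 1037)
(mv 1294 (cons (fin 1101 7 1037)
(fin 1357 5 1101)))))))))))
(mv 1229 (cons (fin 1165 5 973)
(mv 1230 (cons (fin 1293 5 1037)
(mv 1037 (cons (fin 973 7 973)
(mv 1294 (cons (fin 1101 7 1037)
(mv 1295 (cons (fin 1231 4 1038)
(fin 1359 4 1102)))))))))))))
(cons (mv 1167 (cons (fin 1231 4 974)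
(mv 910 (cons (fin 1103 4 910)
(mv 1101 (cons (fin 1165 5 909)
(mv 846 (cons (fin 1037 5 845)
(mv 781 (cons (fin 845 7 781)
(mv 782 (cons (fin 717 7 717)
(mv 783 (cons (fin 719 6 718)
(fin 847 6 782)))))))))))))))
(cons (mv 1229 (cons (fin 1165 5 973)
(mv 1230 (cons (fin 1293 5 1037)
(mv 1037 (cons (fin 973 7 973)
(mv 1101 (cons (fin 1294 7 1037)
(mv 910 (cons (fin 846 5 845)
(mv 1103 (cons (fin 1167 4 910)
(mv 1036 (cons (fin 1104 3 1036)
(fin 1035 0 1035)))))))))))))))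
(mv 1165 (cons (fin 1229 5 973)
(mv 1167 (cons (fin 1231 4 974)
(mv 1103 (cons (fin 910 4 910)
(mv 1104 (cons (fin 1105 1 1101)
(fin 1164 2 1100)))))))))))))
(mv 910 (cons (cons (mv 845 (cons (fin 909 7 845)
(mv 846 (cons (fin 781 7 781)
(mv 1101 (cons (fin 1037 5 845)
(fin 1165 5 909)))))))
(mv 1101 (cons (fin 1165 5 909)
(mv 846 (cons (fin 1037 5 845)
(mv 781 (cons (fin 845 7 781)
(mv 782 (cons (fin 717 7 717)
(mv 783 (cons (fin 719 6 718)
(fin 847 6 782))))))))))))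
(cons (mv 846 (cons (cons (mv 845 (cons (fin 781 7 781)
(fin 909 7 845)))
(mv 783 (cons (fin 847 6 782)
(mv 782 (cons (fin 719 6 718)
(mv 717 (cons (fin 781 7 717)
(mv 718 (cons (fin 653 7 653)
(mv 973 (cons (fin 909 5 717)
(fin 1037 5 781))))))))))))
(cons (mv 781 (cons (fin 845 7 781)
(mv 782 (cons (fin 717 7 717)
(mv 783 (cons (fin 719 6 718)
(fin 847 6 782)))))))
(mv 783 (cons (fin 847 6 782)
(mv 782 (cons (fin 719 6 718)
(mv 909 (cons (fin 845 7 845)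
(mv 973 (cons (fin 1166 7 909)
(fin 718 5 717))))))))))))
(cons (mv 1166 (cons (mv 1165 (cons (fin 1101 5 909)
(fin 1229 5 973)))
(cons (mv 973 (cons (fin 909 7 909)
(mv 1037 (cons (fin 1230 7 973)
(mv 846 (cons (fin 782 5 781)
(fin 1101 5 845)))))))
(mv 973 (cons (fin 909 7 909)
(mv 1229 (cons (fin 1165 5 973)
(mv 1230 (cons (fin 1037 7 973)
(fin 1293 5 1037))))))))))
(mv 909 (cons (fin 845 7 845)
(mv 1165 (cons (fin 1101 5 909)
(mv 1166 (cons (fin 973 7 909)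
(fin 1229 5 973))))))))))))
(cons (mv 1166 (cons (cons (mv 909 (cons (fin 973 7 909)
(mv 845 (cons (fin 910 7 845)
(mv 1229 (cons (fin 1165 5 973)
(mv 1230 (cons (fin 1293 5 1037)
(mv 1231 (cons (fin 1167 4 974)
(fin 1295 4 1038)))))))))))
(mv 1165 (cons (fin 1229 5 973)
(mv 1167 (cons (fin 1231 4 974)
(mv 1103 (cons (fin 910 4 910)
(mv 1104 (cons (fin 1105 1 1101)
(fin 1164 2 1100))))))))))
(cons (mv 973 (cons (fin 909 7 909)
(mv 1229 (cons (fin 1165 5 973)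
(mv 1230 (cons (fin 1037 7 973)
(fin 1293 5 1037)))))))
(mv 909 (cons (fin 973 7 909)
(mv 910 (cons (fin 845 7 845)
(mv 1167 (cons (fin 1103 4 910)
(fin 1231 4 974))))))))))
(mv 1166 (cons (cons (mv 1165 (cons (fin 1229 5 973)
(mv 910 (cons (fin 1101 5 909)
(mv 1167 (cons (fin 1103 4 910)
(fin 1231 4 974)))))))
(mv 1167 (cons (fin 1231 4 974)
(mv 1103 (cons (fin 910 4 910)
(mv 1101 (cons (mv 1100 (cons (fin 1099 0 1099)
(fin 1168 0 1100)))
(cons (mv 1099 (cons (fin 1100 0 1099)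
(mv 1104 (cons (fin 1041 2 1037)
(mv 1037 (cons (fin 1036 3 1036)
(fin 1105 3 1037)))))))
(mv 1104 (cons (fin 1041 2 1037)
(mv 1037 (cons (fin 1036 3 1036)
(fin 1105 3 1037)))))))))))))
(cons (mv 1230 (cons (mv 1229 (cons (fin 1165 5 973)
(fin 1293 5 1037)))
(cons (mv 1295 (cons (fin 1231 4 1038)
(mv 1294 (cons (fin 1359 4 1102)
(mv 1101 (cons (fin 1037 7 1037)
(mv 1165 (cons (fin 1358 7 1101)
(fin 910 5 909)))))))))
(mv 1293 (cons (fin 1229 5 1037)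
(mv 1294 (cons (fin 1357 5 1101)
(mv 1295 (cons (fin 1231 4 1038)
(fin 1359 4 1102))))))))))
(cons (mv 1165 (cons (fin 1229 5 973)
(mv 1103 (cons (mv 910 (cons (fin 1101 5 909)
(fin 1167 4 910)))
(cons (mv 1104 (cons (fin 1105 1 1101)
(mv 1101 (cons (fin 1164 1 1100)
(fin 1041 2 1037)))))
(mv 1104 (cons (fin 1105 1 1101)
(mv 1164 (cons (fin 1163 2 1099)
(fin 1167 2 1100))))))))))
(mv 1229 (cons (fin 1165 5 973)
(mv 1230 (cons (fin 1293 5 1037)
(mv 1231 (cons (fin 1167 4 974)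
(fin 1295 4 1038)))))))))))))))
(mv 1039 (cons (cons (cons (mv 1041 (cons (cons (mv 975 (cons (fin 1042 3 974)
(mv 977 (cons (fin 978 2 974)
(mv 976 (cons (fin 1037 1 973)
(mv 909 (cons (fin 910 3 909)
(mv 913 (cons (fin 914 2 910)
(mv 849 (cons (fin 785 5 784)
(fin 1104 5 848)))))))))))))
(mv 977 (cons (fin 978 2 974)
(mv 976 (cons (fin 1037 2 973)
(mv 1101 (cons (fin 1102 1 1037)
(mv 1105 (cons (fin 1106 0 1038)
(mv 912 (cons (fin 1169 7 912)
(fin 848 4 848))))))))))))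
(cons (mv 975 (cons (fin 1042 3 974)
(mv 1101 (cons (fin 1102 1 1037)
(mv 1037 (cons (fin 1100 1 1036)
(mv 1036 (cons (fin 1035 2 971)
(fin 976 2 972)))))))))
(mv 975 (cons (fin 1042 3 974)
(mv 977 (cons (fin 978 2 974)
(mv 1102 (cons (fin 1101 1 1037)
(mv 1105 (cons (fin 1106 0 1038)
(mv 1166 (cons (fin 1230 6 974)
(mv 1165 (cons (fin 1229 5 973)
(mv 1103 (cons (fin 1104 1 1101)
(mv 910 (cons (fin 1167 7 910)
(fin 846 4 846))))))))))))))))))))
(mv 1037 (cons (cons (mv 976 (cons (fin 977 2 973)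
(mv 975 (cons (fin 1036 2 972)
(mv 1100 (cons (fin 1101 1 1036)
(mv 1104 (cons (fin 1105 0 1037)
(mv 1168 (cons (fin 1232 7 975)
(mv 1167 (cons (fin 1231 5 975)
(mv 1103 (cons (fin 910 7 910)
(fin 912 5 911)))))))))))))))
(mv 1100 (cons (fin 1101 1 1036)
(mv 1036 (cons (fin 1099 1 1035)
(mv 1104 (cons (fin 1103 0 1036)
(fin 1105 0 1037))))))))
(cons (mv 976 (cons (fin 977 2 973)
(mv 975 (cons (fin 1036 2 972)
(mv 1104 (cons (fin 1105 0 1037)
(mv 1168 (cons (fin 1232 7 975)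
(mv 1167 (cons (fin 1231 5 975)
(mv 1103 (cons (fin 910 7 910)
(fin 912 5 911)))))))))))))
(cons (mv 976 (cons (fin 977 2 973)
(mv 975 (cons (fin 1036 2 972)
(mv 1101 (cons (fin 1100 1 1036)
(mv 910 (cons (fin 846 5 845)
(mv 1165 (cons (fin 1102 5 909)
(fin 1229 6 973)))))))))))
(mv 976 (cons (fin 977 2 973)
(mv 1101 (cons (fin 1100 1 1036)
(mv 910 (cons (fin 846 5 845)
(mv 1165 (cons (fin 1102 5 909)
(fin 1229 6 973))))))))))))))
(cons (mv 1041 (cons (cons (mv 975 (cons (fin 1042 3 974)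
(mv 977 (cons (fin 978 2 974)
(mv 1102 (cons (fin 1101 1 1037)
(mv 1105 (cons (fin 1106 0 1038)
(mv 1166 (cons (fin 1230 6 974)
(mv 1165 (cons (fin 1229 5 973)
(mv 1103 (cons (fin 1104 1 1101)
(mv 910 (cons (fin 1167 7 910)
(fin 846 4 846)))))))))))))))))
(mv 977 (cons (fin 978 2 974)
(mv 1101 (cons (fin 1102 1 1037)
(mv 1105 (cons (fin 1106 0 1038)
(mv 913 (cons (mv 1104 (cons (fin 849 5 848)
(fin 1168 5 912)))
(cons (mv 848 (cons (fin 912 7 848)
(mv 849 (cons (fin 784 7 784)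
(mv 850 (cons (fin 786 6 785)
(fin 914 6 849)))))))
(mv 848 (cons (fin 912 7 848)
(mv 850 (cons (fin 914 6 849)
(mv 1168 (cons (fin 1104 5 912)
(mv 1169 (cons (fin 1232 5 976)
(mv 1233 (cons (fin 976 7 976)
(mv 1234 (cons (fin 1170 4 977)
(fin 1298 4 1041)))))))))))))))))))))))
(cons (mv 977 (cons (fin 978 2 974)
(mv 1042 (cons (fin 975 3 974)
(mv 1106 (cons (fin 1105 0 1038)
(fin 1107 0 1039)))))))
(cons (mv 975 (cons (fin 1042 3 974)
(mv 977 (cons (fin 978 2 974)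
(mv 1102 (cons (fin 1101 1 1037)
(mv 1166 (cons (fin 1230 6 974)
(mv 1165 (cons (fin 1229 5 973)
(mv 1167 (cons (fin 1231 4 974)
(mv 910 (cons (fin 1103 7 910)
(mv 909 (cons (fin 976 3 909)
(fin 845 7 845)))))))))))))))))
(mv 975 (cons (fin 1042 3 974)
(mv 1102 (cons (fin 1101 1 1037)
(mv 1105 (cons (fin 1106 0 1038)
(mv 1166 (cons (fin 1230 6 974)
(mv 1165 (cons (fin 1229 5 973)
(mv 1103 (cons (fin 1104 1 1101)
(mv 910 (cons (fin 1167 7 910)
(fin 846 4 846)))))))))))))))))))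
(cons (mv 1041 (cons (cons (mv 975 (cons (fin 1042 3 974)
(mv 977 (cons (fin 978 2 974)
(mv 976 (cons (fin 1037 1 973)
(mv 909 (cons (fin 910 3 909)
(mv 913 (cons (fin 914 2 910)
(mv 849 (cons (fin 785 5 784)
(fin 1104 5 848)))))))))))))
(mv 977 (cons (fin 978 2 974)
(mv 976 (cons (fin 1037 2 973)
(mv 1101 (cons (fin 1102 1 1037)
(mv 1105 (cons (fin 1106 0 1038)
(mv 912 (cons (fin 1169 7 912)
(fin 848 4 848))))))))))))
(cons (mv 975 (cons (fin 1042 3 974)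
(mv 1101 (cons (fin 1102 1 1037)
(mv 1037 (cons (fin 1100 1 1036)
(mv 1036 (cons (fin 1035 2 971)
(fin 976 2 972)))))))))
(cons (mv 975 (cons (fin 1042 3 974)
(mv 977 (cons (fin 978 2 974)
(mv 1102 (cons (fin 1101 1 1037)
(mv 1105 (cons (fin 1106 0 1038)
(mv 1166 (cons (fin 1230 6 974)
(mv 1165 (cons (fin 1229 5 973)
(mv 1167 (cons (fin 1231 4 974)
(mv 1104 (cons (fin 1168 2 1101)
(mv 913 (cons (fin 849 5 848)
(mv 914 (cons (fin 976 2 910)
(fin 850 6 849)))))))))))))))))))))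
(mv 975 (cons (fin 1042 3 974)
(mv 977 (cons (fin 978 2 974)
(mv 1101 (cons (fin 1102 1 1037)
(mv 1037 (cons (fin 1100 1 1036)
(mv 1105 (cons (fin 1104 0 1037)
(fin 1106 0 1038)))))))))))))))
(mv 1041 (cons (cons (mv 975 (cons (fin 1042 3 974)
(mv 977 (cons (fin 978 2 974)
(mv 976 (cons (fin 1037 1 973)
(mv 909 (cons (fin 910 3 909)
(mv 913 (cons (fin 914 2 910)
(mv 849 (cons (fin 785 5 784)
(fin 1104 5 848)))))))))))))
(mv 977 (cons (fin 978 2 974)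
(mv 976 (cons (fin 1037 2 973)
(mv 1105 (cons (fin 1106 0 1038)
(mv 912 (cons (fin 1169 7 912)
(fin 848 4 848))))))))))
(cons (mv 975 (cons (fin 1042 3 974)
(mv 1105 (cons (fin 1106 0 1038)
(mv 1037 (cons (fin 1104 0 1037)
(mv 1036 (cons (fin 1035 2 971)
(fin 976 2 972)))))))))
(mv 977 (cons (fin 978 2 974)
(mv 1042 (cons (fin 975 3 974)
(mv 1106 (cons (fin 1105 0 1038)
(fin 1107 0 1039)))))))))))))
(cons (cons (mv 1041 (cons (cons (mv 975 (cons (fin 1042 3 974)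
(mv 1101 (cons (fin 1102 1 1037)
(mv 1037 (cons (fin 1100 1 1036)
(mv 1036 (cons (fin 1035 2 971)
(fin 976 2 972)))))))))
(mv 1101 (cons (fin 1102 1 1037)
(mv 1037 (cons (fin 1100 1 1036)
(mv 1105 (cons (fin 1104 0 1037)
(fin 1106 0 1038))))))))
(cons (mv 975 (cons (fin 1042 3 974)
(mv 1105 (cons (fin 1106 0 1038)
(mv 1037 (cons (fin 1104 0 1037)
(mv 1036 (cons (fin 1035 2 971)
(fin 976 2 972)))))))))
(mv 975 (cons (fin 1042 3 974)
(mv 1102 (cons (fin 1101 1 1037)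
(mv 1105 (cons (fin 1106 0 1038)
(mv 1166 (cons (fin 1230 6 974)
(mv 1165 (cons (fin 1229 5 973)
(mv 1103 (cons (fin 1104 1 1101)
(mv 910 (cons (fin 1167 7 910)
(fin 846 4 846))))))))))))))))))
(cons (mv 1041 (cons (cons (mv 975 (cons (fin 1042 3 974)
(mv 977 (cons (fin 978 2 974)
(mv 976 (cons (fin 1037 1 973)
(mv 909 (cons (fin 910 3 909)
(mv 913 (cons (fin 914 2 910)
(mv 849 (cons (fin 785 5 784)
(fin 1104 5 848)))))))))))))
(mv 977 (cons (fin 978 2 974)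
(mv 1037 (cons (fin 976 2 973)
(mv 1101 (cons (fin 1100 1 1036)
(fin 1102 1 1037))))))))
(cons (mv 975 (cons (fin 1042 3 974)
(mv 1101 (cons (fin 1102 1 1037)
(mv 1037 (cons (fin 1100 1 1036)
(mv 1036 (cons (fin 1035 2 971)
(fin 976 2 972)))))))))
(cons (mv 975 (cons (fin 1042 3 974)
(mv 977 (cons (fin 978 2 974)
(mv 1102 (cons (fin 1101 1 1037)
(mv 1166 (cons (fin 1230 6 974)
(mv 1165 (cons (fin 1229 5 973)
(mv 1167 (cons (fin 1231 4 974)
(mv 910 (cons (fin 1103 7 910)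
(mv 909 (cons (fin 976 3 909)
(fin 845 7 845)))))))))))))))))
(mv 975 (cons (fin 1042 3 974)
(mv 977 (cons (fin 978 2 974)
(mv 1101 (cons (fin 1102 1 1037)
(mv 1037 (cons (fin 1100 1 1036)
(mv 910 (cons (fin 846 5 845)
(mv 1036 (cons (fin 1035 2 971)
(mv 1103 (cons (fin 1104 0 1036)
(fin 1167 7 910)))))))))))))))))))
(mv 1037 (cons (cons (mv 976 (cons (fin 977 2 973)
(mv 1100 (cons (fin 1101 1 1036)
(mv 1036 (cons (fin 1099 1 1035)
(mv 1104 (cons (fin 1103 0 1036)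
(fin 1105 0 1037)))))))))
(mv 976 (cons (fin 977 2 973)
(mv 1104 (cons (fin 1105 0 1037)
(mv 1036 (cons (fin 1103 0 1036)
(mv 971 (cons (fin 972 3 971)
(mv 1035 (cons (fin 970 3 970)
(mv 1099 (cons (fin 1098 1 1034)
(fin 1100 1 1035))))))))))))))
(cons (mv 976 (cons (fin 977 2 973)
(mv 1101 (cons (fin 1100 1 1036)
(mv 910 (cons (fin 846 5 845)
(mv 1102 (cons (fin 1041 1 1037)
(fin 1165 5 909)))))))))
(cons (mv 976 (cons (fin 977 2 973)
(mv 1104 (cons (fin 1105 0 1037)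
(mv 1103 (cons (fin 1036 0 1036)
(mv 912 (cons (fin 848 5 847)
(fin 1167 5 911)))))))))
(mv 1100 (cons (fin 1101 1 1036)
(mv 1036 (cons (fin 1099 1 1035)
(mv 1104 (cons (fin 1103 0 1036)
(fin 1105 0 1037)))))))))))))
(cons (mv 1041 (cons (cons (mv 975 (cons (fin 1042 3 974)
(mv 977 (cons (fin 978 2 974)
(mv 976 (cons (fin 1037 1 973)
(mv 913 (cons (fin 914 2 910)
(mv 849 (cons (fin 785 5 784)
(fin 1104 5 848)))))))))))
(mv 977 (cons (fin 978 2 974)
(mv 976 (cons (fin 1037 2 973)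
(mv 1101 (cons (fin 1102 1 1037)
(mv 1105 (cons (fin 1106 0 1038)
(mv 912 (cons (fin 1169 7 912)
(fin 848 4 848))))))))))))
(cons (mv 975 (cons (fin 1042 3 974)
(mv 1101 (cons (fin 1102 1 1037)
(mv 1037 (cons (fin 1100 1 1036)
(mv 1036 (cons (fin 1035 2 971)
(fin 976 2 972)))))))))
(cons (mv 975 (cons (fin 1042 3 974)
(mv 977 (cons (fin 978 2 974)
(mv 1102 (cons (fin 1101 1 1037)
(mv 1105 (cons (fin 1106 0 1038)
(mv 1166 (cons (fin 1230 6 974)
(mv 1165 (cons (fin 1229 5 973)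
(mv 1103 (cons (fin 1104 1 1101)
(mv 1163 (cons (fin 1164 2 1099)
(mv 1167 (cons (fin 1231 7 974)
(mv 976 (cons (fin 912 6 911)
(mv 913 (cons (fin 914 2 910)
(mv 785 (cons (fin 849 5 784)
(mv 1168 (cons (fin 1232 4 975)
(mv 1169 (cons (fin 1170 3 1102)
(fin 1233 7 976)))))))))))))))))))))))))))))
(mv 975 (cons (fin 1042 3 974)
(mv 977 (cons (fin 978 2 974)
(mv 1101 (cons (fin 1102 1 1037)
(mv 1037 (cons (fin 1100 1 1036)
(mv 1105 (cons (fin 1104 0 1037)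
(fin 1106 0 1038)))))))))))))))
(cons (mv 1041 (cons (cons (cons (mv 975 (cons (fin 1042 3 974)
(mv 977 (cons (fin 978 2 974)
(mv 1101 (cons (fin 1102 1 1037)
(mv 1037 (cons (fin 1100 1 1036)
(mv 1105 (cons (fin 1104 0 1037)
(fin 1106 0 1038)))))))))))
(mv 977 (cons (fin 978 2 974)
(mv 1101 (cons (fin 1102 1 1037)
(mv 1037 (cons (fin 1100 1 1036)
(mv 1105 (cons (fin 1104 0 1037)
(fin 1106 0 1038))))))))))
(cons (mv 975 (cons (fin 1042 3 974)
(mv 977 (cons (fin 978 2 974)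
(mv 1105 (cons (fin 1106 0 1038)
(mv 1037 (cons (fin 1104 0 1037)
(mv 1036 (cons (fin 1035 2 971)
(mv 1100 (cons (fin 1099 1 1035)
(fin 1101 1 1036)))))))))))))
(mv 975 (cons (fin 1042 3 974)
(mv 977 (cons (fin 978 2 974)
(mv 1105 (cons (fin 1106 0 1038)
(mv 1104 (cons (fin 1037 0 1037)
(mv 913 (cons (fin 849 5 848)
(fin 1168 5 912)))))))))))))
(cons (cons (mv 975 (cons (fin 1042 3 974)
(mv 977 (cons (fin 978 2 974)
(mv 1101 (cons (fin 1102 1 1037)
(mv 1037 (cons (fin 1100 1 1036)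
(mv 910 (cons (fin 846 5 845)
(mv 1036 (cons (fin 1035 2 971)
(mv 1103 (cons (fin 1104 0 1036)
(fin 1167 7 910)))))))))))))))
(mv 975 (cons (fin 1042 3 974)
(mv 1101 (cons (fin 1102 1 1037)
(mv 1037 (cons (fin 1100 1 1036)
(mv 1105 (cons (fin 1104 0 1037)
(fin 1106 0 1038))))))))))
(cons (mv 975 (cons (fin 1042 3 974)
(mv 977 (cons (fin 978 2 974)
(mv 1102 (cons (fin 1101 1 1037)
(mv 1105 (cons (fin 1106 0 1038)
(mv 1166 (cons (fin 1230 6 974)
(mv 1165 (cons (fin 1229 5 973)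
(mv 1103 (cons (fin 1104 1 1101)
(mv 910 (cons (fin 1167 7 910)
(fin 846 4 846)))))))))))))))))
(mv 975 (cons (fin 1042 3 974)
(mv 977 (cons (fin 978 2 974)
(mv 1102 (cons (fin 1101 1 1037)
(mv 1105 (cons (fin 1106 0 1038)
(mv 1166 (cons (fin 1230 6 974)
(mv 1165 (cons (fin 1229 5 973)
(mv 1167 (cons (fin 1231 4 974)
(mv 910 (cons (fin 1103 7 910)
(mv 845 (cons (fin 909 7 845)
(mv 846 (cons (fin 781 7 781)
(fin 782 4 782)))))))))))))))))))))))))
(mv 1041 (cons (cons (mv 975 (cons (fin 1042 3 974)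
(mv 977 (cons (fin 978 2 974)
(mv 976 (cons (fin 1037 1 973)
(mv 909 (cons (fin 910 3 909)
(mv 913 (cons (fin 914 2 910)
(mv 785 (cons (fin 849 5 784)
(mv 1101 (cons (fin 1102 1 1037)
(mv 1105 (cons (fin 1106 0 1038)
(mv 912 (cons (fin 848 7 848)
(fin 1169 7 912)))))))))))))))))))
(cons (mv 977 (cons (fin 978 2 974)
(mv 976 (cons (fin 1037 2 973)
(mv 1101 (cons (fin 1102 1 1037)
(mv 1105 (cons (fin 1106 0 1038)
(mv 912 (cons (fin 1169 7 912)
(fin 848 4 848)))))))))))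
(mv 975 (cons (fin 1042 3 974)
(mv 977 (cons (fin 978 2 974)
(mv 976 (cons (fin 1037 1 973)
(mv 909 (cons (fin 910 3 909)
(mv 913 (cons (fin 914 2 910)
(mv 785 (cons (fin 849 5 784)
(mv 1105 (cons (fin 1106 0 1038)
(mv 912 (cons (fin 848 7 848)
(fin 1169 7 912)))))))))))))))))))
(cons (mv 975 (cons (fin 1042 3 974)
(mv 1101 (cons (fin 1102 1 1037)
(mv 1037 (cons (fin 1100 1 1036)
(mv 1036 (cons (fin 1035 2 971)
(fin 976 2 972)))))))))
(cons (mv 975 (cons (fin 1042 3 974)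
(mv 977 (cons (fin 978 2 974)
(mv 1102 (cons (fin 1101 1 1037)
(mv 1105 (cons (fin 1106 0 1038)
(mv 1166 (cons (fin 1230 6 974)
(mv 1165 (cons (fin 1229 5 973)
(mv 1167 (cons (fin 1231 4 974)
(mv 910 (cons (fin 1103 7 910)
(mv 909 (cons (fin 976 3 909)
(fin 845 7 845)))))))))))))))))))
(mv 975 (cons (fin 1042 3 974)
(mv 977 (cons (fin 978 2 974)
(mv 1102 (cons (fin 1101 1 1037)
(mv 1105 (cons (fin 1106 0 1038)
(mv 1166 (cons (fin 1230 6 974)
(mv 1165 (cons (fin 1229 5 973)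
(mv 1167 (cons (fin 1231 4 974)
(mv 910 (cons (fin 1103 7 910)
(mv 845 (cons (fin 909 7 845)
(mv 846 (cons (fin 781 7 781)
(fin 782 4 782))))))))))))))))))))))))))))))))
(cons (cons (mv 1037 (cons (cons (cons (mv 1039 (cons (cons (mv 972 (cons (fin 973 3 972)
(mv 971 (cons (fin 1036 3 971)
(mv 976 (cons (fin 977 2 973)
(mv 1101 (cons (fin 1100 1 1036)
(mv 910 (cons (fin 846 5 845)
(mv 1165 (cons (fin 1102 5 909)
(fin 1229 6 973)))))))))))))
(mv 976 (cons (fin 977 2 973)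
(mv 975 (cons (fin 1036 2 972)
(mv 1100 (cons (fin 1101 1 1036)
(mv 1104 (cons (fin 1105 0 1037)
(mv 1168 (cons (fin 1232 7 975)
(mv 1167 (cons (fin 1231 5 975)
(mv 1103 (cons (fin 910 7 910)
(fin 912 5 911))))))))))))))))
(cons (mv 972 (cons (fin 973 3 972)
(mv 976 (cons (fin 977 2 973)
(mv 1036 (cons (fin 971 3 971)
(fin 975 2 972)))))))
(cons (mv 972 (cons (fin 973 3 972)
(mv 971 (cons (fin 1036 3 971)
(mv 1101 (cons (fin 1100 1 1036)
(mv 910 (cons (fin 846 5 845)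
(mv 1165 (cons (fin 1102 5 909)
(fin 1229 6 973)))))))))))
(mv 972 (cons (fin 973 3 972)
(mv 976 (cons (fin 977 2 973)
(mv 1101 (cons (fin 1100 1 1036)
(mv 910 (cons (fin 846 5 845)
(mv 1165 (cons (fin 1102 5 909)
(fin 1229 6 973)))))))))))))))
(mv 1101 (cons (cons (mv 910 (cons (fin 846 5 845)
(mv 1165 (cons (fin 1102 5 909)
(fin 973 6 909)))))
(mv 910 (cons (fin 846 5 845)
(mv 1102 (cons (cons (mv 845 (cons (fin 909 7 845)
(mv 1103 (cons (fin 1167 4 910)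
(mv 1036 (cons (fin 1104 3 1036)
(fin 1035 0 1035)))))))
(mv 1103 (cons (fin 1167 4 910)
(mv 1036 (cons (fin 1104 3 1036)
(fin 1035 0 1035))))))
(cons (mv 909 (cons (fin 845 7 845)
(mv 973 (cons (fin 1166 7 909)
(mv 844 (cons (fin 908 7 844)
(mv 1100 (cons (fin 1164 5 908)
(mv 1099 (cons (fin 1098 2 1034)
(mv 1035 (cons (fin 1034 3 1034)
(mv 1036 (cons (fin 975 2 971)
(mv 970 (cons (fin 971 3 970)
(mv 1163 (cons (fin 1162 1 1098)
(mv 1227 (cons (fin 972 6 971)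
(fin 1291 6 1035)))))))))))))))))))))
(mv 845 (cons (fin 909 7 845)
(mv 1167 (cons (fin 1103 4 910)
(mv 1166 (cons (fin 1231 4 974)
(mv 1230 (cons (fin 973 7 973)
(fin 1294 7 1037)))))))))))))))
(cons (mv 1165 (cons (fin 1229 6 973)
(mv 973 (cons (cons (mv 908 (cons (fin 972 7 908)
(mv 909 (cons (fin 844 7 844)
(mv 845 (cons (fin 781 4 781)
(fin 1102 4 845)))))))
(mv 1164 (cons (fin 1228 5 972)
(mv 909 (cons (fin 1100 5 908)
(mv 845 (cons (fin 781 4 781)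
(fin 1102 4 845))))))))
(cons (mv 972 (cons (fin 908 7 908)
(mv 971 (cons (fin 970 0 970)
(mv 906 (cons (fin 907 3 906)
(mv 1035 (cons (fin 1034 1 970)
(mv 1036 (cons (fin 975 1 971)
(mv 1098 (cons (fin 1099 1 1034)
(mv 1102 (cons (fin 1103 0 1035)
(mv 1164 (cons (fin 1228 5 972)
(mv 1162 (cons (fin 1163 2 1098)
(mv 1166 (cons (fin 1230 7 973)
(mv 1167 (cons (fin 1231 4 974)
(mv 1168 (cons (fin 1100 3 1100)
(fin 1169 3 1101)))))))))))))))))))))))))
(mv 908 (cons (fin 972 7 908)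
(mv 909 (cons (fin 844 7 844)
(mv 1164 (cons (fin 1100 5 908)
(fin 1228 5 972))))))))))))
(cons (mv 910 (cons (fin 846 5 845)
(mv 1165 (cons (fin 1102 5 909)
(fin 1229 6 973)))))
(mv 910 (cons (fin 846 5 845)
(mv 1165 (cons (fin 973 6 909)
(fin 1229 6 973))))))))))
(cons (mv 1039 (cons (cons (mv 972 (cons (fin 973 3 972)
(mv 976 (cons (fin 977 2 973)
(mv 1036 (cons (fin 971 3 971)
(fin 975 2 972)))))))
(mv 976 (cons (fin 977 2 973)
(mv 975 (cons (fin 1036 2 972)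
(mv 1104 (cons (fin 1105 0 1037)
(mv 1168 (cons (fin 1232 7 975)
(mv 1167 (cons (fin 1231 5 975)
(mv 1103 (cons (fin 910 7 910)
(fin 912 5 911))))))))))))))
(cons (mv 972 (cons (fin 973 3 972)
(mv 1036 (cons (fin 971 3 971)
(mv 1104 (cons (fin 1103 0 1036)
(fin 1105 0 1037)))))))
(mv 972 (cons (fin 973 3 972)
(mv 976 (cons (fin 977 2 973)
(mv 1104 (cons (fin 1105 0 1037)
(mv 1167 (cons (mv 1103 (cons (fin 1231 7 974)
(fin 912 5 911)))
(cons (mv 1168 (cons (fin 1231 5 975)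
(mv 1232 (cons (fin 975 7 975)
(mv 1233 (cons (fin 1169 4 976)
(fin 1297 4 1040)))))))
(mv 912 (cons (fin 1103 5 911)
(mv 849 (cons (fin 913 6 848)
(mv 848 (cons (fin 785 6 784)
(mv 783 (cons (fin 847 7 783)
(mv 784 (cons (fin 719 7 719)
(fin 975 5 783)))))))))))))))))))))))
(mv 1039 (cons (cons (mv 972 (cons (fin 973 3 972)
(mv 971 (cons (fin 1036 3 971)
(mv 976 (cons (fin 977 2 973)
(mv 1101 (cons (fin 1100 1 1036)
(mv 910 (cons (fin 846 5 845)
(mv 1165 (cons (fin 1102 5 909)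
(fin 1229 6 973)))))))))))))
(mv 972 (cons (fin 973 3 972)
(mv 976 (cons (fin 977 2 973)
(mv 1036 (cons (fin 971 3 971)
(mv 1104 (cons (fin 1103 0 1036)
(fin 1105 0 1037))))))))))
(cons (mv 976 (cons (fin 977 2 973)
(mv 1100 (cons (fin 1101 1 1036)
(mv 1036 (cons (fin 1099 1 1035)
(mv 1104 (cons (fin 1103 0 1036)
(fin 1105 0 1037)))))))))
(cons (mv 972 (cons (fin 973 3 972)
(mv 971 (cons (fin 1036 3 971)
(mv 1101 (cons (fin 1100 1 1036)
(mv 910 (cons (fin 846 5 845)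
(mv 1165 (cons (fin 1102 5 909)
(fin 1229 6 973)))))))))))
(mv 972 (cons (fin 973 3 972)
(mv 976 (cons (fin 977 2 973)
(mv 1101 (cons (fin 1100 1 1036)
(mv 910 (cons (fin 846 5 845)
(mv 1165 (cons (fin 1102 5 909)
(fin 1229 6 973)))))))))))))))))
(cons (cons (mv 1039 (cons (cons (mv 976 (cons (fin 977 2 973)
(mv 975 (cons (fin 1036 2 972)
(mv 1100 (cons (fin 1101 1 1036)
(mv 1104 (cons (fin 1105 0 1037)
(mv 1168 (cons (fin 1232 7 975)
(mv 1167 (cons (fin 1231 5 975)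
(mv 1103 (cons (fin 910 7 910)
(fin 912 5 911)))))))))))))))
(mv 1100 (cons (fin 1101 1 1036)
(mv 1036 (cons (fin 1099 1 1035)
(mv 1104 (cons (fin 1103 0 1036)
(fin 1105 0 1037))))))))
(cons (mv 976 (cons (fin 977 2 973)
(mv 975 (cons (fin 1036 2 972)
(mv 1104 (cons (fin 1105 0 1037)
(mv 1168 (cons (fin 1232 7 975)
(mv 1167 (cons (fin 1231 5 975)
(mv 1103 (cons (fin 910 7 910)
(fin 912 5 911)))))))))))))
(cons (mv 976 (cons (fin 977 2 973)
(mv 975 (cons (fin 1036 2 972)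
(mv 1101 (cons (fin 1100 1 1036)
(mv 910 (cons (fin 846 5 845)
(mv 1165 (cons (fin 1102 5 909)
(fin 1229 6 973)))))))))))
(mv 976 (cons (fin 977 2 973)
(mv 1101 (cons (fin 1100 1 1036)
(mv 910 (cons (fin 846 5 845)
(mv 1165 (cons (fin 1102 5 909)
(fin 1229 6 973)))))))))))))
(mv 1039 (cons (cons (mv 972 (cons (fin 973 3 972)
(mv 976 (cons (fin 977 2 973)
(mv 1101 (cons (fin 1100 1 1036)
(mv 910 (cons (fin 846 5 845)
(mv 1165 (cons (fin 1102 5 909)
(fin 1229 6 973)))))))))))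
(mv 976 (cons (fin 977 2 973)
(mv 1101 (cons (fin 1100 1 1036)
(mv 910 (cons (fin 846 5 845)
(mv 1165 (cons (fin 1102 5 909)
(fin 1229 6 973))))))))))
(cons (mv 972 (cons (fin 973 3 972)
(mv 976 (cons (fin 977 2 973)
(mv 1104 (cons (fin 1105 0 1037)
(mv 1167 (cons (mv 1103 (cons (fin 1231 7 974)
(fin 912 5 911)))
(cons (mv 1168 (cons (fin 1231 5 975)
(mv 1232 (cons (fin 975 7 975)
(mv 1233 (cons (fin 1169 4 976)
(fin 1297 4 1040)))))))
(mv 912 (cons (fin 1103 5 911)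
(mv 849 (cons (fin 913 6 848)
(mv 848 (cons (fin 785 6 784)
(mv 783 (cons (fin 847 7 783)
(mv 784 (cons (fin 719 7 719)
(fin 975 5 783))))))))))))))))))))
(mv 972 (cons (fin 973 3 972)
(mv 1101 (cons (fin 1100 1 1036)
(mv 910 (cons (fin 846 5 845)
(mv 1165 (cons (fin 1102 5 909)
(fin 1229 6 973)))))))))))))
(cons (mv 1039 (cons (cons (mv 972 (cons (fin 973 3 972)
(mv 976 (cons (fin 977 2 973)
(mv 1036 (cons (fin 971 3 971)
(fin 975 2 972)))))))
(mv 976 (cons (fin 977 2 973)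
(mv 975 (cons (fin 1036 2 972)
(mv 1100 (cons (fin 1101 1 1036)
(mv 1104 (cons (fin 1105 0 1037)
(mv 1168 (cons (fin 1232 7 975)
(mv 1167 (cons (fin 1231 5 975)
(mv 912 (cons (fin 1103 5 911)
(mv 913 (cons (fin 973 2 909)
(fin 849 6 848))))))))))))))))))
(cons (mv 976 (cons (fin 977 2 973)
(mv 975 (cons (fin 1036 2 972)
(mv 1100 (cons (fin 1101 1 1036)
(mv 1104 (cons (fin 1105 0 1037)
(mv 1168 (cons (fin 1232 7 975)
(mv 1167 (cons (fin 1231 5 975)
(mv 912 (cons (fin 1103 5 911)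
(mv 848 (cons (fin 784 5 783)
(mv 849 (cons (fin 785 6 784)
(fin 913 6 848)))))))))))))))))))
(cons (mv 972 (cons (fin 973 3 972)
(mv 1036 (cons (fin 971 3 971)
(mv 1100 (cons (fin 1099 1 1035)
(fin 1101 1 1036)))))))
(mv 973 (cons (fin 972 3 972)
(mv 976 (cons (fin 977 2 973)
(mv 1101 (cons (fin 1100 1 1036)
(mv 1104 (cons (fin 1105 0 1037)
(mv 1165 (cons (fin 1229 6 973)
(mv 1164 (cons (fin 1228 5 972)
(mv 1102 (cons (fin 1103 1 1100)
(mv 909 (cons (fin 1166 7 909)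
(fin 845 4 845)))))))))))))))))))))
(mv 1039 (cons (cons (mv 972 (cons (fin 973 3 972)
(mv 971 (cons (fin 1036 3 971)
(mv 976 (cons (fin 977 2 973)
(mv 1101 (cons (fin 1100 1 1036)
(mv 910 (cons (fin 846 5 845)
(mv 1165 (cons (fin 1102 5 909)
(fin 1229 6 973)))))))))))))
(cons (mv 976 (cons (fin 977 2 973)
(mv 975 (cons (fin 1036 2 972)
(mv 1101 (cons (fin 1100 1 1036)
(mv 910 (cons (fin 846 5 845)
(mv 1165 (cons (fin 1102 5 909)
(fin 973 6 909)))))))))))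
(mv 976 (cons (fin 977 2 973)
(mv 975 (cons (fin 1036 2 972)
(mv 1101 (cons (fin 1100 1 1036)
(mv 910 (cons (fin 846 5 845)
(mv 1165 (cons (fin 1102 5 909)
(fin 1229 6 973)))))))))))))
(cons (mv 972 (cons (fin 973 3 972)
(mv 976 (cons (fin 977 2 973)
(mv 1036 (cons (fin 971 3 971)
(fin 975 2 972)))))))
(cons (mv 972 (cons (fin 973 3 972)
(mv 971 (cons (fin 1036 3 971)
(mv 1101 (cons (fin 1100 1 1036)
(mv 910 (cons (fin 846 5 845)
(mv 1165 (cons (fin 1102 5 909)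
(fin 1229 6 973)))))))))))
(mv 972 (cons (fin 973 3 972)
(mv 976 (cons (fin 977 2 973)
(mv 1101 (cons (fin 1100 1 1036)
(mv 910 (cons (fin 846 5 845)
(mv 1165 (cons (fin 1102 5 909)
(fin 1229 6 973)))))))))))))))))))
(mv 1039 (cons (cons (mv 973 (cons (fin 1041 3 973)
(mv 972 (cons (fin 971 0 971)
(fin 975 0 972)))))
(mv 1103 (cons (cons (mv 910 (cons (fin 846 4 846)
(mv 1167 (cons (fin 975 7 910)
(fin 1231 7 974)))))
(mv 910 (cons (fin 846 4 846)
(mv 1102 (cons (mv 1101 (cons (fin 1100 2 1036)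
(fin 1165 5 909)))
(mv 909 (cons (fin 845 7 845)
(mv 973 (cons (fin 1166 7 909)
(mv 972 (cons (fin 971 0 971)
(fin 975 0 972))))))))))))
(cons (mv 1167 (cons (fin 1231 7 974)
(mv 975 (cons (cons (mv 912 (cons (fin 976 6 911)
(mv 973 (cons (fin 972 0 972)
(mv 1166 (cons (fin 1230 5 974)
(mv 1102 (cons (fin 909 7 909)
(mv 1100 (cons (fin 1101 2 1036)
(mv 1165 (cons (fin 1229 5 973)
(mv 1104 (cons (fin 1105 1 1101)
(fin 1164 2 1100)))))))))))))))
(mv 973 (cons (fin 972 0 972)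
(mv 1166 (cons (fin 1230 5 974)
(mv 1102 (cons (fin 909 7 909)
(mv 1100 (cons (fin 1101 2 1036)
(mv 1165 (cons (fin 1229 5 973)
(mv 1104 (cons (fin 1105 1 1101)
(fin 1164 2 1100))))))))))))))
(cons (mv 972 (cons (fin 973 0 972)
(mv 976 (cons (fin 912 6 911)
(mv 977 (cons (fin 978 1 974)
(mv 913 (cons (fin 914 2 910)
(mv 1168 (cons (fin 1104 6 912)
(fin 1232 4 975)))))))))))
(cons (mv 976 (cons (fin 912 6 911)
(mv 977 (cons (fin 978 1 974)
(mv 913 (cons (fin 914 2 910)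
(mv 1168 (cons (fin 1104 6 912)
(fin 1232 4 975)))))))))
(mv 912 (cons (fin 976 6 911)
(mv 973 (cons (fin 972 0 972)
(mv 1166 (cons (fin 1230 5 974)
(mv 1102 (cons (fin 909 7 909)
(mv 1100 (cons (fin 1101 2 1036)
(mv 1165 (cons (fin 1229 5 973)
(mv 1164 (cons (fin 1099 3 1099)
(fin 1163 2 1099)))))))))))))))))))))
(mv 910 (cons (fin 846 4 846)
(mv 1167 (cons (fin 1231 7 974)
(fin 1102 4 910)))))))))
(cons (mv 1041 (cons (cons (mv 975 (cons (fin 1042 3 974)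
(mv 977 (cons (fin 978 2 974)
(mv 1102 (cons (fin 1101 1 1037)
(mv 1105 (cons (fin 1106 0 1038)
(mv 1166 (cons (fin 1230 6 974)
(mv 1165 (cons (fin 1229 5 973)
(mv 1103 (cons (fin 1104 1 1101)
(mv 910 (cons (fin 1167 7 910)
(fin 846 4 846)))))))))))))))))
(mv 977 (cons (fin 978 2 974)
(mv 1101 (cons (fin 1102 1 1037)
(mv 1105 (cons (fin 1106 0 1038)
(mv 913 (cons (mv 1104 (cons (fin 849 5 848)
(fin 1168 5 912)))
(cons (mv 848 (cons (fin 912 7 848)
(mv 849 (cons (fin 784 7 784)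
(mv 850 (cons (fin 786 6 785)
(fin 914 6 849)))))))
(mv 848 (cons (fin 912 7 848)
(mv 850 (cons (fin 914 6 849)
(mv 1168 (cons (fin 1104 5 912)
(mv 1169 (cons (fin 1232 5 976)
(mv 1233 (cons (fin 976 7 976)
(mv 1234 (cons (fin 1170 4 977)
(fin 1298 4 1041)))))))))))))))))))))))
(cons (mv 977 (cons (fin 978 2 974)
(mv 1042 (cons (fin 975 3 974)
(mv 1106 (cons (fin 1105 0 1038)
(fin 1107 0 1039)))))))
(cons (mv 975 (cons (fin 1042 3 974)
(mv 977 (cons (fin 978 2 974)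
(mv 1102 (cons (fin 1101 1 1037)
(mv 1166 (cons (fin 1230 6 974)
(mv 1165 (cons (fin 1229 5 973)
(mv 1167 (cons (fin 1231 4 974)
(mv 910 (cons (fin 1103 7 910)
(mv 909 (cons (fin 976 3 909)
(fin 845 7 845)))))))))))))))))
(mv 975 (cons (fin 1042 3 974)
(mv 1102 (cons (fin 1101 1 1037)
(mv 1105 (cons (fin 1106 0 1038)
(mv 1166 (cons (fin 1230 6 974)
(mv 1165 (cons (fin 1229 5 973)
(mv 1103 (cons (fin 1104 1 1101)
(mv 910 (cons (fin 1167 7 910)
(fin 846 4 846)))))))))))))))))))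
(mv 1041 (cons (fin 973 3 973)
(mv 977 (cons (fin 978 2 974)
(mv 1102 (cons (fin 1101 1 1037)
(mv 1042 (cons (fin 1103 1 1038)
(mv 1106 (cons (fin 1105 0 1038)
(fin 1107 0 1039)))))))))))))))
(cons (mv 1039 (cons (cons (mv 973 (cons (fin 1041 3 973)
(mv 972 (cons (fin 1037 3 972)
(fin 971 0 971)))))
(mv 1037 (cons (cons (mv 972 (cons (fin 973 3 972)
(mv 976 (cons (fin 977 2 973)
(mv 1036 (cons (fin 971 3 971)
(fin 975 2 972)))))))
(mv 976 (cons (fin 977 2 973)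
(mv 975 (cons (fin 1036 2 972)
(mv 1100 (cons (fin 1101 1 1036)
(mv 1104 (cons (fin 1105 0 1037)
(mv 1168 (cons (fin 1232 7 975)
(mv 1167 (cons (fin 1231 5 975)
(mv 1103 (cons (fin 910 7 910)
(fin 912 5 911))))))))))))))))
(cons (mv 972 (cons (fin 973 3 972)
(mv 1036 (cons (fin 971 3 971)
(mv 1100 (cons (fin 1099 1 1035)
(fin 1101 1 1036)))))))
(mv 973 (cons (fin 972 3 972)
(mv 976 (cons (fin 977 2 973)
(mv 1101 (cons (fin 1100 1 1036)
(mv 910 (cons (fin 846 5 845)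
(fin 1165 6 909)))))))))))))
(cons (mv 1037 (cons (cons (mv 976 (cons (fin 977 2 973)
(mv 975 (cons (fin 1036 2 972)
(mv 1041 (cons (fin 1042 3 974)
(mv 1105 (cons (fin 1104 0 1037)
(fin 1106 0 1038)))))))))
(mv 1100 (cons (fin 1101 1 1036)
(mv 1036 (cons (fin 1099 1 1035)
(mv 1104 (cons (fin 1103 0 1036)
(fin 1105 0 1037))))))))
(cons (mv 976 (cons (fin 977 2 973)
(mv 1036 (cons (fin 975 2 972)
(mv 1100 (cons (fin 1099 1 1035)
(fin 1101 1 1036)))))))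
(mv 977 (cons (fin 976 2 973)
(mv 1041 (cons (fin 978 2 974)
(mv 1105 (cons (fin 1104 0 1037)
(fin 1106 0 1038))))))))))
(mv 973 (cons (fin 1041 3 973)
(mv 972 (cons (fin 971 0 971)
(fin 975 0 972))))))))
(mv 1039 (cons (cons (mv 973 (cons (fin 1041 3 973)
(mv 972 (cons (fin 1037 3 972)
(fin 971 0 971)))))
(mv 1037 (cons (cons (mv 972 (cons (fin 973 3 972)
(mv 976 (cons (fin 977 2 973)
(mv 1036 (cons (fin 971 3 971)
(fin 975 2 972)))))))
(mv 976 (cons (fin 977 2 973)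
(mv 975 (cons (fin 1036 2 972)
(mv 1100 (cons (fin 1101 1 1036)
(mv 1104 (cons (fin 1105 0 1037)
(mv 1168 (cons (fin 1232 7 975)
(mv 1167 (cons (fin 1231 5 975)
(mv 912 (cons (fin 1103 5 911)
(mv 913 (cons (fin 973 2 909)
(fin 849 6 848))))))))))))))))))
(cons (mv 976 (cons (fin 977 2 973)
(mv 975 (cons (fin 1036 2 972)
(mv 1100 (cons (fin 1101 1 1036)
(mv 1104 (cons (fin 1105 0 1037)
(mv 1168 (cons (fin 1232 7 975)
(mv 1167 (cons (fin 1231 5 975)
(mv 912 (cons (fin 1103 5 911)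
(mv 848 (cons (fin 784 5 783)
(mv 849 (cons (fin 785 6 784)
(fin 913 6 848)))))))))))))))))))
(cons (mv 972 (cons (fin 973 3 972)
(mv 1036 (cons (fin 971 3 971)
(mv 1100 (cons (fin 1099 1 1035)
(fin 1101 1 1036)))))))
(mv 973 (cons (fin 972 3 972)
(mv 976 (cons (fin 977 2 973)
(mv 1101 (cons (fin 1100 1 1036)
(mv 1104 (cons (fin 1105 0 1037)
(mv 1165 (cons (fin 1229 6 973)
(mv 1164 (cons (fin 1228 5 972)
(mv 1102 (cons (fin 1103 1 1100)
(mv 909 (cons (fin 1166 7 909)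
(fin 845 4 845))))))))))))))))))))))
(cons (mv 1041 (cons (cons (mv 975 (cons (fin 1042 3 974)
(mv 977 (cons (fin 978 2 974)
(mv 976 (cons (fin 1037 1 973)
(mv 913 (cons (fin 914 2 910)
(mv 849 (cons (fin 785 5 784)
(fin 1104 5 848)))))))))))
(mv 977 (cons (fin 978 2 974)
(mv 976 (cons (fin 1037 2 973)
(mv 1101 (cons (fin 1102 1 1037)
(mv 1105 (cons (fin 1106 0 1038)
(mv 912 (cons (fin 1169 7 912)
(fin 848 4 848))))))))))))
(cons (mv 975 (cons (fin 1042 3 974)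
(mv 1101 (cons (fin 1102 1 1037)
(mv 1037 (cons (fin 1100 1 1036)
(mv 1036 (cons (fin 1035 2 971)
(fin 976 2 972)))))))))
(cons (mv 975 (cons (fin 1042 3 974)
(mv 977 (cons (fin 978 2 974)
(mv 1102 (cons (fin 1101 1 1037)
(mv 1105 (cons (fin 1106 0 1038)
(mv 1166 (cons (fin 1230 6 974)
(mv 1165 (cons (fin 1229 5 973)
(mv 1103 (cons (fin 1104 1 1101)
(mv 1163 (cons (fin 1164 2 1099)
(mv 1167 (cons (fin 1231 7 974)
(mv 976 (cons (fin 912 6 911)
(mv 913 (cons (fin 914 2 910)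
(mv 785 (cons (fin 849 5 784)
(mv 1168 (cons (fin 1232 4 975)
(mv 1169 (cons (fin 1170 3 1102)
(fin 1233 7 976)))))))))))))))))))))))))))))
(mv 975 (cons (fin 1042 3 974)
(mv 977 (cons (fin 978 2 974)
(mv 1101 (cons (fin 1102 1 1037)
(mv 1037 (cons (fin 1100 1 1036)
(mv 1105 (cons (fin 1104 0 1037)
(fin 1106 0 1038)))))))))))))))
(mv 973 (cons (fin 1041 3 973)
(mv 972 (cons (fin 971 0 971)
(fin 975 0 972)))))))))))
(cons (cons (cons (mv 1039 (cons (cons (mv 973 (cons (fin 1041 3 973)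
(mv 972 (cons (fin 1037 3 972)
(fin 971 0 971)))))
(mv 1037 (cons (cons (mv 972 (cons (fin 973 3 972)
(mv 971 (cons (fin 1036 3 971)
(mv 976 (cons (fin 977 2 973)
(mv 1101 (cons (fin 1100 1 1036)
(mv 910 (cons (fin 846 5 845)
(mv 1165 (cons (fin 1102 5 909)
(fin 1229 6 973)))))))))))))
(mv 972 (cons (fin 973 3 972)
(mv 976 (cons (fin 977 2 973)
(mv 1036 (cons (fin 971 3 971)
(mv 1104 (cons (fin 1103 0 1036)
(fin 1105 0 1037))))))))))
(cons (mv 976 (cons (fin 977 2 973)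
(mv 1100 (cons (fin 1101 1 1036)
(mv 1036 (cons (fin 1099 1 1035)
(mv 1104 (cons (fin 1103 0 1036)
(fin 1105 0 1037)))))))))
(cons (mv 972 (cons (fin 973 3 972)
(mv 971 (cons (fin 1036 3 971)
(mv 1101 (cons (fin 1100 1 1036)
(mv 910 (cons (fin 846 5 845)
(mv 1165 (cons (fin 1102 5 909)
(fin 1229 6 973)))))))))))
(mv 972 (cons (fin 973 3 972)
(mv 976 (cons (fin 977 2 973)
(mv 1101 (cons (fin 1100 1 1036)
(mv 910 (cons (fin 846 5 845)
(mv 1165 (cons (fin 1102 5 909)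
(fin 1229 6 973))))))))))))))))
(cons (mv 1037 (cons (cons (mv 976 (cons (fin 977 2 973)
(mv 1100 (cons (fin 1101 1 1036)
(mv 1036 (cons (fin 1099 1 1035)
(mv 1104 (cons (fin 1103 0 1036)
(fin 1105 0 1037)))))))))
(mv 976 (cons (fin 977 2 973)
(mv 1104 (cons (fin 1105 0 1037)
(mv 1036 (cons (fin 1103 0 1036)
(mv 971 (cons (fin 972 3 971)
(mv 1035 (cons (fin 970 3 970)
(mv 1099 (cons (fin 1098 1 1034)
(fin 1100 1 1035))))))))))))))
(cons (mv 976 (cons (fin 977 2 973)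
(mv 1101 (cons (fin 1100 1 1036)
(mv 910 (cons (fin 846 5 845)
(mv 1102 (cons (fin 1041 1 1037)
(fin 1165 5 909)))))))))
(cons (mv 976 (cons (fin 977 2 973)
(mv 1104 (cons (fin 1105 0 1037)
(mv 1103 (cons (fin 1036 0 1036)
(mv 912 (cons (fin 848 5 847)
(fin 1167 5 911)))))))))
(mv 1100 (cons (fin 1101 1 1036)
(mv 1036 (cons (fin 1099 1 1035)
(mv 1104 (cons (fin 1103 0 1036)
(fin 1105 0 1037)))))))))))
(mv 1041 (cons (fin 973 3 973)
(mv 977 (cons (fin 978 2 974)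
(mv 1102 (cons (fin 1101 1 1037)
(mv 1042 (cons (fin 1103 1 1038)
(mv 1106 (cons (fin 1105 0 1038)
(fin 1107 0 1039))))))))))))))
(mv 1039 (cons (cons (mv 973 (cons (fin 1041 3 973)
(mv 972 (cons (fin 1037 3 972)
(fin 971 0 971)))))
(mv 1037 (cons (cons (mv 972 (cons (fin 973 3 972)
(mv 976 (cons (fin 977 2 973)
(mv 1036 (cons (fin 971 3 971)
(fin 975 2 972)))))))
(mv 976 (cons (fin 977 2 973)
(mv 975 (cons (fin 1036 2 972)
(mv 1104 (cons (fin 1105 0 1037)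
(mv 1168 (cons (fin 1232 7 975)
(mv 1167 (cons (fin 1231 5 975)
(mv 1103 (cons (fin 910 7 910)
(fin 912 5 911))))))))))))))
(cons (mv 972 (cons (fin 973 3 972)
(mv 1036 (cons (fin 971 3 971)
(mv 1104 (cons (fin 1103 0 1036)
(fin 1105 0 1037)))))))
(mv 972 (cons (fin 973 3 972)
(mv 976 (cons (fin 977 2 973)
(mv 1104 (cons (fin 1105 0 1037)
(mv 1167 (cons (mv 1103 (cons (fin 1231 7 974)
(fin 912 5 911)))
(cons (mv 1168 (cons (fin 1231 5 975)
(mv 1232 (cons (fin 975 7 975)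
(mv 1233 (cons (fin 1169 4 976)
(fin 1297 4 1040)))))))
(mv 912 (cons (fin 1103 5 911)
(mv 849 (cons (fin 913 6 848)
(mv 848 (cons (fin 785 6 784)
(mv 783 (cons (fin 847 7 783)
(mv 784 (cons (fin 719 7 719)
(fin 975 5 783))))))))))))))))))))))))
(cons (mv 1041 (cons (cons (mv 975 (cons (fin 1042 3 974)
(mv 977 (cons (fin 978 2 974)
(mv 976 (cons (fin 1037 1 973)
(mv 909 (cons (fin 910 3 909)
(mv 913 (cons (fin 914 2 910)
(mv 849 (cons (fin 785 5 784)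
(fin 1104 5 848)))))))))))))
(mv 977 (cons (fin 978 2 974)
(mv 976 (cons (fin 1037 2 973)
(mv 1105 (cons (fin 1106 0 1038)
(mv 912 (cons (fin 1169 7 912)
(fin 848 4 848))))))))))
(cons (mv 975 (cons (fin 1042 3 974)
(mv 1105 (cons (fin 1106 0 1038)
(mv 1037 (cons (fin 1104 0 1037)
(mv 1036 (cons (fin 1035 2 971)
(fin 976 2 972)))))))))
(mv 977 (cons (fin 978 2 974)
(mv 1042 (cons (fin 975 3 974)
(mv 1106 (cons (fin 1105 0 1038)
(fin 1107 0 1039))))))))))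
(mv 973 (cons (fin 1041 3 973)
(mv 972 (cons (fin 971 0 971)
(fin 975 0 972)))))))))
(cons (mv 1039 (cons (cons (mv 973 (cons (fin 1041 3 973)
(mv 972 (cons (fin 1037 3 972)
(fin 971 0 971)))))
(mv 1037 (cons (cons (mv 972 (cons (fin 973 3 972)
(mv 971 (cons (fin 1036 3 971)
(mv 1101 (cons (fin 1100 1 1036)
(mv 910 (cons (fin 846 5 845)
(mv 1165 (cons (fin 1102 5 909)
(fin 1229 6 973)))))))))))
(mv 1100 (cons (fin 1101 1 1036)
(mv 1036 (cons (fin 1099 1 1035)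
(mv 1104 (cons (fin 1103 0 1036)
(fin 1105 0 1037))))))))
(cons (mv 972 (cons (fin 973 3 972)
(mv 1036 (cons (fin 971 3 971)
(mv 1104 (cons (fin 1103 0 1036)
(fin 1105 0 1037)))))))
(mv 972 (cons (fin 973 3 972)
(mv 1101 (cons (fin 1100 1 1036)
(mv 910 (cons (fin 846 5 845)
(mv 1165 (cons (fin 1102 5 909)
(fin 1229 6 973)))))))))))))
(cons (mv 1041 (cons (cons (cons (mv 975 (cons (fin 1042 3 974)
(mv 977 (cons (fin 978 2 974)
(mv 1101 (cons (fin 1102 1 1037)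
(mv 1037 (cons (fin 1100 1 1036)
(mv 1105 (cons (fin 1104 0 1037)
(fin 1106 0 1038)))))))))))
(mv 977 (cons (fin 978 2 974)
(mv 1101 (cons (fin 1102 1 1037)
(mv 1037 (cons (fin 1100 1 1036)
(mv 1105 (cons (fin 1104 0 1037)
(fin 1106 0 1038))))))))))
(cons (mv 975 (cons (fin 1042 3 974)
(mv 977 (cons (fin 978 2 974)
(mv 1105 (cons (fin 1106 0 1038)
(mv 1037 (cons (fin 1104 0 1037)
(mv 1036 (cons (fin 1035 2 971)
(mv 1100 (cons (fin 1099 1 1035)
(fin 1101 1 1036)))))))))))))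
(mv 975 (cons (fin 1042 3 974)
(mv 977 (cons (fin 978 2 974)
(mv 1105 (cons (fin 1106 0 1038)
(mv 1104 (cons (fin 1037 0 1037)
(mv 913 (cons (fin 849 5 848)
(fin 1168 5 912)))))))))))))
(cons (cons (mv 975 (cons (fin 1042 3 974)
(mv 977 (cons (fin 978 2 974)
(mv 1101 (cons (fin 1102 1 1037)
(mv 1037 (cons (fin 1100 1 1036)
(mv 910 (cons (fin 846 5 845)
(mv 1036 (cons (fin 1035 2 971)
(mv 1103 (cons (fin 1104 0 1036)
(fin 1167 7 910)))))))))))))))
(mv 975 (cons (fin 1042 3 974)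
(mv 1101 (cons (fin 1102 1 1037)
(mv 1037 (cons (fin 1100 1 1036)
(mv 1105 (cons (fin 1104 0 1037)
(fin 1106 0 1038))))))))))
(cons (mv 975 (cons (fin 1042 3 974)
(mv 977 (cons (fin 978 2 974)
(mv 1102 (cons (fin 1101 1 1037)
(mv 1105 (cons (fin 1106 0 1038)
(mv 1166 (cons (fin 1230 6 974)
(mv 1165 (cons (fin 1229 5 973)
(mv 1103 (cons (fin 1104 1 1101)
(mv 910 (cons (fin 1167 7 910)
(fin 846 4 846)))))))))))))))))
(mv 975 (cons (fin 1042 3 974)
(mv 977 (cons (fin 978 2 974)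
(mv 1102 (cons (fin 1101 1 1037)
(mv 1105 (cons (fin 1106 0 1038)
(mv 1166 (cons (fin 1230 6 974)
(mv 1165 (cons (fin 1229 5 973)
(mv 1167 (cons (fin 1231 4 974)
(mv 910 (cons (fin 1103 7 910)
(mv 845 (cons (fin 909 7 845)
(mv 846 (cons (fin 781 7 781)
(fin 782 4 782)))))))))))))))))))))))))
(mv 973 (cons (fin 1041 3 973)
(mv 972 (cons (fin 971 0 971)
(fin 975 0 972))))))))
(mv 1039 (cons (cons (mv 973 (cons (fin 1041 3 973)
(mv 972 (cons (fin 1037 3 972)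
(fin 971 0 971)))))
(mv 1037 (cons (cons (mv 972 (cons (fin 973 3 972)
(mv 971 (cons (fin 1036 3 971)
(mv 976 (cons (fin 977 2 973)
(mv 1101 (cons (fin 1100 1 1036)
(mv 910 (cons (fin 846 5 845)
(mv 1165 (cons (fin 1102 5 909)
(fin 1229 6 973)))))))))))))
(cons (mv 976 (cons (fin 977 2 973)
(mv 975 (cons (fin 1036 2 972)
(mv 1101 (cons (fin 1100 1 1036)
(mv 846 (cons (fin 910 5 845)
(mv 1104 (cons (fin 1105 0 1037)
(mv 1165 (cons (fin 1229 6 973)
(mv 1168 (cons (fin 1232 7 975)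
(mv 1167 (cons (fin 1231 5 975)
(mv 1169 (cons (fin 1233 4 976)
(mv 1166 (cons (fin 1102 3 1101)
(mv 973 (cons (fin 1230 4 973)
(mv 909 (cons (fin 908 3 908)
(mv 845 (cons (fin 782 6 781)
(fin 781 4 781)))))))))))))))))))))))))))
(mv 976 (cons (fin 977 2 973)
(mv 975 (cons (fin 1036 2 972)
(mv 1101 (cons (fin 1100 1 1036)
(mv 846 (cons (fin 910 5 845)
(mv 1104 (cons (fin 1105 0 1037)
(mv 1168 (cons (fin 1232 7 975)
(mv 1167 (cons (fin 1231 5 975)
(mv 1169 (cons (fin 1233 4 976)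
(mv 1166 (cons (fin 1102 3 1101)
(mv 1229 (cons (fin 1230 1 1165)
(fin 1165 6 973)))))))))))))))))))))))
(cons (mv 972 (cons (fin 973 3 972)
(mv 976 (cons (fin 977 2 973)
(mv 1036 (cons (fin 971 3 971)
(fin 975 2 972)))))))
(cons (mv 972 (cons (fin 973 3 972)
(mv 971 (cons (fin 1036 3 971)
(mv 1101 (cons (fin 1100 1 1036)
(mv 910 (cons (fin 846 5 845)
(mv 1165 (cons (fin 1102 5 909)
(fin 1229 6 973)))))))))))
(mv 972 (cons (fin 973 3 972)
(mv 976 (cons (fin 977 2 973)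
(mv 1101 (cons (fin 1100 1 1036)
(mv 910 (cons (fin 846 5 845)
(mv 1165 (cons (fin 1102 5 909)
(fin 1229 6 973))))))))))))))))
(cons (mv 1041 (cons (cons (mv 975 (cons (fin 1042 3 974)
(mv 977 (cons (fin 978 2 974)
(mv 976 (cons (fin 1037 1 973)
(mv 909 (cons (fin 910 3 909)
(mv 913 (cons (fin 914 2 910)
(mv 849 (cons (fin 785 5 784)
(fin 1104 5 848)))))))))))))
(mv 977 (cons (fin 978 2 974)
(mv 976 (cons (fin 1037 2 973)
(mv 1101 (cons (fin 1102 1 1037)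
(mv 1105 (cons (fin 1106 0 1038)
(mv 912 (cons (fin 1169 7 912)
(fin 848 4 848))))))))))))
(cons (mv 975 (cons (fin 1042 3 974)
(mv 1101 (cons (fin 1102 1 1037)
(mv 1037 (cons (fin 1100 1 1036)
(mv 1036 (cons (fin 1035 2 971)
(fin 976 2 972)))))))))
(cons (mv 975 (cons (fin 1042 3 974)
(mv 977 (cons (fin 978 2 974)
(mv 1102 (cons (fin 1101 1 1037)
(mv 1105 (cons (fin 1106 0 1038)
(mv 1166 (cons (fin 1230 6 974)
(mv 1165 (cons (fin 1229 5 973)
(mv 1167 (cons (fin 1231 4 974)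
(mv 1104 (cons (fin 1168 2 1101)
(mv 913 (cons (fin 849 5 848)
(mv 914 (cons (fin 976 2 910)
(fin 850 6 849)))))))))))))))))))))
(mv 975 (cons (fin 1042 3 974)
(mv 977 (cons (fin 978 2 974)
(mv 1101 (cons (fin 1102 1 1037)
(mv 1037 (cons (fin 1100 1 1036)
(mv 1105 (cons (fin 1104 0 1037)
(fin 1106 0 1038)))))))))))))))
(mv 973 (cons (fin 1041 3 973)
(mv 972 (cons (fin 971 0 971)
(fin 975 0 972))))))))))
(cons (cons (mv 1039 (cons (cons (mv 973 (cons (fin 1041 3 973)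
(mv 972 (cons (fin 1037 3 972)
(fin 971 0 971)))))
(mv 1037 (cons (cons (mv 972 (cons (fin 973 3 972)
(mv 971 (cons (fin 1036 3 971)
(mv 1101 (cons (fin 1100 1 1036)
(mv 910 (cons (fin 846 5 845)
(mv 1165 (cons (fin 1102 5 909)
(fin 1229 6 973)))))))))))
(mv 1100 (cons (fin 1101 1 1036)
(mv 1036 (cons (fin 1099 1 1035)
(mv 975 (cons (fin 1035 2 971)
(fin 976 2 972))))))))
(cons (mv 972 (cons (fin 973 3 972)
(mv 1036 (cons (fin 971 3 971)
(mv 975 (cons (fin 1035 2 971)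
(fin 976 2 972)))))))
(mv 972 (cons (fin 973 3 972)
(mv 1101 (cons (fin 1100 1 1036)
(mv 910 (cons (fin 846 5 845)
(mv 1165 (cons (fin 1102 5 909)
(fin 1229 6 973)))))))))))))
(cons (mv 1041 (cons (cons (mv 975 (cons (fin 1042 3 974)
(mv 1101 (cons (fin 1102 1 1037)
(mv 1037 (cons (fin 1100 1 1036)
(mv 1036 (cons (fin 1035 2 971)
(fin 976 2 972)))))))))
(mv 1101 (cons (fin 1102 1 1037)
(mv 1037 (cons (fin 1100 1 1036)
(mv 1105 (cons (fin 1104 0 1037)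
(fin 1106 0 1038))))))))
(cons (mv 975 (cons (fin 1042 3 974)
(mv 1105 (cons (fin 1106 0 1038)
(mv 1037 (cons (fin 1104 0 1037)
(mv 1036 (cons (fin 1035 2 971)
(fin 976 2 972)))))))))
(mv 975 (cons (fin 1042 3 974)
(mv 1102 (cons (fin 1101 1 1037)
(mv 1105 (cons (fin 1106 0 1038)
(mv 1166 (cons (fin 1230 6 974)
(mv 1165 (cons (fin 1229 5 973)
(mv 1103 (cons (fin 1104 1 1101)
(mv 910 (cons (fin 1167 7 910)
(fin 846 4 846))))))))))))))))))
(mv 973 (cons (fin 1041 3 973)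
(mv 972 (cons (fin 971 0 971)
(fin 975 0 972))))))))
(mv 1039 (cons (cons (mv 973 (cons (fin 1041 3 973)
(mv 972 (cons (fin 1037 3 972)
(fin 971 0 971)))))
(mv 1037 (cons (cons (mv 972 (cons (fin 973 3 972)
(mv 971 (cons (fin 1036 3 971)
(mv 976 (cons (fin 977 2 973)
(mv 1101 (cons (fin 1100 1 1036)
(mv 910 (cons (fin 846 5 845)
(mv 1165 (cons (fin 1102 5 909)
(fin 1229 6 973)))))))))))))
(cons (mv 976 (cons (fin 977 2 973)
(mv 975 (cons (fin 1036 2 972)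
(mv 1101 (cons (fin 1100 1 1036)
(mv 846 (cons (fin 910 5 845)
(mv 1104 (cons (fin 1105 0 1037)
(mv 1165 (cons (fin 1229 6 973)
(mv 1168 (cons (fin 1232 7 975)
(mv 1169 (cons (fin 1233 4 976)
(mv 1103 (cons (fin 1102 0 1101)
(mv 912 (cons (fin 848 5 847)
(mv 913 (cons (fin 973 2 909)
(fin 849 6 848)))))))))))))))))))))))
(mv 976 (cons (fin 977 2 973)
(mv 975 (cons (fin 1036 2 972)
(mv 1101 (cons (fin 1100 1 1036)
(mv 910 (cons (fin 846 5 845)
(mv 1165 (cons (fin 1102 5 909)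
(fin 1229 6 973)))))))))))))
(cons (mv 972 (cons (fin 973 3 972)
(mv 976 (cons (fin 977 2 973)
(mv 1036 (cons (fin 971 3 971)
(fin 975 2 972)))))))
(cons (mv 972 (cons (fin 973 3 972)
(mv 971 (cons (fin 1036 3 971)
(mv 1101 (cons (fin 1100 1 1036)
(mv 910 (cons (fin 846 5 845)
(mv 1165 (cons (fin 1102 5 909)
(fin 1229 6 973)))))))))))
(mv 972 (cons (fin 973 3 972)
(mv 976 (cons (fin 977 2 973)
(mv 1101 (cons (fin 1100 1 1036)
(mv 910 (cons (fin 846 5 845)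
(mv 1165 (cons (fin 1102 5 909)
(fin 1229 6 973))))))))))))))))
(cons (mv 1041 (cons (cons (mv 975 (cons (fin 1042 3 974)
(mv 977 (cons (fin 978 2 974)
(mv 976 (cons (fin 1037 1 973)
(mv 909 (cons (fin 910 3 909)
(mv 913 (cons (fin 914 2 910)
(mv 849 (cons (fin 785 5 784)
(fin 1104 5 848)))))))))))))
(mv 977 (cons (fin 978 2 974)
(mv 976 (cons (fin 1037 2 973)
(mv 1101 (cons (fin 1102 1 1037)
(mv 1105 (cons (fin 1106 0 1038)
(mv 912 (cons (fin 1169 7 912)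
(fin 848 4 848))))))))))))
(cons (mv 975 (cons (fin 1042 3 974)
(mv 1101 (cons (fin 1102 1 1037)
(mv 1037 (cons (fin 1100 1 1036)
(mv 1036 (cons (fin 1035 2 971)
(fin 976 2 972)))))))))
(cons (mv 975 (cons (fin 1042 3 974)
(mv 977 (cons (fin 978 2 974)
(mv 1102 (cons (fin 1101 1 1037)
(mv 1105 (cons (fin 1106 0 1038)
(mv 1166 (cons (fin 1230 6 974)
(mv 1165 (cons (fin 1229 5 973)
(mv 1103 (cons (fin 1104 1 1101)
(mv 910 (cons (fin 846 4 846)
(mv 909 (cons (fin 976 3 909)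
(fin 845 7 845)))))))))))))))))))
(mv 975 (cons (fin 1042 3 974)
(mv 977 (cons (fin 978 2 974)
(mv 1101 (cons (fin 1102 1 1037)
(mv 1037 (cons (fin 1100 1 1036)
(mv 1105 (cons (fin 1104 0 1037)
(fin 1106 0 1038)))))))))))))))
(mv 973 (cons (fin 1041 3 973)
(mv 972 (cons (fin 971 0 971)
(fin 975 0 972)))))))))
(cons (mv 1039 (cons (cons (mv 973 (cons (fin 1041 3 973)
(mv 972 (cons (fin 1037 3 972)
(fin 971 0 971)))))
(mv 1037 (cons (cons (mv 972 (cons (fin 973 3 972)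
(mv 971 (cons (fin 1036 3 971)
(mv 976 (cons (fin 977 2 973)
(mv 1101 (cons (fin 1100 1 1036)
(mv 910 (cons (fin 846 5 845)
(mv 1165 (cons (fin 1102 5 909)
(fin 1229 6 973)))))))))))))
(cons (mv 976 (cons (fin 977 2 973)
(mv 975 (cons (fin 1036 2 972)
(mv 1101 (cons (fin 1100 1 1036)
(mv 910 (cons (fin 846 5 845)
(mv 1165 (cons (fin 1102 5 909)
(fin 973 6 909)))))))))))
(mv 976 (cons (fin 977 2 973)
(mv 975 (cons (fin 1036 2 972)
(mv 1101 (cons (fin 1100 1 1036)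
(mv 910 (cons (fin 846 5 845)
(mv 1165 (cons (fin 1102 5 909)
(fin 1229 6 973)))))))))))))
(cons (mv 972 (cons (fin 973 3 972)
(mv 976 (cons (fin 977 2 973)
(mv 1036 (cons (fin 971 3 971)
(fin 975 2 972)))))))
(cons (mv 972 (cons (fin 973 3 972)
(mv 971 (cons (fin 1036 3 971)
(mv 1101 (cons (fin 1100 1 1036)
(mv 910 (cons (fin 846 5 845)
(mv 1165 (cons (fin 1102 5 909)
(fin 1229 6 973)))))))))))
(mv 972 (cons (fin 973 3 972)
(mv 976 (cons (fin 977 2 973)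
(mv 1101 (cons (fin 1100 1 1036)
(mv 910 (cons (fin 846 5 845)
(mv 1165 (cons (fin 1102 5 909)
(fin 1229 6 973))))))))))))))))
(cons (mv 1041 (cons (cons (mv 975 (cons (fin 1042 3 974)
(mv 977 (cons (fin 978 2 974)
(mv 976 (cons (fin 1037 1 973)
(mv 909 (cons (fin 910 3 909)
(mv 913 (cons (fin 914 2 910)
(mv 849 (cons (fin 785 5 784)
(fin 1104 5 848)))))))))))))
(mv 977 (cons (fin 978 2 974)
(mv 1037 (cons (fin 976 2 973)
(mv 1101 (cons (fin 1100 1 1036)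
(fin 1102 1 1037))))))))
(cons (mv 975 (cons (fin 1042 3 974)
(mv 1101 (cons (fin 1102 1 1037)
(mv 1037 (cons (fin 1100 1 1036)
(mv 1036 (cons (fin 1035 2 971)
(fin 976 2 972)))))))))
(cons (mv 975 (cons (fin 1042 3 974)
(mv 977 (cons (fin 978 2 974)
(mv 1102 (cons (fin 1101 1 1037)
(mv 1166 (cons (fin 1230 6 974)
(mv 1165 (cons (fin 1229 5 973)
(mv 1167 (cons (fin 1231 4 974)
(mv 910 (cons (fin 1103 7 910)
(mv 909 (cons (fin 976 3 909)
(fin 845 7 845)))))))))))))))))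
(mv 975 (cons (fin 1042 3 974)
(mv 977 (cons (fin 978 2 974)
(mv 1101 (cons (fin 1102 1 1037)
(mv 1037 (cons (fin 1100 1 1036)
(mv 910 (cons (fin 846 5 845)
(mv 1036 (cons (fin 1035 2 971)
(mv 1103 (cons (fin 1104 0 1036)
(fin 1167 7 910)))))))))))))))))))
(mv 973 (cons (fin 1041 3 973)
(mv 972 (cons (fin 971 0 971)
(fin 975 0 972))))))))
(mv 1039 (cons (cons (mv 973 (cons (fin 1041 3 973)
(mv 972 (cons (fin 1037 3 972)
(fin 971 0 971)))))
(mv 1037 (cons (cons (mv 972 (cons (fin 973 3 972)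
(mv 971 (cons (fin 1036 3 971)
(mv 976 (cons (fin 977 2 973)
(mv 1101 (cons (fin 1100 1 1036)
(mv 910 (cons (fin 846 5 845)
(mv 1165 (cons (fin 1102 5 909)
(fin 1229 6 973)))))))))))))
(cons (mv 976 (cons (fin 977 2 973)
(mv 975 (cons (fin 1036 2 972)
(mv 1101 (cons (fin 1100 1 1036)
(mv 910 (cons (fin 846 5 845)
(mv 1165 (cons (fin 1102 5 909)
(fin 973 6 909)))))))))))
(mv 976 (cons (fin 977 2 973)
(mv 975 (cons (fin 1036 2 972)
(mv 1101 (cons (fin 1100 1 1036)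
(mv 910 (cons (fin 846 5 845)
(mv 1165 (cons (fin 1102 5 909)
(fin 1229 6 973)))))))))))))
(cons (mv 972 (cons (fin 973 3 972)
(mv 976 (cons (fin 977 2 973)
(mv 1036 (cons (fin 971 3 971)
(fin 975 2 972)))))))
(cons (mv 972 (cons (fin 973 3 972)
(mv 971 (cons (fin 1036 3 971)
(mv 1101 (cons (fin 1100 1 1036)
(mv 910 (cons (fin 846 5 845)
(mv 1165 (cons (fin 1102 5 909)
(fin 1229 6 973)))))))))))
(mv 972 (cons (fin 973 3 972)
(mv 976 (cons (fin 977 2 973)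
(mv 1101 (cons (fin 1100 1 1036)
(mv 910 (cons (fin 846 5 845)
(mv 1165 (cons (fin 1102 5 909)
(fin 1229 6 973))))))))))))))))
(cons (mv 1041 (cons (cons (mv 975 (cons (fin 1042 3 974)
(mv 977 (cons (fin 978 2 974)
(mv 976 (cons (fin 1037 1 973)
(mv 909 (cons (fin 910 3 909)
(mv 913 (cons (fin 914 2 910)
(mv 785 (cons (fin 849 5 784)
(mv 1101 (cons (fin 1102 1 1037)
(mv 1105 (cons (fin 1106 0 1038)
(mv 912 (cons (fin 848 7 848)
(fin 1169 7 912)))))))))))))))))))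
(cons (mv 977 (cons (fin 978 2 974)
(mv 976 (cons (fin 1037 2 973)
(mv 1101 (cons (fin 1102 1 1037)
(mv 1105 (cons (fin 1106 0 1038)
(mv 912 (cons (fin 1169 7 912)
(fin 848 4 848)))))))))))
(mv 975 (cons (fin 1042 3 974)
(mv 977 (cons (fin 978 2 974)
(mv 976 (cons (fin 1037 1 973)
(mv 909 (cons (fin 910 3 909)
(mv 913 (cons (fin 914 2 910)
(mv 785 (cons (fin 849 5 784)
(mv 1105 (cons (fin 1106 0 1038)
(mv 912 (cons (fin 848 7 848)
(fin 1169 7 912)))))))))))))))))))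
(cons (mv 975 (cons (fin 1042 3 974)
(mv 1101 (cons (fin 1102 1 1037)
(mv 1037 (cons (fin 1100 1 1036)
(mv 1036 (cons (fin 1035 2 971)
(fin 976 2 972)))))))))
(cons (mv 975 (cons (fin 1042 3 974)
(mv 977 (cons (fin 978 2 974)
(mv 1102 (cons (fin 1101 1 1037)
(mv 1105 (cons (fin 1106 0 1038)
(mv 1166 (cons (fin 1230 6 974)
(mv 1165 (cons (fin 1229 5 973)
(mv 1167 (cons (fin 1231 4 974)
(mv 910 (cons (fin 1103 7 910)
(mv 909 (cons (fin 976 3 909)
(fin 845 7 845)))))))))))))))))))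
(mv 975 (cons (fin 1042 3 974)
(mv 977 (cons (fin 978 2 974)
(mv 1102 (cons (fin 1101 1 1037)
(mv 1105 (cons (fin 1106 0 1038)
(mv 1166 (cons (fin 1230 6 974)
(mv 1165 (cons (fin 1229 5 973)
(mv 1167 (cons (fin 1231 4 974)
(mv 910 (cons (fin 1103 7 910)
(mv 845 (cons (fin 909 7 845)
(mv 846 (cons (fin 781 7 781)
(fin 782 4 782)))))))))))))))))))))))))
(mv 973 (cons (fin 1041 3 973)
(mv 972 (cons (fin 971 0 971)
(fin 975 0 972)))))))))))))
def l32 : Lem := ⟨11781361728633673533054441723117730079171283746239247440356909899588005244909514899260159721150817405942924420470662491174673842036557007391209044253460063708080530407354770956693342717623350878333880262063391977041189311657559161319740834448813323445848447489700891174053752382374267171085078592036680673850818560, 22019231428124253523982968249455067403521848848250279738647753783541765588102321481743959575635018580912598523649034366256277937691572330106347338466764062056534070439762881398070211412881007830424805823577910746162094604161278853574063514025758499290582149765859284824070653164902150965277780485866950306141765507328765613154872432996908851036127209627079312572519872064101993051630521291489571935870460624896,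 22019231428124253523982968249455067403521848848250279738647753783541765588102321481743959575635018580912598523649034366256277937691572330106347338466764062056534070439762881398070211412881007830424805823577910746162094604161278853574063514025758499290582149765859284824070653164902150965277780485866950306141765507328765613154872432996908851036127209627079312572519872064101993051630521291489571935870460624896, 18, 33⟩
theorem l32_valid : l32.Valid :=
  Lem.valid_of_chk t32 t32_valid [974, 1040] c32 l32 (by decide +kernel)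
end Crest.Agent.SnakyAux
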