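import Crest.Agent.S0047_aux.Checker

set_option autoImplicit false
set_option maxRecDepth 100000
namespace Crest.Agent.SnakyAux
open Cert
def t33 : Tbl := Tbl.nil
theorem t33_valid : t33.Valid := Tbl.valid_nil
def c33 : Cert :=
(mv 1038 (cons (cons (cons (mv 1039 (cons (cons (mv 973 (cons (fin 1041 3 973)
(mv 972 (cons (fin 1037 3 972)
(fin 971 0 971)))))
(mv 1037 (cons (cons (mv 972 (cons (fin 973 3 972)
(mv 971 (cons (fin 1036 3 971)
(mv 1101 (cons (fin 1100 1 1036)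
(mv 910 (cons (fin 846 5 845)
(mv 1165 (cons (fin 1102 5 909)
(fin 1229 6 973)))))))))))
(mv 1100 (cons (fin 1101 1 1036)
(mv 1036 (cons (fin 1099 1 1035)
(mv 1104 (cons (fin 1103 0 1036)
(fin 1105 0 1037))))))))
(cons (mv 972 (cons (fin 973 3 972)
(mv 1036 (cons (fin 971 3 971)
(mv 1104 (cons (fin 1103 0 1036)
(fin 1105 0 1037)))))))
(mv 972 (cons (fin 973 3 972)
(mv 1101 (cons (fin 1100 1 1036)
(mv 910 (cons (fin 846 5 845)
(mv 1165 (cons (fin 1102 5 909)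
(fin 1229 6 973)))))))))))))
(cons (mv 1041 (cons (cons (mv 975 (cons (fin 1042 3 974)
(mv 977 (cons (fin 978 2 974)
(mv 1101 (cons (fin 1102 1 1037)
(mv 1037 (cons (fin 1100 1 1036)
(mv 1105 (cons (fin 1104 0 1037)
(fin 1106 0 1038)))))))))))
(cons (mv 977 (cons (fin 978 2 974)
(mv 1101 (cons (fin 1102 1 1037)
(mv 1037 (cons (fin 1100 1 1036)
(mv 1105 (cons (fin 1104 0 1037)
(fin 1106 0 1038)))))))))
(mv 975 (cons (fin 1042 3 974)
(mv 977 (cons (fin 978 2 974)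
(mv 1105 (cons (fin 1106 0 1038)
(mv 1037 (cons (fin 1104 0 1037)
(mv 1036 (cons (fin 1035 2 971)
(mv 1100 (cons (fin 1099 1 1035)
(fin 1101 1 1036)))))))))))))))
(cons (cons (mv 975 (cons (fin 1042 3 974)
(mv 977 (cons (fin 978 2 974)
(mv 1105 (cons (fin 1106 0 1038)
(mv 1104 (cons (fin 1037 0 1037)
(mv 913 (cons (fin 849 5 848)
(fin 1168 5 912)))))))))))
(mv 975 (cons (fin 1042 3 974)
(mv 977 (cons (fin 978 2 974)
(mv 1101 (cons (fin 1102 1 1037)
(mv 1037 (cons (fin 1100 1 1036)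
(mv 910 (cons (fin 846 5 845)
(mv 1036 (cons (fin 1035 2 971)
(mv 1103 (cons (fin 1104 0 1036)
(fin 1167 7 910))))))))))))))))
(cons (mv 975 (cons (fin 1042 3 974)
(mv 1101 (cons (fin 1102 1 1037)
(mv 1037 (cons (fin 1100 1 1036)
(mv 1105 (cons (fin 1104 0 1037)
(fin 1106 0 1038)))))))))
(mv 975 (cons (fin 1042 3 974)
(mv 977 (cons (fin 978 2 974)
(mv 1102 (cons (fin 1101 1 1037)
(mv 911 (cons (fin 847 5 846)
(fin 1166 6 910)))))))))))))
(mv 973 (cons (fin 1041 3 973)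
(mv 972 (cons (fin 971 0 971)
(fin 975 0 972))))))))
(cons (mv 1102 (cons (cons (mv 1166 (cons (cons (mv 909 (cons (fin 973 7 909)
(mv 845 (cons (fin 910 7 845)
(mv 911 (cons (fin 975 6 910)
(mv 1229 (cons (fin 1165 5 973)
(mv 1230 (cons (fin 1293 5 1037)
(mv 1231 (cons (fin 1167 4 974)
(fin 1295 4 1038)))))))))))))
(mv 909 (cons (fin 973 7 909)
(mv 910 (cons (fin 845 7 845)
(mv 911 (cons (fin 847 6 846)
(fin 975 6 910))))))))
(cons (mv 911 (cons (fin 975 6 910)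
(mv 847 (cons (fin 910 6 846)
(mv 1229 (cons (fin 1165 5 973)
(mv 1230 (cons (fin 1293 5 1037)
(mv 1231 (cons (fin 1167 4 974)
(fin 1295 4 1038)))))))))))
(cons (mv 909 (cons (fin 973 7 909)
(mv 845 (cons (fin 910 7 845)
(mv 1229 (cons (fin 1165 5 973)
(mv 1230 (cons (fin 1293 5 1037)
(mv 1231 (cons (fin 1167 4 974)
(fin 1295 4 1038)))))))))))
(mv 909 (cons (fin 973 7 909)
(mv 911 (cons (fin 975 6 910)
(mv 1229 (cons (fin 1165 5 973)
(mv 1230 (cons (fin 1293 5 1037)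
(mv 1231 (cons (fin 1167 4 974)
(fin 1295 4 1038)))))))))))))))
(cons (mv 910 (cons (cons (mv 845 (cons (fin 909 7 845)
(mv 781 (cons (fin 846 7 781)
(mv 847 (cons (fin 911 6 846)
(mv 1101 (cons (fin 1165 5 909)
(mv 1103 (cons (fin 1167 4 910)
(mv 1104 (cons (fin 1041 2 1037)
(mv 1037 (cons (fin 1036 3 1036)
(fin 1105 3 1037)))))))))))))))
(mv 845 (cons (fin 909 7 845)
(mv 846 (cons (fin 781 7 781)
(mv 847 (cons (fin 783 6 782)
(fin 911 6 846))))))))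
(cons (mv 847 (cons (fin 911 6 846)
(mv 783 (cons (fin 846 6 782)
(mv 1101 (cons (fin 1165 5 909)
(mv 1103 (cons (fin 1167 4 910)
(mv 1104 (cons (fin 1041 2 1037)
(mv 1037 (cons (fin 1036 3 1036)
(fin 1105 3 1037)))))))))))))
(cons (mv 845 (cons (fin 909 7 845)
(mv 781 (cons (fin 846 7 781)
(mv 1101 (cons (fin 1165 5 909)
(mv 1103 (cons (fin 1167 4 910)
(mv 1104 (cons (fin 1041 2 1037)
(mv 1037 (cons (fin 1036 3 1036)
(fin 1105 3 1037)))))))))))))
(mv 845 (cons (fin 909 7 845)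
(mv 847 (cons (fin 911 6 846)
(mv 1101 (cons (fin 1165 5 909)
(mv 1103 (cons (fin 1167 4 910)
(mv 1104 (cons (fin 1041 2 1037)
(mv 1037 (cons (fin 1036 3 1036)
(fin 1105 3 1037)))))))))))))))))
(mv 1166 (cons (cons (mv 909 (cons (fin 973 7 909)
(mv 911 (cons (fin 975 6 910)
(mv 1229 (cons (fin 1165 5 973)
(mv 1230 (cons (fin 1293 5 1037)
(mv 1231 (cons (fin 1167 4 974)
(fin 1295 4 1038)))))))))))
(cons (mv 911 (cons (fin 975 6 910)
(mv 1229 (cons (fin 1165 5 973)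
(mv 1230 (cons (fin 1293 5 1037)
(mv 1231 (cons (fin 1167 4 974)
(fin 1295 4 1038)))))))))
(mv 911 (cons (fin 975 6 910)
(mv 973 (cons (fin 909 7 909)
(mv 1230 (cons (fin 1037 7 973)
(mv 1231 (cons (fin 1167 4 974)
(fin 1295 4 1038)))))))))))
(cons (mv 911 (cons (fin 975 6 910)
(mv 973 (cons (fin 909 7 909)
(mv 1229 (cons (fin 1165 5 973)
(mv 1230 (cons (fin 1037 7 973)
(fin 1293 5 1037)))))))))
(cons (mv 909 (cons (fin 973 7 909)
(mv 1229 (cons (fin 1165 5 973)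
(mv 1230 (cons (fin 1293 5 1037)
(mv 1231 (cons (fin 1167 4 974)
(fin 1295 4 1038)))))))))
(mv 909 (cons (fin 973 7 909)
(mv 911 (cons (fin 975 6 910)
(mv 1165 (cons (fin 1229 5 973)
(mv 1167 (cons (fin 1231 4 974)
(mv 1168 (cons (mv 1101 (cons (fin 1100 3 1100)
(fin 1169 3 1101)))
(cons (mv 1104 (cons (fin 1105 2 1101)
(mv 1103 (cons (fin 1164 2 1100)
(mv 1169 (cons (fin 1170 3 1102)
(mv 1233 (cons (fin 1232 0 1165)
(fin 1234 0 1166)))))))))
(mv 1100 (cons (fin 1101 3 1100)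
(mv 1104 (cons (fin 1105 2 1101)
(mv 1164 (cons (fin 1099 3 1099)
(fin 1103 2 1100))))))))))))))))))))))))
(cons (cons (mv 910 (cons (cons (mv 845 (cons (fin 909 7 845)
(mv 781 (cons (fin 846 7 781)
(mv 911 (cons (fin 847 6 846)
(mv 1166 (cons (fin 975 6 910)
(mv 1167 (cons (fin 1103 4 910)
(fin 1231 4 974)))))))))))
(cons (mv 847 (cons (fin 911 6 846)
(mv 846 (cons (fin 783 6 782)
(mv 781 (cons (fin 845 7 781)
(mv 782 (cons (fin 717 7 717)
(mv 1037 (cons (fin 973 5 781)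
(fin 1101 5 845)))))))))))
(mv 845 (cons (fin 909 7 845)
(mv 846 (cons (fin 781 7 781)
(mv 783 (cons (fin 847 6 782)
(mv 782 (cons (fin 719 6 718)
(mv 1037 (cons (fin 973 5 781)
(fin 1101 5 845)))))))))))))
(cons (mv 847 (cons (fin 911 6 846)
(mv 846 (cons (fin 783 6 782)
(mv 1037 (cons (fin 1101 5 845)
(mv 973 (cons (fin 782 5 781)
(mv 1166 (cons (fin 909 7 909)
(fin 1230 7 973)))))))))))
(cons (mv 845 (cons (fin 909 7 845)
(mv 846 (cons (fin 781 7 781)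
(mv 1037 (cons (fin 1101 5 845)
(mv 973 (cons (fin 782 5 781)
(mv 1166 (cons (fin 1230 7 973)
(mv 1167 (cons (fin 1103 4 910)
(fin 1231 4 974)))))))))))))
(mv 845 (cons (fin 909 7 845)
(mv 911 (cons (fin 847 6 846)
(mv 1166 (cons (fin 975 6 910)
(mv 1167 (cons (fin 1103 4 910)
(fin 1231 4 974)))))))))))))
(mv 1166 (cons (cons (mv 911 (cons (fin 975 6 910)
(mv 847 (cons (fin 910 6 846)
(mv 1167 (cons (fin 1231 4 974)
(mv 1229 (cons (fin 1165 5 973)
(mv 1230 (cons (fin 1293 5 1037)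
(mv 1037 (cons (fin 973 7 973)
(mv 1101 (cons (fin 1294 7 1037)
(mv 1100 (cons (fin 1099 0 1099)
(mv 1168 (cons (fin 1169 3 1101)
(fin 1103 0 1100)))))))))))))))))))
(cons (mv 911 (cons (fin 975 6 910)
(mv 847 (cons (fin 910 6 846)
(mv 1231 (cons (fin 1167 4 974)
(mv 1230 (cons (fin 1295 4 1038)
(mv 1037 (cons (fin 973 7 973)
(mv 1293 (cons (fin 1229 5 1037)
(mv 1294 (cons (fin 1101 7 1037)
(fin 1357 5 1101)))))))))))))))
(mv 911 (cons (fin 975 6 910)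
(mv 847 (cons (fin 910 6 846)
(mv 1229 (cons (fin 1165 5 973)
(mv 1230 (cons (fin 1293 5 1037)
(mv 1037 (cons (fin 973 7 973)
(mv 1294 (cons (fin 1101 7 1037)
(mv 1295 (cons (fin 1231 4 1038)
(fin 1359 4 1102)))))))))))))))))
(cons (cons (mv 911 (cons (fin 975 6 910)
(mv 910 (cons (fin 847 6 846)
(mv 1167 (cons (fin 1103 4 910)
(fin 1231 4 974)))))))
(mv 911 (cons (fin 975 6 910)
(mv 910 (cons (fin 847 6 846)
(mv 1165 (cons (fin 1101 5 909)
(fin 1229 5 973))))))))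
(cons (mv 1165 (cons (fin 1229 5 973)
(mv 910 (cons (fin 1101 5 909)
(mv 1167 (cons (fin 1103 4 910)
(fin 1231 4 974)))))))
(mv 911 (cons (fin 975 6 910)
(mv 1167 (cons (fin 1231 4 974)
(mv 1229 (cons (fin 1165 5 973)
(mv 1230 (cons (fin 1293 5 1037)
(mv 1037 (cons (fin 973 7 973)
(mv 1101 (cons (fin 1294 7 1037)
(mv 1100 (cons (fin 1099 0 1099)
(mv 1168 (cons (fin 1169 3 1101)
(fin 1103 0 1100))))))))))))))))))))))
(cons (mv 910 (cons (cons (mv 845 (cons (fin 909 7 845)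
(mv 781 (cons (fin 846 7 781)
(mv 911 (cons (fin 847 6 846)
(mv 1165 (cons (fin 1101 5 909)
(mv 1166 (cons (fin 1229 5 973)
(fin 975 6 910)))))))))))
(mv 847 (cons (fin 911 6 846)
(mv 846 (cons (fin 783 6 782)
(mv 1101 (cons (fin 1037 5 845)
(fin 1165 5 909))))))))
(cons (mv 845 (cons (fin 909 7 845)
(mv 846 (cons (fin 781 7 781)
(mv 1101 (cons (fin 1037 5 845)
(fin 1165 5 909)))))))
(cons (mv 845 (cons (fin 909 7 845)
(mv 846 (cons (fin 781 7 781)
(mv 847 (cons (fin 783 6 782)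
(fin 911 6 846)))))))
(mv 845 (cons (fin 909 7 845)
(mv 911 (cons (fin 847 6 846)
(mv 1165 (cons (fin 1101 5 909)
(mv 1166 (cons (fin 1229 5 973)
(fin 975 6 910)))))))))))))
(mv 1166 (cons (cons (mv 909 (cons (fin 973 7 909)
(mv 845 (cons (fin 910 7 845)
(mv 1229 (cons (fin 1165 5 973)
(mv 1230 (cons (fin 1293 5 1037)
(mv 1231 (cons (fin 1167 4 974)
(fin 1295 4 1038)))))))))))
(mv 909 (cons (fin 973 7 909)
(mv 910 (cons (fin 845 7 845)
(mv 1167 (cons (fin 1103 4 910)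
(fin 1231 4 974))))))))
(cons (mv 909 (cons (fin 973 7 909)
(mv 910 (cons (fin 845 7 845)
(mv 1165 (cons (fin 1101 5 909)
(fin 1229 5 973)))))))
(cons (mv 1165 (cons (fin 1229 5 973)
(mv 910 (cons (fin 1101 5 909)
(mv 1167 (cons (fin 1103 4 910)
(fin 1231 4 974)))))))
(mv 909 (cons (fin 973 7 909)
(mv 1229 (cons (fin 1165 5 973)
(mv 1230 (cons (fin 1293 5 1037)
(mv 1231 (cons (fin 1167 4 974)
(fin 1295 4 1038)))))))))))))))))
(mv 1039 (cons (cons (cons (mv 1041 (cons (cons (mv 975 (cons (fin 1042 3 974)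
(mv 977 (cons (fin 978 2 974)
(mv 1101 (cons (fin 1102 1 1037)
(mv 1037 (cons (fin 1100 1 1036)
(mv 1105 (cons (fin 1104 0 1037)
(fin 1106 0 1038)))))))))))
(cons (mv 977 (cons (fin 978 2 974)
(mv 1101 (cons (fin 1102 1 1037)
(mv 1037 (cons (fin 1100 1 1036)
(mv 1105 (cons (fin 1104 0 1037)
(fin 1106 0 1038)))))))))
(mv 975 (cons (fin 1042 3 974)
(mv 977 (cons (fin 978 2 974)
(mv 1105 (cons (fin 1106 0 1038)
(mv 1037 (cons (fin 1104 0 1037)
(mv 1036 (cons (fin 1035 2 971)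
(mv 1100 (cons (fin 1099 1 1035)
(fin 1101 1 1036)))))))))))))))
(cons (cons (mv 975 (cons (fin 1042 3 974)
(mv 977 (cons (fin 978 2 974)
(mv 1105 (cons (fin 1106 0 1038)
(mv 1104 (cons (fin 1037 0 1037)
(mv 913 (cons (fin 849 5 848)
(fin 1168 5 912)))))))))))
(mv 975 (cons (fin 1042 3 974)
(mv 977 (cons (fin 978 2 974)
(mv 1101 (cons (fin 1102 1 1037)
(mv 1037 (cons (fin 1100 1 1036)
(mv 910 (cons (fin 846 5 845)
(mv 1036 (cons (fin 1035 2 971)
(mv 1103 (cons (fin 1104 0 1036)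
(fin 1167 7 910))))))))))))))))
(cons (mv 975 (cons (fin 1042 3 974)
(mv 1101 (cons (fin 1102 1 1037)
(mv 1037 (cons (fin 1100 1 1036)
(mv 1105 (cons (fin 1104 0 1037)
(fin 1106 0 1038)))))))))
(mv 975 (cons (fin 1042 3 974)
(mv 977 (cons (fin 978 2 974)
(mv 1102 (cons (fin 1101 1 1037)
(mv 911 (cons (fin 847 5 846)
(fin 1166 6 910)))))))))))))
(mv 1037 (cons (cons (mv 1100 (cons (fin 1101 1 1036)
(mv 1036 (cons (fin 1099 1 1035)
(mv 1104 (cons (fin 1103 0 1036)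
(fin 1105 0 1037)))))))
(mv 1104 (cons (fin 1105 0 1037)
(mv 1036 (cons (fin 1103 0 1036)
(mv 971 (cons (fin 972 3 971)
(mv 1035 (cons (fin 970 3 970)
(fin 975 2 971))))))))))
(cons (mv 1100 (cons (fin 1101 1 1036)
(mv 1036 (cons (fin 1099 1 1035)
(mv 971 (cons (fin 972 3 971)
(mv 1035 (cons (fin 970 3 970)
(fin 975 2 971)))))))))
(mv 1101 (cons (fin 1100 1 1036)
(mv 910 (cons (fin 846 5 845)
(mv 1165 (cons (fin 1102 5 909)
(fin 1229 6 973)))))))))))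
(cons (mv 1041 (cons (cons (mv 975 (cons (fin 1042 3 974)
(mv 977 (cons (fin 978 2 974)
(mv 1101 (cons (fin 1102 1 1037)
(mv 1037 (cons (fin 1100 1 1036)
(mv 1105 (cons (fin 1104 0 1037)
(fin 1106 0 1038)))))))))))
(mv 977 (cons (fin 978 2 974)
(mv 1101 (cons (fin 1102 1 1037)
(mv 1037 (cons (fin 1100 1 1036)
(mv 1105 (cons (fin 1104 0 1037)
(fin 1106 0 1038))))))))))
(cons (mv 975 (cons (fin 1042 3 974)
(mv 977 (cons (fin 978 2 974)
(mv 1105 (cons (fin 1106 0 1038)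
(mv 1104 (cons (fin 1037 0 1037)
(mv 913 (cons (fin 849 5 848)
(fin 1168 5 912)))))))))))
(cons (mv 975 (cons (fin 1042 3 974)
(mv 977 (cons (fin 978 2 974)
(mv 1102 (cons (fin 1101 1 1037)
(mv 911 (cons (fin 847 5 846)
(fin 1166 6 910)))))))))
(mv 975 (cons (fin 1042 3 974)
(mv 1101 (cons (fin 1102 1 1037)
(mv 1037 (cons (fin 1100 1 1036)
(mv 1105 (cons (fin 1104 0 1037)
(fin 1106 0 1038)))))))))))))
(mv 1041 (cons (cons (mv 975 (cons (fin 1042 3 974)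
(mv 977 (cons (fin 978 2 974)
(mv 1102 (cons (fin 1101 1 1037)
(mv 911 (cons (fin 847 5 846)
(fin 1166 6 910)))))))))
(mv 977 (cons (fin 978 2 974)
(mv 1101 (cons (fin 1102 1 1037)
(mv 1105 (cons (fin 1106 0 1038)
(mv 913 (cons (mv 1104 (cons (fin 849 5 848)
(fin 1168 5 912)))
(cons (mv 848 (cons (fin 912 7 848)
(mv 849 (cons (fin 784 7 784)
(mv 850 (cons (fin 786 6 785)
(fin 914 6 849)))))))
(mv 848 (cons (fin 912 7 848)
(mv 850 (cons (fin 914 6 849)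
(mv 1168 (cons (fin 1104 5 912)
(mv 1169 (cons (fin 1232 5 976)
(mv 1234 (cons (fin 1170 4 977)
(mv 1233 (cons (fin 1298 4 1041)
(mv 1167 (cons (fin 1166 0 1166)
(mv 1103 (cons (fin 1231 7 974)
(mv 910 (cons (fin 975 7 910)
(fin 846 4 846)))))))))))))))))))))))))))))
(cons (mv 977 (cons (fin 978 2 974)
(mv 1042 (cons (fin 975 3 974)
(mv 1106 (cons (fin 1105 0 1038)
(fin 1107 0 1039)))))))
(cons (mv 975 (cons (fin 1042 3 974)
(mv 1102 (cons (fin 1101 1 1037)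
(mv 911 (cons (fin 847 5 846)
(fin 1166 6 910)))))))
(mv 977 (cons (fin 978 2 974)
(mv 1102 (cons (fin 1101 1 1037)
(mv 1042 (cons (fin 1103 1 1038)
(mv 1106 (cons (fin 1105 0 1038)
(fin 1107 0 1039)))))))))))))))
(cons (cons (mv 1041 (cons (cons (mv 975 (cons (fin 1042 3 974)
(mv 977 (cons (fin 978 2 974)
(mv 1105 (cons (fin 1106 0 1038)
(mv 1104 (cons (fin 1037 0 1037)
(mv 913 (cons (fin 849 5 848)
(fin 1168 5 912)))))))))))
(mv 977 (cons (fin 978 2 974)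
(mv 1105 (cons (fin 1106 0 1038)
(mv 1104 (cons (fin 1037 0 1037)
(mv 913 (cons (fin 849 5 848)
(fin 1168 5 912))))))))))
(cons (mv 978 (cons (fin 977 2 974)
(mv 1042 (cons (fin 975 3 974)
(fin 979 2 975)))))
(mv 975 (cons (fin 1042 3 974)
(mv 1105 (cons (fin 1106 0 1038)
(mv 1104 (cons (fin 1037 0 1037)
(mv 911 (cons (fin 847 4 847)
(mv 1168 (cons (fin 1232 7 975)
(fin 1103 4 911))))))))))))))
(mv 1041 (cons (cons (mv 975 (cons (fin 1042 3 974)
(mv 977 (cons (fin 978 2 974)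
(mv 1101 (cons (fin 1102 1 1037)
(mv 1037 (cons (fin 1100 1 1036)
(mv 910 (cons (fin 846 5 845)
(mv 1036 (cons (fin 1035 2 971)
(mv 1103 (cons (fin 1104 0 1036)
(fin 1167 7 910)))))))))))))))
(mv 977 (cons (fin 978 2 974)
(mv 1102 (cons (fin 1101 1 1037)
(mv 1166 (cons (mv 975 (cons (fin 911 6 910)
(fin 1230 6 974)))
(cons (mv 1165 (cons (fin 1229 5 973)
(mv 1167 (cons (fin 1231 4 974)
(mv 910 (cons (fin 1103 4 910)
(mv 845 (cons (fin 909 7 845)
(mv 846 (cons (fin 781 7 781)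
(mv 847 (cons (fin 783 6 782)
(fin 911 6 846)))))))))))))
(mv 975 (cons (fin 1230 6 974)
(mv 1165 (cons (fin 1229 5 973)
(mv 1167 (cons (fin 1231 4 974)
(mv 910 (cons (fin 1103 7 910)
(mv 845 (cons (fin 909 7 845)
(mv 846 (cons (fin 781 7 781)
(fin 782 4 782)))))))))))))))))))))
(cons (mv 978 (cons (fin 977 2 974)
(mv 1042 (cons (fin 975 3 974)
(fin 979 2 975)))))
(cons (mv 975 (cons (fin 1042 3 974)
(mv 1101 (cons (fin 1102 1 1037)
(mv 1037 (cons (fin 1100 1 1036)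
(mv 910 (cons (fin 846 5 845)
(mv 1036 (cons (fin 1035 2 971)
(mv 1103 (cons (fin 1104 0 1036)
(fin 1167 7 910)))))))))))))
(mv 977 (cons (fin 978 2 974)
(mv 1102 (cons (fin 1101 1 1037)
(mv 1103 (cons (fin 1042 1 1038)
(mv 910 (cons (fin 846 4 846)
(fin 1167 4 910))))))))))))))
(cons (mv 1041 (cons (cons (mv 977 (cons (fin 978 2 974)
(mv 1101 (cons (fin 1102 1 1037)
(mv 1037 (cons (fin 1100 1 1036)
(mv 1105 (cons (fin 1104 0 1037)
(fin 1106 0 1038)))))))))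
(mv 977 (cons (fin 978 2 974)
(mv 1105 (cons (fin 1106 0 1038)
(mv 1104 (cons (fin 1037 0 1037)
(mv 913 (cons (fin 849 5 848)
(fin 1168 5 912))))))))))
(cons (mv 977 (cons (fin 978 2 974)
(mv 1102 (cons (fin 1101 1 1037)
(mv 1103 (cons (fin 1042 1 1038)
(mv 910 (cons (fin 846 4 846)
(fin 1167 4 910)))))))))
(mv 1101 (cons (fin 1102 1 1037)
(mv 1037 (cons (fin 1100 1 1036)
(mv 1105 (cons (fin 1104 0 1037)
(fin 1106 0 1038))))))))))
(mv 1041 (cons (cons (mv 975 (cons (fin 1042 3 974)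
(mv 977 (cons (fin 978 2 974)
(mv 1102 (cons (fin 1101 1 1037)
(mv 911 (cons (fin 847 5 846)
(fin 1166 6 910)))))))))
(mv 977 (cons (fin 978 2 974)
(mv 1102 (cons (fin 1101 1 1037)
(mv 1105 (cons (fin 1106 0 1038)
(mv 910 (cons (cons (mv 1103 (cons (fin 846 4 846)
(fin 1167 4 910)))
(mv 845 (cons (fin 909 7 845)
(mv 781 (cons (fin 846 7 781)
(mv 911 (cons (fin 847 6 846)
(mv 1166 (cons (fin 975 6 910)
(mv 1229 (cons (fin 1165 5 973)
(mv 1230 (cons (fin 1293 5 1037)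
(mv 1231 (cons (fin 1167 4 974)
(fin 1295 4 1038))))))))))))))))
(cons (mv 845 (cons (fin 909 7 845)
(mv 847 (cons (fin 911 6 846)
(mv 1167 (cons (fin 1103 4 910)
(mv 1166 (cons (fin 1231 4 974)
(mv 1229 (cons (fin 1165 5 973)
(mv 1230 (cons (fin 1293 5 1037)
(fin 975 6 974)))))))))))))
(mv 845 (cons (fin 909 7 845)
(mv 846 (cons (fin 781 7 781)
(fin 1103 4 846)))))))))))))))
(cons (mv 977 (cons (fin 978 2 974)
(mv 1042 (cons (fin 975 3 974)
(mv 1106 (cons (fin 1105 0 1038)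
(fin 1107 0 1039)))))))
(cons (mv 975 (cons (fin 1042 3 974)
(mv 1102 (cons (fin 1101 1 1037)
(mv 911 (cons (fin 847 5 846)
(fin 1166 6 910)))))))
(mv 977 (cons (fin 978 2 974)
(mv 1102 (cons (fin 1101 1 1037)
(mv 1042 (cons (fin 1103 1 1038)
(mv 1106 (cons (fin 1105 0 1038)
(fin 1107 0 1039)))))))))))))))))))
(cons (cons (mv 1102 (cons (cons (mv 1166 (cons (cons (cons (mv 909 (cons (fin 973 7 909)
(mv 845 (cons (fin 910 7 845)
(mv 911 (cons (fin 975 6 910)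
(mv 1229 (cons (fin 1165 5 973)
(mv 1230 (cons (fin 1293 5 1037)
(mv 1231 (cons (fin 1167 4 974)
(fin 1295 4 1038)))))))))))))
(mv 911 (cons (fin 975 6 910)
(mv 847 (cons (fin 910 6 846)
(mv 1229 (cons (fin 1165 5 973)
(mv 1230 (cons (fin 1293 5 1037)
(mv 1231 (cons (fin 1167 4 974)
(fin 1295 4 1038))))))))))))
(cons (mv 909 (cons (fin 973 7 909)
(mv 845 (cons (fin 910 7 845)
(mv 975 (cons (fin 911 6 910)
(mv 1165 (cons (fin 1229 5 973)
(mv 1230 (cons (fin 1039 6 974)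
(mv 1295 (cons (fin 1231 4 1038)
(mv 1294 (cons (fin 1359 4 1102)
(mv 1101 (cons (fin 1037 7 1037)
(fin 1358 7 1101)))))))))))))))))
(mv 909 (cons (fin 973 7 909)
(mv 845 (cons (fin 910 7 845)
(mv 975 (cons (fin 911 6 910)
(mv 1167 (cons (fin 1231 4 974)
(mv 1230 (cons (fin 1039 6 974)
(mv 1293 (cons (fin 1229 5 1037)
(mv 1294 (cons (fin 1357 5 1101)
(mv 1037 (cons (fin 1101 7 1037)
(mv 1035 (cons (fin 1036 2 971)
(mv 1358 (cons (fin 1103 6 1102)
(mv 1359 (cons (fin 1295 4 1102)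
(fin 1423 4 1166)))))))))))))))))))))))))
(cons (cons (mv 909 (cons (fin 973 7 909)
(mv 845 (cons (fin 910 7 845)
(mv 1229 (cons (fin 1165 5 973)
(mv 1230 (cons (fin 1293 5 1037)
(mv 1231 (cons (fin 1167 4 974)
(fin 1295 4 1038)))))))))))
(mv 909 (cons (fin 973 7 909)
(mv 845 (cons (fin 910 7 845)
(mv 975 (cons (fin 911 6 910)
(mv 1229 (cons (fin 1165 5 973)
(mv 1230 (cons (fin 1293 5 1037)
(fin 1039 6 974))))))))))))
(cons (mv 909 (cons (fin 973 7 909)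
(mv 845 (cons (fin 910 7 845)
(mv 975 (cons (fin 911 6 910)
(mv 1230 (cons (fin 1039 6 974)
(mv 1231 (cons (fin 1167 4 974)
(fin 1295 4 1038)))))))))))
(cons (mv 909 (cons (fin 973 7 909)
(mv 910 (cons (fin 845 7 845)
(mv 911 (cons (fin 847 6 846)
(fin 975 6 910)))))))
(mv 909 (cons (fin 973 7 909)
(mv 911 (cons (fin 975 6 910)
(mv 1229 (cons (fin 1165 5 973)
(mv 1230 (cons (fin 1293 5 1037)
(mv 1231 (cons (fin 1167 4 974)
(fin 1295 4 1038))))))))))))))))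
(cons (mv 910 (cons (cons (mv 845 (cons (fin 909 7 845)
(mv 781 (cons (fin 846 7 781)
(mv 847 (cons (fin 911 6 846)
(mv 1101 (cons (fin 1165 5 909)
(mv 1103 (cons (fin 1167 4 910)
(mv 1100 (cons (fin 1039 2 1036)
(mv 1035 (cons (fin 1036 3 1035)
(mv 1099 (cons (fin 1034 3 1034)
(mv 1163 (cons (fin 1162 1 1098)
(fin 1164 1 1099)))))))))))))))))))
(mv 845 (cons (fin 909 7 845)
(mv 846 (cons (fin 781 7 781)
(mv 847 (cons (fin 783 6 782)
(fin 911 6 846))))))))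
(cons (mv 845 (cons (fin 909 7 845)
(mv 781 (cons (fin 846 7 781)
(mv 1101 (cons (fin 1165 5 909)
(mv 1103 (cons (fin 1167 4 910)
(mv 1100 (cons (fin 1039 2 1036)
(mv 1035 (cons (fin 1036 3 1035)
(mv 1099 (cons (fin 1034 3 1034)
(mv 1163 (cons (fin 1162 1 1098)
(fin 1164 1 1099)))))))))))))))))
(cons (mv 847 (cons (fin 911 6 846)
(mv 783 (cons (fin 846 6 782)
(mv 1101 (cons (fin 1165 5 909)
(mv 1103 (cons (fin 1167 4 910)
(mv 1100 (cons (fin 1039 2 1036)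
(mv 1035 (cons (fin 1036 3 1035)
(mv 1099 (cons (fin 1034 3 1034)
(mv 1163 (cons (fin 1162 1 1098)
(fin 1164 1 1099)))))))))))))))))
(mv 845 (cons (fin 909 7 845)
(mv 847 (cons (fin 911 6 846)
(mv 1101 (cons (fin 1165 5 909)
(mv 1103 (cons (fin 1167 4 910)
(mv 1100 (cons (fin 1039 2 1036)
(mv 1035 (cons (fin 1036 3 1035)
(mv 1099 (cons (fin 1034 3 1034)
(mv 1163 (cons (fin 1162 1 1098)
(fin 1164 1 1099)))))))))))))))))))))
(mv 1166 (cons (cons (mv 909 (cons (fin 973 7 909)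
(mv 911 (cons (fin 975 6 910)
(mv 1229 (cons (fin 1165 5 973)
(mv 1230 (cons (fin 1293 5 1037)
(mv 1231 (cons (fin 1167 4 974)
(fin 1295 4 1038)))))))))))
(cons (mv 911 (cons (fin 975 6 910)
(mv 1229 (cons (fin 1165 5 973)
(mv 1230 (cons (fin 1293 5 1037)
(mv 1231 (cons (fin 1167 4 974)
(fin 1295 4 1038)))))))))
(mv 909 (cons (fin 973 7 909)
(mv 1229 (cons (fin 1165 5 973)
(mv 1230 (cons (fin 1293 5 1037)
(mv 1231 (cons (fin 1167 4 974)
(fin 1295 4 1038)))))))))))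
(cons (mv 909 (cons (fin 973 7 909)
(mv 975 (cons (fin 911 6 910)
(mv 1229 (cons (fin 1165 5 973)
(mv 1230 (cons (fin 1293 5 1037)
(fin 1039 6 974)))))))))
(cons (mv 909 (cons (fin 973 7 909)
(mv 975 (cons (fin 911 6 910)
(mv 1230 (cons (fin 1039 6 974)
(mv 1231 (cons (fin 1167 4 974)
(fin 1295 4 1038)))))))))
(mv 973 (cons (fin 909 7 909)
(mv 975 (cons (fin 911 6 910)
(mv 972 (cons (fin 1039 0 972)
(mv 907 (cons (fin 908 3 907)
(mv 971 (cons (fin 906 3 906)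
(mv 1035 (cons (fin 1034 1 970)
(fin 1036 1 971)))))))))))))))))))
(cons (cons (mv 910 (cons (cons (mv 845 (cons (fin 909 7 845)
(mv 781 (cons (fin 846 7 781)
(mv 911 (cons (fin 847 6 846)
(mv 1165 (cons (fin 1101 5 909)
(mv 1166 (cons (fin 1229 5 973)
(fin 975 6 910)))))))))))
(mv 845 (cons (fin 909 7 845)
(mv 846 (cons (fin 781 7 781)
(mv 847 (cons (fin 783 6 782)
(fin 911 6 846))))))))
(cons (mv 845 (cons (fin 909 7 845)
(mv 846 (cons (fin 781 7 781)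
(mv 1101 (cons (fin 1037 5 845)
(fin 1165 5 909)))))))
(cons (mv 847 (cons (fin 911 6 846)
(mv 846 (cons (fin 783 6 782)
(mv 1101 (cons (fin 1037 5 845)
(fin 1165 5 909)))))))
(mv 845 (cons (fin 909 7 845)
(mv 911 (cons (fin 847 6 846)
(mv 1165 (cons (fin 1101 5 909)
(mv 1166 (cons (fin 1229 5 973)
(fin 975 6 910)))))))))))))
(mv 1166 (cons (cons (mv 909 (cons (fin 973 7 909)
(mv 845 (cons (fin 910 7 845)
(mv 1165 (cons (fin 1229 5 973)
(mv 1231 (cons (fin 1167 4 974)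
(mv 1230 (cons (fin 1295 4 1038)
(mv 1039 (cons (fin 975 6 974)
(mv 1103 (cons (fin 1294 6 1038)
(mv 1101 (cons (fin 1100 2 1036)
(mv 1104 (cons (fin 1164 1 1100)
(fin 1105 1 1101)))))))))))))))))))
(cons (mv 1165 (cons (fin 1229 5 973)
(mv 910 (cons (fin 1101 5 909)
(mv 1167 (cons (fin 1103 4 910)
(fin 1231 4 974)))))))
(mv 909 (cons (fin 973 7 909)
(mv 845 (cons (fin 910 7 845)
(mv 1229 (cons (fin 1165 5 973)
(mv 1230 (cons (fin 1293 5 1037)
(mv 1039 (cons (fin 975 6 974)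
(mv 1294 (cons (fin 1103 6 1038)
(mv 1295 (cons (fin 1231 4 1038)
(fin 1359 4 1102)))))))))))))))))
(cons (cons (mv 909 (cons (fin 973 7 909)
(mv 845 (cons (fin 910 7 845)
(mv 1231 (cons (fin 1167 4 974)
(mv 1230 (cons (fin 1295 4 1038)
(mv 1039 (cons (fin 975 6 974)
(mv 1293 (cons (fin 1229 5 1037)
(mv 1294 (cons (fin 1357 5 1101)
(fin 1103 6 1038)))))))))))))))
(mv 909 (cons (fin 973 7 909)
(mv 910 (cons (fin 845 7 845)
(mv 1165 (cons (fin 1101 5 909)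
(fin 1229 5 973))))))))
(cons (mv 909 (cons (fin 973 7 909)
(mv 845 (cons (fin 910 7 845)
(mv 1231 (cons (fin 1167 4 974)
(mv 1230 (cons (fin 1295 4 1038)
(mv 1039 (cons (fin 975 6 974)
(mv 1294 (cons (fin 1103 6 1038)
(mv 1101 (cons (fin 1037 7 1037)
(mv 1099 (cons (fin 1100 2 1035)
(mv 1357 (cons (fin 1293 5 1101)
(mv 1358 (cons (fin 1165 7 1101)
(fin 1421 5 1165)))))))))))))))))))))
(mv 909 (cons (fin 973 7 909)
(mv 1165 (cons (fin 1229 5 973)
(mv 1231 (cons (fin 1167 4 974)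
(mv 1230 (cons (fin 1295 4 1038)
(mv 1039 (cons (fin 975 6 974)
(mv 1103 (cons (fin 1294 6 1038)
(mv 1101 (cons (fin 1100 2 1036)
(mv 1104 (cons (fin 1164 1 1100)
(fin 1105 1 1101))))))))))))))))))))))
(cons (mv 910 (cons (cons (mv 845 (cons (fin 909 7 845)
(mv 781 (cons (fin 846 7 781)
(mv 911 (cons (fin 847 6 846)
(mv 1166 (cons (fin 975 6 910)
(mv 1167 (cons (fin 1103 4 910)
(fin 1231 4 974)))))))))))
(cons (mv 845 (cons (fin 909 7 845)
(mv 781 (cons (fin 846 7 781)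
(mv 911 (cons (fin 847 6 846)
(mv 1166 (cons (fin 975 6 910)
(mv 1231 (cons (fin 1167 4 974)
(mv 1230 (cons (fin 1295 4 1038)
(mv 1037 (cons (fin 973 7 973)
(mv 1101 (cons (fin 1294 7 1037)
(mv 1100 (cons (fin 1039 1 1036)
(mv 1099 (cons (fin 1098 2 1034)
(mv 1035 (cons (fin 1034 3 1034)
(mv 1163 (cons (fin 1162 1 1098)
(mv 1229 (cons (fin 1293 5 1037)
(mv 1228 (cons (fin 1164 3 1163)
(mv 1292 (cons (fin 1291 1 1227)
(fin 1227 4 1035)))))))))))))))))))))))))))))))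
(mv 845 (cons (fin 909 7 845)
(mv 846 (cons (fin 781 7 781)
(mv 1103 (cons (fin 1039 4 846)
(fin 1167 4 910)))))))))
(cons (mv 847 (cons (fin 911 6 846)
(mv 846 (cons (fin 783 6 782)
(mv 1103 (cons (fin 1039 4 846)
(fin 1167 4 910)))))))
(cons (mv 845 (cons (fin 909 7 845)
(mv 846 (cons (fin 781 7 781)
(mv 847 (cons (fin 783 6 782)
(fin 911 6 846)))))))
(mv 845 (cons (fin 909 7 845)
(mv 911 (cons (fin 847 6 846)
(mv 1166 (cons (fin 975 6 910)
(mv 1167 (cons (fin 1103 4 910)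
(fin 1231 4 974)))))))))))))
(mv 1166 (cons (cons (mv 911 (cons (fin 975 6 910)
(mv 847 (cons (fin 910 6 846)
(mv 1165 (cons (fin 1229 5 973)
(mv 1231 (cons (fin 1167 4 974)
(mv 1230 (cons (fin 1295 4 1038)
(mv 1037 (cons (fin 973 7 973)
(mv 1101 (cons (fin 1294 7 1037)
(mv 1039 (cons (fin 1100 1 1036)
(mv 1104 (cons (fin 1105 0 1037)
(mv 1103 (cons (fin 1036 3 1036)
(fin 1164 1 1100)))))))))))))))))))))
(cons (mv 911 (cons (fin 975 6 910)
(mv 847 (cons (fin 910 6 846)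
(mv 1229 (cons (fin 1165 5 973)
(mv 1230 (cons (fin 1293 5 1037)
(mv 1037 (cons (fin 973 7 973)
(mv 1101 (cons (fin 1294 7 1037)
(mv 1039 (cons (fin 1100 1 1036)
(mv 1104 (cons (fin 1105 0 1037)
(mv 1036 (cons (fin 1103 3 1036)
(mv 971 (cons (fin 972 3 971)
(mv 1035 (cons (fin 970 3 970)
(fin 1034 0 1034)))))))))))))))))))))))
(mv 911 (cons (fin 975 6 910)
(mv 847 (cons (fin 910 6 846)
(mv 1231 (cons (fin 1167 4 974)
(mv 1230 (cons (fin 1295 4 1038)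
(mv 1037 (cons (fin 973 7 973)
(mv 1101 (cons (fin 1294 7 1037)
(mv 1039 (cons (fin 1100 1 1036)
(mv 1104 (cons (fin 1105 0 1037)
(mv 1036 (cons (fin 1103 3 1036)
(mv 971 (cons (fin 972 3 971)
(mv 1035 (cons (fin 970 3 970)
(fin 1034 0 1034)))))))))))))))))))))))))
(cons (cons (mv 1165 (cons (fin 1229 5 973)
(mv 910 (cons (fin 1101 5 909)
(mv 1167 (cons (fin 1103 4 910)
(fin 1231 4 974)))))))
(mv 911 (cons (fin 975 6 910)
(mv 1165 (cons (fin 1229 5 973)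
(mv 1231 (cons (fin 1167 4 974)
(mv 1230 (cons (fin 1295 4 1038)
(mv 1037 (cons (fin 973 7 973)
(mv 1101 (cons (fin 1294 7 1037)
(mv 1039 (cons (fin 1100 1 1036)
(mv 1104 (cons (fin 1105 0 1037)
(mv 1103 (cons (fin 1036 3 1036)
(fin 1164 1 1100))))))))))))))))))))
(cons (mv 911 (cons (fin 975 6 910)
(mv 847 (cons (fin 910 6 846)
(mv 1165 (cons (fin 1229 5 973)
(mv 1231 (cons (fin 1167 4 974)
(mv 1230 (cons (fin 1295 4 1038)
(mv 1037 (cons (fin 973 7 973)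
(mv 1101 (cons (fin 1294 7 1037)
(mv 1100 (cons (fin 1039 1 1036)
(mv 1099 (cons (fin 1098 2 1034)
(mv 1163 (cons (fin 1162 1 1098)
(fin 1164 0 1163)))))))))))))))))))))
(mv 911 (cons (fin 975 6 910)
(mv 847 (cons (fin 910 6 846)
(mv 1229 (cons (fin 1165 5 973)
(mv 1230 (cons (fin 1293 5 1037)
(mv 1231 (cons (fin 1167 4 974)
(fin 1295 4 1038)))))))))))))))))))
(mv 1039 (cons (cons (mv 973 (cons (fin 1041 3 973)
(mv 972 (cons (fin 1037 3 972)
(fin 971 0 971)))))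
(mv 1037 (cons (cons (mv 972 (cons (fin 973 3 972)
(mv 1036 (cons (fin 971 3 971)
(mv 1100 (cons (fin 1099 1 1035)
(fin 1101 1 1036)))))))
(mv 1100 (cons (fin 1101 1 1036)
(mv 1036 (cons (fin 1099 1 1035)
(mv 1104 (cons (fin 1103 0 1036)
(fin 1105 0 1037))))))))
(cons (mv 972 (cons (fin 973 3 972)
(mv 1036 (cons (fin 971 3 971)
(mv 1104 (cons (fin 1103 0 1036)
(fin 1105 0 1037)))))))
(mv 973 (cons (fin 972 3 972)
(mv 1101 (cons (fin 1100 1 1036)
(mv 910 (cons (fin 846 5 845)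
(fin 1165 6 909)))))))))))
(cons (mv 1041 (cons (cons (mv 975 (cons (fin 1042 3 974)
(mv 977 (cons (fin 978 2 974)
(mv 1105 (cons (fin 1106 0 1038)
(mv 1037 (cons (fin 1104 0 1037)
(mv 1036 (cons (fin 1035 2 971)
(mv 1100 (cons (fin 1099 1 1035)
(fin 1101 1 1036)))))))))))))
(mv 977 (cons (fin 978 2 974)
(mv 1105 (cons (fin 1106 0 1038)
(mv 1037 (cons (fin 1104 0 1037)
(mv 1100 (cons (fin 1101 1 1036)
(mv 1036 (cons (fin 1099 1 1035)
(mv 971 (cons (fin 972 3 971)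
(mv 1035 (cons (fin 970 3 970)
(fin 975 2 971))))))))))))))))
(cons (mv 978 (cons (fin 977 2 974)
(mv 1042 (cons (fin 975 3 974)
(fin 979 2 975)))))
(cons (mv 975 (cons (fin 1042 3 974)
(mv 1105 (cons (fin 1106 0 1038)
(mv 1037 (cons (fin 1104 0 1037)
(mv 1036 (cons (fin 1035 2 971)
(mv 1100 (cons (fin 1099 1 1035)
(fin 1101 1 1036)))))))))))
(mv 977 (cons (fin 978 2 974)
(mv 1105 (cons (fin 1106 0 1038)
(mv 1104 (cons (fin 1037 0 1037)
(mv 913 (cons (fin 849 5 848)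
(fin 1168 5 912)))))))))))))
(cons (mv 973 (cons (fin 1041 3 973)
(mv 972 (cons (fin 971 0 971)
(fin 975 0 972)))))
(mv 1041 (cons (fin 973 3 973)
(mv 975 (cons (fin 1042 3 974)
(mv 977 (cons (fin 978 2 974)
(mv 1105 (cons (fin 1106 0 1038)
(mv 1037 (cons (fin 1104 0 1037)
(mv 1036 (cons (fin 1035 2 971)
(mv 1100 (cons (fin 1099 1 1035)
(fin 1101 1 1036))))))))))))))))))))
(cons (mv 1039 (cons (cons (mv 973 (cons (fin 1041 3 973)
(mv 972 (cons (fin 1037 3 972)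
(fin 971 0 971)))))
(mv 1037 (cons (cons (mv 972 (cons (fin 973 3 972)
(mv 1036 (cons (fin 971 3 971)
(mv 1100 (cons (fin 1099 1 1035)
(fin 1101 1 1036)))))))
(mv 1100 (cons (fin 1101 1 1036)
(mv 1036 (cons (fin 1099 1 1035)
(mv 1104 (cons (fin 1103 0 1036)
(fin 1105 0 1037))))))))
(cons (mv 972 (cons (fin 973 3 972)
(mv 1036 (cons (fin 971 3 971)
(mv 1104 (cons (fin 1103 0 1036)
(fin 1105 0 1037)))))))
(mv 973 (cons (fin 972 3 972)
(mv 1101 (cons (fin 1100 1 1036)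
(mv 1104 (cons (fin 1105 0 1037)
(mv 1165 (cons (fin 1229 6 973)
(mv 1164 (cons (fin 1228 5 972)
(mv 1102 (cons (fin 1103 1 1100)
(mv 909 (cons (fin 1166 7 909)
(fin 845 4 845)))))))))))))))))))
(cons (mv 1041 (cons (cons (mv 975 (cons (fin 1042 3 974)
(mv 977 (cons (fin 978 2 974)
(mv 1101 (cons (fin 1102 1 1037)
(mv 1037 (cons (fin 1100 1 1036)
(mv 1105 (cons (fin 1104 0 1037)
(fin 1106 0 1038)))))))))))
(cons (mv 977 (cons (fin 978 2 974)
(mv 1101 (cons (fin 1102 1 1037)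
(mv 1037 (cons (fin 1100 1 1036)
(mv 1105 (cons (fin 1104 0 1037)
(fin 1106 0 1038)))))))))
(mv 975 (cons (fin 1042 3 974)
(mv 977 (cons (fin 978 2 974)
(mv 1105 (cons (fin 1106 0 1038)
(mv 1037 (cons (fin 1104 0 1037)
(mv 1036 (cons (fin 1035 2 971)
(mv 1100 (cons (fin 1099 1 1035)
(fin 1101 1 1036)))))))))))))))
(cons (mv 975 (cons (fin 1042 3 974)
(mv 977 (cons (fin 978 2 974)
(mv 1105 (cons (fin 1106 0 1038)
(mv 1104 (cons (fin 1037 0 1037)
(mv 913 (cons (fin 849 5 848)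
(fin 1168 5 912)))))))))))
(cons (mv 975 (cons (fin 1042 3 974)
(mv 977 (cons (fin 978 2 974)
(mv 1102 (cons (fin 1101 1 1037)
(mv 911 (cons (fin 847 5 846)
(fin 1166 6 910)))))))))
(mv 975 (cons (fin 1042 3 974)
(mv 1101 (cons (fin 1102 1 1037)
(mv 1037 (cons (fin 1100 1 1036)
(mv 1105 (cons (fin 1104 0 1037)
(fin 1106 0 1038)))))))))))))
(mv 973 (cons (fin 1041 3 973)
(mv 972 (cons (fin 971 0 971)
(fin 975 0 972))))))))
(mv 1039 (cons (cons (mv 973 (cons (fin 1041 3 973)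
(mv 972 (cons (fin 971 0 971)
(fin 975 0 972)))))
(mv 1103 (cons (cons (mv 910 (cons (fin 846 4 846)
(mv 1167 (cons (fin 975 7 910)
(fin 1231 7 974)))))
(mv 910 (cons (fin 846 4 846)
(mv 1102 (cons (mv 1101 (cons (fin 1100 2 1036)
(fin 1165 5 909)))
(mv 845 (cons (fin 909 7 845)
(mv 911 (cons (fin 847 6 846)
(mv 975 (cons (fin 1166 5 910)
(mv 912 (cons (fin 848 6 847)
(mv 913 (cons (fin 973 1 909)
(fin 914 1 910))))))))))))))))
(cons (mv 1167 (cons (fin 1231 7 974)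
(mv 975 (cons (cons (mv 972 (cons (fin 973 0 972)
(mv 1166 (cons (fin 1230 5 974)
(mv 911 (cons (fin 1102 5 910)
(mv 847 (cons (fin 783 5 782)
(fin 1104 4 847)))))))))
(cons (mv 972 (cons (fin 973 0 972)
(mv 1168 (cons (fin 1232 4 975)
(mv 911 (cons (fin 1104 4 911)
(mv 847 (cons (fin 783 5 782)
(fin 1102 5 846)))))))))
(mv 1166 (cons (fin 1230 5 974)
(mv 911 (cons (fin 1102 5 910)
(mv 847 (cons (fin 783 5 782)
(fin 1104 4 847)))))))))
(cons (mv 973 (cons (fin 972 0 972)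
(mv 1166 (cons (fin 1230 5 974)
(mv 1102 (cons (fin 909 7 909)
(mv 1100 (cons (fin 1101 2 1036)
(mv 1165 (cons (fin 1229 5 973)
(mv 1104 (cons (fin 1105 1 1101)
(fin 1164 2 1100)))))))))))))
(cons (mv 972 (cons (fin 973 0 972)
(mv 1166 (cons (fin 1230 5 974)
(mv 1168 (cons (fin 1232 4 975)
(mv 911 (cons (fin 1104 4 911)
(mv 847 (cons (fin 783 5 782)
(mv 848 (cons (fin 784 6 783)
(fin 912 6 847)))))))))))))
(mv 972 (cons (fin 973 0 972)
(mv 1166 (cons (fin 1230 5 974)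
(mv 911 (cons (fin 1102 5 910)
(mv 847 (cons (fin 783 5 782)
(mv 848 (cons (fin 784 6 783)
(fin 912 6 847)))))))))))))))))
(mv 910 (cons (fin 846 4 846)
(mv 1167 (cons (fin 1231 7 974)
(fin 1102 4 910)))))))))
(cons (mv 1041 (cons (cons (mv 975 (cons (fin 1042 3 974)
(mv 977 (cons (fin 978 2 974)
(mv 1102 (cons (fin 1101 1 1037)
(mv 911 (cons (fin 847 5 846)
(fin 1166 6 910)))))))))
(mv 977 (cons (fin 978 2 974)
(mv 1101 (cons (fin 1102 1 1037)
(mv 1105 (cons (fin 1106 0 1038)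
(mv 913 (cons (mv 1104 (cons (fin 849 5 848)
(fin 1168 5 912)))
(cons (mv 848 (cons (fin 912 7 848)
(mv 849 (cons (fin 784 7 784)
(mv 850 (cons (fin 786 6 785)
(fin 914 6 849)))))))
(mv 848 (cons (fin 912 7 848)
(mv 850 (cons (fin 914 6 849)
(mv 1168 (cons (fin 1104 5 912)
(mv 1169 (cons (fin 1232 5 976)
(mv 1234 (cons (fin 1170 4 977)
(mv 1233 (cons (fin 1298 4 1041)
(mv 1167 (cons (fin 1166 0 1166)
(mv 1103 (cons (fin 1231 7 974)
(mv 910 (cons (fin 975 7 910)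
(fin 846 4 846)))))))))))))))))))))))))))))
(cons (mv 977 (cons (fin 978 2 974)
(mv 1042 (cons (fin 975 3 974)
(mv 1106 (cons (fin 1105 0 1038)
(fin 1107 0 1039)))))))
(cons (mv 975 (cons (fin 1042 3 974)
(mv 1102 (cons (fin 1101 1 1037)
(mv 911 (cons (fin 847 5 846)
(fin 1166 6 910)))))))
(mv 977 (cons (fin 978 2 974)
(mv 1102 (cons (fin 1101 1 1037)
(mv 1042 (cons (fin 1103 1 1038)
(mv 1106 (cons (fin 1105 0 1038)
(fin 1107 0 1039)))))))))))))
(mv 1041 (cons (fin 973 3 973)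
(mv 977 (cons (fin 978 2 974)
(mv 1102 (cons (fin 1101 1 1037)
(mv 1042 (cons (fin 1103 1 1038)
(mv 1106 (cons (fin 1105 0 1038)
(fin 1107 0 1039)))))))))))))))))
(cons (cons (mv 1039 (cons (cons (mv 973 (cons (fin 1041 3 973)
(mv 972 (cons (fin 1037 3 972)
(fin 971 0 971)))))
(mv 1037 (cons (cons (mv 972 (cons (fin 973 3 972)
(mv 971 (cons (fin 1036 3 971)
(mv 1101 (cons (fin 1100 1 1036)
(mv 910 (cons (fin 846 5 845)
(mv 1165 (cons (fin 1102 5 909)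
(fin 1229 6 973)))))))))))
(mv 972 (cons (fin 973 3 972)
(mv 1036 (cons (fin 971 3 971)
(mv 1104 (cons (fin 1103 0 1036)
(fin 1105 0 1037))))))))
(cons (mv 1100 (cons (fin 1101 1 1036)
(mv 1036 (cons (fin 1099 1 1035)
(mv 1104 (cons (fin 1103 0 1036)
(fin 1105 0 1037)))))))
(mv 972 (cons (fin 973 3 972)
(mv 1101 (cons (fin 1100 1 1036)
(mv 910 (cons (fin 846 5 845)
(mv 1165 (cons (fin 1102 5 909)
(fin 1229 6 973)))))))))))))
(cons (mv 1041 (cons (cons (mv 977 (cons (fin 978 2 974)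
(mv 1101 (cons (fin 1102 1 1037)
(mv 1037 (cons (fin 1100 1 1036)
(mv 1105 (cons (fin 1104 0 1037)
(fin 1106 0 1038)))))))))
(mv 977 (cons (fin 978 2 974)
(mv 1105 (cons (fin 1106 0 1038)
(mv 1104 (cons (fin 1037 0 1037)
(mv 913 (cons (fin 849 5 848)
(fin 1168 5 912))))))))))
(cons (mv 977 (cons (fin 978 2 974)
(mv 1102 (cons (fin 1101 1 1037)
(mv 1103 (cons (fin 1042 1 1038)
(mv 910 (cons (fin 846 4 846)
(fin 1167 4 910)))))))))
(mv 1101 (cons (fin 1102 1 1037)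
(mv 1037 (cons (fin 1100 1 1036)
(mv 1105 (cons (fin 1104 0 1037)
(fin 1106 0 1038))))))))))
(mv 1041 (cons (fin 973 3 973)
(mv 977 (cons (fin 978 2 974)
(mv 1102 (cons (fin 1101 1 1037)
(mv 1042 (cons (fin 1103 1 1038)
(mv 1106 (cons (fin 1105 0 1038)
(fin 1107 0 1039))))))))))))))
(cons (mv 1102 (cons (cons (cons (mv 1166 (cons (cons (mv 909 (cons (fin 973 7 909)
(mv 845 (cons (fin 910 7 845)
(mv 911 (cons (fin 975 6 910)
(mv 1229 (cons (fin 1165 5 973)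
(mv 1230 (cons (fin 1293 5 1037)
(mv 1231 (cons (fin 1167 4 974)
(fin 1295 4 1038)))))))))))))
(cons (mv 911 (cons (fin 975 6 910)
(mv 847 (cons (fin 910 6 846)
(mv 1229 (cons (fin 1165 5 973)
(mv 1230 (cons (fin 1293 5 1037)
(mv 1231 (cons (fin 1167 4 974)
(fin 1295 4 1038)))))))))))
(mv 909 (cons (fin 973 7 909)
(mv 845 (cons (fin 910 7 845)
(mv 1229 (cons (fin 1165 5 973)
(mv 1230 (cons (fin 1293 5 1037)
(mv 1231 (cons (fin 1167 4 974)
(fin 1295 4 1038)))))))))))))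
(cons (mv 909 (cons (fin 973 7 909)
(mv 845 (cons (fin 910 7 845)
(mv 975 (cons (fin 911 6 910)
(mv 1039 (cons (fin 1230 6 974)
(mv 1041 (cons (fin 1042 3 974)
(mv 977 (cons (fin 978 2 974)
(mv 1105 (cons (fin 1106 0 1038)
(mv 1037 (cons (fin 1104 0 1037)
(mv 1036 (cons (fin 1035 2 971)
(mv 972 (cons (fin 971 3 971)
(mv 1100 (cons (fin 1099 1 1035)
(fin 908 6 844)))))))))))))))))))))))
(cons (mv 909 (cons (fin 973 7 909)
(mv 910 (cons (fin 845 7 845)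
(mv 911 (cons (fin 847 6 846)
(fin 975 6 910)))))))
(mv 909 (cons (fin 973 7 909)
(mv 911 (cons (fin 975 6 910)
(mv 1229 (cons (fin 1165 5 973)
(mv 1230 (cons (fin 1293 5 1037)
(mv 1231 (cons (fin 1167 4 974)
(fin 1295 4 1038)))))))))))))))
(mv 910 (cons (cons (mv 845 (cons (fin 909 7 845)
(mv 846 (cons (fin 781 7 781)
(mv 847 (cons (fin 783 6 782)
(fin 911 6 846)))))))
(mv 845 (cons (fin 909 7 845)
(mv 846 (cons (fin 781 7 781)
(mv 1103 (cons (fin 1039 4 846)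
(fin 1167 4 910))))))))
(cons (mv 847 (cons (fin 911 6 846)
(mv 846 (cons (fin 783 6 782)
(mv 1103 (cons (fin 1039 4 846)
(fin 1167 4 910)))))))
(mv 845 (cons (fin 909 7 845)
(mv 911 (cons (fin 847 6 846)
(mv 1103 (cons (fin 1167 4 910)
(mv 973 (cons (mv 912 (cons (fin 913 1 909)
(mv 972 (cons (fin 971 2 907)
(fin 975 2 908)))))
(cons (mv 912 (cons (fin 913 1 909)
(mv 1039 (cons (fin 1041 3 973)
(mv 975 (cons (fin 848 6 847)
(mv 1104 (cons (fin 1168 4 911)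
(mv 1037 (cons (fin 1105 3 1037)
(fin 1036 0 1036)))))))))))
(mv 972 (cons (fin 971 2 907)
(mv 1039 (cons (fin 1037 3 972)
(fin 1041 3 973))))))))))))))))))
(cons (mv 1166 (cons (cons (mv 909 (cons (fin 973 7 909)
(mv 911 (cons (fin 975 6 910)
(mv 1229 (cons (fin 1165 5 973)
(mv 1230 (cons (fin 1293 5 1037)
(mv 1231 (cons (fin 1167 4 974)
(fin 1295 4 1038)))))))))))
(mv 911 (cons (fin 975 6 910)
(mv 1229 (cons (fin 1165 5 973)
(mv 1230 (cons (fin 1293 5 1037)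
(mv 1231 (cons (fin 1167 4 974)
(fin 1295 4 1038))))))))))
(cons (mv 909 (cons (fin 973 7 909)
(mv 1229 (cons (fin 1165 5 973)
(mv 1230 (cons (fin 1293 5 1037)
(mv 1231 (cons (fin 1167 4 974)
(fin 1295 4 1038)))))))))
(cons (mv 909 (cons (fin 973 7 909)
(mv 975 (cons (fin 911 6 910)
(mv 1039 (cons (fin 1230 6 974)
(mv 1041 (cons (fin 1042 3 974)
(mv 977 (cons (fin 978 2 974)
(mv 1105 (cons (fin 1106 0 1038)
(mv 1104 (cons (fin 1037 0 1037)
(mv 913 (cons (fin 849 5 848)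
(fin 1168 5 912)))))))))))))))))
(mv 911 (cons (fin 975 6 910)
(mv 973 (cons (fin 909 7 909)
(mv 1039 (cons (fin 1041 3 973)
(mv 972 (cons (fin 1037 3 972)
(fin 971 0 971)))))))))))))
(mv 1166 (cons (cons (mv 911 (cons (fin 975 6 910)
(mv 847 (cons (fin 910 6 846)
(mv 1229 (cons (fin 1165 5 973)
(mv 1230 (cons (fin 1293 5 1037)
(mv 1231 (cons (fin 1167 4 974)
(fin 1295 4 1038)))))))))))
(mv 1165 (cons (fin 1229 5 973)
(mv 1167 (cons (fin 1231 4 974)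
(mv 910 (cons (fin 1103 4 910)
(mv 845 (cons (fin 909 7 845)
(mv 846 (cons (fin 781 7 781)
(mv 847 (cons (fin 783 6 782)
(fin 911 6 846))))))))))))))
(cons (mv 975 (cons (fin 911 6 910)
(mv 1039 (cons (fin 1230 6 974)
(mv 1041 (cons (fin 1042 3 974)
(mv 977 (cons (fin 978 2 974)
(mv 1105 (cons (fin 1106 0 1038)
(mv 1104 (cons (fin 1037 0 1037)
(mv 913 (cons (fin 849 5 848)
(fin 1168 5 912)))))))))))))))
(mv 1165 (cons (fin 1229 5 973)
(mv 1167 (cons (fin 1231 4 974)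
(mv 1103 (cons (fin 910 4 910)
(mv 1104 (cons (fin 1105 1 1101)
(fin 1164 2 1100))))))))))))))
(cons (cons (mv 1166 (cons (cons (mv 909 (cons (fin 973 7 909)
(mv 845 (cons (fin 910 7 845)
(mv 1165 (cons (fin 1229 5 973)
(mv 1231 (cons (fin 1167 4 974)
(mv 1230 (cons (fin 1295 4 1038)
(mv 1039 (cons (fin 975 6 974)
(mv 1103 (cons (fin 1294 6 1038)
(mv 1041 (cons (fin 1042 1 1038)
(mv 1105 (cons (fin 1104 1 1101)
(fin 1106 0 1038)))))))))))))))))))
(cons (mv 1165 (cons (fin 1229 5 973)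
(mv 1167 (cons (fin 1231 4 974)
(mv 1103 (cons (fin 910 4 910)
(mv 1104 (cons (fin 1105 1 1101)
(fin 1164 2 1100)))))))))
(mv 909 (cons (fin 973 7 909)
(mv 845 (cons (fin 910 7 845)
(mv 1229 (cons (fin 1165 5 973)
(mv 1230 (cons (fin 1293 5 1037)
(mv 1039 (cons (fin 975 6 974)
(mv 1103 (cons (fin 1294 6 1038)
(mv 1041 (cons (fin 1042 1 1038)
(mv 977 (cons (fin 978 2 974)
(mv 1105 (cons (fin 1106 0 1038)
(mv 1037 (cons (fin 1104 3 1037)
(mv 1036 (cons (fin 1035 0 1035)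
(mv 972 (cons (fin 971 3 971)
(mv 1100 (cons (fin 1099 1 1035)
(fin 908 6 844)))))))))))))))))))))))))))))
(cons (cons (mv 909 (cons (fin 973 7 909)
(mv 845 (cons (fin 910 7 845)
(mv 1231 (cons (fin 1167 4 974)
(mv 1230 (cons (fin 1295 4 1038)
(mv 1039 (cons (fin 975 6 974)
(mv 1103 (cons (fin 1294 6 1038)
(mv 1041 (cons (fin 1042 1 1038)
(mv 977 (cons (fin 978 2 974)
(mv 1105 (cons (fin 1106 0 1038)
(mv 1104 (cons (fin 1037 3 1037)
(fin 1165 1 1101)))))))))))))))))))))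
(mv 909 (cons (fin 973 7 909)
(mv 845 (cons (fin 910 7 845)
(mv 1231 (cons (fin 1167 4 974)
(mv 1230 (cons (fin 1295 4 1038)
(mv 1039 (cons (fin 975 6 974)
(mv 1103 (cons (fin 1294 6 1038)
(mv 1041 (cons (fin 1042 1 1038)
(mv 977 (cons (fin 978 2 974)
(mv 1105 (cons (fin 1106 0 1038)
(mv 1037 (cons (fin 1104 3 1037)
(mv 1036 (cons (fin 1035 0 1035)
(mv 972 (cons (fin 971 3 971)
(mv 1100 (cons (fin 1099 1 1035)
(fin 908 6 844))))))))))))))))))))))))))))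
(cons (mv 909 (cons (fin 973 7 909)
(mv 1165 (cons (fin 1229 5 973)
(mv 1231 (cons (fin 1167 4 974)
(mv 1230 (cons (fin 1295 4 1038)
(mv 1039 (cons (fin 975 6 974)
(mv 1103 (cons (fin 1294 6 1038)
(mv 1041 (cons (fin 1042 1 1038)
(mv 1105 (cons (fin 1104 1 1101)
(fin 1106 0 1038)))))))))))))))))
(mv 909 (cons (fin 973 7 909)
(mv 845 (cons (fin 910 7 845)
(mv 1229 (cons (fin 1165 5 973)
(mv 1230 (cons (fin 1293 5 1037)
(mv 1231 (cons (fin 1167 4 974)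
(fin 1295 4 1038)))))))))))))))
(mv 1166 (cons (cons (mv 909 (cons (fin 973 7 909)
(mv 845 (cons (fin 910 7 845)
(mv 975 (cons (fin 911 6 910)
(mv 1039 (cons (fin 1230 6 974)
(mv 1041 (cons (fin 1042 3 974)
(mv 977 (cons (fin 978 2 974)
(mv 1105 (cons (fin 1106 0 1038)
(mv 1037 (cons (fin 1104 0 1037)
(mv 1036 (cons (fin 1035 2 971)
(mv 972 (cons (fin 971 3 971)
(mv 1100 (cons (fin 1099 1 1035)
(fin 908 6 844)))))))))))))))))))))))
(mv 975 (cons (fin 911 6 910)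
(mv 1039 (cons (fin 1230 6 974)
(mv 1041 (cons (fin 1042 3 974)
(mv 977 (cons (fin 978 2 974)
(mv 1105 (cons (fin 1106 0 1038)
(mv 1104 (cons (fin 1037 0 1037)
(mv 913 (cons (fin 849 5 848)
(fin 1168 5 912))))))))))))))))
(cons (mv 973 (cons (fin 909 7 909)
(mv 1037 (cons (fin 1230 7 973)
(mv 1039 (cons (fin 972 3 972)
(fin 1041 3 973)))))))
(mv 909 (cons (fin 973 7 909)
(mv 910 (cons (fin 845 7 845)
(mv 911 (cons (fin 847 6 846)
(fin 975 6 910)))))))))))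
(cons (mv 1166 (cons (cons (mv 911 (cons (fin 975 6 910)
(mv 847 (cons (fin 910 6 846)
(mv 1229 (cons (fin 1165 5 973)
(mv 1230 (cons (fin 1293 5 1037)
(mv 1231 (cons (fin 1167 4 974)
(fin 1295 4 1038)))))))))))
(mv 1165 (cons (fin 1229 5 973)
(mv 1167 (cons (fin 1231 4 974)
(mv 1103 (cons (fin 910 4 910)
(mv 1104 (cons (fin 1105 1 1101)
(fin 1164 2 1100))))))))))
(cons (mv 911 (cons (fin 975 6 910)
(mv 847 (cons (fin 910 6 846)
(mv 1229 (cons (fin 1165 5 973)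
(mv 1230 (cons (fin 1293 5 1037)
(mv 973 (cons (fin 1037 7 973)
(mv 1039 (cons (fin 1041 3 973)
(mv 971 (cons (fin 972 0 971)
(mv 1294 (cons (fin 1103 6 1038)
(mv 1295 (cons (fin 1231 4 1038)
(fin 1359 4 1102)))))))))))))))))))
(cons (mv 911 (cons (fin 975 6 910)
(mv 910 (cons (fin 847 6 846)
(mv 1103 (cons (fin 1167 4 910)
(mv 1039 (cons (fin 846 4 846)
(mv 1041 (cons (fin 973 3 973)
(fin 1042 1 1038)))))))))))
(mv 911 (cons (fin 975 6 910)
(mv 1229 (cons (fin 1165 5 973)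
(mv 1230 (cons (fin 1293 5 1037)
(mv 1231 (cons (fin 1167 4 974)
(fin 1295 4 1038)))))))))))))
(cons (mv 1166 (cons (cons (mv 909 (cons (fin 973 7 909)
(mv 845 (cons (fin 910 7 845)
(mv 911 (cons (fin 975 6 910)
(mv 1229 (cons (fin 1165 5 973)
(mv 1230 (cons (fin 1293 5 1037)
(mv 1231 (cons (fin 1167 4 974)
(fin 1295 4 1038)))))))))))))
(mv 909 (cons (fin 973 7 909)
(mv 910 (cons (fin 845 7 845)
(mv 911 (cons (fin 847 6 846)
(fin 975 6 910))))))))
(cons (mv 911 (cons (fin 975 6 910)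
(mv 847 (cons (fin 910 6 846)
(mv 1229 (cons (fin 1165 5 973)
(mv 1230 (cons (fin 1293 5 1037)
(mv 1231 (cons (fin 1167 4 974)
(fin 1295 4 1038)))))))))))
(cons (mv 909 (cons (fin 973 7 909)
(mv 845 (cons (fin 910 7 845)
(mv 1229 (cons (fin 1165 5 973)
(mv 1230 (cons (fin 1293 5 1037)
(mv 1231 (cons (fin 1167 4 974)
(fin 1295 4 1038)))))))))))
(mv 909 (cons (fin 973 7 909)
(mv 911 (cons (fin 975 6 910)
(mv 1229 (cons (fin 1165 5 973)
(mv 1230 (cons (fin 1293 5 1037)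
(mv 1231 (cons (fin 1167 4 974)
(fin 1295 4 1038)))))))))))))))
(mv 1166 (cons (cons (mv 909 (cons (fin 973 7 909)
(mv 845 (cons (fin 910 7 845)
(mv 1229 (cons (fin 1165 5 973)
(mv 1230 (cons (fin 1293 5 1037)
(mv 1231 (cons (fin 1167 4 974)
(fin 1295 4 1038)))))))))))
(mv 1165 (cons (fin 1229 5 973)
(mv 1167 (cons (fin 1231 4 974)
(mv 910 (cons (fin 1103 4 910)
(mv 845 (cons (fin 909 7 845)
(mv 846 (cons (fin 781 7 781)
(mv 847 (cons (fin 783 6 782)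
(fin 911 6 846))))))))))))))
(cons (mv 973 (cons (fin 909 7 909)
(mv 1037 (cons (fin 1230 7 973)
(mv 1039 (cons (fin 972 3 972)
(fin 1041 3 973)))))))
(mv 1165 (cons (fin 1229 5 973)
(mv 1167 (cons (fin 1231 4 974)
(mv 1103 (cons (fin 910 4 910)
(mv 1104 (cons (fin 1105 1 1101)
(fin 1164 2 1100)))))))))))))))))
(mv 1039 (cons (cons (mv 973 (cons (fin 1041 3 973)
(mv 972 (cons (fin 1037 3 972)
(fin 971 0 971)))))
(mv 1037 (cons (cons (mv 972 (cons (fin 973 3 972)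
(mv 971 (cons (fin 1036 3 971)
(mv 1101 (cons (fin 1100 1 1036)
(mv 910 (cons (fin 846 5 845)
(mv 1165 (cons (fin 1102 5 909)
(fin 1229 6 973)))))))))))
(cons (mv 1100 (cons (fin 1101 1 1036)
(mv 1036 (cons (fin 1099 1 1035)
(mv 1035 (cons (fin 975 2 971)
(mv 970 (cons (fin 971 3 970)
(mv 1034 (cons (fin 969 3 969)
(fin 973 2 970)))))))))))
(mv 1100 (cons (fin 1101 1 1036)
(mv 1036 (cons (fin 1099 1 1035)
(mv 971 (cons (fin 972 3 971)
(mv 1035 (cons (fin 970 3 970)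
(fin 975 2 971)))))))))))
(cons (mv 972 (cons (fin 973 3 972)
(mv 1036 (cons (fin 971 3 971)
(mv 1035 (cons (fin 975 2 971)
(mv 1099 (cons (fin 1098 1 1034)
(fin 1100 1 1035)))))))))
(cons (mv 972 (cons (fin 973 3 972)
(mv 1036 (cons (fin 971 3 971)
(mv 975 (cons (fin 1035 2 971)
(mv 1104 (cons (fin 1105 0 1037)
(mv 911 (cons (fin 847 4 847)
(mv 1102 (cons (fin 1166 6 910)
(mv 1168 (cons (fin 1232 7 975)
(mv 910 (cons (mv 846 (cons (fin 1101 5 845)
(fin 782 4 782)))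
(cons (mv 845 (cons (fin 909 7 845)
(mv 846 (cons (fin 781 7 781)
(fin 782 4 782)))))
(mv 909 (cons (fin 845 7 845)
(mv 908 (cons (fin 907 0 907)
(mv 844 (cons (fin 843 3 843)
(fin 1101 4 844))))))))))))))))))))))))
(mv 972 (cons (fin 973 3 972)
(mv 1101 (cons (fin 1100 1 1036)
(mv 910 (cons (fin 846 5 845)
(mv 1165 (cons (fin 1102 5 909)
(fin 1229 6 973))))))))))))))
(cons (mv 1041 (cons (cons (mv 975 (cons (fin 1042 3 974)
(mv 977 (cons (fin 978 2 974)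
(mv 1101 (cons (fin 1102 1 1037)
(mv 1037 (cons (fin 1100 1 1036)
(mv 1105 (cons (fin 1104 0 1037)
(fin 1106 0 1038)))))))))))
(mv 977 (cons (fin 978 2 974)
(mv 1101 (cons (fin 1102 1 1037)
(mv 1037 (cons (fin 1100 1 1036)
(mv 1105 (cons (fin 1104 0 1037)
(fin 1106 0 1038))))))))))
(cons (mv 975 (cons (fin 1042 3 974)
(mv 977 (cons (fin 978 2 974)
(mv 1105 (cons (fin 1106 0 1038)
(mv 1104 (cons (fin 1037 0 1037)
(mv 913 (cons (fin 849 5 848)
(fin 1168 5 912)))))))))))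
(cons (mv 975 (cons (fin 1042 3 974)
(mv 977 (cons (fin 978 2 974)
(mv 1102 (cons (fin 1101 1 1037)
(mv 911 (cons (fin 847 5 846)
(fin 1166 6 910)))))))))
(mv 975 (cons (fin 1042 3 974)
(mv 1101 (cons (fin 1102 1 1037)
(mv 1037 (cons (fin 1100 1 1036)
(mv 1105 (cons (fin 1104 0 1037)
(fin 1106 0 1038)))))))))))))
(mv 973 (cons (fin 1041 3 973)
(mv 972 (cons (fin 971 0 971)
(fin 975 0 972))))))))))
(cons (cons (mv 1039 (cons (cons (mv 973 (cons (fin 1041 3 973)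
(mv 972 (cons (fin 1037 3 972)
(fin 971 0 971)))))
(mv 1037 (cons (cons (mv 972 (cons (fin 973 3 972)
(mv 1036 (cons (fin 971 3 971)
(mv 1100 (cons (fin 1099 1 1035)
(fin 1101 1 1036)))))))
(mv 1100 (cons (fin 1101 1 1036)
(mv 1036 (cons (fin 1099 1 1035)
(mv 1104 (cons (fin 1103 0 1036)
(fin 1105 0 1037))))))))
(cons (mv 972 (cons (fin 973 3 972)
(mv 1036 (cons (fin 971 3 971)
(mv 1104 (cons (fin 1103 0 1036)
(fin 1105 0 1037)))))))
(mv 973 (cons (fin 972 3 972)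
(mv 1101 (cons (fin 1100 1 1036)
(mv 910 (cons (fin 846 5 845)
(mv 1104 (cons (fin 1105 0 1037)
(mv 1102 (cons (mv 909 (cons (fin 845 7 845)
(fin 1166 7 909)))
(cons (mv 847 (cons (fin 911 6 846)
(mv 1103 (cons (fin 1167 4 910)
(mv 1166 (cons (fin 1230 7 973)
(mv 1168 (cons (fin 1169 0 1101)
(mv 1232 (cons (fin 975 7 975)
(fin 1296 7 1039)))))))))))
(mv 845 (cons (fin 909 7 845)
(mv 847 (cons (fin 911 6 846)
(mv 1103 (cons (fin 1167 4 910)
(mv 1168 (cons (fin 1169 0 1101)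
(mv 1232 (cons (fin 975 7 975)
(fin 1296 7 1039))))))))))))))))))))))))))
(cons (mv 1041 (cons (cons (mv 975 (cons (fin 1042 3 974)
(mv 977 (cons (fin 978 2 974)
(mv 1101 (cons (fin 1102 1 1037)
(mv 1037 (cons (fin 1100 1 1036)
(mv 1105 (cons (fin 1104 0 1037)
(fin 1106 0 1038)))))))))))
(cons (mv 977 (cons (fin 978 2 974)
(mv 1101 (cons (fin 1102 1 1037)
(mv 1037 (cons (fin 1100 1 1036)
(mv 1105 (cons (fin 1104 0 1037)
(fin 1106 0 1038)))))))))
(mv 975 (cons (fin 1042 3 974)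
(mv 977 (cons (fin 978 2 974)
(mv 1105 (cons (fin 1106 0 1038)
(mv 1037 (cons (fin 1104 0 1037)
(mv 1036 (cons (fin 1035 2 971)
(mv 1100 (cons (fin 1099 1 1035)
(fin 1101 1 1036)))))))))))))))
(cons (cons (mv 975 (cons (fin 1042 3 974)
(mv 977 (cons (fin 978 2 974)
(mv 1105 (cons (fin 1106 0 1038)
(mv 1104 (cons (fin 1037 0 1037)
(mv 913 (cons (fin 849 5 848)
(fin 1168 5 912)))))))))))
(mv 975 (cons (fin 1042 3 974)
(mv 977 (cons (fin 978 2 974)
(mv 1101 (cons (fin 1102 1 1037)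
(mv 1037 (cons (fin 1100 1 1036)
(mv 910 (cons (fin 846 5 845)
(mv 1036 (cons (fin 1035 2 971)
(mv 1103 (cons (fin 1104 0 1036)
(fin 1167 7 910))))))))))))))))
(cons (mv 975 (cons (fin 1042 3 974)
(mv 1101 (cons (fin 1102 1 1037)
(mv 1037 (cons (fin 1100 1 1036)
(mv 1105 (cons (fin 1104 0 1037)
(fin 1106 0 1038)))))))))
(mv 975 (cons (fin 1042 3 974)
(mv 977 (cons (fin 978 2 974)
(mv 1102 (cons (fin 1101 1 1037)
(mv 911 (cons (fin 847 5 846)
(fin 1166 6 910)))))))))))))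
(mv 973 (cons (fin 1041 3 973)
(mv 972 (cons (fin 971 0 971)
(fin 975 0 972))))))))
(mv 1039 (cons (cons (mv 973 (cons (fin 1041 3 973)
(mv 972 (cons (fin 1037 3 972)
(fin 971 0 971)))))
(mv 972 (cons (cons (mv 973 (cons (fin 1037 3 972)
(fin 971 0 971)))
(mv 1037 (cons (cons (mv 971 (cons (fin 1036 3 971)
(mv 1101 (cons (fin 1100 1 1036)
(mv 910 (cons (fin 846 5 845)
(mv 1165 (cons (fin 1102 5 909)
(fin 1229 6 973)))))))))
(mv 1101 (cons (fin 1100 1 1036)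
(mv 910 (cons (fin 846 5 845)
(mv 1165 (cons (fin 1102 5 909)
(fin 1229 6 973))))))))
(cons (mv 1036 (cons (fin 971 3 971)
(mv 975 (cons (fin 1035 2 971)
(mv 1099 (cons (fin 1100 1 1035)
(mv 1103 (cons (fin 1104 0 1036)
(mv 910 (cons (fin 1167 7 910)
(fin 846 4 846)))))))))))
(cons (mv 1036 (cons (fin 971 3 971)
(mv 975 (cons (fin 1035 2 971)
(mv 1103 (cons (fin 1104 0 1036)
(mv 910 (cons (fin 1167 7 910)
(fin 846 4 846)))))))))
(mv 1036 (cons (fin 971 3 971)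
(mv 1100 (cons (fin 1099 1 1035)
(fin 1101 1 1036))))))))))
(cons (mv 973 (cons (fin 971 0 971)
(fin 975 0 972)))
(mv 973 (cons (fin 1037 3 972)
(fin 975 0 972)))))))
(cons (mv 1041 (cons (cons (mv 975 (cons (fin 1042 3 974)
(mv 977 (cons (fin 978 2 974)
(mv 1101 (cons (fin 1102 1 1037)
(mv 1037 (cons (fin 1100 1 1036)
(mv 910 (cons (fin 846 5 845)
(mv 1036 (cons (fin 1035 2 971)
(mv 1103 (cons (fin 1104 0 1036)
(fin 1167 7 910)))))))))))))))
(mv 977 (cons (fin 978 2 974)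
(mv 1102 (cons (fin 1101 1 1037)
(mv 1166 (cons (mv 975 (cons (fin 911 6 910)
(fin 1230 6 974)))
(cons (mv 1165 (cons (fin 1229 5 973)
(mv 1167 (cons (fin 1231 4 974)
(mv 910 (cons (fin 1103 4 910)
(mv 845 (cons (fin 909 7 845)
(mv 846 (cons (fin 781 7 781)
(mv 847 (cons (fin 783 6 782)
(fin 911 6 846)))))))))))))
(mv 975 (cons (fin 1230 6 974)
(mv 1165 (cons (fin 1229 5 973)
(mv 1167 (cons (fin 1231 4 974)
(mv 910 (cons (fin 1103 7 910)
(mv 845 (cons (fin 909 7 845)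
(mv 846 (cons (fin 781 7 781)
(fin 782 4 782)))))))))))))))))))))
(cons (mv 978 (cons (fin 977 2 974)
(mv 1042 (cons (fin 975 3 974)
(fin 979 2 975)))))
(cons (mv 975 (cons (fin 1042 3 974)
(mv 1101 (cons (fin 1102 1 1037)
(mv 1037 (cons (fin 1100 1 1036)
(mv 910 (cons (fin 846 5 845)
(mv 1036 (cons (fin 1035 2 971)
(mv 1103 (cons (fin 1104 0 1036)
(fin 1167 7 910)))))))))))))
(mv 977 (cons (fin 978 2 974)
(mv 1102 (cons (fin 1101 1 1037)
(mv 1103 (cons (fin 1042 1 1038)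
(mv 910 (cons (fin 846 4 846)
(fin 1167 4 910)))))))))))))
(mv 973 (cons (fin 1041 3 973)
(mv 972 (cons (fin 971 0 971)
(fin 975 0 972)))))))))
(cons (mv 1039 (cons (mv 973 (cons (fin 1041 3 973)
(mv 972 (cons (fin 1037 3 972)
(fin 971 0 971)))))
(cons (mv 972 (cons (cons (mv 973 (cons (fin 1037 3 972)
(fin 971 0 971)))
(mv 1037 (cons (cons (mv 971 (cons (fin 1036 3 971)
(mv 1101 (cons (fin 1100 1 1036)
(mv 910 (cons (fin 846 5 845)
(mv 1165 (cons (fin 1102 5 909)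
(fin 1229 6 973)))))))))
(mv 1101 (cons (fin 1100 1 1036)
(mv 910 (cons (fin 846 5 845)
(mv 1165 (cons (fin 1102 5 909)
(fin 1229 6 973))))))))
(cons (mv 1036 (cons (fin 971 3 971)
(mv 1035 (cons (fin 975 2 971)
(mv 1099 (cons (fin 1098 1 1034)
(fin 1100 1 1035)))))))
(mv 1036 (cons (fin 971 3 971)
(mv 1035 (cons (fin 975 2 971)
(mv 1098 (cons (fin 1099 1 1034)
(mv 1034 (cons (fin 1097 1 1033)
(mv 1102 (cons (fin 1101 0 1034)
(fin 1103 0 1035)))))))))))))))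
(cons (mv 973 (cons (fin 971 0 971)
(fin 975 0 972)))
(mv 973 (cons (fin 1037 3 972)
(fin 975 0 972))))))
(mv 1041 (cons (cons (mv 975 (cons (fin 1042 3 974)
(mv 977 (cons (fin 978 2 974)
(mv 1102 (cons (fin 1101 1 1037)
(mv 911 (cons (fin 847 5 846)
(fin 1166 6 910)))))))))
(mv 977 (cons (fin 978 2 974)
(mv 1102 (cons (fin 1101 1 1037)
(mv 1105 (cons (fin 1106 0 1038)
(mv 910 (cons (cons (mv 1103 (cons (fin 846 4 846)
(fin 1167 4 910)))
(mv 845 (cons (fin 909 7 845)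
(mv 781 (cons (fin 846 7 781)
(mv 911 (cons (fin 847 6 846)
(mv 1166 (cons (fin 975 6 910)
(mv 1229 (cons (fin 1165 5 973)
(mv 1230 (cons (fin 1293 5 1037)
(mv 1231 (cons (fin 1167 4 974)
(fin 1295 4 1038))))))))))))))))
(cons (mv 845 (cons (fin 909 7 845)
(mv 847 (cons (fin 911 6 846)
(mv 1167 (cons (fin 1103 4 910)
(mv 1166 (cons (fin 1231 4 974)
(mv 1229 (cons (fin 1165 5 973)
(mv 1230 (cons (fin 1293 5 1037)
(fin 975 6 974)))))))))))))
(mv 845 (cons (fin 909 7 845)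
(mv 846 (cons (fin 781 7 781)
(fin 1103 4 846)))))))))))))))
(cons (mv 977 (cons (fin 978 2 974)
(mv 1042 (cons (fin 975 3 974)
(mv 1106 (cons (fin 1105 0 1038)
(fin 1107 0 1039)))))))
(cons (mv 975 (cons (fin 1042 3 974)
(mv 1102 (cons (fin 1101 1 1037)
(mv 911 (cons (fin 847 5 846)
(fin 1166 6 910)))))))
(mv 977 (cons (fin 978 2 974)
(mv 1102 (cons (fin 1101 1 1037)
(mv 1042 (cons (fin 1103 1 1038)
(mv 1106 (cons (fin 1105 0 1038)
(fin 1107 0 1039))))))))))))))))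
(mv 1039 (cons (cons (mv 973 (cons (fin 1041 3 973)
(mv 972 (cons (fin 1037 3 972)
(fin 971 0 971)))))
(mv 1037 (cons (cons (mv 972 (cons (fin 973 3 972)
(mv 1036 (cons (fin 971 3 971)
(mv 1104 (cons (fin 1103 0 1036)
(fin 1105 0 1037)))))))
(cons (mv 1104 (cons (fin 1105 0 1037)
(mv 1036 (cons (fin 1103 0 1036)
(mv 1035 (cons (fin 975 2 971)
(mv 970 (cons (fin 971 3 970)
(mv 1034 (cons (fin 969 3 969)
(fin 973 2 970)))))))))))
(mv 1104 (cons (fin 1105 0 1037)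
(mv 1036 (cons (fin 1103 0 1036)
(mv 971 (cons (fin 972 3 971)
(mv 1035 (cons (fin 970 3 970)
(fin 975 2 971)))))))))))
(cons (mv 972 (cons (fin 973 3 972)
(mv 1036 (cons (fin 971 3 971)
(mv 1035 (cons (fin 975 2 971)
(mv 1098 (cons (fin 1099 1 1034)
(mv 1034 (cons (fin 1097 1 1033)
(mv 1102 (cons (fin 1101 0 1034)
(fin 1103 0 1035)))))))))))))
(cons (mv 972 (cons (fin 973 3 972)
(mv 1036 (cons (fin 971 3 971)
(mv 975 (cons (fin 1035 2 971)
(mv 1104 (cons (fin 1105 0 1037)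
(mv 911 (cons (fin 847 4 847)
(mv 1102 (cons (fin 1166 6 910)
(mv 1168 (cons (fin 1232 7 975)
(mv 910 (cons (mv 846 (cons (fin 1101 5 845)
(fin 782 4 782)))
(cons (mv 845 (cons (fin 909 7 845)
(mv 846 (cons (fin 781 7 781)
(fin 782 4 782)))))
(mv 909 (cons (fin 845 7 845)
(mv 908 (cons (fin 907 0 907)
(mv 844 (cons (fin 843 3 843)
(fin 1101 4 844))))))))))))))))))))))))
(mv 973 (cons (fin 972 3 972)
(mv 1104 (cons (fin 1105 0 1037)
(mv 910 (cons (mv 846 (cons (fin 782 5 781)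
(fin 1101 5 845)))
(cons (mv 1101 (cons (fin 1165 6 909)
(mv 1102 (cons (mv 909 (cons (fin 845 7 845)
(fin 1166 7 909)))
(cons (mv 847 (cons (fin 911 6 846)
(mv 1103 (cons (fin 1167 4 910)
(mv 1166 (cons (fin 1230 7 973)
(mv 1168 (cons (fin 1169 0 1101)
(mv 1232 (cons (fin 975 7 975)
(fin 1296 7 1039)))))))))))
(mv 845 (cons (fin 909 7 845)
(mv 847 (cons (fin 911 6 846)
(mv 1103 (cons (fin 1167 4 910)
(mv 1168 (cons (fin 1169 0 1101)
(mv 1232 (cons (fin 975 7 975)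
(fin 1296 7 1039))))))))))))))))
(mv 846 (cons (fin 782 5 781)
(fin 1103 4 846)))))))))))))))
(cons (mv 1041 (cons (cons (mv 975 (cons (fin 1042 3 974)
(mv 977 (cons (fin 978 2 974)
(mv 1101 (cons (fin 1102 1 1037)
(mv 1105 (cons (fin 1106 0 1038)
(mv 1104 (cons (fin 1037 0 1037)
(mv 913 (cons (fin 849 5 848)
(fin 1168 5 912)))))))))))))
(mv 977 (cons (fin 978 2 974)
(mv 1101 (cons (fin 1102 1 1037)
(mv 1105 (cons (fin 1106 0 1038)
(mv 1104 (cons (fin 1037 0 1037)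
(mv 913 (cons (fin 849 5 848)
(fin 1168 5 912))))))))))))
(cons (mv 975 (cons (fin 1042 3 974)
(mv 977 (cons (fin 978 2 974)
(mv 1105 (cons (fin 1106 0 1038)
(mv 1104 (cons (fin 1037 0 1037)
(mv 913 (cons (fin 849 5 848)
(fin 1168 5 912)))))))))))
(cons (mv 975 (cons (fin 1042 3 974)
(mv 977 (cons (fin 978 2 974)
(mv 1102 (cons (fin 1101 1 1037)
(mv 911 (cons (fin 847 5 846)
(fin 1166 6 910)))))))))
(mv 975 (cons (fin 1042 3 974)
(mv 1101 (cons (fin 1102 1 1037)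
(mv 1105 (cons (fin 1106 0 1038)
(mv 1104 (cons (fin 1037 0 1037)
(mv 911 (cons (fin 847 4 847)
(mv 1168 (cons (fin 1232 7 975)
(fin 1103 4 911)))))))))))))))))
(mv 973 (cons (fin 1041 3 973)
(mv 972 (cons (fin 971 0 971)
(fin 975 0 972)))))))))))))
def l33 : Lem := ⟨11781361728633673533054441723117730079171283746239247440356909899588005244909514899260159721150817405942924420470662491174673842036557007391209044253460063708080530407354770956693342717623350878333880262063391977041189311657559161319740834448813323445848447489700891174053752382374267171085078592036680673850818560, 290130804895992985929298579133569438535933284841297610897754303244192339478677757024963678289463809293921732995879616419850259526382608260749796867750204343932125706217919821184290357661004306298412436498066466304542017987180149363171517260493364064859412997736164088340344772832886581539793066857463504565411034388026219203728110696316656691385110755169671512384159410015810533735491730491264054715413503917211869126146958295040,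 290130804895992985929298579133569438535933284841297610897754303244192339478677757024963678289463809293921732995879616419850259526382608260749796867750204343932125706217919821184290357661004306298412436498066466304542017987180149363171517260493364064859412997736164088340344772832886581539793066857463504565411034388026219203728110696316656691385110755169671512384159410015810533735491730491264054715413503917211869126146958295040, 19, 33⟩
theorem l33_valid : l33.Valid :=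
  Lem.valid_of_chk t33 t33_valid [974, 1040] c33 l33 (by decide +kernel)
end Crest.Agent.SnakyAux
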