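import Crest.Agent.S0047_aux.Checker

set_option autoImplicit false
set_option maxRecDepth 100000
namespace Crest.Agent.SnakyAux
open Cert
def t34 : Tbl := Tbl.nil
theorem t34_valid : t34.Valid := Tbl.valid_nil
def c34 : Cert :=
(mv 976 (cons (cons (cons (mv 975 (cons (cons (mv 973 (cons (fin 1041 0 973)
(mv 908 (cons (fin 909 3 908)
(mv 972 (cons (fin 907 3 907)
(fin 1039 0 972)))))))
(mv 977 (cons (cons (mv 913 (cons (fin 914 2 910)
(mv 785 (cons (fin 849 5 784)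
(mv 1038 (cons (fin 1037 1 973)
(mv 978 (cons (fin 1039 1 974)
(mv 1041 (cons (fin 1042 0 974)
(mv 979 (cons (fin 980 1 976)
(mv 912 (cons (fin 911 3 911)
(mv 848 (cons (fin 1105 7 848)
(fin 784 4 784)))))))))))))))))
(mv 1038 (cons (fin 1037 1 973)
(mv 978 (cons (fin 1039 1 974)
(mv 914 (cons (fin 915 2 911)
(mv 1041 (cons (fin 1042 0 974)
(mv 786 (cons (fin 850 5 785)
(mv 979 (cons (fin 980 1 976)
(mv 912 (cons (fin 911 3 911)
(mv 848 (cons (fin 784 4 784)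
(fin 1105 4 848))))))))))))))))))
(cons (mv 913 (cons (fin 914 2 910)
(mv 849 (cons (fin 785 5 784)
(mv 1041 (cons (fin 1042 0 974)
(fin 1104 5 848)))))))
(cons (mv 913 (cons (fin 914 2 910)
(mv 849 (cons (fin 785 5 784)
(mv 1104 (cons (fin 912 6 848)
(fin 1168 6 912)))))))
(mv 1038 (cons (fin 1037 1 973)
(mv 978 (cons (fin 1039 1 974)
(mv 1041 (cons (fin 1042 0 974)
(mv 979 (cons (fin 980 1 976)
(mv 912 (cons (fin 911 3 911)
(mv 848 (cons (fin 784 4 784)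
(fin 1105 4 848))))))))))))))))))
(cons (mv 973 (cons (mv 908 (cons (fin 909 3 908)
(mv 972 (cons (fin 907 3 907)
(fin 1039 0 972)))))
(cons (mv 908 (cons (fin 909 3 908)
(mv 913 (cons (fin 912 2 909)
(mv 977 (cons (fin 914 2 910)
(mv 1037 (cons (fin 1036 1 972)
(fin 1038 1 973)))))))))
(mv 912 (cons (fin 913 2 909)
(mv 972 (cons (fin 911 2 908)
(fin 1039 0 972))))))))
(mv 973 (cons (fin 1041 0 973)
(mv 908 (cons (fin 909 3 908)
(mv 907 (cons (fin 972 3 907)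
(mv 913 (cons (fin 912 2 909)
(mv 977 (cons (fin 914 2 910)
(mv 1037 (cons (fin 1036 1 972)
(fin 1038 1 973))))))))))))))))
(cons (mv 912 (cons (cons (cons (mv 848 (cons (cons (mv 783 (cons (fin 847 7 783)
(mv 719 (cons (fin 784 7 719)
(mv 785 (cons (fin 849 6 784)
(mv 1039 (cons (fin 1103 5 847)
(mv 1041 (cons (fin 1105 4 848)
(mv 1038 (cons (fin 973 3 973)
(mv 977 (cons (fin 1037 2 973)
(fin 978 2 974)))))))))))))))
(cons (mv 783 (cons (fin 847 7 783)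
(mv 719 (cons (fin 784 7 719)
(mv 1039 (cons (fin 1103 5 847)
(mv 1041 (cons (fin 1105 4 848)
(mv 1038 (cons (fin 973 3 973)
(mv 977 (cons (fin 1037 2 973)
(fin 978 2 974)))))))))))))
(mv 785 (cons (fin 849 6 784)
(mv 721 (cons (fin 784 6 720)
(mv 1039 (cons (fin 1103 5 847)
(mv 1041 (cons (fin 1105 4 848)
(mv 1038 (cons (fin 973 3 973)
(mv 977 (cons (fin 1037 2 973)
(fin 978 2 974)))))))))))))))
(cons (mv 783 (cons (fin 847 7 783)
(mv 719 (cons (fin 784 7 719)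
(mv 849 (cons (fin 785 6 784)
(mv 1103 (cons (fin 1039 5 847)
(mv 1104 (cons (fin 1167 5 911)
(fin 913 6 848)))))))))))
(cons (mv 783 (cons (fin 847 7 783)
(mv 719 (cons (fin 784 7 719)
(mv 849 (cons (fin 785 6 784)
(mv 1104 (cons (fin 913 6 848)
(mv 1105 (cons (fin 1041 4 848)
(fin 1169 4 912)))))))))))
(mv 783 (cons (fin 847 7 783)
(mv 785 (cons (fin 849 6 784)
(mv 1039 (cons (fin 1103 5 847)
(mv 1041 (cons (fin 1105 4 848)
(mv 1038 (cons (fin 973 3 973)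
(mv 977 (cons (fin 1037 2 973)
(fin 978 2 974)))))))))))))))))
(mv 1104 (cons (cons (mv 847 (cons (fin 911 7 847)
(mv 849 (cons (fin 913 6 848)
(mv 1167 (cons (fin 1103 5 911)
(mv 1168 (cons (fin 1231 5 975)
(mv 1169 (cons (fin 1105 4 912)
(fin 1233 4 976)))))))))))
(cons (mv 847 (cons (fin 911 7 847)
(mv 1167 (cons (fin 1103 5 911)
(mv 1168 (cons (fin 1231 5 975)
(mv 1169 (cons (fin 1105 4 912)
(fin 1233 4 976)))))))))
(mv 847 (cons (fin 911 7 847)
(mv 913 (cons (fin 849 6 848)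
(mv 1167 (cons (fin 1103 5 911)
(mv 1168 (cons (fin 1231 5 975)
(fin 977 6 912)))))))))))
(cons (mv 847 (cons (fin 911 7 847)
(mv 913 (cons (fin 849 6 848)
(mv 1168 (cons (fin 977 6 912)
(mv 1169 (cons (fin 1105 4 912)
(fin 1233 4 976)))))))))
(cons (mv 849 (cons (fin 913 6 848)
(mv 1167 (cons (fin 1103 5 911)
(mv 1168 (cons (fin 1231 5 975)
(mv 1169 (cons (fin 1105 4 912)
(fin 1233 4 976)))))))))
(mv 847 (cons (fin 911 7 847)
(mv 849 (cons (fin 913 6 848)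
(mv 1103 (cons (fin 1167 5 911)
(mv 1105 (cons (fin 1169 4 912)
(mv 1102 (cons (mv 1041 (cons (fin 1101 2 1037)
(fin 1042 2 1038)))
(cons (mv 1037 (cons (fin 1038 3 1037)
(mv 1101 (cons (fin 1036 3 1036)
(mv 1165 (cons (fin 1164 1 1100)
(fin 1166 1 1101)))))))
(mv 1038 (cons (fin 1037 3 1037)
(mv 1039 (cons (fin 1106 3 1038)
(mv 1041 (cons (fin 973 3 973)
(fin 1042 1 1038)))))))))))))))))))))))
(cons (mv 848 (cons (cons (mv 783 (cons (fin 847 7 783)
(mv 719 (cons (fin 784 7 719)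
(mv 785 (cons (fin 849 6 784)
(mv 1039 (cons (fin 1103 5 847)
(mv 1041 (cons (fin 1105 4 848)
(mv 1038 (cons (fin 973 3 973)
(mv 977 (cons (fin 1037 2 973)
(fin 978 2 974)))))))))))))))
(mv 783 (cons (fin 847 7 783)
(mv 784 (cons (fin 719 7 719)
(mv 785 (cons (fin 721 6 720)
(fin 849 6 784))))))))
(cons (mv 783 (cons (fin 847 7 783)
(mv 719 (cons (fin 784 7 719)
(mv 1039 (cons (fin 1103 5 847)
(mv 1041 (cons (fin 1105 4 848)
(mv 1038 (cons (fin 973 3 973)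
(mv 977 (cons (fin 1037 2 973)
(fin 978 2 974)))))))))))))
(cons (mv 785 (cons (fin 849 6 784)
(mv 721 (cons (fin 784 6 720)
(mv 1039 (cons (fin 1103 5 847)
(mv 1041 (cons (fin 1105 4 848)
(mv 1038 (cons (fin 973 3 973)
(mv 977 (cons (fin 1037 2 973)
(fin 978 2 974)))))))))))))
(mv 783 (cons (fin 847 7 783)
(mv 785 (cons (fin 849 6 784)
(mv 1039 (cons (fin 1103 5 847)
(mv 1041 (cons (fin 1105 4 848)
(mv 1038 (cons (fin 973 3 973)
(mv 977 (cons (fin 1037 2 973)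
(fin 978 2 974)))))))))))))))))
(mv 848 (cons (cons (mv 783 (cons (fin 847 7 783)
(mv 719 (cons (fin 784 7 719)
(mv 849 (cons (fin 785 6 784)
(mv 1103 (cons (fin 1039 5 847)
(mv 1104 (cons (fin 1167 5 911)
(fin 913 6 848)))))))))))
(cons (mv 783 (cons (fin 847 7 783)
(mv 784 (cons (fin 719 7 719)
(mv 721 (cons (fin 785 6 720)
(mv 720 (cons (fin 657 6 656)
(mv 977 (cons (fin 913 4 720)
(fin 1041 4 784)))))))))))
(mv 785 (cons (fin 849 6 784)
(mv 784 (cons (fin 721 6 720)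
(mv 719 (cons (fin 783 7 719)
(mv 720 (cons (fin 655 7 655)
(mv 977 (cons (fin 913 4 720)
(fin 1041 4 784)))))))))))))
(cons (cons (mv 783 (cons (fin 847 7 783)
(mv 784 (cons (fin 719 7 719)
(mv 977 (cons (fin 1041 4 784)
(mv 913 (cons (fin 720 4 720)
(mv 1104 (cons (fin 849 6 848)
(fin 1168 6 912)))))))))))
(mv 785 (cons (fin 849 6 784)
(mv 784 (cons (fin 721 6 720)
(mv 977 (cons (fin 1041 4 784)
(mv 913 (cons (fin 720 4 720)
(mv 1103 (cons (fin 1039 5 847)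
(mv 1104 (cons (fin 1167 5 911)
(fin 1168 6 912))))))))))))))
(cons (mv 783 (cons (fin 847 7 783)
(mv 849 (cons (fin 785 6 784)
(mv 1103 (cons (fin 1039 5 847)
(mv 1104 (cons (fin 1167 5 911)
(fin 913 6 848)))))))))
(mv 783 (cons (fin 847 7 783)
(mv 784 (cons (fin 719 7 719)
(mv 785 (cons (fin 721 6 720)
(fin 849 6 784)))))))))))))
(cons (cons (mv 1104 (cons (cons (mv 847 (cons (fin 911 7 847)
(mv 783 (cons (fin 848 7 783)
(mv 1103 (cons (fin 1167 5 911)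
(mv 1169 (cons (fin 1105 4 912)
(mv 1168 (cons (fin 1233 4 976)
(mv 977 (cons (fin 913 6 912)
(mv 1041 (cons (fin 1232 6 976)
(mv 1102 (cons (fin 1101 2 1037)
(mv 1039 (cons (fin 1042 1 1038)
(mv 978 (cons (fin 979 1 975)
(fin 1038 2 974)))))))))))))))))))))
(cons (mv 847 (cons (fin 911 7 847)
(mv 783 (cons (fin 848 7 783)
(mv 1167 (cons (fin 1103 5 911)
(mv 1168 (cons (fin 1231 5 975)
(mv 977 (cons (fin 913 6 912)
(mv 1232 (cons (fin 1041 6 976)
(mv 1233 (cons (fin 1169 4 976)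
(fin 1297 4 1040)))))))))))))))
(mv 847 (cons (fin 911 7 847)
(mv 783 (cons (fin 848 7 783)
(mv 1169 (cons (fin 1105 4 912)
(mv 1168 (cons (fin 1233 4 976)
(mv 977 (cons (fin 913 6 912)
(mv 1231 (cons (fin 1167 5 975)
(mv 1232 (cons (fin 1295 5 1039)
(fin 1041 6 976)))))))))))))))))
(cons (cons (mv 847 (cons (fin 911 7 847)
(mv 848 (cons (fin 783 7 783)
(mv 1103 (cons (fin 1039 5 847)
(fin 1167 5 911)))))))
(mv 847 (cons (fin 911 7 847)
(mv 848 (cons (fin 783 7 783)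
(mv 1105 (cons (fin 1041 4 848)
(fin 1169 4 912))))))))
(cons (mv 1103 (cons (fin 1167 5 911)
(mv 848 (cons (fin 1039 5 847)
(mv 1105 (cons (fin 1041 4 848)
(fin 1169 4 912)))))))
(mv 847 (cons (fin 911 7 847)
(mv 1103 (cons (fin 1167 5 911)
(mv 1169 (cons (fin 1105 4 912)
(mv 1168 (cons (fin 1233 4 976)
(mv 977 (cons (fin 913 6 912)
(mv 1041 (cons (fin 1232 6 976)
(mv 1102 (cons (fin 1101 2 1037)
(mv 1039 (cons (fin 1042 1 1038)
(mv 978 (cons (fin 979 1 975)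
(fin 1038 2 974)))))))))))))))))))))))
(mv 848 (cons (cons (mv 783 (cons (fin 847 7 783)
(mv 719 (cons (fin 784 7 719)
(mv 849 (cons (fin 785 6 784)
(mv 1104 (cons (fin 913 6 848)
(mv 1105 (cons (fin 1041 4 848)
(fin 1169 4 912)))))))))))
(mv 783 (cons (fin 847 7 783)
(mv 784 (cons (fin 719 7 719)
(mv 1041 (cons (fin 977 4 784)
(fin 1105 4 848))))))))
(cons (mv 785 (cons (fin 849 6 784)
(mv 784 (cons (fin 721 6 720)
(mv 1041 (cons (fin 977 4 784)
(fin 1105 4 848)))))))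
(cons (mv 783 (cons (fin 847 7 783)
(mv 784 (cons (fin 719 7 719)
(mv 785 (cons (fin 721 6 720)
(fin 849 6 784)))))))
(mv 783 (cons (fin 847 7 783)
(mv 849 (cons (fin 785 6 784)
(mv 1104 (cons (fin 913 6 848)
(mv 1105 (cons (fin 1041 4 848)
(fin 1169 4 912))))))))))))))
(cons (mv 1104 (cons (cons (mv 849 (cons (fin 913 6 848)
(mv 785 (cons (fin 848 6 784)
(mv 1167 (cons (fin 1103 5 911)
(mv 1168 (cons (fin 1231 5 975)
(mv 1169 (cons (fin 1105 4 912)
(fin 1233 4 976)))))))))))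
(mv 849 (cons (fin 913 6 848)
(mv 848 (cons (fin 785 6 784)
(mv 1103 (cons (fin 1039 5 847)
(fin 1167 5 911))))))))
(cons (mv 849 (cons (fin 913 6 848)
(mv 848 (cons (fin 785 6 784)
(mv 1105 (cons (fin 1041 4 848)
(fin 1169 4 912)))))))
(cons (mv 1103 (cons (fin 1167 5 911)
(mv 848 (cons (fin 1039 5 847)
(mv 1105 (cons (fin 1041 4 848)
(fin 1169 4 912)))))))
(mv 849 (cons (fin 913 6 848)
(mv 1167 (cons (fin 1103 5 911)
(mv 1168 (cons (fin 1231 5 975)
(mv 1169 (cons (fin 1105 4 912)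
(fin 1233 4 976)))))))))))))
(mv 1104 (cons (cons (mv 847 (cons (fin 911 7 847)
(mv 783 (cons (fin 848 7 783)
(mv 849 (cons (fin 913 6 848)
(mv 1167 (cons (fin 1103 5 911)
(mv 1168 (cons (fin 1231 5 975)
(mv 1169 (cons (fin 1105 4 912)
(fin 1233 4 976)))))))))))))
(cons (mv 847 (cons (fin 911 7 847)
(mv 783 (cons (fin 848 7 783)
(mv 913 (cons (fin 849 6 848)
(mv 1168 (cons (fin 977 6 912)
(mv 1169 (cons (fin 1105 4 912)
(fin 1233 4 976)))))))))))
(mv 847 (cons (fin 911 7 847)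
(mv 783 (cons (fin 848 7 783)
(mv 1167 (cons (fin 1103 5 911)
(mv 1168 (cons (fin 1231 5 975)
(mv 1169 (cons (fin 1105 4 912)
(fin 1233 4 976)))))))))))))
(cons (cons (mv 847 (cons (fin 911 7 847)
(mv 783 (cons (fin 848 7 783)
(mv 913 (cons (fin 849 6 848)
(mv 1167 (cons (fin 1103 5 911)
(mv 1168 (cons (fin 1231 5 975)
(fin 977 6 912)))))))))))
(mv 849 (cons (fin 913 6 848)
(mv 785 (cons (fin 848 6 784)
(mv 1167 (cons (fin 1103 5 911)
(mv 1168 (cons (fin 1231 5 975)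
(mv 1169 (cons (fin 1105 4 912)
(fin 1233 4 976))))))))))))
(cons (mv 847 (cons (fin 911 7 847)
(mv 848 (cons (fin 783 7 783)
(mv 849 (cons (fin 785 6 784)
(fin 913 6 848)))))))
(mv 847 (cons (fin 911 7 847)
(mv 849 (cons (fin 913 6 848)
(mv 1167 (cons (fin 1103 5 911)
(mv 1168 (cons (fin 1231 5 975)
(mv 1169 (cons (fin 1105 4 912)
(fin 1233 4 976)))))))))))))))))))
(mv 975 (cons (cons (mv 973 (cons (mv 908 (cons (fin 909 3 908)
(mv 972 (cons (fin 907 3 907)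
(fin 1039 0 972)))))
(cons (mv 908 (cons (fin 909 3 908)
(mv 913 (cons (fin 912 2 909)
(mv 977 (cons (fin 914 2 910)
(mv 1037 (cons (fin 1036 1 972)
(fin 1038 1 973)))))))))
(mv 912 (cons (fin 913 2 909)
(mv 972 (cons (fin 911 2 908)
(fin 1039 0 972))))))))
(cons (mv 911 (cons (cons (mv 847 (cons (fin 783 4 783)
(mv 1104 (cons (fin 912 7 847)
(fin 1168 7 911)))))
(mv 1104 (cons (fin 1168 7 911)
(mv 912 (cons (mv 913 (cons (fin 914 1 910)
(fin 849 6 848)))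
(cons (mv 1103 (cons (fin 1167 5 911)
(mv 848 (cons (fin 1039 5 847)
(mv 784 (cons (fin 720 5 719)
(mv 785 (cons (fin 721 6 720)
(fin 849 6 784)))))))))
(mv 913 (cons (fin 914 1 910)
(mv 1103 (cons (fin 1167 5 911)
(mv 1039 (cons (fin 848 5 847)
(mv 1102 (cons (fin 1166 5 910)
(mv 1100 (cons (fin 1101 2 1036)
(mv 1105 (cons (fin 1169 4 912)
(mv 1038 (cons (fin 1037 3 1037)
(fin 1106 3 1038)))))))))))))))))))))
(cons (mv 847 (cons (fin 783 4 783)
(mv 1039 (cons (cons (mv 782 (cons (fin 846 7 782)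
(mv 784 (cons (fin 848 6 783)
(mv 1038 (cons (fin 1102 5 846)
(mv 977 (cons (fin 1037 1 973)
(fin 978 1 974)))))))))
(mv 782 (cons (fin 846 7 782)
(mv 848 (cons (fin 784 6 783)
(mv 912 (cons (fin 1103 5 847)
(mv 849 (cons (fin 785 6 784)
(mv 850 (cons (fin 851 1 847)
(mv 914 (cons (fin 913 1 910)
(fin 915 0 847))))))))))))))
(cons (mv 782 (cons (fin 846 7 782)
(mv 1038 (cons (fin 1102 5 846)
(mv 977 (cons (fin 1037 1 973)
(fin 978 1 974)))))))
(mv 784 (cons (fin 848 6 783)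
(mv 1038 (cons (fin 1102 5 846)
(mv 977 (cons (fin 1037 1 973)
(fin 978 1 974))))))))))))
(mv 847 (cons (fin 783 4 783)
(mv 1104 (cons (fin 1168 7 911)
(fin 1039 4 847))))))))
(mv 973 (cons (mv 908 (cons (fin 909 3 908)
(mv 972 (cons (fin 907 3 907)
(fin 1039 0 972)))))
(cons (mv 908 (cons (fin 909 3 908)
(mv 913 (cons (fin 912 2 909)
(mv 977 (cons (fin 914 2 910)
(mv 1037 (cons (fin 1036 1 972)
(fin 1038 1 973)))))))))
(mv 912 (cons (fin 913 2 909)
(mv 972 (cons (fin 1039 0 972)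
(mv 1036 (cons (fin 1035 1 971)
(fin 1037 1 972))))))))))))
(cons (cons (mv 973 (cons (cons (mv 908 (cons (fin 909 3 908)
(mv 972 (cons (fin 907 3 907)
(fin 1039 0 972)))))
(mv 908 (cons (fin 909 3 908)
(mv 912 (cons (fin 913 2 909)
(mv 1036 (cons (fin 1037 1 972)
(mv 848 (cons (mv 1039 (cons (fin 784 5 783)
(fin 1103 5 847)))
(cons (mv 783 (cons (fin 847 7 783)
(mv 784 (cons (fin 719 7 719)
(mv 785 (cons (fin 721 6 720)
(fin 849 6 784)))))))
(mv 783 (cons (fin 847 7 783)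
(mv 785 (cons (fin 849 6 784)
(mv 1103 (cons (fin 1039 5 847)
(mv 1104 (cons (fin 1167 5 911)
(mv 1168 (cons (fin 911 7 911)
(mv 1169 (cons (fin 1105 4 912)
(fin 1233 4 976)))))))))))))))))))))))
(cons (mv 912 (cons (fin 913 2 909)
(mv 972 (cons (fin 911 2 908)
(fin 1039 0 972)))))
(mv 908 (cons (fin 909 3 908)
(mv 912 (cons (fin 913 2 909)
(mv 972 (cons (fin 907 3 907)
(fin 911 2 908))))))))))
(mv 973 (cons (mv 908 (cons (fin 909 3 908)
(mv 972 (cons (fin 907 3 907)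
(fin 1039 0 972)))))
(cons (mv 909 (cons (fin 908 3 908)
(mv 1037 (cons (fin 1036 1 972)
(mv 1038 (cons (fin 977 1 973)
(mv 845 (cons (fin 781 4 781)
(fin 1102 4 845)))))))))
(mv 972 (cons (fin 1039 0 972)
(mv 1036 (cons (fin 1035 1 971)
(fin 1037 1 972)))))))))
(cons (mv 973 (cons (cons (mv 908 (cons (fin 909 3 908)
(mv 972 (cons (fin 907 3 907)
(fin 1039 0 972)))))
(mv 908 (cons (fin 909 3 908)
(mv 912 (cons (fin 913 2 909)
(mv 848 (cons (mv 1039 (cons (fin 784 5 783)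
(fin 1103 5 847)))
(cons (mv 783 (cons (fin 847 7 783)
(mv 784 (cons (fin 719 7 719)
(mv 785 (cons (fin 721 6 720)
(fin 849 6 784)))))))
(mv 783 (cons (fin 847 7 783)
(mv 785 (cons (fin 849 6 784)
(mv 1103 (cons (fin 1039 5 847)
(mv 1104 (cons (fin 1167 5 911)
(mv 1168 (cons (fin 911 7 911)
(mv 1169 (cons (fin 1105 4 912)
(fin 1233 4 976)))))))))))))))))))))
(cons (mv 912 (cons (fin 913 2 909)
(mv 972 (cons (fin 911 2 908)
(fin 1039 0 972)))))
(mv 908 (cons (fin 909 3 908)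
(mv 912 (cons (fin 913 2 909)
(mv 972 (cons (fin 907 3 907)
(fin 911 2 908))))))))))
(mv 973 (cons (cons (mv 908 (cons (fin 909 3 908)
(mv 907 (cons (fin 972 3 907)
(mv 913 (cons (fin 912 2 909)
(mv 977 (cons (fin 914 2 910)
(mv 1037 (cons (fin 1036 1 972)
(fin 1038 1 973)))))))))))
(mv 908 (cons (fin 909 3 908)
(mv 972 (cons (fin 907 3 907)
(mv 1036 (cons (fin 1035 1 971)
(fin 1037 1 972))))))))
(cons (mv 908 (cons (fin 909 3 908)
(mv 912 (cons (fin 913 2 909)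
(mv 972 (cons (fin 907 3 907)
(fin 911 2 908)))))))
(cons (mv 912 (cons (fin 913 2 909)
(mv 911 (cons (fin 972 2 908)
(mv 847 (cons (fin 1104 7 847)
(fin 783 4 783)))))))
(mv 908 (cons (fin 909 3 908)
(mv 913 (cons (fin 912 2 909)
(mv 977 (cons (fin 914 2 910)
(mv 1037 (cons (fin 1036 1 972)
(fin 1038 1 973)))))))))))))))))))
(cons (cons (mv 1104 (cons (cons (cons (mv 1168 (cons (cons (cons (mv 911 (cons (fin 975 7 911)
(mv 847 (cons (fin 912 7 847)
(mv 913 (cons (fin 977 6 912)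
(mv 1231 (cons (fin 1167 5 975)
(mv 1232 (cons (fin 1295 5 1039)
(mv 1233 (cons (fin 1169 4 976)
(fin 1297 4 1040)))))))))))))
(mv 911 (cons (fin 975 7 911)
(mv 847 (cons (fin 912 7 847)
(mv 1231 (cons (fin 1167 5 975)
(mv 1232 (cons (fin 1295 5 1039)
(mv 1233 (cons (fin 1169 4 976)
(fin 1297 4 1040))))))))))))
(cons (mv 913 (cons (fin 977 6 912)
(mv 849 (cons (fin 912 6 848)
(mv 1231 (cons (fin 1167 5 975)
(mv 1232 (cons (fin 1295 5 1039)
(mv 1233 (cons (fin 1169 4 976)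
(fin 1297 4 1040)))))))))))
(mv 911 (cons (fin 975 7 911)
(mv 847 (cons (fin 912 7 847)
(mv 977 (cons (fin 913 6 912)
(mv 1169 (cons (fin 1233 4 976)
(mv 1232 (cons (fin 1041 6 976)
(mv 1295 (cons (fin 1231 5 1039)
(mv 1296 (cons (fin 1359 5 1103)
(mv 1039 (cons (fin 1103 7 1039)
(mv 978 (cons (fin 979 1 975)
(mv 1037 (cons (fin 1038 2 973)
(mv 1360 (cons (fin 1105 6 1104)
(mv 1361 (cons (fin 1297 4 1104)
(fin 1425 4 1168)))))))))))))))))))))))))))
(cons (cons (mv 911 (cons (fin 975 7 911)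
(mv 847 (cons (fin 912 7 847)
(mv 977 (cons (fin 913 6 912)
(mv 1167 (cons (fin 1231 5 975)
(mv 1232 (cons (fin 1041 6 976)
(mv 1297 (cons (fin 1233 4 1040)
(mv 1296 (cons (fin 1361 4 1104)
(mv 1103 (cons (fin 1039 7 1039)
(fin 1360 7 1103)))))))))))))))))
(mv 911 (cons (fin 975 7 911)
(mv 847 (cons (fin 912 7 847)
(mv 977 (cons (fin 913 6 912)
(mv 1232 (cons (fin 1041 6 976)
(mv 1233 (cons (fin 1169 4 976)
(fin 1297 4 1040))))))))))))
(cons (mv 911 (cons (fin 975 7 911)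
(mv 847 (cons (fin 912 7 847)
(mv 977 (cons (fin 913 6 912)
(mv 1231 (cons (fin 1167 5 975)
(mv 1232 (cons (fin 1295 5 1039)
(fin 1041 6 976)))))))))))
(cons (mv 911 (cons (fin 975 7 911)
(mv 912 (cons (fin 847 7 847)
(mv 913 (cons (fin 849 6 848)
(fin 977 6 912)))))))
(mv 911 (cons (fin 975 7 911)
(mv 913 (cons (fin 977 6 912)
(mv 1231 (cons (fin 1167 5 975)
(mv 1232 (cons (fin 1295 5 1039)
(mv 1233 (cons (fin 1169 4 976)
(fin 1297 4 1040))))))))))))))))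
(mv 912 (cons (cons (mv 847 (cons (fin 911 7 847)
(mv 848 (cons (fin 783 7 783)
(mv 849 (cons (fin 785 6 784)
(fin 913 6 848)))))))
(mv 849 (cons (fin 913 6 848)
(mv 848 (cons (fin 785 6 784)
(mv 1103 (cons (fin 1039 5 847)
(fin 1167 5 911))))))))
(cons (mv 847 (cons (fin 911 7 847)
(mv 848 (cons (fin 783 7 783)
(mv 1103 (cons (fin 1039 5 847)
(fin 1167 5 911)))))))
(mv 911 (cons (fin 847 7 847)
(mv 913 (cons (fin 849 6 848)
(mv 914 (cons (fin 975 1 910)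
(mv 850 (cons (fin 851 2 847)
(mv 978 (cons (fin 979 0 911)
(mv 1103 (cons (fin 1167 5 911)
(mv 1105 (cons (fin 1169 4 912)
(mv 1041 (cons (fin 1042 5 849)
(fin 977 6 849)))))))))))))))))))))
(cons (mv 1168 (cons (cons (mv 911 (cons (fin 975 7 911)
(mv 913 (cons (fin 977 6 912)
(mv 1231 (cons (fin 1167 5 975)
(mv 1232 (cons (fin 1295 5 1039)
(mv 1233 (cons (fin 1169 4 976)
(fin 1297 4 1040)))))))))))
(cons (mv 911 (cons (fin 975 7 911)
(mv 1231 (cons (fin 1167 5 975)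
(mv 1232 (cons (fin 1295 5 1039)
(mv 1233 (cons (fin 1169 4 976)
(fin 1297 4 1040)))))))))
(mv 913 (cons (fin 977 6 912)
(mv 1231 (cons (fin 1167 5 975)
(mv 1232 (cons (fin 1295 5 1039)
(mv 1233 (cons (fin 1169 4 976)
(fin 1297 4 1040)))))))))))
(cons (mv 911 (cons (fin 975 7 911)
(mv 977 (cons (fin 913 6 912)
(mv 1232 (cons (fin 1041 6 976)
(mv 1233 (cons (fin 1169 4 976)
(fin 1297 4 1040)))))))))
(cons (mv 911 (cons (fin 975 7 911)
(mv 977 (cons (fin 913 6 912)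
(mv 1231 (cons (fin 1167 5 975)
(mv 1232 (cons (fin 1295 5 1039)
(fin 1041 6 976)))))))))
(mv 975 (cons (fin 911 7 911)
(mv 977 (cons (fin 913 6 912)
(mv 1038 (cons (fin 1037 1 973)
(mv 978 (cons (fin 1039 1 974)
(mv 914 (cons (fin 915 2 911)
(mv 1041 (cons (fin 1042 0 974)
(mv 1169 (cons (fin 1105 6 913)
(fin 1233 4 976)))))))))))))))))))
(mv 1168 (cons (cons (mv 911 (cons (fin 975 7 911)
(mv 847 (cons (fin 912 7 847)
(mv 1167 (cons (fin 1231 5 975)
(mv 1233 (cons (fin 1169 4 976)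
(mv 1232 (cons (fin 1297 4 1040)
(mv 1041 (cons (fin 977 6 976)
(mv 1105 (cons (fin 1296 6 1040)
(mv 1106 (cons (fin 1107 1 1103)
(mv 1166 (cons (fin 1103 1 1102)
(fin 1165 2 1101)))))))))))))))))))
(cons (mv 1167 (cons (fin 1231 5 975)
(mv 912 (cons (fin 1103 5 911)
(mv 1169 (cons (fin 1105 4 912)
(fin 1233 4 976)))))))
(mv 911 (cons (fin 975 7 911)
(mv 847 (cons (fin 912 7 847)
(mv 1233 (cons (fin 1169 4 976)
(mv 1232 (cons (fin 1297 4 1040)
(mv 1041 (cons (fin 977 6 976)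
(mv 1295 (cons (fin 1231 5 1039)
(mv 1296 (cons (fin 1359 5 1103)
(fin 1105 6 1040)))))))))))))))))
(cons (cons (mv 911 (cons (fin 975 7 911)
(mv 847 (cons (fin 912 7 847)
(mv 1231 (cons (fin 1167 5 975)
(mv 1232 (cons (fin 1295 5 1039)
(mv 1041 (cons (fin 977 6 976)
(mv 1296 (cons (fin 1105 6 1040)
(mv 1297 (cons (fin 1233 4 1040)
(fin 1361 4 1104)))))))))))))))
(mv 911 (cons (fin 975 7 911)
(mv 847 (cons (fin 912 7 847)
(mv 1233 (cons (fin 1169 4 976)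
(mv 1232 (cons (fin 1297 4 1040)
(mv 1041 (cons (fin 977 6 976)
(mv 1296 (cons (fin 1105 6 1040)
(mv 1103 (cons (fin 1039 7 1039)
(mv 1101 (cons (fin 1102 2 1037)
(mv 1359 (cons (fin 1295 5 1103)
(mv 1360 (cons (fin 1167 7 1103)
(fin 1423 5 1167))))))))))))))))))))))
(cons (mv 911 (cons (fin 975 7 911)
(mv 912 (cons (fin 847 7 847)
(mv 1167 (cons (fin 1103 5 911)
(fin 1231 5 975)))))))
(mv 911 (cons (fin 975 7 911)
(mv 1167 (cons (fin 1231 5 975)
(mv 1233 (cons (fin 1169 4 976)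
(mv 1232 (cons (fin 1297 4 1040)
(mv 1041 (cons (fin 977 6 976)
(mv 1105 (cons (fin 1296 6 1040)
(mv 1106 (cons (fin 1107 1 1103)
(mv 1166 (cons (fin 1103 1 1102)
(fin 1165 2 1101)))))))))))))))))))))))
(cons (cons (mv 912 (cons (cons (mv 847 (cons (fin 911 7 847)
(mv 783 (cons (fin 848 7 783)
(mv 913 (cons (fin 849 6 848)
(mv 977 (cons (fin 1168 6 912)
(mv 914 (cons (fin 975 2 910)
(mv 915 (cons (fin 916 1 912)
(mv 851 (cons (fin 852 2 848)
(mv 979 (cons (fin 980 0 912)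
(mv 978 (cons (fin 1039 1 975)
(mv 787 (cons (fin 723 5 722)
(fin 1042 5 786)))))))))))))))))))))
(mv 847 (cons (fin 911 7 847)
(mv 848 (cons (fin 783 7 783)
(mv 1105 (cons (fin 1041 4 848)
(fin 1169 4 912))))))))
(cons (mv 849 (cons (fin 913 6 848)
(mv 848 (cons (fin 785 6 784)
(mv 1105 (cons (fin 1041 4 848)
(fin 1169 4 912)))))))
(mv 847 (cons (fin 911 7 847)
(mv 913 (cons (fin 849 6 848)
(mv 977 (cons (fin 1168 6 912)
(mv 914 (cons (fin 975 2 910)
(mv 915 (cons (fin 916 1 912)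
(mv 851 (cons (fin 852 2 848)
(mv 979 (cons (fin 980 0 912)
(mv 978 (cons (fin 1039 1 975)
(mv 787 (cons (fin 723 5 722)
(fin 1042 5 786))))))))))))))))))))))
(mv 912 (cons (cons (mv 847 (cons (fin 911 7 847)
(mv 783 (cons (fin 848 7 783)
(mv 913 (cons (fin 849 6 848)
(mv 977 (cons (fin 1168 6 912)
(mv 914 (cons (fin 975 2 910)
(mv 915 (cons (fin 916 1 912)
(mv 851 (cons (fin 852 2 848)
(mv 979 (cons (fin 980 0 912)
(mv 978 (cons (fin 1039 1 975)
(mv 787 (cons (fin 723 5 722)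
(fin 1042 5 786)))))))))))))))))))))
(mv 847 (cons (fin 911 7 847)
(mv 848 (cons (fin 783 7 783)
(mv 1103 (cons (fin 1039 5 847)
(fin 1167 5 911))))))))
(cons (mv 849 (cons (fin 913 6 848)
(mv 848 (cons (fin 785 6 784)
(mv 1103 (cons (fin 1039 5 847)
(fin 1167 5 911)))))))
(cons (mv 847 (cons (fin 911 7 847)
(mv 913 (cons (fin 849 6 848)
(mv 977 (cons (fin 1168 6 912)
(mv 914 (cons (fin 975 2 910)
(mv 915 (cons (fin 916 1 912)
(mv 851 (cons (fin 852 2 848)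
(mv 979 (cons (fin 980 0 912)
(mv 978 (cons (fin 1039 1 975)
(mv 787 (cons (fin 723 5 722)
(fin 1042 5 786)))))))))))))))))))
(mv 847 (cons (fin 911 7 847)
(mv 783 (cons (fin 848 7 783)
(mv 913 (cons (fin 849 6 848)
(mv 1167 (cons (fin 1103 5 911)
(mv 1168 (cons (fin 1231 5 975)
(fin 977 6 912))))))))))))))))
(cons (mv 1168 (cons (cons (mv 913 (cons (fin 977 6 912)
(mv 849 (cons (fin 912 6 848)
(mv 1169 (cons (fin 1233 4 976)
(mv 1231 (cons (fin 1167 5 975)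
(mv 1232 (cons (fin 1295 5 1039)
(mv 1039 (cons (fin 975 7 975)
(mv 1103 (cons (fin 1296 7 1039)
(mv 1102 (cons (fin 1101 0 1101)
(mv 1170 (cons (fin 1171 3 1103)
(fin 1105 0 1102)))))))))))))))))))
(cons (mv 1167 (cons (fin 1231 5 975)
(mv 912 (cons (fin 1103 5 911)
(mv 1169 (cons (fin 1105 4 912)
(fin 1233 4 976)))))))
(mv 913 (cons (fin 977 6 912)
(mv 849 (cons (fin 912 6 848)
(mv 1233 (cons (fin 1169 4 976)
(mv 1232 (cons (fin 1297 4 1040)
(mv 1039 (cons (fin 975 7 975)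
(mv 1295 (cons (fin 1231 5 1039)
(mv 1296 (cons (fin 1103 7 1039)
(fin 1359 5 1103)))))))))))))))))
(cons (cons (mv 913 (cons (fin 977 6 912)
(mv 849 (cons (fin 912 6 848)
(mv 1231 (cons (fin 1167 5 975)
(mv 1232 (cons (fin 1295 5 1039)
(mv 1039 (cons (fin 975 7 975)
(mv 1296 (cons (fin 1103 7 1039)
(mv 1297 (cons (fin 1233 4 1040)
(fin 1361 4 1104)))))))))))))))
(mv 913 (cons (fin 977 6 912)
(mv 912 (cons (fin 849 6 848)
(mv 1169 (cons (fin 1105 4 912)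
(fin 1233 4 976))))))))
(cons (mv 913 (cons (fin 977 6 912)
(mv 849 (cons (fin 912 6 848)
(mv 1231 (cons (fin 1167 5 975)
(mv 1232 (cons (fin 1295 5 1039)
(mv 1039 (cons (fin 975 7 975)
(mv 1296 (cons (fin 1103 7 1039)
(mv 1105 (cons (fin 1041 6 1040)
(mv 1037 (cons (fin 1038 0 1037)
(mv 1106 (cons (fin 1107 3 1039)
(mv 1360 (cons (fin 1169 6 1104)
(mv 1361 (cons (fin 1297 4 1104)
(fin 1425 4 1168)))))))))))))))))))))))
(mv 913 (cons (fin 977 6 912)
(mv 1169 (cons (fin 1233 4 976)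
(mv 1231 (cons (fin 1167 5 975)
(mv 1232 (cons (fin 1295 5 1039)
(mv 1039 (cons (fin 975 7 975)
(mv 1103 (cons (fin 1296 7 1039)
(mv 1102 (cons (fin 1101 0 1101)
(mv 1170 (cons (fin 1171 3 1103)
(fin 1105 0 1102)))))))))))))))))))))
(mv 912 (cons (cons (mv 847 (cons (fin 911 7 847)
(mv 783 (cons (fin 848 7 783)
(mv 849 (cons (fin 913 6 848)
(mv 1167 (cons (fin 1103 5 911)
(mv 1168 (cons (fin 1231 5 975)
(mv 1169 (cons (fin 1105 4 912)
(fin 1233 4 976)))))))))))))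
(mv 847 (cons (fin 911 7 847)
(mv 848 (cons (fin 783 7 783)
(mv 849 (cons (fin 785 6 784)
(fin 913 6 848))))))))
(cons (mv 849 (cons (fin 913 6 848)
(mv 785 (cons (fin 848 6 784)
(mv 1167 (cons (fin 1103 5 911)
(mv 1168 (cons (fin 1231 5 975)
(mv 1169 (cons (fin 1105 4 912)
(fin 1233 4 976)))))))))))
(cons (mv 847 (cons (fin 911 7 847)
(mv 783 (cons (fin 848 7 783)
(mv 1167 (cons (fin 1103 5 911)
(mv 1168 (cons (fin 1231 5 975)
(mv 1169 (cons (fin 1105 4 912)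
(fin 1233 4 976)))))))))))
(mv 847 (cons (fin 911 7 847)
(mv 849 (cons (fin 913 6 848)
(mv 1167 (cons (fin 1103 5 911)
(mv 1168 (cons (fin 1231 5 975)
(mv 1169 (cons (fin 1105 4 912)
(fin 1233 4 976)))))))))))))))))))
(mv 975 (cons (cons (mv 973 (cons (fin 1041 0 973)
(mv 908 (cons (fin 909 3 908)
(mv 972 (cons (fin 907 3 907)
(fin 1039 0 972)))))))
(mv 977 (cons (cons (mv 913 (cons (fin 914 2 910)
(mv 785 (cons (fin 849 5 784)
(mv 1038 (cons (fin 1037 1 973)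
(mv 1039 (cons (fin 978 1 974)
(mv 1041 (cons (fin 1042 3 974)
(mv 1101 (cons (fin 1102 1 1037)
(mv 1105 (cons (fin 1106 0 1038)
(mv 1168 (cons (fin 1104 5 912)
(mv 1169 (cons (fin 1233 7 976)
(fin 1232 5 976)))))))))))))))))))
(mv 913 (cons (fin 914 2 910)
(mv 849 (cons (fin 785 5 784)
(mv 1041 (cons (fin 1042 0 974)
(fin 1104 5 848))))))))
(cons (mv 1038 (cons (fin 1037 1 973)
(mv 978 (cons (fin 1039 1 974)
(mv 915 (cons (fin 914 2 911)
(mv 979 (cons (fin 916 2 912)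
(mv 1041 (cons (fin 980 1 976)
(fin 1042 0 974)))))))))))
(cons (mv 914 (cons (fin 913 2 910)
(mv 978 (cons (fin 915 2 911)
(mv 1038 (cons (fin 1037 1 973)
(fin 1039 1 974)))))))
(mv 1038 (cons (fin 1037 1 973)
(mv 1039 (cons (fin 978 1 974)
(mv 1041 (cons (fin 1042 3 974)
(mv 1101 (cons (fin 1102 1 1037)
(mv 1105 (cons (fin 1106 0 1038)
(mv 1169 (cons (fin 1233 7 976)
(mv 1168 (cons (fin 1232 5 976)
(mv 1104 (cons (fin 911 7 911)
(fin 913 5 912))))))))))))))))))))))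
(cons (mv 973 (cons (mv 908 (cons (fin 909 3 908)
(mv 972 (cons (fin 907 3 907)
(fin 1039 0 972)))))
(cons (mv 909 (cons (fin 908 3 908)
(mv 1037 (cons (fin 1036 1 972)
(mv 1038 (cons (fin 977 1 973)
(mv 845 (cons (fin 781 4 781)
(fin 1102 4 845)))))))))
(mv 972 (cons (fin 1039 0 972)
(mv 1036 (cons (fin 1035 1 971)
(fin 1037 1 972))))))))
(mv 973 (cons (fin 1041 0 973)
(mv 908 (cons (fin 909 3 908)
(mv 972 (cons (fin 907 3 907)
(mv 1036 (cons (fin 1035 1 971)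
(fin 1037 1 972)))))))))))))
(cons (mv 975 (cons (cons (mv 973 (cons (fin 1041 0 973)
(mv 908 (cons (fin 909 3 908)
(mv 972 (cons (fin 907 3 907)
(fin 1039 0 972)))))))
(mv 977 (cons (cons (mv 913 (cons (fin 914 2 910)
(mv 785 (cons (fin 849 5 784)
(mv 1038 (cons (fin 1037 1 973)
(mv 978 (cons (fin 1039 1 974)
(mv 1041 (cons (fin 1042 0 974)
(mv 979 (cons (fin 980 1 976)
(mv 912 (cons (fin 911 3 911)
(mv 848 (cons (fin 1105 7 848)
(fin 784 4 784)))))))))))))))))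
(cons (mv 913 (cons (fin 914 2 910)
(mv 849 (cons (fin 785 5 784)
(mv 1041 (cons (fin 1042 0 974)
(mv 786 (cons (fin 850 6 785)
(mv 848 (cons (fin 784 7 784)
(mv 912 (cons (fin 1105 7 848)
(mv 847 (cons (fin 783 7 783)
(mv 846 (cons (fin 845 0 845)
(mv 782 (cons (fin 781 3 781)
(mv 1039 (cons (fin 911 7 782)
(fin 1103 5 847)))))))))))))))))))))
(mv 914 (cons (fin 913 2 910)
(mv 978 (cons (fin 915 2 911)
(mv 1038 (cons (fin 1037 1 973)
(fin 1039 1 974)))))))))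
(cons (mv 1038 (cons (fin 1037 1 973)
(mv 978 (cons (fin 1039 1 974)
(mv 914 (cons (fin 915 2 911)
(mv 1041 (cons (fin 1042 0 974)
(mv 786 (cons (fin 850 5 785)
(mv 979 (cons (fin 980 1 976)
(mv 912 (cons (fin 911 3 911)
(mv 848 (cons (fin 784 4 784)
(fin 1105 4 848)))))))))))))))))
(cons (mv 1038 (cons (fin 1037 1 973)
(mv 978 (cons (fin 1039 1 974)
(mv 1041 (cons (fin 1042 0 974)
(mv 979 (cons (fin 980 1 976)
(mv 912 (cons (fin 911 3 911)
(mv 848 (cons (fin 784 4 784)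
(fin 1105 4 848)))))))))))))
(mv 913 (cons (fin 914 2 910)
(mv 849 (cons (fin 785 5 784)
(mv 1037 (cons (fin 1038 1 973)
(mv 1041 (cons (fin 1042 0 974)
(mv 786 (cons (fin 850 6 785)
(mv 848 (cons (fin 784 7 784)
(mv 1105 (cons (fin 912 7 848)
(mv 1169 (cons (fin 1233 7 976)
(mv 1170 (cons (fin 1106 4 913)
(fin 1234 4 977))))))))))))))))))))))))
(cons (mv 973 (cons (mv 908 (cons (fin 909 3 908)
(mv 972 (cons (fin 907 3 907)
(fin 1039 0 972)))))
(cons (mv 908 (cons (fin 909 3 908)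
(mv 913 (cons (fin 912 2 909)
(mv 977 (cons (fin 914 2 910)
(mv 1037 (cons (fin 1036 1 972)
(fin 1038 1 973)))))))))
(mv 912 (cons (fin 913 2 909)
(mv 972 (cons (fin 911 2 908)
(fin 1039 0 972))))))))
(mv 973 (cons (fin 1041 0 973)
(mv 908 (cons (fin 909 3 908)
(mv 907 (cons (fin 972 3 907)
(mv 913 (cons (fin 912 2 909)
(mv 977 (cons (fin 914 2 910)
(mv 1037 (cons (fin 1036 1 972)
(fin 1038 1 973))))))))))))))))
(mv 975 (cons (cons (mv 973 (cons (fin 1041 0 973)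
(mv 908 (cons (fin 909 3 908)
(mv 907 (cons (fin 972 3 907)
(mv 913 (cons (fin 912 2 909)
(mv 977 (cons (fin 914 2 910)
(mv 1037 (cons (fin 1036 1 972)
(fin 1038 1 973)))))))))))))
(mv 1104 (cons (cons (mv 911 (cons (fin 1168 7 911)
(mv 847 (cons (fin 912 7 847)
(fin 783 4 783)))))
(mv 912 (cons (cons (mv 847 (cons (fin 911 7 847)
(mv 783 (cons (fin 848 7 783)
(mv 913 (cons (fin 849 6 848)
(mv 914 (cons (fin 915 1 911)
(fin 977 2 910)))))))))
(mv 847 (cons (fin 911 7 847)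
(mv 848 (cons (fin 783 7 783)
(mv 1105 (cons (fin 1041 4 848)
(fin 1169 4 912))))))))
(cons (mv 849 (cons (fin 913 6 848)
(mv 848 (cons (fin 785 6 784)
(mv 1105 (cons (fin 1041 4 848)
(fin 1169 4 912)))))))
(mv 847 (cons (fin 911 7 847)
(mv 913 (cons (fin 849 6 848)
(mv 914 (cons (fin 915 1 911)
(fin 977 2 910)))))))))))
(cons (mv 977 (cons (mv 913 (cons (fin 914 2 910)
(fin 1168 6 912)))
(cons (mv 1037 (cons (fin 1038 1 973)
(mv 1041 (cons (fin 1042 0 974)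
(mv 1168 (cons (fin 1232 6 976)
(mv 1167 (cons (fin 1231 5 975)
(mv 912 (cons (fin 1103 5 911)
(mv 848 (cons (fin 784 4 784)
(fin 1105 4 848)))))))))))))
(mv 913 (cons (fin 914 2 910)
(mv 849 (cons (fin 785 5 784)
(fin 1041 5 848))))))))
(mv 1168 (cons (fin 911 7 911)
(mv 913 (cons (fin 977 6 912)
(mv 1231 (cons (fin 1167 5 975)
(mv 1232 (cons (fin 1295 5 1039)
(mv 1233 (cons (fin 1169 4 976)
(fin 1297 4 1040)))))))))))))))
(cons (mv 973 (cons (cons (mv 908 (cons (fin 909 3 908)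
(mv 907 (cons (fin 972 3 907)
(mv 913 (cons (fin 912 2 909)
(mv 977 (cons (fin 914 2 910)
(mv 1037 (cons (fin 1036 1 972)
(fin 1038 1 973)))))))))))
(mv 908 (cons (fin 909 3 908)
(mv 972 (cons (fin 907 3 907)
(mv 1036 (cons (fin 1035 1 971)
(fin 1037 1 972))))))))
(cons (mv 908 (cons (fin 909 3 908)
(mv 912 (cons (fin 913 2 909)
(mv 972 (cons (fin 907 3 907)
(fin 911 2 908)))))))
(cons (mv 912 (cons (fin 913 2 909)
(mv 911 (cons (fin 972 2 908)
(mv 847 (cons (fin 1104 7 847)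
(fin 783 4 783)))))))
(mv 908 (cons (fin 909 3 908)
(mv 913 (cons (fin 912 2 909)
(mv 977 (cons (fin 914 2 910)
(mv 1037 (cons (fin 1036 1 972)
(fin 1038 1 973)))))))))))))
(cons (mv 973 (cons (fin 1041 0 973)
(mv 908 (cons (fin 909 3 908)
(mv 912 (cons (fin 913 2 909)
(mv 972 (cons (fin 907 3 907)
(fin 911 2 908)))))))))
(mv 973 (cons (fin 1041 0 973)
(mv 908 (cons (fin 909 3 908)
(mv 972 (cons (fin 907 3 907)
(mv 1036 (cons (fin 1035 1 971)
(fin 1037 1 972))))))))))))))))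
(cons (cons (mv 975 (cons (cons (mv 973 (cons (fin 1041 0 973)
(mv 908 (cons (fin 909 3 908)
(mv 972 (cons (fin 907 3 907)
(fin 1039 0 972)))))))
(mv 1104 (cons (cons (mv 911 (cons (fin 1168 7 911)
(mv 847 (cons (fin 912 7 847)
(fin 783 4 783)))))
(mv 912 (cons (cons (mv 849 (cons (fin 913 6 848)
(mv 785 (cons (fin 848 6 784)
(mv 1105 (cons (fin 1169 4 912)
(mv 1167 (cons (fin 1103 5 911)
(mv 1168 (cons (fin 1231 5 975)
(mv 1039 (cons (fin 1232 7 975)
(mv 1038 (cons (fin 1037 0 1037)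
(mv 1041 (cons (fin 1042 3 974)
(fin 1106 0 1038)))))))))))))))))
(cons (mv 849 (cons (fin 913 6 848)
(mv 785 (cons (fin 848 6 784)
(mv 1169 (cons (fin 1105 4 912)
(mv 1168 (cons (fin 1233 4 976)
(mv 1231 (cons (fin 1167 5 975)
(mv 1232 (cons (fin 1039 7 975)
(fin 1295 5 1039)))))))))))))
(mv 849 (cons (fin 913 6 848)
(mv 848 (cons (fin 785 6 784)
(mv 1039 (cons (fin 784 5 783)
(fin 1103 5 847)))))))))
(cons (mv 1103 (cons (fin 1167 5 911)
(mv 848 (cons (fin 1039 5 847)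
(mv 1105 (cons (fin 1041 4 848)
(fin 1169 4 912)))))))
(cons (mv 849 (cons (fin 913 6 848)
(mv 785 (cons (fin 848 6 784)
(mv 1167 (cons (fin 1103 5 911)
(mv 1168 (cons (fin 1231 5 975)
(mv 1169 (cons (fin 1105 4 912)
(fin 1233 4 976)))))))))))
(mv 849 (cons (fin 913 6 848)
(mv 1105 (cons (fin 1169 4 912)
(mv 1167 (cons (fin 1103 5 911)
(mv 1168 (cons (fin 1231 5 975)
(mv 1039 (cons (fin 1232 7 975)
(mv 1038 (cons (fin 1037 0 1037)
(mv 1041 (cons (fin 1042 3 974)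
(fin 1106 0 1038))))))))))))))))))))
(cons (mv 912 (cons (cons (mv 847 (cons (fin 911 7 847)
(mv 848 (cons (fin 783 7 783)
(mv 849 (cons (fin 785 6 784)
(fin 913 6 848)))))))
(mv 849 (cons (fin 913 6 848)
(mv 848 (cons (fin 785 6 784)
(mv 1039 (cons (fin 784 5 783)
(fin 1103 5 847))))))))
(cons (mv 847 (cons (fin 911 7 847)
(mv 848 (cons (fin 783 7 783)
(mv 1039 (cons (fin 784 5 783)
(fin 1103 5 847)))))))
(mv 911 (cons (fin 847 7 847)
(mv 913 (cons (fin 914 1 910)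
(fin 849 6 848))))))))
(mv 911 (cons (fin 1168 7 911)
(mv 847 (cons (fin 783 4 783)
(fin 1039 4 847)))))))))
(cons (mv 973 (cons (cons (mv 908 (cons (fin 909 3 908)
(mv 972 (cons (fin 907 3 907)
(fin 1039 0 972)))))
(mv 908 (cons (fin 909 3 908)
(mv 912 (cons (fin 913 2 909)
(mv 1036 (cons (fin 1037 1 972)
(mv 848 (cons (mv 1039 (cons (fin 784 5 783)
(fin 1103 5 847)))
(cons (mv 783 (cons (fin 847 7 783)
(mv 784 (cons (fin 719 7 719)
(mv 785 (cons (fin 721 6 720)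
(fin 849 6 784)))))))
(mv 783 (cons (fin 847 7 783)
(mv 785 (cons (fin 849 6 784)
(mv 1103 (cons (fin 1039 5 847)
(mv 1104 (cons (fin 1167 5 911)
(mv 1168 (cons (fin 911 7 911)
(mv 1169 (cons (fin 1105 4 912)
(fin 1233 4 976)))))))))))))))))))))))
(cons (mv 912 (cons (fin 913 2 909)
(mv 972 (cons (fin 911 2 908)
(fin 1039 0 972)))))
(mv 908 (cons (fin 909 3 908)
(mv 912 (cons (fin 913 2 909)
(mv 972 (cons (fin 907 3 907)
(fin 911 2 908))))))))))
(mv 973 (cons (fin 1041 0 973)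
(mv 908 (cons (fin 909 3 908)
(mv 912 (cons (fin 913 2 909)
(mv 972 (cons (fin 907 3 907)
(fin 911 2 908))))))))))))
(cons (mv 1041 (cons (cons (mv 975 (cons (fin 973 0 973)
(mv 1042 (cons (fin 1039 3 974)
(fin 977 0 974)))))
(cons (mv 912 (cons (cons (mv 848 (cons (fin 1105 4 848)
(mv 783 (cons (fin 847 7 783)
(mv 784 (cons (fin 719 7 719)
(fin 977 4 784)))))))
(mv 1104 (cons (cons (mv 847 (cons (fin 911 7 847)
(mv 1103 (cons (fin 1167 5 911)
(mv 1101 (cons (fin 1102 2 1037)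
(mv 1169 (cons (fin 1105 4 912)
(mv 1168 (cons (fin 1233 4 976)
(mv 1170 (cons (fin 1171 3 1103)
(mv 1232 (cons (fin 977 6 976)
(mv 1039 (cons (fin 1296 7 1039)
(mv 1038 (cons (fin 973 3 973)
(mv 1037 (cons (fin 1100 1 1036)
(fin 1036 0 1036)))))))))))))))))))))
(mv 847 (cons (fin 911 7 847)
(mv 1103 (cons (fin 1167 5 911)
(mv 1102 (cons (fin 1101 2 1037)
(mv 1042 (cons (fin 1039 1 1038)
(fin 1105 2 1038))))))))))
(cons (mv 847 (cons (fin 911 7 847)
(mv 1103 (cons (fin 1167 5 911)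
(mv 1102 (cons (fin 1101 2 1037)
(mv 1039 (cons (fin 1042 1 1038)
(mv 1038 (cons (fin 973 3 973)
(mv 977 (cons (fin 1037 2 973)
(fin 978 2 974)))))))))))))
(cons (mv 847 (cons (fin 911 7 847)
(mv 1169 (cons (fin 1105 4 912)
(mv 1168 (cons (fin 1233 4 976)
(mv 1231 (cons (fin 1167 5 975)
(mv 1232 (cons (fin 1295 5 1039)
(fin 977 6 976)))))))))))
(mv 1169 (cons (fin 1105 4 912)
(mv 1168 (cons (fin 1233 4 976)
(mv 1232 (cons (fin 977 6 976)
(mv 1295 (cons (fin 1231 5 1039)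
(mv 1296 (cons (fin 1359 5 1103)
(mv 1039 (cons (fin 1103 7 1039)
(mv 1038 (cons (fin 973 3 973)
(mv 1101 (cons (fin 1102 1 1037)
(mv 1037 (cons (fin 1100 1 1036)
(mv 1229 (cons (fin 1165 6 973)
(mv 1297 (cons (fin 1361 4 1104)
(mv 1294 (cons (fin 1230 3 1229)
(mv 1293 (cons (fin 1228 3 1228)
(mv 1357 (cons (fin 1356 1 1292)
(fin 1358 1 1293))))))))))))))))))))))))))))))))))
(cons (mv 848 (cons (cons (mv 783 (cons (fin 847 7 783)
(mv 784 (cons (fin 719 7 719)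
(fin 977 4 784)))))
(mv 783 (cons (fin 847 7 783)
(mv 785 (cons (fin 849 6 784)
(mv 1039 (cons (fin 1103 5 847)
(mv 1038 (cons (fin 973 3 973)
(mv 977 (cons (fin 1037 2 973)
(fin 978 2 974))))))))))))
(cons (mv 784 (cons (fin 977 4 784)
(mv 785 (cons (fin 721 6 720)
(fin 849 6 784)))))
(mv 783 (cons (fin 847 7 783)
(mv 784 (cons (fin 719 7 719)
(mv 785 (cons (fin 721 6 720)
(fin 849 6 784))))))))))
(cons (mv 848 (cons (fin 1105 4 848)
(mv 783 (cons (fin 847 7 783)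
(mv 784 (cons (fin 719 7 719)
(mv 785 (cons (fin 721 6 720)
(fin 849 6 784)))))))))
(mv 848 (cons (fin 1105 4 848)
(mv 784 (cons (fin 977 4 784)
(mv 785 (cons (fin 721 6 720)
(fin 849 6 784)))))))))))
(mv 1105 (cons (cons (mv 912 (cons (fin 848 4 848)
(mv 1169 (cons (fin 977 7 912)
(fin 1233 7 976)))))
(mv 848 (cons (fin 912 4 848)
(mv 1039 (cons (cons (mv 975 (cons (fin 1042 3 974)
(mv 1038 (cons (fin 1106 0 1038)
(mv 977 (cons (fin 1037 1 973)
(fin 978 1 974)))))))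
(mv 1042 (cons (fin 975 3 974)
(mv 978 (cons (fin 979 2 975)
(mv 850 (cons (fin 914 5 849)
(mv 1103 (cons (fin 1102 1 1038)
(mv 1106 (cons (fin 1107 0 1039)
(mv 1167 (cons (fin 1231 6 975)
(mv 1104 (cons (fin 1166 1 1102)
(mv 1170 (cons (fin 1171 0 1103)
(mv 1234 (cons (fin 977 7 977)
(fin 1298 7 1041))))))))))))))))))))
(cons (mv 1038 (cons (fin 1106 0 1038)
(mv 977 (cons (fin 1037 2 973)
(fin 978 2 974)))))
(cons (mv 1042 (cons (fin 975 3 974)
(mv 978 (cons (fin 979 2 975)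
(mv 850 (cons (fin 914 5 849)
(mv 1038 (cons (fin 977 2 974)
(mv 1102 (cons (fin 1101 1 1037)
(fin 1103 1 1038)))))))))))
(mv 975 (cons (fin 1042 3 974)
(mv 1038 (cons (fin 1106 0 1038)
(mv 1037 (cons (fin 1036 2 972)
(fin 1104 0 1037))))))))))))))
(cons (mv 1169 (cons (fin 1233 7 976)
(mv 977 (cons (mv 914 (cons (fin 978 6 913)
(mv 975 (cons (fin 1042 0 974)
(mv 1037 (cons (fin 1038 1 973)
(mv 1168 (cons (fin 1232 5 976)
(mv 1104 (cons (fin 911 7 911)
(mv 1167 (cons (fin 1231 5 975)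
(mv 1106 (cons (fin 1107 1 1103)
(fin 1166 2 1102)))))))))))))))
(cons (mv 975 (cons (fin 1042 0 974)
(mv 1037 (cons (fin 1038 1 973)
(mv 1168 (cons (fin 1232 5 976)
(mv 1104 (cons (fin 911 7 911)
(mv 1167 (cons (fin 1231 5 975)
(mv 1106 (cons (fin 1107 1 1103)
(fin 1166 2 1102)))))))))))))
(mv 978 (cons (fin 914 6 913)
(mv 979 (cons (fin 1039 1 975)
(fin 980 1 976))))))))))
(mv 912 (cons (fin 848 4 848)
(mv 1169 (cons (fin 1233 7 976)
(fin 1104 4 912))))))))))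
(cons (mv 975 (cons (fin 973 0 973)
(mv 977 (cons (fin 1042 0 974)
(mv 1038 (cons (fin 1037 1 973)
(mv 912 (cons (mv 848 (cons (fin 784 4 784)
(fin 1105 4 848)))
(cons (mv 848 (cons (fin 784 4 784)
(mv 785 (cons (fin 849 6 784)
(mv 847 (cons (fin 783 7 783)
(mv 1104 (cons (fin 911 7 847)
(mv 1167 (cons (fin 1103 5 911)
(mv 1168 (cons (fin 1231 5 975)
(fin 1232 6 976)))))))))))))
(mv 1105 (cons (fin 1169 7 912)
(mv 1104 (cons (mv 911 (cons (fin 847 7 847)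
(fin 1168 7 911)))
(cons (mv 1167 (cons (fin 1103 5 911)
(mv 1168 (cons (fin 1231 5 975)
(fin 1232 6 976)))))
(mv 911 (cons (fin 847 7 847)
(mv 978 (cons (fin 979 3 911)
(mv 914 (cons (fin 915 2 911)
(mv 786 (cons (fin 850 5 785)
(mv 1102 (cons (fin 1166 6 910)
(mv 1103 (cons (fin 1101 2 1037)
(fin 1167 5 911)))))))))))))))))))))))))))
(cons (mv 973 (cons (fin 975 0 973)
(mv 912 (cons (cons (mv 848 (cons (fin 1105 4 848)
(mv 1039 (cons (fin 1038 3 973)
(fin 1103 5 847)))))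
(mv 1104 (cons (cons (mv 847 (cons (fin 911 7 847)
(mv 1038 (cons (fin 1039 3 973)
(mv 1103 (cons (fin 1167 5 911)
(mv 1102 (cons (fin 1101 2 1037)
(mv 1105 (cons (fin 1037 3 1037)
(fin 1169 4 912)))))))))))
(cons (mv 847 (cons (fin 911 7 847)
(mv 1038 (cons (fin 1039 3 973)
(mv 1103 (cons (fin 1167 5 911)
(mv 1102 (cons (fin 1101 2 1037)
(mv 909 (cons (fin 1166 7 909)
(mv 845 (cons (fin 781 4 781)
(fin 1037 4 845)))))))))))))
(mv 847 (cons (fin 911 7 847)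
(mv 1038 (cons (fin 1039 3 973)
(mv 1169 (cons (fin 1105 4 912)
(mv 1168 (cons (fin 1233 4 976)
(mv 1231 (cons (fin 1167 5 975)
(mv 1232 (cons (fin 1295 5 1039)
(fin 977 6 976)))))))))))))))
(cons (cons (mv 847 (cons (fin 911 7 847)
(mv 1039 (cons (fin 1038 3 973)
(mv 1169 (cons (fin 1105 4 912)
(mv 1168 (cons (fin 1233 4 976)
(mv 1232 (cons (fin 977 6 976)
(mv 1295 (cons (fin 1231 5 1039)
(mv 1296 (cons (fin 1103 7 1039)
(fin 1359 5 1103)))))))))))))))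
(mv 847 (cons (fin 911 7 847)
(mv 1103 (cons (fin 1167 5 911)
(mv 1102 (cons (fin 1101 2 1037)
(mv 1105 (cons (fin 1169 4 912)
(mv 1038 (cons (fin 1037 3 1037)
(mv 1166 (cons (fin 1165 1 1101)
(fin 909 7 909))))))))))))))
(cons (mv 847 (cons (fin 911 7 847)
(mv 1103 (cons (fin 1167 5 911)
(mv 1101 (cons (fin 1102 2 1037)
(mv 1169 (cons (fin 1105 4 912)
(mv 1168 (cons (fin 1233 4 976)
(mv 1170 (cons (fin 1171 3 1103)
(mv 1232 (cons (fin 977 6 976)
(mv 1295 (cons (fin 1231 5 1039)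
(mv 1296 (cons (fin 1039 7 1039)
(fin 1359 5 1103)))))))))))))))))))
(mv 1038 (cons (fin 1039 3 973)
(mv 1103 (cons (fin 1167 5 911)
(mv 1102 (cons (fin 1101 2 1037)
(mv 1105 (cons (fin 1037 3 1037)
(fin 1169 4 912))))))))))))))
(cons (mv 1039 (cons (fin 1038 3 973)
(mv 848 (cons (fin 1103 5 847)
(mv 783 (cons (fin 847 7 783)
(mv 784 (cons (fin 719 7 719)
(fin 977 4 784)))))))))
(mv 848 (cons (fin 1105 4 848)
(mv 783 (cons (fin 847 7 783)
(mv 784 (cons (fin 719 7 719)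
(fin 977 4 784))))))))))))
(mv 975 (cons (fin 973 0 973)
(mv 1039 (cons (fin 1042 3 974)
(mv 912 (cons (mv 848 (cons (fin 784 5 783)
(fin 1103 5 847)))
(cons (mv 1103 (cons (fin 1167 6 911)
(mv 1104 (cons (mv 911 (cons (fin 847 7 847)
(fin 1168 7 911)))
(mv 1101 (cons (fin 1102 2 1037)
(mv 1105 (cons (fin 1169 4 912)
(mv 1038 (cons (fin 1106 3 1038)
(fin 1037 0 1037)))))))))))
(mv 848 (cons (fin 784 5 783)
(fin 1105 4 848))))))))))))))
(mv 975 (cons (cons (mv 973 (cons (fin 1041 0 973)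
(mv 908 (cons (fin 909 3 908)
(mv 972 (cons (fin 907 3 907)
(fin 1039 0 972)))))))
(mv 1104 (cons (cons (mv 911 (cons (fin 1168 7 911)
(mv 847 (cons (fin 912 7 847)
(fin 783 4 783)))))
(mv 912 (cons (cons (mv 847 (cons (fin 911 7 847)
(mv 783 (cons (fin 848 7 783)
(mv 913 (cons (fin 849 6 848)
(mv 914 (cons (fin 915 1 911)
(fin 977 2 910)))))))))
(mv 849 (cons (fin 913 6 848)
(mv 848 (cons (fin 785 6 784)
(mv 1039 (cons (fin 784 5 783)
(fin 1103 5 847))))))))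
(cons (mv 847 (cons (fin 911 7 847)
(mv 848 (cons (fin 783 7 783)
(mv 1039 (cons (fin 784 5 783)
(fin 1103 5 847)))))))
(mv 847 (cons (fin 911 7 847)
(mv 913 (cons (fin 849 6 848)
(mv 914 (cons (fin 915 1 911)
(fin 977 2 910)))))))))))
(cons (mv 1168 (cons (cons (mv 913 (cons (fin 977 6 912)
(mv 849 (cons (fin 912 6 848)
(mv 1167 (cons (fin 1231 5 975)
(mv 1232 (cons (fin 1039 7 975)
(mv 1233 (cons (fin 1169 4 976)
(fin 1297 4 1040)))))))))))
(cons (mv 913 (cons (fin 977 6 912)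
(mv 912 (cons (fin 849 6 848)
(mv 1167 (cons (fin 1103 5 911)
(fin 1231 5 975)))))))
(mv 1039 (cons (fin 1232 7 975)
(mv 1041 (cons (fin 1042 3 974)
(mv 1167 (cons (fin 1231 5 975)
(mv 912 (cons (fin 1103 5 911)
(mv 848 (cons (fin 784 5 783)
(fin 1105 4 848)))))))))))))
(cons (mv 913 (cons (fin 977 6 912)
(mv 849 (cons (fin 912 6 848)
(mv 1169 (cons (fin 1233 4 976)
(mv 1232 (cons (fin 1039 7 975)
(mv 1295 (cons (fin 1231 5 1039)
(mv 1296 (cons (fin 1359 5 1103)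
(mv 1105 (cons (fin 1041 6 1040)
(fin 1360 6 1104)))))))))))))))
(cons (mv 913 (cons (fin 977 6 912)
(mv 849 (cons (fin 912 6 848)
(mv 1232 (cons (fin 1039 7 975)
(mv 1233 (cons (fin 1169 4 976)
(fin 1297 4 1040)))))))))
(mv 913 (cons (fin 977 6 912)
(mv 1167 (cons (fin 1231 5 975)
(mv 1232 (cons (fin 1039 7 975)
(mv 1233 (cons (fin 1169 4 976)
(fin 1297 4 1040)))))))))))))
(mv 911 (cons (fin 1168 7 911)
(mv 847 (cons (fin 783 4 783)
(fin 1039 4 847)))))))))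
(cons (mv 973 (cons (cons (mv 908 (cons (fin 909 3 908)
(mv 972 (cons (fin 907 3 907)
(fin 1039 0 972)))))
(mv 908 (cons (fin 909 3 908)
(mv 912 (cons (fin 913 2 909)
(mv 1036 (cons (fin 1037 1 972)
(mv 848 (cons (mv 1039 (cons (fin 784 5 783)
(fin 1103 5 847)))
(cons (mv 783 (cons (fin 847 7 783)
(mv 784 (cons (fin 719 7 719)
(mv 785 (cons (fin 721 6 720)
(fin 849 6 784)))))))
(mv 783 (cons (fin 847 7 783)
(mv 785 (cons (fin 849 6 784)
(mv 1103 (cons (fin 1039 5 847)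
(mv 1104 (cons (fin 1167 5 911)
(mv 1168 (cons (fin 911 7 911)
(mv 1169 (cons (fin 1105 4 912)
(fin 1233 4 976)))))))))))))))))))))))
(cons (mv 912 (cons (fin 913 2 909)
(mv 972 (cons (fin 911 2 908)
(fin 1039 0 972)))))
(mv 908 (cons (fin 909 3 908)
(mv 912 (cons (fin 913 2 909)
(mv 972 (cons (fin 907 3 907)
(fin 911 2 908))))))))))
(mv 973 (cons (fin 1041 0 973)
(mv 908 (cons (fin 909 3 908)
(mv 912 (cons (fin 913 2 909)
(mv 972 (cons (fin 907 3 907)
(fin 911 2 908))))))))))))))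
(cons (cons (mv 975 (cons (cons (mv 973 (cons (fin 1041 0 973)
(mv 908 (cons (fin 909 3 908)
(mv 972 (cons (fin 907 3 907)
(fin 1039 0 972)))))))
(mv 1104 (cons (cons (mv 911 (cons (fin 1168 7 911)
(mv 847 (cons (fin 912 7 847)
(fin 783 4 783)))))
(mv 912 (cons (cons (mv 847 (cons (fin 911 7 847)
(mv 783 (cons (fin 848 7 783)
(mv 913 (cons (fin 849 6 848)
(mv 914 (cons (fin 915 1 911)
(fin 977 2 910)))))))))
(mv 849 (cons (fin 913 6 848)
(mv 848 (cons (fin 785 6 784)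
(mv 1039 (cons (fin 784 5 783)
(fin 1103 5 847))))))))
(cons (mv 847 (cons (fin 911 7 847)
(mv 848 (cons (fin 783 7 783)
(mv 1039 (cons (fin 784 5 783)
(fin 1103 5 847)))))))
(mv 847 (cons (fin 911 7 847)
(mv 913 (cons (fin 849 6 848)
(mv 914 (cons (fin 915 1 911)
(fin 977 2 910)))))))))))
(cons (mv 1168 (cons (cons (mv 913 (cons (fin 977 6 912)
(mv 849 (cons (fin 912 6 848)
(mv 1167 (cons (fin 1231 5 975)
(mv 1232 (cons (fin 1039 7 975)
(mv 1233 (cons (fin 1169 4 976)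
(fin 1297 4 1040)))))))))))
(cons (mv 1039 (cons (fin 1232 7 975)
(mv 1041 (cons (fin 1042 3 974)
(mv 1167 (cons (fin 1231 5 975)
(mv 912 (cons (fin 1103 5 911)
(mv 848 (cons (fin 784 5 783)
(fin 1105 4 848)))))))))))
(mv 913 (cons (fin 977 6 912)
(mv 912 (cons (fin 849 6 848)
(mv 1167 (cons (fin 1103 5 911)
(fin 1231 5 975)))))))))
(cons (mv 913 (cons (fin 977 6 912)
(mv 849 (cons (fin 912 6 848)
(mv 1169 (cons (fin 1233 4 976)
(mv 1232 (cons (fin 1039 7 975)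
(mv 1295 (cons (fin 1231 5 1039)
(mv 1296 (cons (fin 1359 5 1103)
(mv 1105 (cons (fin 1041 6 1040)
(fin 1360 6 1104)))))))))))))))
(cons (mv 913 (cons (fin 977 6 912)
(mv 849 (cons (fin 912 6 848)
(mv 1232 (cons (fin 1039 7 975)
(mv 1233 (cons (fin 1169 4 976)
(fin 1297 4 1040)))))))))
(mv 913 (cons (fin 977 6 912)
(mv 1167 (cons (fin 1231 5 975)
(mv 1232 (cons (fin 1039 7 975)
(mv 1233 (cons (fin 1169 4 976)
(fin 1297 4 1040)))))))))))))
(mv 911 (cons (fin 1168 7 911)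
(mv 847 (cons (fin 783 4 783)
(fin 1039 4 847)))))))))
(cons (mv 973 (cons (cons (mv 908 (cons (fin 909 3 908)
(mv 972 (cons (fin 907 3 907)
(fin 1039 0 972)))))
(mv 908 (cons (fin 909 3 908)
(mv 912 (cons (fin 913 2 909)
(mv 848 (cons (mv 1039 (cons (fin 784 5 783)
(fin 1103 5 847)))
(cons (mv 783 (cons (fin 847 7 783)
(mv 784 (cons (fin 719 7 719)
(mv 785 (cons (fin 721 6 720)
(fin 849 6 784)))))))
(mv 783 (cons (fin 847 7 783)
(mv 785 (cons (fin 849 6 784)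
(mv 1103 (cons (fin 1039 5 847)
(mv 1104 (cons (fin 1167 5 911)
(mv 1168 (cons (fin 911 7 911)
(mv 1169 (cons (fin 1105 4 912)
(fin 1233 4 976)))))))))))))))))))))
(cons (mv 912 (cons (fin 913 2 909)
(mv 972 (cons (fin 911 2 908)
(fin 1039 0 972)))))
(mv 908 (cons (fin 909 3 908)
(mv 912 (cons (fin 913 2 909)
(mv 972 (cons (fin 907 3 907)
(fin 911 2 908))))))))))
(mv 973 (cons (fin 1041 0 973)
(mv 908 (cons (fin 909 3 908)
(mv 912 (cons (fin 913 2 909)
(mv 972 (cons (fin 907 3 907)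
(fin 911 2 908))))))))))))
(mv 975 (cons (cons (mv 973 (cons (fin 1041 0 973)
(mv 908 (cons (fin 909 3 908)
(mv 972 (cons (fin 907 3 907)
(fin 1039 0 972)))))))
(mv 977 (cons (cons (mv 913 (cons (fin 914 2 910)
(mv 785 (cons (fin 849 5 784)
(mv 1038 (cons (fin 1037 1 973)
(mv 1039 (cons (fin 978 1 974)
(mv 1041 (cons (fin 1042 3 974)
(mv 1101 (cons (fin 1102 1 1037)
(mv 1104 (cons (fin 1168 6 912)
(mv 1105 (cons (fin 1106 0 1038)
(mv 912 (cons (fin 848 7 848)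
(fin 1169 7 912)))))))))))))))))))
(mv 1038 (cons (fin 1037 1 973)
(mv 978 (cons (fin 1039 1 974)
(mv 915 (cons (fin 914 2 911)
(mv 979 (cons (fin 916 2 912)
(mv 1041 (cons (fin 980 1 976)
(fin 1042 0 974))))))))))))
(cons (mv 913 (cons (fin 914 2 910)
(mv 849 (cons (fin 785 5 784)
(mv 1041 (cons (fin 1042 0 974)
(fin 1104 5 848)))))))
(cons (mv 913 (cons (fin 914 2 910)
(mv 849 (cons (fin 785 5 784)
(mv 1104 (cons (fin 912 6 848)
(fin 1168 6 912)))))))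
(mv 1038 (cons (fin 1037 1 973)
(mv 1039 (cons (fin 978 1 974)
(mv 1041 (cons (fin 1042 3 974)
(mv 1101 (cons (fin 1102 1 1037)
(mv 1105 (cons (fin 1106 0 1038)
(mv 912 (cons (fin 1169 7 912)
(fin 848 4 848))))))))))))))))))
(cons (mv 973 (cons (mv 908 (cons (fin 909 3 908)
(mv 972 (cons (fin 907 3 907)
(fin 1039 0 972)))))
(cons (mv 908 (cons (fin 909 3 908)
(mv 913 (cons (fin 912 2 909)
(mv 977 (cons (fin 914 2 910)
(mv 1037 (cons (fin 1036 1 972)
(fin 1038 1 973)))))))))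
(mv 912 (cons (fin 913 2 909)
(mv 972 (cons (fin 1039 0 972)
(mv 1036 (cons (fin 1035 1 971)
(fin 1037 1 972))))))))))
(mv 973 (cons (fin 1041 0 973)
(mv 908 (cons (fin 909 3 908)
(mv 907 (cons (fin 972 3 907)
(mv 913 (cons (fin 912 2 909)
(mv 977 (cons (fin 914 2 910)
(mv 1037 (cons (fin 1036 1 972)
(fin 1038 1 973)))))))))))))))))
(cons (mv 975 (cons (cons (mv 973 (cons (fin 1041 0 973)
(mv 908 (cons (fin 909 3 908)
(mv 972 (cons (fin 907 3 907)
(fin 1039 0 972)))))))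
(mv 977 (cons (cons (mv 913 (cons (fin 914 2 910)
(mv 785 (cons (fin 849 5 784)
(mv 1038 (cons (fin 1037 1 973)
(mv 1039 (cons (fin 978 1 974)
(mv 1041 (cons (fin 1042 3 974)
(mv 1102 (cons (fin 1101 1 1037)
(mv 911 (cons (fin 847 5 846)
(fin 1166 6 910)))))))))))))))
(mv 1038 (cons (fin 1037 1 973)
(mv 978 (cons (fin 1039 1 974)
(mv 915 (cons (fin 914 2 911)
(mv 979 (cons (fin 916 2 912)
(mv 1041 (cons (fin 980 1 976)
(fin 1042 0 974))))))))))))
(cons (mv 913 (cons (fin 914 2 910)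
(mv 849 (cons (fin 785 5 784)
(mv 1041 (cons (fin 1042 0 974)
(fin 1104 5 848)))))))
(cons (mv 913 (cons (fin 914 2 910)
(mv 849 (cons (fin 785 5 784)
(mv 1104 (cons (fin 912 6 848)
(fin 1168 6 912)))))))
(mv 1038 (cons (fin 1037 1 973)
(mv 978 (cons (fin 1039 1 974)
(mv 1041 (cons (fin 1042 0 974)
(mv 979 (cons (fin 980 1 976)
(mv 912 (cons (fin 911 3 911)
(mv 848 (cons (fin 784 4 784)
(mv 783 (cons (fin 847 7 783)
(mv 849 (cons (fin 785 6 784)
(mv 915 (cons (fin 916 2 912)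
(mv 1104 (cons (fin 913 5 848)
(mv 1167 (cons (fin 1103 5 911)
(mv 1168 (cons (fin 1231 5 975)
(fin 1232 6 976))))))))))))))))))))))))))))))
(cons (mv 973 (cons (mv 908 (cons (fin 909 3 908)
(mv 972 (cons (fin 907 3 907)
(fin 1039 0 972)))))
(cons (mv 908 (cons (fin 909 3 908)
(mv 913 (cons (fin 912 2 909)
(mv 977 (cons (fin 914 2 910)
(mv 1037 (cons (fin 1036 1 972)
(fin 1038 1 973)))))))))
(mv 912 (cons (fin 913 2 909)
(mv 972 (cons (fin 911 2 908)
(fin 1039 0 972))))))))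
(mv 973 (cons (fin 1041 0 973)
(mv 908 (cons (fin 909 3 908)
(mv 907 (cons (fin 972 3 907)
(mv 913 (cons (fin 912 2 909)
(mv 977 (cons (fin 914 2 910)
(mv 1037 (cons (fin 1036 1 972)
(fin 1038 1 973))))))))))))))))
(mv 975 (cons (cons (mv 973 (cons (fin 1041 0 973)
(mv 908 (cons (fin 909 3 908)
(mv 972 (cons (fin 907 3 907)
(fin 1039 0 972)))))))
(mv 977 (cons (cons (mv 913 (cons (fin 914 2 910)
(mv 1038 (cons (fin 1037 1 973)
(mv 978 (cons (fin 1039 1 974)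
(mv 1041 (cons (fin 1042 0 974)
(mv 979 (cons (fin 980 1 976)
(mv 912 (cons (fin 911 3 911)
(mv 848 (cons (fin 1105 7 848)
(fin 784 4 784)))))))))))))))
(cons (mv 914 (cons (fin 913 2 910)
(mv 978 (cons (fin 915 2 911)
(mv 979 (cons (fin 1039 1 975)
(mv 1041 (cons (fin 980 1 976)
(fin 1042 0 974)))))))))
(mv 914 (cons (fin 913 2 910)
(mv 978 (cons (fin 915 2 911)
(mv 1038 (cons (fin 1037 1 973)
(fin 1039 1 974)))))))))
(cons (cons (mv 1038 (cons (fin 1037 1 973)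
(mv 978 (cons (fin 1039 1 974)
(mv 914 (cons (fin 915 2 911)
(mv 1041 (cons (fin 1042 0 974)
(mv 786 (cons (fin 850 5 785)
(mv 979 (cons (fin 980 1 976)
(mv 912 (cons (fin 911 3 911)
(mv 848 (cons (fin 784 4 784)
(fin 1105 4 848)))))))))))))))))
(mv 1038 (cons (fin 1037 1 973)
(mv 978 (cons (fin 1039 1 974)
(mv 1041 (cons (fin 1042 0 974)
(mv 979 (cons (fin 980 1 976)
(mv 912 (cons (fin 911 3 911)
(mv 848 (cons (fin 784 4 784)
(fin 1105 4 848))))))))))))))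
(cons (mv 914 (cons (fin 913 2 910)
(mv 978 (cons (fin 915 2 911)
(mv 1037 (cons (fin 1038 1 973)
(mv 1041 (cons (fin 1042 0 974)
(mv 786 (cons (fin 850 5 785)
(mv 979 (cons (fin 980 1 976)
(mv 912 (cons (fin 911 3 911)
(mv 848 (cons (fin 784 4 784)
(fin 1105 4 848)))))))))))))))))
(mv 913 (cons (fin 914 2 910)
(mv 1037 (cons (fin 1038 1 973)
(mv 1041 (cons (fin 1042 0 974)
(mv 1104 (cons (fin 1168 6 912)
(mv 912 (cons (mv 848 (cons (fin 1105 7 848)
(fin 784 4 784)))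
(cons (mv 847 (cons (fin 911 7 847)
(mv 848 (cons (fin 783 7 783)
(fin 784 4 784)))))
(mv 847 (cons (fin 911 7 847)
(mv 1103 (cons (fin 1167 5 911)
(mv 1101 (cons (fin 1102 2 1037)
(mv 1105 (cons (fin 1169 7 912)
(mv 1106 (cons (fin 1170 4 913)
(mv 1107 (cons (fin 1039 3 1039)
(fin 1108 3 1040)))))))))))))))))))))))))))))
(cons (mv 973 (cons (mv 908 (cons (fin 909 3 908)
(mv 972 (cons (fin 907 3 907)
(fin 1039 0 972)))))
(cons (mv 908 (cons (fin 909 3 908)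
(mv 913 (cons (fin 912 2 909)
(mv 977 (cons (fin 914 2 910)
(mv 1037 (cons (fin 1036 1 972)
(fin 1038 1 973)))))))))
(mv 912 (cons (fin 913 2 909)
(mv 972 (cons (fin 911 2 908)
(fin 1039 0 972))))))))
(mv 973 (cons (fin 1041 0 973)
(mv 908 (cons (fin 909 3 908)
(mv 907 (cons (fin 972 3 907)
(mv 913 (cons (fin 912 2 909)
(mv 977 (cons (fin 914 2 910)
(mv 1037 (cons (fin 1036 1 972)
(fin 1038 1 973)))))))))))))))))))))
def l34 : Lem := ⟨11781361728633673533054441723117730079171283746239247440356909899588005244909514899260159721150817405942924420470662491174673842036557007391209044253460063708080530407354770956693342717623350878333880262063391977041189311657559161319740834448813323445848447489700891174053752382374267171085078592036680673850818560, 1160523219583971943728203932248339880879186894297250479087583535614518583563943621579125574547041595074345106791637270960596575686888461912251355496234673029688242103752971458391698680772114366672253921913516539122606844844283810774346729067978137583067848473277046012384068338044936567140637227449836850442023527712303233465665127062406009778499655320123664489432249441832060209873398101487368156256142063796431139109307695497216,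 1160523219583971943728203932248339880879186894297250479087583535614518583563943621579125574547041595074345106791637270960596575686888461912251355496234673029688242103752971458391698680772114366672253921913516539122606844844283810774346729067978137583067848473277046012384068338044936567140637227449836850442023527712303233465665127062406009778499655320123664489432249441832060209873398101487368156256142063796431139109307695497216, 19, 33⟩
theorem l34_valid : l34.Valid :=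
  Lem.valid_of_chk t34 t34_valid [974, 1040] c34 l34 (by decide +kernel)
end Crest.Agent.SnakyAux
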