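import Crest.Agent.S0047_aux.Checker

set_option autoImplicit false
set_option maxRecDepth 100000
namespace Crest.Agent.SnakyAux
open Cert
def t35 : Tbl := Tbl.nil
theorem t35_valid : t35.Valid := Tbl.valid_nil
def c35 : Cert :=
(mv 1039 (cons (cons (cons (mv 1041 (cons (cons (mv 973 (cons (fin 1038 3 973)
(mv 975 (cons (fin 1042 3 974)
(fin 976 0 973)))))
(mv 975 (cons (fin 1042 3 974)
(mv 973 (cons (fin 976 0 973)
(mv 911 (cons (cons (mv 847 (cons (fin 1104 4 847)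
(mv 782 (cons (fin 846 7 782)
(mv 718 (cons (fin 783 7 718)
(mv 848 (cons (fin 784 6 783)
(mv 912 (cons (fin 1103 6 847)
(mv 913 (cons (fin 910 1 909)
(fin 914 1 910)))))))))))))
(mv 912 (cons (mv 913 (cons (fin 910 1 909)
(fin 914 1 910)))
(mv 848 (cons (fin 1103 6 847)
(mv 784 (cons (fin 720 5 719)
(fin 847 6 783))))))))
(cons (mv 1103 (cons (mv 910 (cons (fin 846 7 846)
(fin 1167 7 910)))
(mv 848 (cons (fin 912 6 847)
(mv 1102 (cons (fin 1166 5 910)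
(mv 1101 (cons (fin 1100 2 1036)
(fin 1104 2 1037)))))))))
(cons (mv 847 (cons (fin 1104 4 847)
(mv 782 (cons (fin 846 7 782)
(mv 783 (cons (fin 718 7 718)
(mv 784 (cons (fin 720 6 719)
(fin 848 6 783)))))))))
(mv 847 (cons (fin 1104 4 847)
(mv 782 (cons (fin 846 7 782)
(mv 783 (cons (fin 718 7 718)
(mv 719 (cons (fin 910 5 718)
(mv 720 (cons (fin 656 6 655)
(fin 784 6 719))))))))))))))))))))
(cons (mv 973 (cons (fin 1038 3 973)
(mv 975 (cons (fin 976 0 973)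
(mv 911 (cons (cons (mv 847 (cons (fin 1104 4 847)
(mv 782 (cons (fin 846 7 782)
(mv 718 (cons (fin 783 7 718)
(mv 848 (cons (fin 784 6 783)
(mv 912 (cons (fin 1103 6 847)
(mv 913 (cons (fin 910 1 909)
(fin 914 1 910)))))))))))))
(mv 912 (cons (mv 913 (cons (fin 910 1 909)
(fin 914 1 910)))
(mv 848 (cons (fin 1103 6 847)
(mv 784 (cons (fin 720 5 719)
(fin 847 6 783))))))))
(cons (mv 1103 (cons (mv 910 (cons (fin 846 7 846)
(fin 1167 7 910)))
(mv 848 (cons (fin 912 6 847)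
(mv 1102 (cons (fin 1166 5 910)
(mv 1101 (cons (fin 1100 2 1036)
(fin 1104 2 1037)))))))))
(cons (mv 847 (cons (fin 1104 4 847)
(mv 782 (cons (fin 846 7 782)
(mv 783 (cons (fin 718 7 718)
(mv 784 (cons (fin 720 6 719)
(fin 848 6 783)))))))))
(mv 847 (cons (fin 1104 4 847)
(mv 782 (cons (fin 846 7 782)
(mv 783 (cons (fin 718 7 718)
(mv 719 (cons (fin 910 5 718)
(mv 720 (cons (fin 656 6 655)
(fin 784 6 719)))))))))))))))))))
(cons (mv 1038 (cons (fin 973 3 973)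
(mv 977 (cons (fin 978 2 974)
(mv 976 (cons (fin 1037 2 973)
(mv 1101 (cons (fin 1102 1 1037)
(mv 1105 (cons (fin 1106 0 1038)
(mv 912 (cons (fin 1169 7 912)
(fin 848 4 848)))))))))))))
(mv 1042 (cons (fin 975 3 974)
(mv 978 (cons (fin 979 2 975)
(mv 977 (cons (fin 1038 2 974)
(mv 1102 (cons (fin 1103 1 1038)
(mv 1106 (cons (fin 1107 0 1039)
(mv 913 (cons (fin 1170 7 913)
(fin 849 4 849)))))))))))))))))
(cons (mv 1103 (cons (cons (cons (mv 1167 (cons (mv 1231 (cons (fin 1038 7 974)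
(fin 976 6 975)))
(cons (mv 910 (cons (fin 975 7 910)
(mv 1038 (cons (fin 846 4 846)
(fin 1102 4 910)))))
(mv 910 (cons (fin 975 7 910)
(mv 976 (cons (fin 1231 6 975)
(mv 912 (cons (fin 848 5 847)
(fin 1104 5 911))))))))))
(mv 1038 (cons (cons (cons (mv 846 (cons (fin 910 4 846)
(mv 1037 (cons (mv 1104 (cons (fin 1036 0 1036)
(fin 1105 0 1037)))
(cons (mv 976 (cons (fin 977 2 973)
(mv 848 (cons (fin 912 5 847)
(mv 1036 (cons (fin 975 2 972)
(mv 1100 (cons (fin 1099 1 1035)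
(fin 1101 1 1036)))))))))
(mv 976 (cons (fin 977 2 973)
(mv 848 (cons (fin 912 5 847)
(mv 1101 (cons (fin 1100 1 1036)
(mv 1104 (cons (fin 1105 0 1037)
(mv 1165 (cons (fin 1229 6 973)
(mv 1102 (cons (fin 1164 1 1100)
(mv 1168 (cons (fin 1169 0 1101)
(mv 975 (cons (fin 911 7 911)
(fin 1232 7 975))))))))))))))))))))))
(mv 1037 (cons (mv 1104 (cons (fin 1036 0 1036)
(fin 1105 0 1037)))
(cons (mv 976 (cons (fin 977 2 973)
(mv 848 (cons (fin 912 5 847)
(mv 1036 (cons (fin 975 2 972)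
(mv 1100 (cons (fin 1099 1 1035)
(fin 1101 1 1036)))))))))
(mv 976 (cons (fin 977 2 973)
(mv 848 (cons (fin 912 5 847)
(mv 1101 (cons (fin 1100 1 1036)
(mv 1104 (cons (fin 1105 0 1037)
(mv 1165 (cons (fin 1229 6 973)
(mv 1102 (cons (fin 1164 1 1100)
(mv 1168 (cons (fin 1169 0 1101)
(mv 975 (cons (fin 911 7 911)
(fin 1232 7 975)))))))))))))))))))))
(cons (mv 910 (cons (fin 846 4 846)
(mv 1102 (cons (mv 1101 (cons (fin 1100 2 1036)
(fin 1165 5 909)))
(mv 845 (cons (fin 909 7 845)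
(mv 911 (cons (fin 847 6 846)
(mv 975 (cons (fin 1166 5 910)
(mv 912 (cons (fin 848 6 847)
(mv 913 (cons (fin 973 1 909)
(fin 914 1 910)))))))))))))))
(mv 846 (cons (fin 910 4 846)
(mv 1037 (cons (mv 1104 (cons (fin 1036 0 1036)
(fin 1105 0 1037)))
(cons (mv 976 (cons (fin 977 2 973)
(mv 848 (cons (fin 912 5 847)
(mv 1036 (cons (fin 975 2 972)
(mv 1035 (cons (fin 1102 0 1035)
(mv 1099 (cons (fin 1098 1 1034)
(fin 1100 1 1035)))))))))))
(mv 976 (cons (fin 977 2 973)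
(mv 912 (cons (fin 848 5 847)
(mv 1104 (cons (fin 1105 0 1037)
(mv 849 (cons (fin 913 6 848)
(mv 911 (cons (fin 847 7 847)
(mv 1168 (cons (fin 975 7 911)
(mv 1232 (cons (fin 1296 7 1039)
(mv 1233 (cons (fin 1169 4 976)
(fin 1297 4 1040))))))))))))))))))))))))
(cons (cons (mv 846 (cons (fin 910 4 846)
(mv 1037 (cons (mv 1104 (cons (fin 1036 0 1036)
(fin 1105 0 1037)))
(cons (mv 976 (cons (fin 977 2 973)
(mv 848 (cons (fin 912 5 847)
(mv 1036 (cons (fin 975 2 972)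
(mv 1035 (cons (fin 1102 0 1035)
(mv 970 (cons (fin 971 3 970)
(mv 1034 (cons (fin 969 3 969)
(fin 973 2 970)))))))))))))
(mv 976 (cons (fin 977 2 973)
(mv 912 (cons (fin 848 5 847)
(mv 1104 (cons (fin 1105 0 1037)
(mv 849 (cons (fin 913 6 848)
(mv 911 (cons (fin 847 7 847)
(mv 1168 (cons (fin 975 7 911)
(mv 1169 (cons (fin 1233 4 976)
(mv 1101 (cons (fin 1102 0 1101)
(mv 1170 (cons (fin 1171 3 1103)
(mv 1229 (cons (fin 1165 6 973)
(mv 1232 (cons (fin 1296 7 1039)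
(mv 1231 (cons (fin 1230 2 1165)
(fin 1295 5 1039))))))))))))))))))))))))))))))
(mv 846 (cons (fin 910 4 846)
(mv 1037 (cons (mv 1104 (cons (fin 1036 0 1036)
(fin 1105 0 1037)))
(cons (mv 976 (cons (fin 977 2 973)
(mv 848 (cons (fin 912 5 847)
(mv 1036 (cons (fin 975 2 972)
(mv 1100 (cons (fin 1099 1 1035)
(fin 1101 1 1036)))))))))
(mv 976 (cons (fin 977 2 973)
(mv 912 (cons (fin 848 5 847)
(mv 1100 (cons (fin 1101 1 1036)
(mv 1104 (cons (fin 1105 0 1037)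
(mv 849 (cons (fin 913 6 848)
(mv 911 (cons (fin 847 7 847)
(mv 1168 (cons (fin 975 7 911)
(mv 1232 (cons (fin 1296 7 1039)
(mv 1233 (cons (fin 1169 4 976)
(fin 1297 4 1040)))))))))))))))))))))))))
(cons (mv 846 (cons (fin 910 4 846)
(mv 1037 (cons (mv 1104 (cons (fin 1036 0 1036)
(fin 1105 0 1037)))
(cons (mv 976 (cons (fin 977 2 973)
(mv 1036 (cons (fin 975 2 972)
(mv 1100 (cons (fin 1099 1 1035)
(fin 1101 1 1036)))))))
(mv 976 (cons (fin 977 2 973)
(mv 1101 (cons (fin 1100 1 1036)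
(mv 1104 (cons (fin 1105 0 1037)
(mv 1165 (cons (fin 1229 6 973)
(mv 1102 (cons (fin 1164 1 1100)
(mv 1168 (cons (fin 1169 0 1101)
(mv 975 (cons (fin 911 7 911)
(fin 1232 7 975))))))))))))))))))))
(cons (mv 910 (cons (fin 846 4 846)
(mv 1102 (cons (mv 1101 (cons (fin 1100 2 1036)
(fin 1165 5 909)))
(cons (mv 847 (cons (fin 911 6 846)
(mv 909 (cons (fin 845 7 845)
(mv 1166 (cons (fin 973 7 909)
(mv 1229 (cons (fin 1165 5 973)
(mv 1230 (cons (fin 1293 5 1037)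
(fin 1294 6 1038)))))))))))
(mv 909 (cons (fin 845 7 845)
(mv 911 (cons (fin 847 6 846)
(mv 973 (cons (fin 1166 7 909)
(mv 912 (cons (fin 913 1 909)
(mv 848 (cons (fin 849 2 845)
(fin 976 5 847))))))))))))))))
(mv 846 (cons (fin 910 4 846)
(mv 1037 (cons (mv 1104 (cons (fin 1036 0 1036)
(fin 1105 0 1037)))
(cons (mv 976 (cons (fin 977 2 973)
(mv 848 (cons (fin 912 5 847)
(mv 1036 (cons (fin 975 2 972)
(mv 1100 (cons (fin 1099 1 1035)
(fin 1101 1 1036)))))))))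
(mv 976 (cons (fin 977 2 973)
(mv 848 (cons (fin 912 5 847)
(mv 1101 (cons (fin 1100 1 1036)
(mv 1104 (cons (fin 1105 0 1037)
(mv 1165 (cons (fin 1229 6 973)
(mv 1102 (cons (fin 1164 1 1100)
(mv 1168 (cons (fin 1169 0 1101)
(mv 1232 (cons (fin 975 7 975)
(fin 1296 7 1039))))))))))))))))))))))))))))
(cons (mv 1167 (cons (cons (mv 910 (cons (fin 975 7 910)
(mv 976 (cons (fin 1231 6 975)
(mv 912 (cons (fin 848 5 847)
(fin 1104 5 911)))))))
(mv 976 (cons (fin 1231 6 975)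
(mv 912 (cons (fin 848 5 847)
(fin 1104 5 911))))))
(cons (mv 975 (cons (fin 910 7 910)
(mv 912 (cons (fin 976 6 911)
(mv 911 (cons (fin 848 6 847)
(mv 1104 (cons (fin 847 4 847)
(fin 1168 4 911)))))))))
(cons (mv 975 (cons (fin 910 7 910)
(mv 1166 (cons (fin 1230 5 974)
(mv 911 (cons (fin 1102 5 910)
(mv 1104 (cons (fin 847 4 847)
(fin 1168 4 911)))))))))
(mv 910 (cons (fin 975 7 910)
(mv 1231 (cons (fin 976 6 975)
(mv 1294 (cons (fin 1230 5 1038)
(mv 1295 (cons (fin 1358 5 1102)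
(mv 1296 (cons (fin 1232 4 1039)
(fin 1360 4 1103)))))))))))))))
(mv 1167 (cons (cons (mv 910 (cons (fin 975 7 910)
(mv 1038 (cons (fin 1231 7 974)
(fin 846 4 846)))))
(mv 910 (cons (fin 975 7 910)
(mv 1038 (cons (fin 846 4 846)
(fin 1102 4 910))))))
(cons (mv 1038 (cons (fin 1231 7 974)
(mv 910 (cons (fin 846 4 846)
(fin 1102 4 910)))))
(cons (mv 975 (cons (fin 910 7 910)
(mv 1166 (cons (fin 1230 5 974)
(mv 911 (cons (fin 1102 5 910)
(mv 1104 (cons (fin 847 4 847)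
(fin 1168 4 911)))))))))
(mv 1038 (cons (fin 1231 7 974)
(mv 1037 (cons (mv 1104 (cons (fin 1036 0 1036)
(fin 1105 0 1037)))
(cons (mv 1100 (cons (fin 1101 1 1036)
(mv 1036 (cons (fin 1099 1 1035)
(mv 1035 (cons (fin 975 2 971)
(fin 1102 0 1035)))))))
(mv 1101 (cons (fin 1100 1 1036)
(mv 1104 (cons (fin 1105 0 1037)
(mv 1165 (cons (fin 1229 6 973)
(mv 1164 (cons (fin 1102 1 1100)
(fin 1166 2 1100))))))))))))))))))))
(cons (cons (mv 1038 (cons (cons (mv 1167 (cons (fin 1231 7 974)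
(mv 1037 (cons (mv 1104 (cons (fin 1036 0 1036)
(fin 1105 0 1037)))
(mv 976 (cons (fin 977 2 973)
(mv 912 (cons (fin 848 5 847)
(fin 975 6 911)))))))))
(cons (mv 1037 (cons (mv 1104 (cons (fin 1036 0 1036)
(fin 1105 0 1037)))
(cons (mv 976 (cons (fin 977 2 973)
(mv 848 (cons (fin 912 5 847)
(mv 1036 (cons (fin 975 2 972)
(mv 1100 (cons (fin 1099 1 1035)
(fin 1101 1 1036)))))))))
(mv 976 (cons (fin 977 2 973)
(mv 848 (cons (fin 912 5 847)
(mv 1101 (cons (fin 1100 1 1036)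
(mv 1104 (cons (fin 1105 0 1037)
(mv 1165 (cons (fin 1229 6 973)
(mv 1102 (cons (fin 1164 1 1100)
(mv 1168 (cons (fin 1169 0 1101)
(mv 975 (cons (fin 911 7 911)
(fin 1232 7 975))))))))))))))))))))
(mv 1167 (cons (fin 1231 7 974)
(mv 975 (cons (mv 912 (cons (fin 976 6 911)
(mv 911 (cons (fin 848 6 847)
(mv 847 (cons (fin 783 5 782)
(fin 1102 5 846)))))))
(cons (mv 1166 (cons (fin 1230 5 974)
(mv 911 (cons (fin 1102 5 910)
(mv 847 (cons (fin 783 5 782)
(fin 1104 4 847)))))))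
(mv 976 (cons (fin 912 6 911)
(mv 977 (cons (fin 978 1 974)
(mv 913 (cons (fin 914 2 910)
(mv 1168 (cons (fin 1104 6 912)
(fin 1232 4 975))))))))))))))))
(cons (mv 1167 (cons (fin 1231 7 974)
(mv 975 (cons (cons (mv 912 (cons (fin 976 6 911)
(mv 911 (cons (fin 848 6 847)
(mv 847 (cons (fin 783 5 782)
(fin 1102 5 846)))))))
(mv 1166 (cons (fin 1230 5 974)
(mv 911 (cons (fin 1102 5 910)
(mv 847 (cons (fin 783 5 782)
(mv 848 (cons (fin 784 6 783)
(fin 912 6 847))))))))))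
(cons (mv 1166 (cons (fin 1230 5 974)
(mv 1102 (cons (fin 911 5 910)
(mv 909 (cons (fin 973 7 909)
(mv 1100 (cons (fin 1101 2 1036)
(mv 1165 (cons (fin 1229 5 973)
(mv 1164 (cons (fin 1099 3 1099)
(fin 1163 2 1099)))))))))))))
(mv 976 (cons (fin 912 6 911)
(mv 977 (cons (fin 1037 1 973)
(fin 978 1 974))))))))))
(cons (mv 1167 (cons (fin 1231 7 974)
(mv 1037 (cons (mv 1104 (cons (fin 1036 0 1036)
(fin 1105 0 1037)))
(cons (mv 1100 (cons (fin 1101 1 1036)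
(mv 1036 (cons (fin 1099 1 1035)
(mv 1035 (cons (fin 975 2 971)
(fin 1102 0 1035)))))))
(mv 1101 (cons (fin 1100 1 1036)
(mv 1104 (cons (fin 1105 0 1037)
(mv 1165 (cons (fin 1229 6 973)
(mv 1164 (cons (fin 1102 1 1100)
(fin 1166 2 1100))))))))))))))
(mv 1167 (cons (fin 1231 7 974)
(mv 1037 (cons (mv 1104 (cons (fin 1036 0 1036)
(fin 1105 0 1037)))
(cons (mv 976 (cons (fin 977 2 973)
(mv 848 (cons (fin 912 5 847)
(mv 1100 (cons (fin 1101 1 1036)
(mv 1036 (cons (fin 1099 1 1035)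
(mv 1035 (cons (fin 1102 0 1035)
(mv 970 (cons (fin 971 3 970)
(mv 1034 (cons (fin 969 3 969)
(fin 973 2 970)))))))))))))))
(mv 976 (cons (fin 977 2 973)
(mv 912 (cons (fin 848 5 847)
(fin 1104 5 911))))))))))))))
(mv 910 (cons (cons (mv 846 (cons (fin 1038 4 846)
(mv 975 (cons (fin 911 7 846)
(fin 1167 7 910)))))
(mv 1038 (cons (fin 846 4 846)
(mv 1102 (cons (fin 1167 4 910)
(mv 1101 (cons (fin 1100 2 1036)
(fin 1165 5 909))))))))
(cons (mv 975 (cons (fin 1167 7 910)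
(mv 911 (cons (mv 1104 (cons (fin 847 4 847)
(fin 1168 4 911)))
(cons (mv 848 (cons (fin 912 6 847)
(mv 784 (cons (fin 847 6 783)
(mv 1102 (cons (fin 1166 5 910)
(mv 1101 (cons (fin 1100 2 1036)
(mv 1038 (cons (fin 1165 5 909)
(mv 909 (cons (fin 845 7 845)
(mv 908 (cons (fin 907 0 907)
(fin 976 0 908)))))))))))))))
(mv 848 (cons (fin 912 6 847)
(mv 1102 (cons (fin 1166 5 910)
(mv 1101 (cons (fin 1100 2 1036)
(mv 1038 (cons (fin 1165 5 909)
(mv 845 (cons (fin 909 7 845)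
(mv 1104 (cons (fin 1168 4 911)
(mv 1037 (cons (fin 1036 3 1036)
(fin 1105 3 1037))))))))))))))))))))
(cons (mv 975 (cons (fin 1167 7 910)
(mv 846 (cons (fin 911 7 846)
(fin 782 4 782)))))
(mv 846 (cons (fin 1038 4 846)
(mv 975 (cons (fin 911 7 846)
(fin 782 4 782))))))))))
(cons (mv 1038 (cons (cons (mv 910 (cons (fin 846 4 846)
(mv 1167 (cons (fin 1231 7 974)
(fin 1102 4 910)))))
(mv 910 (cons (fin 846 4 846)
(mv 1102 (cons (mv 1101 (cons (fin 1100 2 1036)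
(fin 1165 5 909)))
(cons (mv 847 (cons (fin 911 6 846)
(mv 909 (cons (fin 845 7 845)
(mv 1166 (cons (fin 973 7 909)
(mv 1229 (cons (fin 1165 5 973)
(mv 1230 (cons (fin 1293 5 1037)
(fin 1294 6 1038)))))))))))
(mv 909 (cons (fin 845 7 845)
(mv 911 (cons (fin 847 6 846)
(mv 973 (cons (fin 1166 7 909)
(mv 912 (cons (fin 913 1 909)
(mv 848 (cons (fin 849 2 845)
(fin 976 5 847)))))))))))))))))
(cons (mv 1167 (cons (fin 1231 7 974)
(mv 1037 (cons (mv 1104 (cons (fin 1036 0 1036)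
(fin 1105 0 1037)))
(cons (mv 976 (cons (fin 977 2 973)
(mv 848 (cons (fin 912 5 847)
(mv 1100 (cons (fin 1101 1 1036)
(mv 1036 (cons (fin 1099 1 1035)
(mv 1035 (cons (fin 1102 0 1035)
(mv 970 (cons (fin 971 3 970)
(mv 1034 (cons (fin 969 3 969)
(fin 973 2 970)))))))))))))))
(mv 976 (cons (fin 977 2 973)
(mv 912 (cons (fin 848 5 847)
(fin 1104 5 911))))))))))
(mv 910 (cons (fin 846 4 846)
(mv 1167 (cons (fin 1231 7 974)
(mv 1037 (cons (mv 1104 (cons (fin 1036 0 1036)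
(fin 1105 0 1037)))
(mv 976 (cons (fin 977 2 973)
(mv 848 (cons (fin 912 5 847)
(mv 1101 (cons (fin 1100 1 1036)
(mv 1165 (cons (fin 973 6 909)
(fin 1229 6 973))))))))))))))))))
(cons (mv 1167 (cons (cons (mv 1231 (cons (fin 1038 7 974)
(fin 976 6 975)))
(mv 910 (cons (fin 975 7 910)
(mv 1038 (cons (fin 846 4 846)
(mv 1037 (cons (mv 1104 (cons (fin 1036 0 1036)
(fin 1105 0 1037)))
(mv 976 (cons (fin 977 2 973)
(mv 848 (cons (fin 912 5 847)
(mv 1101 (cons (fin 1100 1 1036)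
(mv 1165 (cons (fin 973 6 909)
(fin 1229 6 973))))))))))))))))
(cons (mv 910 (cons (fin 975 7 910)
(mv 1038 (cons (fin 1231 7 974)
(fin 846 4 846)))))
(mv 910 (cons (fin 975 7 910)
(mv 976 (cons (fin 1231 6 975)
(mv 912 (cons (fin 848 5 847)
(fin 1104 5 911))))))))))
(mv 1167 (cons (mv 1231 (cons (fin 1038 7 974)
(fin 976 6 975)))
(cons (mv 910 (cons (fin 975 7 910)
(mv 1038 (cons (fin 846 4 846)
(fin 1102 4 910)))))
(mv 910 (cons (fin 975 7 910)
(mv 1231 (cons (fin 976 6 975)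
(mv 1294 (cons (fin 1230 5 1038)
(mv 1295 (cons (fin 1358 5 1102)
(mv 1296 (cons (fin 1232 4 1039)
(fin 1360 4 1103)))))))))))))))))))
(mv 975 (cons (cons (mv 1041 (cons (fin 1042 3 974)
(mv 973 (cons (fin 976 0 973)
(mv 911 (cons (cons (mv 847 (cons (fin 1104 4 847)
(mv 782 (cons (fin 846 7 782)
(mv 718 (cons (fin 783 7 718)
(mv 848 (cons (fin 784 6 783)
(mv 912 (cons (fin 1103 6 847)
(mv 913 (cons (fin 910 1 909)
(fin 914 1 910)))))))))))))
(mv 912 (cons (mv 913 (cons (fin 910 1 909)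
(fin 914 1 910)))
(mv 848 (cons (fin 1103 6 847)
(mv 784 (cons (fin 720 5 719)
(fin 847 6 783))))))))
(cons (mv 1103 (cons (mv 910 (cons (fin 846 7 846)
(fin 1167 7 910)))
(mv 848 (cons (fin 912 6 847)
(mv 1102 (cons (fin 1166 5 910)
(mv 1101 (cons (fin 1100 2 1036)
(fin 1104 2 1037)))))))))
(cons (mv 847 (cons (fin 1104 4 847)
(mv 782 (cons (fin 846 7 782)
(mv 783 (cons (fin 718 7 718)
(mv 784 (cons (fin 720 6 719)
(fin 848 6 783)))))))))
(mv 847 (cons (fin 1104 4 847)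
(mv 782 (cons (fin 846 7 782)
(mv 783 (cons (fin 718 7 718)
(mv 719 (cons (fin 910 5 718)
(mv 720 (cons (fin 656 6 655)
(fin 784 6 719)))))))))))))))))))
(cons (mv 1104 (cons (cons (mv 911 (cons (fin 847 4 847)
(mv 1168 (cons (fin 976 7 911)
(fin 1232 7 975)))))
(mv 1168 (cons (fin 1232 7 975)
(mv 976 (cons (mv 913 (cons (fin 977 6 912)
(mv 912 (cons (fin 973 2 909)
(fin 849 6 848)))))
(cons (mv 1167 (cons (fin 1231 5 975)
(mv 1103 (cons (fin 910 7 910)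
(fin 912 5 911)))))
(mv 913 (cons (fin 977 6 912)
(mv 1167 (cons (fin 1231 5 975)
(mv 1103 (cons (fin 910 7 910)
(mv 1166 (cons (fin 1230 5 974)
(mv 1105 (cons (fin 1106 1 1102)
(fin 1165 2 1101)))))))))))))))))
(cons (mv 911 (cons (fin 847 4 847)
(mv 1103 (cons (mv 910 (cons (fin 846 7 846)
(fin 1167 7 910)))
(cons (mv 848 (cons (fin 912 6 847)
(mv 1166 (cons (fin 1102 5 910)
(mv 1167 (cons (fin 1230 5 974)
(mv 1231 (cons (fin 976 6 975)
(fin 1295 6 1039)))))))))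
(mv 846 (cons (fin 910 7 846)
(mv 912 (cons (fin 848 6 847)
(mv 913 (cons (fin 914 1 910)
(mv 976 (cons (fin 973 2 909)
(fin 849 6 848))))))))))))))
(mv 911 (cons (fin 847 4 847)
(mv 1168 (cons (fin 1232 7 975)
(fin 1103 4 911))))))))
(mv 1041 (cons (fin 1042 3 974)
(mv 976 (cons (fin 973 0 973)
(mv 912 (cons (mv 848 (cons (fin 784 5 783)
(fin 1103 5 847)))
(cons (mv 1103 (cons (fin 1167 6 911)
(mv 977 (cons (mv 909 (cons (fin 910 3 909)
(mv 914 (cons (fin 913 2 910)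
(mv 978 (cons (fin 979 1 975)
(fin 915 2 911)))))))
(cons (mv 910 (cons (fin 909 3 909)
(mv 846 (cons (fin 911 7 846)
(fin 782 4 782)))))
(mv 914 (cons (fin 913 2 910)
(mv 978 (cons (fin 979 1 975)
(fin 915 2 911))))))))))
(mv 848 (cons (fin 784 5 783)
(fin 1105 4 848))))))))))))
(cons (cons (mv 1041 (cons (fin 1042 3 974)
(mv 976 (cons (fin 973 0 973)
(mv 912 (cons (mv 848 (cons (fin 784 5 783)
(fin 1103 5 847)))
(cons (mv 1103 (cons (fin 1167 6 911)
(mv 1104 (cons (mv 911 (cons (fin 847 7 847)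
(fin 1168 7 911)))
(cons (mv 849 (cons (fin 913 6 848)
(mv 1101 (cons (fin 1102 2 1037)
(mv 1168 (cons (fin 1232 7 975)
(mv 1169 (cons (fin 1105 4 912)
(fin 1233 4 976)))))))))
(mv 847 (cons (fin 911 7 847)
(mv 913 (cons (fin 849 6 848)
(mv 914 (cons (fin 915 1 911)
(fin 977 2 910))))))))))))
(mv 848 (cons (fin 784 5 783)
(fin 1105 4 848))))))))))
(mv 1041 (cons (fin 1042 3 974)
(mv 1103 (cons (cons (mv 910 (cons (fin 1167 7 910)
(mv 846 (cons (fin 911 7 846)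
(fin 782 4 782)))))
(mv 911 (cons (mv 1104 (cons (fin 847 4 847)
(fin 1168 4 911)))
(cons (mv 846 (cons (fin 910 7 846)
(mv 847 (cons (fin 782 7 782)
(mv 848 (cons (fin 784 6 783)
(fin 912 6 847)))))))
(mv 846 (cons (fin 910 7 846)
(mv 848 (cons (fin 912 6 847)
(mv 1102 (cons (fin 1166 5 910)
(mv 1101 (cons (fin 1100 2 1036)
(fin 1104 2 1037)))))))))))))
(cons (mv 1102 (cons (mv 1101 (cons (fin 1100 2 1036)
(fin 1104 2 1037)))
(cons (mv 911 (cons (fin 1166 5 910)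
(mv 1104 (cons (fin 847 4 847)
(fin 1168 4 911)))))
(mv 1100 (cons (fin 1101 2 1036)
(mv 1166 (cons (fin 911 5 910)
(mv 1230 (cons (fin 1167 5 974)
(fin 1294 6 1038))))))))))
(mv 1167 (cons (fin 910 7 910)
(mv 1166 (cons (fin 1230 5 974)
(mv 1232 (cons (fin 1168 4 975)
(mv 1231 (cons (fin 1296 4 1039)
(mv 1104 (cons (fin 1295 6 1039)
(mv 1102 (cons (fin 1101 2 1037)
(mv 1105 (cons (fin 1165 1 1101)
(fin 1106 1 1102)))))))))))))))))))))
(cons (mv 1041 (cons (fin 1042 3 974)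
(mv 976 (cons (fin 973 0 973)
(mv 977 (cons (mv 909 (cons (fin 910 3 909)
(mv 913 (cons (fin 914 2 910)
(mv 849 (cons (fin 785 5 784)
(fin 1104 5 848)))))))
(cons (mv 910 (cons (fin 909 3 909)
(mv 978 (cons (fin 911 3 910)
(fin 979 1 975)))))
(mv 913 (cons (fin 914 2 910)
(mv 849 (cons (fin 785 5 784)
(fin 1104 5 848))))))))))))
(mv 1041 (cons (fin 1042 3 974)
(mv 976 (cons (fin 973 0 973)
(mv 912 (cons (mv 848 (cons (fin 784 5 783)
(fin 1103 5 847)))
(cons (mv 1103 (cons (fin 1167 6 911)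
(mv 1104 (cons (mv 849 (cons (fin 913 6 848)
(mv 1101 (cons (fin 1102 2 1037)
(mv 1168 (cons (fin 1232 7 975)
(mv 1169 (cons (fin 1105 4 912)
(fin 1233 4 976)))))))))
(cons (mv 913 (cons (fin 849 6 848)
(mv 914 (cons (fin 915 1 911)
(fin 977 2 910)))))
(mv 1101 (cons (fin 1102 2 1037)
(mv 1168 (cons (fin 1232 7 975)
(mv 1169 (cons (fin 1105 4 912)
(fin 1233 4 976))))))))))))
(mv 848 (cons (fin 784 5 783)
(fin 1105 4 848))))))))))))))))
(cons (cons (mv 1038 (cons (cons (mv 973 (cons (fin 1041 3 973)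
(mv 1037 (cons (cons (mv 976 (cons (fin 977 2 973)
(mv 1100 (cons (fin 1101 1 1036)
(mv 1036 (cons (fin 1099 1 1035)
(mv 1104 (cons (fin 1103 0 1036)
(fin 1105 0 1037)))))))))
(cons (mv 976 (cons (fin 977 2 973)
(mv 1104 (cons (fin 1105 0 1037)
(mv 1036 (cons (fin 1103 0 1036)
(mv 1035 (cons (fin 1034 2 970)
(mv 1099 (cons (fin 1098 1 1034)
(fin 1100 1 1035)))))))))))
(mv 976 (cons (fin 977 2 973)
(mv 1104 (cons (fin 1105 0 1037)
(mv 1103 (cons (fin 1036 0 1036)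
(mv 912 (cons (fin 848 5 847)
(fin 1167 5 911)))))))))))
(cons (mv 976 (cons (fin 977 2 973)
(mv 1100 (cons (fin 1101 1 1036)
(mv 1036 (cons (fin 1099 1 1035)
(mv 909 (cons (fin 845 5 844)
(mv 1035 (cons (fin 1034 2 970)
(mv 1102 (cons (fin 1103 0 1035)
(fin 1166 7 909)))))))))))))
(cons (mv 1100 (cons (fin 1101 1 1036)
(mv 1036 (cons (fin 1099 1 1035)
(mv 1104 (cons (fin 1103 0 1036)
(fin 1105 0 1037)))))))
(mv 976 (cons (fin 977 2 973)
(mv 1101 (cons (fin 1100 1 1036)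
(mv 910 (cons (fin 846 5 845)
(fin 1165 6 909)))))))))))))
(cons (mv 1037 (cons (cons (mv 976 (cons (fin 977 2 973)
(mv 1100 (cons (fin 1101 1 1036)
(mv 1036 (cons (fin 1099 1 1035)
(mv 1104 (cons (fin 1103 0 1036)
(fin 1105 0 1037)))))))))
(mv 976 (cons (fin 977 2 973)
(mv 1104 (cons (fin 1105 0 1037)
(mv 1036 (cons (fin 1103 0 1036)
(mv 1099 (cons (fin 1100 1 1035)
(mv 1035 (cons (fin 1098 1 1034)
(mv 970 (cons (fin 971 3 970)
(mv 1034 (cons (fin 969 3 969)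
(fin 973 2 970))))))))))))))))
(cons (mv 976 (cons (fin 977 2 973)
(mv 1101 (cons (fin 1100 1 1036)
(mv 910 (cons (fin 846 5 845)
(mv 1165 (cons (fin 1102 5 909)
(fin 973 6 909)))))))))
(cons (mv 976 (cons (fin 977 2 973)
(mv 1104 (cons (fin 1105 0 1037)
(mv 1103 (cons (fin 1036 0 1036)
(mv 912 (cons (fin 848 5 847)
(fin 1167 5 911)))))))))
(mv 1100 (cons (fin 1101 1 1036)
(mv 1036 (cons (fin 1099 1 1035)
(mv 1104 (cons (fin 1103 0 1036)
(fin 1105 0 1037)))))))))))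
(mv 1037 (cons (cons (mv 976 (cons (fin 977 2 973)
(mv 1100 (cons (fin 1101 1 1036)
(mv 1036 (cons (fin 1099 1 1035)
(mv 1104 (cons (fin 1103 0 1036)
(fin 1105 0 1037)))))))))
(mv 976 (cons (fin 977 2 973)
(mv 1104 (cons (fin 1105 0 1037)
(mv 1103 (cons (fin 1036 0 1036)
(mv 912 (cons (fin 848 5 847)
(fin 1167 5 911))))))))))
(cons (mv 976 (cons (fin 977 2 973)
(mv 1101 (cons (fin 1100 1 1036)
(mv 910 (cons (fin 846 5 845)
(mv 1102 (cons (fin 1041 1 1037)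
(fin 1165 5 909)))))))))
(mv 1100 (cons (fin 1101 1 1036)
(mv 1036 (cons (fin 1099 1 1035)
(mv 1104 (cons (fin 1103 0 1036)
(fin 1105 0 1037))))))))))))
(cons (mv 1041 (cons (fin 973 3 973)
(mv 977 (cons (fin 978 2 974)
(mv 1102 (cons (fin 1101 1 1037)
(mv 1042 (cons (fin 1103 1 1038)
(mv 1106 (cons (fin 1105 0 1038)
(fin 1107 0 1039)))))))))))
(cons (mv 973 (cons (fin 1041 3 973)
(mv 1102 (cons (cons (mv 909 (cons (fin 1166 7 909)
(mv 845 (cons (fin 910 7 845)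
(fin 781 4 781)))))
(mv 910 (cons (cons (mv 845 (cons (fin 909 7 845)
(mv 781 (cons (fin 846 7 781)
(mv 847 (cons (fin 911 6 846)
(mv 1101 (cons (fin 1165 5 909)
(mv 1100 (cons (fin 1037 1 1036)
(fin 1099 2 1035)))))))))))
(mv 845 (cons (fin 909 7 845)
(mv 846 (cons (fin 781 7 781)
(mv 847 (cons (fin 783 6 782)
(fin 911 6 846))))))))
(cons (mv 847 (cons (fin 911 6 846)
(mv 783 (cons (fin 846 6 782)
(mv 1101 (cons (fin 1165 5 909)
(mv 1100 (cons (fin 1037 1 1036)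
(fin 1099 2 1035)))))))))
(cons (mv 845 (cons (fin 909 7 845)
(mv 781 (cons (fin 846 7 781)
(mv 1101 (cons (fin 1165 5 909)
(mv 1100 (cons (fin 1037 1 1036)
(fin 1099 2 1035)))))))))
(mv 845 (cons (fin 909 7 845)
(mv 847 (cons (fin 911 6 846)
(mv 1101 (cons (fin 1165 5 909)
(mv 1100 (cons (fin 1037 1 1036)
(fin 1099 2 1035))))))))))))))
(cons (mv 1101 (cons (mv 1100 (cons (fin 1037 1 1036)
(fin 1099 2 1035)))
(cons (mv 910 (cons (fin 1165 5 909)
(mv 846 (cons (fin 1037 5 845)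
(mv 847 (cons (fin 783 6 782)
(fin 911 6 846)))))))
(mv 1099 (cons (fin 1100 2 1035)
(mv 1165 (cons (fin 910 5 909)
(mv 1229 (cons (fin 1166 5 973)
(fin 1293 6 1037))))))))))
(mv 909 (cons (fin 1166 7 909)
(mv 845 (cons (fin 781 4 781)
(fin 1037 4 845))))))))))
(mv 1041 (cons (fin 973 3 973)
(mv 977 (cons (fin 978 2 974)
(mv 976 (cons (fin 1037 2 973)
(mv 1105 (cons (fin 1106 0 1038)
(mv 912 (cons (fin 1169 7 912)
(fin 848 4 848)))))))))))))))
(mv 1041 (cons (cons (mv 1042 (cons (fin 975 3 974)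
(mv 978 (cons (fin 979 2 975)
(mv 977 (cons (fin 1038 2 974)
(mv 1102 (cons (fin 1103 1 1038)
(mv 1106 (cons (fin 1107 0 1039)
(mv 913 (cons (fin 1170 7 913)
(fin 849 4 849)))))))))))))
(cons (mv 1038 (cons (cons (mv 977 (cons (fin 978 2 974)
(mv 976 (cons (fin 1037 2 973)
(mv 1101 (cons (fin 1102 1 1037)
(mv 1105 (cons (fin 1106 0 1038)
(mv 912 (cons (fin 1169 7 912)
(fin 848 4 848)))))))))))
(mv 1101 (cons (fin 1102 1 1037)
(mv 1037 (cons (fin 1100 1 1036)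
(mv 1105 (cons (fin 1104 0 1037)
(fin 1106 0 1038))))))))
(cons (mv 977 (cons (fin 978 2 974)
(mv 976 (cons (fin 1037 2 973)
(mv 1105 (cons (fin 1106 0 1038)
(mv 912 (cons (fin 1169 7 912)
(fin 848 4 848)))))))))
(cons (mv 977 (cons (fin 978 2 974)
(mv 1037 (cons (fin 976 2 973)
(mv 1101 (cons (fin 1100 1 1036)
(fin 1102 1 1037)))))))
(mv 977 (cons (fin 978 2 974)
(mv 1101 (cons (fin 1102 1 1037)
(mv 1105 (cons (fin 1106 0 1038)
(mv 913 (cons (mv 1104 (cons (fin 849 5 848)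
(fin 1168 5 912)))
(cons (mv 848 (cons (fin 912 7 848)
(mv 849 (cons (fin 784 7 784)
(mv 850 (cons (fin 786 6 785)
(fin 914 6 849)))))))
(mv 848 (cons (fin 912 7 848)
(mv 850 (cons (fin 914 6 849)
(mv 1168 (cons (fin 1104 5 912)
(mv 1169 (cons (fin 1232 5 976)
(mv 1233 (cons (fin 976 7 976)
(mv 1234 (cons (fin 1170 4 977)
(fin 1298 4 1041))))))))))))))))))))))))))
(mv 975 (cons (fin 1042 3 974)
(mv 1104 (cons (mv 911 (cons (fin 847 4 847)
(mv 1168 (cons (fin 976 7 911)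
(fin 1232 7 975)))))
(cons (mv 911 (cons (fin 847 4 847)
(mv 1103 (cons (mv 910 (cons (fin 846 7 846)
(fin 1167 7 910)))
(mv 1102 (cons (fin 1101 2 1037)
(fin 1166 5 910)))))))
(mv 1168 (cons (fin 1232 7 975)
(mv 976 (cons (cons (mv 913 (cons (fin 977 6 912)
(mv 849 (cons (fin 912 6 848)
(mv 1167 (cons (fin 1231 5 975)
(mv 1103 (cons (fin 910 7 910)
(mv 1101 (cons (fin 1102 2 1037)
(mv 1166 (cons (fin 1230 5 974)
(mv 1105 (cons (fin 1106 1 1102)
(fin 1165 2 1101)))))))))))))))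
(mv 1167 (cons (fin 1231 5 975)
(mv 1103 (cons (fin 910 7 910)
(fin 912 5 911))))))
(cons (mv 913 (cons (fin 977 6 912)
(mv 912 (cons (fin 849 6 848)
(mv 848 (cons (fin 784 5 783)
(fin 1103 5 847)))))))
(cons (mv 913 (cons (fin 977 6 912)
(mv 1167 (cons (fin 1231 5 975)
(mv 1103 (cons (fin 910 7 910)
(mv 1101 (cons (fin 1102 2 1037)
(mv 1166 (cons (fin 1230 5 974)
(mv 1105 (cons (fin 1106 1 1102)
(fin 1165 2 1101)))))))))))))
(mv 913 (cons (fin 977 6 912)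
(mv 912 (cons (fin 849 6 848)
(mv 848 (cons (fin 784 5 783)
(fin 1105 4 848))))))))))))))))))))
(cons (mv 1042 (cons (fin 975 3 974)
(mv 978 (cons (fin 979 2 975)
(mv 977 (cons (fin 1038 2 974)
(mv 1106 (cons (fin 1107 0 1039)
(mv 913 (cons (fin 1170 7 913)
(fin 849 4 849)))))))))))
(cons (mv 1042 (cons (fin 975 3 974)
(mv 978 (cons (fin 979 2 975)
(mv 1038 (cons (fin 977 2 974)
(mv 1102 (cons (fin 1101 1 1037)
(fin 1103 1 1038)))))))))
(mv 1042 (cons (fin 975 3 974)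
(mv 978 (cons (fin 979 2 975)
(mv 1102 (cons (fin 1103 1 1038)
(mv 1038 (cons (fin 1101 1 1037)
(mv 1106 (cons (fin 1105 0 1038)
(fin 1107 0 1039))))))))))))))))
(cons (mv 1041 (cons (cons (mv 973 (cons (fin 1038 3 973)
(mv 975 (cons (fin 1042 3 974)
(fin 976 0 973)))))
(mv 975 (cons (fin 1042 3 974)
(mv 976 (cons (fin 973 0 973)
(mv 977 (cons (mv 909 (cons (fin 910 3 909)
(mv 913 (cons (fin 914 2 910)
(mv 849 (cons (fin 785 5 784)
(fin 1104 5 848)))))))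
(cons (mv 910 (cons (fin 909 3 909)
(mv 978 (cons (fin 911 3 910)
(fin 979 1 975)))))
(mv 913 (cons (fin 914 2 910)
(mv 849 (cons (fin 785 5 784)
(fin 1104 5 848)))))))))))))
(cons (mv 1038 (cons (fin 973 3 973)
(mv 977 (cons (fin 978 2 974)
(mv 976 (cons (fin 1037 2 973)
(mv 1101 (cons (fin 1102 1 1037)
(mv 1105 (cons (fin 1106 0 1038)
(mv 912 (cons (fin 1169 7 912)
(fin 848 4 848)))))))))))))
(mv 1042 (cons (fin 975 3 974)
(mv 978 (cons (fin 979 2 975)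
(mv 977 (cons (fin 1038 2 974)
(mv 1106 (cons (fin 1107 0 1039)
(mv 913 (cons (fin 1170 7 913)
(fin 849 4 849))))))))))))))
(mv 1041 (cons (cons (mv 975 (cons (fin 1042 3 974)
(mv 973 (cons (fin 1038 3 973)
(mv 911 (cons (cons (mv 847 (cons (fin 1104 4 847)
(mv 782 (cons (fin 846 7 782)
(mv 718 (cons (fin 783 7 718)
(mv 848 (cons (fin 784 6 783)
(mv 912 (cons (fin 1103 6 847)
(mv 913 (cons (fin 910 1 909)
(fin 914 1 910)))))))))))))
(mv 912 (cons (mv 913 (cons (fin 910 1 909)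
(fin 914 1 910)))
(mv 848 (cons (fin 1103 6 847)
(mv 784 (cons (fin 720 5 719)
(fin 847 6 783))))))))
(cons (mv 1103 (cons (mv 910 (cons (fin 846 7 846)
(fin 1167 7 910)))
(mv 848 (cons (fin 912 6 847)
(mv 1102 (cons (fin 1166 5 910)
(mv 1101 (cons (fin 1100 2 1036)
(fin 1104 2 1037)))))))))
(cons (mv 847 (cons (fin 1104 4 847)
(mv 782 (cons (fin 846 7 782)
(mv 783 (cons (fin 718 7 718)
(mv 784 (cons (fin 720 6 719)
(fin 848 6 783)))))))))
(mv 847 (cons (fin 1104 4 847)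
(mv 782 (cons (fin 846 7 782)
(mv 783 (cons (fin 718 7 718)
(mv 719 (cons (fin 910 5 718)
(mv 720 (cons (fin 656 6 655)
(fin 784 6 719)))))))))))))))))))
(mv 975 (cons (fin 1042 3 974)
(mv 1103 (cons (cons (mv 910 (cons (fin 1167 7 910)
(mv 846 (cons (fin 911 7 846)
(fin 782 4 782)))))
(mv 911 (cons (mv 1104 (cons (fin 847 4 847)
(fin 1168 4 911)))
(cons (mv 846 (cons (fin 910 7 846)
(mv 847 (cons (fin 782 7 782)
(mv 848 (cons (fin 784 6 783)
(fin 912 6 847)))))))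
(mv 846 (cons (fin 910 7 846)
(mv 848 (cons (fin 912 6 847)
(mv 1102 (cons (fin 1166 5 910)
(mv 1101 (cons (fin 1100 2 1036)
(fin 1104 2 1037)))))))))))))
(cons (mv 1102 (cons (mv 1101 (cons (fin 1100 2 1036)
(fin 1104 2 1037)))
(cons (mv 911 (cons (fin 1166 5 910)
(mv 1104 (cons (fin 847 4 847)
(fin 1168 4 911)))))
(mv 1100 (cons (fin 1101 2 1036)
(mv 1166 (cons (fin 911 5 910)
(mv 1230 (cons (fin 1167 5 974)
(fin 1294 6 1038))))))))))
(mv 1167 (cons (fin 910 7 910)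
(mv 1166 (cons (fin 1230 5 974)
(mv 1232 (cons (fin 1168 4 975)
(mv 1231 (cons (fin 1296 4 1039)
(mv 1104 (cons (fin 1295 6 1039)
(mv 1102 (cons (fin 1101 2 1037)
(mv 1105 (cons (fin 1165 1 1101)
(fin 1106 1 1102)))))))))))))))))))))
(cons (mv 1038 (cons (fin 973 3 973)
(mv 977 (cons (fin 978 2 974)
(mv 1101 (cons (fin 1102 1 1037)
(mv 1037 (cons (fin 1100 1 1036)
(mv 1105 (cons (fin 1104 0 1037)
(fin 1106 0 1038)))))))))))
(cons (mv 973 (cons (fin 1038 3 973)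
(mv 975 (cons (fin 1042 3 974)
(mv 911 (cons (cons (mv 847 (cons (fin 1104 4 847)
(mv 782 (cons (fin 846 7 782)
(mv 718 (cons (fin 783 7 718)
(mv 848 (cons (fin 784 6 783)
(mv 912 (cons (fin 1103 6 847)
(mv 913 (cons (fin 910 1 909)
(fin 914 1 910)))))))))))))
(cons (mv 912 (cons (mv 913 (cons (fin 910 1 909)
(fin 914 1 910)))
(cons (mv 1103 (cons (fin 848 6 847)
(mv 910 (cons (fin 846 7 846)
(fin 1167 7 910)))))
(mv 848 (cons (fin 1103 6 847)
(mv 720 (cons (fin 784 5 719)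
(mv 913 (cons (fin 914 1 910)
(mv 977 (cons (fin 1105 7 848)
(mv 849 (cons (fin 1104 5 848)
(mv 850 (cons (fin 851 1 847)
(fin 786 6 785))))))))))))))))
(mv 912 (cons (mv 913 (cons (fin 910 1 909)
(fin 914 1 910)))
(mv 848 (cons (fin 1103 6 847)
(mv 784 (cons (fin 720 5 719)
(fin 847 6 783)))))))))
(cons (mv 847 (cons (fin 1104 4 847)
(mv 782 (cons (fin 846 7 782)
(mv 783 (cons (fin 718 7 718)
(mv 784 (cons (fin 720 6 719)
(fin 848 6 783)))))))))
(cons (mv 847 (cons (fin 1104 4 847)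
(mv 782 (cons (fin 846 7 782)
(mv 783 (cons (fin 718 7 718)
(mv 719 (cons (fin 910 5 718)
(mv 720 (cons (fin 656 6 655)
(fin 784 6 719)))))))))))
(mv 847 (cons (fin 1104 4 847)
(mv 782 (cons (fin 846 7 782)
(mv 783 (cons (fin 718 7 718)
(mv 910 (cons (fin 719 5 718)
(mv 912 (cons (fin 913 1 909)
(mv 1103 (cons (fin 1167 7 910)
(fin 848 6 847)))))))))))))))))))))
(mv 975 (cons (fin 1042 3 974)
(mv 1038 (cons (fin 973 3 973)
(mv 977 (cons (fin 978 2 974)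
(mv 1102 (cons (fin 1101 1 1037)
(mv 911 (cons (fin 847 5 846)
(fin 1166 6 910))))))))))))))))))
(cons (cons (cons (mv 1041 (cons (cons (mv 973 (cons (fin 1038 3 973)
(mv 975 (cons (fin 1042 3 974)
(fin 976 0 973)))))
(mv 975 (cons (fin 1042 3 974)
(mv 976 (cons (fin 973 0 973)
(mv 912 (cons (mv 848 (cons (fin 784 5 783)
(fin 1103 5 847)))
(cons (mv 1103 (cons (fin 1167 6 911)
(mv 977 (cons (mv 909 (cons (fin 910 3 909)
(mv 914 (cons (fin 913 2 910)
(mv 978 (cons (fin 979 1 975)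
(fin 915 2 911)))))))
(cons (mv 910 (cons (fin 909 3 909)
(mv 846 (cons (fin 911 7 846)
(fin 782 4 782)))))
(mv 914 (cons (fin 913 2 910)
(mv 978 (cons (fin 979 1 975)
(fin 915 2 911))))))))))
(mv 848 (cons (fin 784 5 783)
(fin 1105 4 848)))))))))))
(cons (mv 1038 (cons (fin 973 3 973)
(mv 977 (cons (fin 978 2 974)
(mv 976 (cons (fin 1037 2 973)
(mv 1101 (cons (fin 1102 1 1037)
(mv 1105 (cons (fin 1106 0 1038)
(mv 912 (cons (fin 1169 7 912)
(fin 848 4 848)))))))))))))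
(mv 1042 (cons (fin 975 3 974)
(mv 978 (cons (fin 979 2 975)
(mv 977 (cons (fin 1038 2 974)
(mv 1102 (cons (fin 1103 1 1038)
(mv 1106 (cons (fin 1107 0 1039)
(mv 913 (cons (fin 1170 7 913)
(fin 849 4 849))))))))))))))))
(mv 1041 (cons (cons (mv 973 (cons (fin 1038 3 973)
(mv 975 (cons (fin 1042 3 974)
(fin 976 0 973)))))
(mv 975 (cons (fin 1042 3 974)
(mv 976 (cons (fin 973 0 973)
(mv 912 (cons (mv 848 (cons (fin 784 5 783)
(fin 1103 5 847)))
(cons (mv 1103 (cons (fin 1167 6 911)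
(mv 1104 (cons (mv 911 (cons (fin 847 7 847)
(fin 1168 7 911)))
(cons (mv 849 (cons (fin 913 6 848)
(mv 1101 (cons (fin 1102 2 1037)
(mv 1168 (cons (fin 1232 7 975)
(mv 1169 (cons (fin 1105 4 912)
(fin 1233 4 976)))))))))
(mv 847 (cons (fin 911 7 847)
(mv 913 (cons (fin 849 6 848)
(mv 914 (cons (fin 915 1 911)
(fin 977 2 910))))))))))))
(mv 848 (cons (fin 784 5 783)
(fin 1105 4 848)))))))))))
(cons (mv 1038 (cons (fin 973 3 973)
(mv 977 (cons (fin 978 2 974)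
(mv 976 (cons (fin 1037 2 973)
(mv 1101 (cons (fin 1102 1 1037)
(mv 1105 (cons (fin 1106 0 1038)
(mv 912 (cons (fin 1169 7 912)
(fin 848 4 848)))))))))))))
(mv 1042 (cons (fin 975 3 974)
(mv 978 (cons (fin 979 2 975)
(mv 977 (cons (fin 1038 2 974)
(mv 1102 (cons (fin 1103 1 1038)
(mv 1106 (cons (fin 1107 0 1039)
(mv 913 (cons (fin 1170 7 913)
(fin 849 4 849)))))))))))))))))
(cons (mv 1041 (cons (cons (mv 973 (cons (fin 1038 3 973)
(mv 975 (cons (fin 1042 3 974)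
(fin 976 0 973)))))
(mv 975 (cons (fin 1042 3 974)
(mv 973 (cons (fin 976 0 973)
(mv 911 (cons (cons (mv 847 (cons (fin 1104 4 847)
(mv 782 (cons (fin 846 7 782)
(mv 718 (cons (fin 783 7 718)
(mv 848 (cons (fin 784 6 783)
(mv 912 (cons (fin 1103 6 847)
(mv 913 (cons (fin 910 1 909)
(fin 914 1 910)))))))))))))
(cons (mv 912 (cons (mv 913 (cons (fin 910 1 909)
(fin 914 1 910)))
(cons (mv 1103 (cons (fin 848 6 847)
(mv 910 (cons (fin 846 7 846)
(fin 1167 7 910)))))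
(mv 848 (cons (fin 1103 6 847)
(mv 720 (cons (fin 784 5 719)
(mv 913 (cons (fin 914 1 910)
(mv 977 (cons (fin 1105 7 848)
(mv 849 (cons (fin 1104 5 848)
(mv 850 (cons (fin 851 1 847)
(fin 786 6 785))))))))))))))))
(mv 912 (cons (mv 913 (cons (fin 910 1 909)
(fin 914 1 910)))
(mv 848 (cons (fin 1103 6 847)
(mv 784 (cons (fin 720 5 719)
(fin 847 6 783)))))))))
(cons (mv 847 (cons (fin 1104 4 847)
(mv 782 (cons (fin 846 7 782)
(mv 783 (cons (fin 718 7 718)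
(mv 784 (cons (fin 720 6 719)
(fin 848 6 783)))))))))
(cons (mv 847 (cons (fin 1104 4 847)
(mv 782 (cons (fin 846 7 782)
(mv 783 (cons (fin 718 7 718)
(mv 719 (cons (fin 910 5 718)
(mv 720 (cons (fin 656 6 655)
(fin 784 6 719)))))))))))
(mv 847 (cons (fin 1104 4 847)
(mv 782 (cons (fin 846 7 782)
(mv 783 (cons (fin 718 7 718)
(mv 910 (cons (fin 719 5 718)
(mv 912 (cons (fin 913 1 909)
(mv 1103 (cons (fin 1167 7 910)
(fin 848 6 847))))))))))))))))))))))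
(cons (mv 973 (cons (fin 1038 3 973)
(mv 975 (cons (fin 976 0 973)
(mv 911 (cons (cons (mv 847 (cons (fin 1104 4 847)
(mv 782 (cons (fin 846 7 782)
(mv 718 (cons (fin 783 7 718)
(mv 848 (cons (fin 784 6 783)
(mv 912 (cons (fin 1103 6 847)
(mv 913 (cons (fin 910 1 909)
(fin 914 1 910)))))))))))))
(cons (mv 912 (cons (mv 913 (cons (fin 910 1 909)
(fin 914 1 910)))
(cons (mv 1103 (cons (fin 848 6 847)
(mv 910 (cons (fin 846 7 846)
(fin 1167 7 910)))))
(mv 848 (cons (fin 1103 6 847)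
(mv 720 (cons (fin 784 5 719)
(mv 913 (cons (fin 914 1 910)
(mv 977 (cons (fin 1105 7 848)
(mv 849 (cons (fin 1104 5 848)
(mv 850 (cons (fin 851 1 847)
(fin 786 6 785))))))))))))))))
(mv 912 (cons (mv 913 (cons (fin 910 1 909)
(fin 914 1 910)))
(mv 848 (cons (fin 1103 6 847)
(mv 784 (cons (fin 720 5 719)
(fin 847 6 783)))))))))
(cons (mv 847 (cons (fin 1104 4 847)
(mv 782 (cons (fin 846 7 782)
(mv 783 (cons (fin 718 7 718)
(mv 784 (cons (fin 720 6 719)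
(fin 848 6 783)))))))))
(cons (mv 847 (cons (fin 1104 4 847)
(mv 782 (cons (fin 846 7 782)
(mv 783 (cons (fin 718 7 718)
(mv 719 (cons (fin 910 5 718)
(mv 720 (cons (fin 656 6 655)
(fin 784 6 719)))))))))))
(mv 847 (cons (fin 1104 4 847)
(mv 782 (cons (fin 846 7 782)
(mv 783 (cons (fin 718 7 718)
(mv 910 (cons (fin 719 5 718)
(mv 912 (cons (fin 913 1 909)
(mv 1103 (cons (fin 1167 7 910)
(fin 848 6 847)))))))))))))))))))))
(cons (mv 1038 (cons (fin 973 3 973)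
(mv 977 (cons (fin 978 2 974)
(mv 976 (cons (fin 1037 2 973)
(mv 1105 (cons (fin 1106 0 1038)
(mv 912 (cons (fin 1169 7 912)
(fin 848 4 848)))))))))))
(mv 1042 (cons (fin 975 3 974)
(mv 978 (cons (fin 979 2 975)
(mv 977 (cons (fin 1038 2 974)
(mv 1106 (cons (fin 1107 0 1039)
(mv 913 (cons (fin 1170 7 913)
(fin 849 4 849)))))))))))))))
(mv 1041 (cons (cons (mv 973 (cons (fin 1038 3 973)
(mv 975 (cons (fin 1042 3 974)
(fin 976 0 973)))))
(mv 1038 (cons (fin 973 3 973)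
(mv 1101 (cons (fin 1102 1 1037)
(mv 1037 (cons (fin 1100 1 1036)
(mv 1105 (cons (fin 1104 0 1037)
(fin 1106 0 1038))))))))))
(cons (mv 975 (cons (fin 1042 3 974)
(mv 973 (cons (fin 976 0 973)
(mv 1103 (cons (cons (mv 910 (cons (fin 1167 7 910)
(mv 846 (cons (fin 911 7 846)
(fin 782 4 782)))))
(mv 1102 (cons (mv 1101 (cons (fin 1100 2 1036)
(fin 1104 2 1037)))
(cons (mv 911 (cons (fin 1166 5 910)
(mv 1104 (cons (fin 847 4 847)
(fin 1168 4 911)))))
(mv 1100 (cons (fin 1101 2 1036)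
(mv 1166 (cons (fin 911 5 910)
(mv 1230 (cons (fin 1167 5 974)
(fin 1294 6 1038)))))))))))
(cons (mv 911 (cons (mv 1104 (cons (fin 847 4 847)
(fin 1168 4 911)))
(cons (mv 846 (cons (fin 910 7 846)
(mv 847 (cons (fin 782 7 782)
(mv 848 (cons (fin 784 6 783)
(fin 912 6 847)))))))
(mv 846 (cons (fin 910 7 846)
(mv 848 (cons (fin 912 6 847)
(mv 1102 (cons (fin 1166 5 910)
(mv 1101 (cons (fin 1100 2 1036)
(fin 1104 2 1037))))))))))))
(mv 1167 (cons (fin 910 7 910)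
(mv 1166 (cons (fin 1230 5 974)
(mv 1232 (cons (fin 1168 4 975)
(mv 1231 (cons (fin 1296 4 1039)
(mv 1104 (cons (fin 1295 6 1039)
(mv 1102 (cons (fin 1101 2 1037)
(mv 1105 (cons (fin 1165 1 1101)
(fin 1106 1 1102))))))))))))))))))))))
(mv 1042 (cons (fin 975 3 974)
(mv 978 (cons (fin 979 2 975)
(mv 1102 (cons (fin 1103 1 1038)
(mv 1038 (cons (fin 1101 1 1037)
(mv 1106 (cons (fin 1105 0 1038)
(fin 1107 0 1039))))))))))))))))
(cons (cons (mv 1041 (cons (cons (mv 973 (cons (fin 1038 3 973)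
(mv 975 (cons (fin 1042 3 974)
(fin 976 0 973)))))
(mv 1038 (cons (fin 973 3 973)
(mv 977 (cons (fin 978 2 974)
(mv 1037 (cons (fin 976 2 973)
(mv 1101 (cons (fin 1100 1 1036)
(fin 1102 1 1037))))))))))
(cons (mv 975 (cons (fin 1042 3 974)
(mv 973 (cons (fin 976 0 973)
(mv 911 (cons (cons (mv 847 (cons (fin 1104 4 847)
(mv 782 (cons (fin 846 7 782)
(mv 718 (cons (fin 783 7 718)
(mv 848 (cons (fin 784 6 783)
(mv 912 (cons (fin 1103 6 847)
(mv 913 (cons (fin 910 1 909)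
(fin 914 1 910)))))))))))))
(mv 1103 (cons (mv 910 (cons (fin 846 7 846)
(fin 1167 7 910)))
(mv 848 (cons (fin 912 6 847)
(mv 1102 (cons (fin 1166 5 910)
(mv 1101 (cons (fin 1100 2 1036)
(fin 1104 2 1037))))))))))
(cons (mv 912 (cons (mv 913 (cons (fin 910 1 909)
(fin 914 1 910)))
(mv 848 (cons (fin 1103 6 847)
(mv 784 (cons (fin 720 5 719)
(fin 847 6 783)))))))
(cons (mv 847 (cons (fin 1104 4 847)
(mv 782 (cons (fin 846 7 782)
(mv 783 (cons (fin 718 7 718)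
(mv 784 (cons (fin 720 6 719)
(fin 848 6 783)))))))))
(mv 847 (cons (fin 1104 4 847)
(mv 782 (cons (fin 846 7 782)
(mv 783 (cons (fin 718 7 718)
(mv 719 (cons (fin 910 5 718)
(mv 720 (cons (fin 656 6 655)
(fin 784 6 719)))))))))))))))))))
(mv 1042 (cons (fin 975 3 974)
(mv 978 (cons (fin 979 2 975)
(mv 977 (cons (fin 1038 2 974)
(mv 1102 (cons (fin 1103 1 1038)
(mv 1106 (cons (fin 1107 0 1039)
(mv 913 (cons (fin 1170 7 913)
(fin 849 4 849))))))))))))))))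
(mv 1041 (cons (cons (mv 973 (cons (fin 1038 3 973)
(mv 975 (cons (fin 1042 3 974)
(fin 976 0 973)))))
(mv 975 (cons (fin 1042 3 974)
(mv 973 (cons (fin 976 0 973)
(mv 1103 (cons (cons (mv 910 (cons (fin 1167 7 910)
(mv 846 (cons (fin 911 7 846)
(fin 782 4 782)))))
(mv 1102 (cons (mv 1101 (cons (fin 1100 2 1036)
(fin 1104 2 1037)))
(cons (mv 911 (cons (fin 1166 5 910)
(mv 1104 (cons (fin 847 4 847)
(fin 1168 4 911)))))
(mv 1100 (cons (fin 1101 2 1036)
(mv 1166 (cons (fin 911 5 910)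
(mv 1230 (cons (fin 1167 5 974)
(fin 1294 6 1038)))))))))))
(cons (mv 911 (cons (mv 1104 (cons (fin 847 4 847)
(fin 1168 4 911)))
(cons (mv 846 (cons (fin 910 7 846)
(mv 847 (cons (fin 782 7 782)
(mv 848 (cons (fin 784 6 783)
(fin 912 6 847)))))))
(mv 846 (cons (fin 910 7 846)
(mv 848 (cons (fin 912 6 847)
(mv 1102 (cons (fin 1166 5 910)
(mv 1101 (cons (fin 1100 2 1036)
(fin 1104 2 1037))))))))))))
(mv 1167 (cons (fin 910 7 910)
(mv 1166 (cons (fin 1230 5 974)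
(mv 1232 (cons (fin 1168 4 975)
(mv 1231 (cons (fin 1296 4 1039)
(mv 1104 (cons (fin 1295 6 1039)
(mv 1102 (cons (fin 1101 2 1037)
(mv 1105 (cons (fin 1165 1 1101)
(fin 1106 1 1102)))))))))))))))))))))))
(cons (mv 973 (cons (fin 1038 3 973)
(mv 975 (cons (fin 976 0 973)
(mv 1103 (cons (cons (mv 910 (cons (fin 1167 7 910)
(mv 846 (cons (fin 911 7 846)
(fin 782 4 782)))))
(mv 1102 (cons (mv 1101 (cons (fin 1100 2 1036)
(fin 1104 2 1037)))
(cons (mv 911 (cons (fin 1166 5 910)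
(mv 1104 (cons (fin 847 4 847)
(fin 1168 4 911)))))
(mv 1100 (cons (fin 1101 2 1036)
(mv 1166 (cons (fin 911 5 910)
(mv 1230 (cons (fin 1167 5 974)
(fin 1294 6 1038)))))))))))
(cons (mv 911 (cons (mv 1104 (cons (fin 847 4 847)
(fin 1168 4 911)))
(cons (mv 846 (cons (fin 910 7 846)
(mv 847 (cons (fin 782 7 782)
(mv 848 (cons (fin 784 6 783)
(fin 912 6 847)))))))
(mv 846 (cons (fin 910 7 846)
(mv 848 (cons (fin 912 6 847)
(mv 1102 (cons (fin 1166 5 910)
(mv 1101 (cons (fin 1100 2 1036)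
(fin 1104 2 1037))))))))))))
(mv 1167 (cons (fin 910 7 910)
(mv 1166 (cons (fin 1230 5 974)
(mv 1232 (cons (fin 1168 4 975)
(mv 1231 (cons (fin 1296 4 1039)
(mv 1104 (cons (fin 1295 6 1039)
(mv 1102 (cons (fin 1101 2 1037)
(mv 1105 (cons (fin 1165 1 1101)
(fin 1106 1 1102))))))))))))))))))))))
(cons (mv 1038 (cons (fin 973 3 973)
(mv 1101 (cons (fin 1102 1 1037)
(mv 1037 (cons (fin 1100 1 1036)
(mv 1105 (cons (fin 1104 0 1037)
(fin 1106 0 1038)))))))))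
(mv 1042 (cons (fin 975 3 974)
(mv 1102 (cons (fin 1103 1 1038)
(mv 1038 (cons (fin 1101 1 1037)
(mv 1106 (cons (fin 1105 0 1038)
(fin 1107 0 1039))))))))))))))
(cons (mv 1041 (cons (cons (mv 973 (cons (fin 1038 3 973)
(mv 975 (cons (fin 1042 3 974)
(fin 976 0 973)))))
(mv 975 (cons (fin 1042 3 974)
(mv 976 (cons (fin 973 0 973)
(mv 912 (cons (mv 848 (cons (fin 784 5 783)
(fin 1103 5 847)))
(cons (mv 1103 (cons (fin 1167 6 911)
(mv 1104 (cons (mv 849 (cons (fin 913 6 848)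
(mv 1101 (cons (fin 1102 2 1037)
(mv 1168 (cons (fin 1232 7 975)
(mv 1169 (cons (fin 1105 4 912)
(fin 1233 4 976)))))))))
(cons (mv 913 (cons (fin 849 6 848)
(mv 914 (cons (fin 915 1 911)
(fin 977 2 910)))))
(mv 1101 (cons (fin 1102 2 1037)
(mv 1168 (cons (fin 1232 7 975)
(mv 1169 (cons (fin 1105 4 912)
(fin 1233 4 976))))))))))))
(mv 848 (cons (fin 784 5 783)
(fin 1105 4 848)))))))))))
(cons (mv 1038 (cons (fin 973 3 973)
(mv 977 (cons (fin 978 2 974)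
(mv 976 (cons (fin 1037 2 973)
(mv 1101 (cons (fin 1102 1 1037)
(mv 1105 (cons (fin 1106 0 1038)
(mv 912 (cons (fin 1169 7 912)
(fin 848 4 848)))))))))))))
(mv 1042 (cons (fin 975 3 974)
(mv 978 (cons (fin 979 2 975)
(mv 977 (cons (fin 1038 2 974)
(mv 1102 (cons (fin 1103 1 1038)
(mv 1106 (cons (fin 1107 0 1039)
(mv 913 (cons (fin 1170 7 913)
(fin 849 4 849))))))))))))))))
(mv 1041 (cons (cons (mv 973 (cons (fin 1038 3 973)
(mv 975 (cons (fin 1042 3 974)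
(fin 976 0 973)))))
(mv 975 (cons (fin 1042 3 974)
(mv 973 (cons (fin 976 0 973)
(mv 1103 (cons (cons (mv 910 (cons (fin 1167 7 910)
(mv 846 (cons (fin 911 7 846)
(fin 782 4 782)))))
(mv 1102 (cons (mv 1101 (cons (fin 1100 2 1036)
(fin 1104 2 1037)))
(cons (mv 911 (cons (fin 1166 5 910)
(mv 1104 (cons (fin 847 4 847)
(fin 1168 4 911)))))
(mv 1101 (cons (fin 1100 2 1036)
(mv 1166 (cons (fin 911 5 910)
(mv 1037 (cons (fin 909 4 909)
(mv 1165 (cons (fin 910 6 909)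
(fin 1230 4 973)))))))))))))
(cons (mv 1102 (cons (mv 1101 (cons (fin 1100 2 1036)
(fin 1104 2 1037)))
(cons (mv 911 (cons (fin 1166 5 910)
(mv 1104 (cons (fin 847 4 847)
(fin 1168 4 911)))))
(mv 1100 (cons (fin 1101 2 1036)
(mv 1166 (cons (fin 911 5 910)
(mv 1230 (cons (fin 1167 5 974)
(fin 1294 6 1038))))))))))
(mv 1167 (cons (fin 910 7 910)
(mv 1166 (cons (fin 1230 5 974)
(mv 1232 (cons (fin 1168 4 975)
(mv 1231 (cons (fin 1296 4 1039)
(mv 1104 (cons (fin 1295 6 1039)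
(mv 1102 (cons (fin 1101 2 1037)
(mv 1105 (cons (fin 1165 1 1101)
(fin 1106 1 1102)))))))))))))))))))))))
(cons (mv 973 (cons (fin 1038 3 973)
(mv 975 (cons (fin 976 0 973)
(mv 1103 (cons (cons (mv 910 (cons (fin 1167 7 910)
(mv 846 (cons (fin 911 7 846)
(fin 782 4 782)))))
(mv 1102 (cons (mv 1101 (cons (fin 1100 2 1036)
(fin 1104 2 1037)))
(cons (mv 911 (cons (fin 1166 5 910)
(mv 1104 (cons (fin 847 4 847)
(fin 1168 4 911)))))
(mv 1101 (cons (fin 1100 2 1036)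
(mv 1166 (cons (fin 911 5 910)
(mv 1037 (cons (fin 909 4 909)
(mv 1165 (cons (fin 910 6 909)
(fin 1230 4 973)))))))))))))
(cons (mv 1102 (cons (mv 1101 (cons (fin 1100 2 1036)
(fin 1104 2 1037)))
(cons (mv 911 (cons (fin 1166 5 910)
(mv 1104 (cons (fin 847 4 847)
(fin 1168 4 911)))))
(mv 1100 (cons (fin 1101 2 1036)
(mv 1166 (cons (fin 911 5 910)
(mv 1230 (cons (fin 1167 5 974)
(fin 1294 6 1038))))))))))
(mv 1167 (cons (fin 910 7 910)
(mv 1166 (cons (fin 1230 5 974)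
(mv 1232 (cons (fin 1168 4 975)
(mv 1231 (cons (fin 1296 4 1039)
(mv 1104 (cons (fin 1295 6 1039)
(mv 1102 (cons (fin 1101 2 1037)
(mv 1105 (cons (fin 1165 1 1101)
(fin 1106 1 1102))))))))))))))))))))))
(cons (mv 1038 (cons (fin 973 3 973)
(mv 977 (cons (fin 978 2 974)
(mv 976 (cons (fin 1037 2 973)
(mv 1101 (cons (fin 1102 1 1037)
(mv 1105 (cons (fin 1106 0 1038)
(mv 1169 (cons (fin 1233 7 976)
(mv 1168 (cons (fin 1232 5 976)
(mv 913 (cons (fin 1104 5 912)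
(mv 849 (cons (fin 785 5 784)
(mv 850 (cons (fin 786 6 785)
(fin 914 6 849)))))))))))))))))))))
(mv 1042 (cons (fin 975 3 974)
(mv 978 (cons (fin 979 2 975)
(mv 977 (cons (fin 1038 2 974)
(mv 1102 (cons (fin 1103 1 1038)
(mv 1106 (cons (fin 1107 0 1039)
(mv 913 (cons (fin 1170 7 913)
(fin 849 4 849))))))))))))))))))))))
def l35 : Lem := ⟨11781361728633673533054441723117730079171283746239247440356909899588005244909514899260159721150817405942924420470662491174673842036557007391209044253460063708080530407354770956693342717623350878333880262063391977041189311657559161319740834448813323445848447489700891174053752382374267171085078592036680673850818560, 31456044897320362174402329347774662165736526121074248922174679866482293311292491545287606109077472406231935672438108388252066752663502341948095555160468790595433503171995258813860388580316240445753563083352115330064973488850747141607089708558597111714140768315354534509817991476481462293495465094303527047154084349365555232352749527307787169283848587308937353847146210079316983947720237487020619743101028663296,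 31456044897320362174402329347774662165736526121074248922174679866482293311292491545287606109077472406231935672438108388252066752663502341948095555160468790595433503171995258813860388580316240445753563083352115330064973488850747141607089708558597111714140768315354534509817991476481462293495465094303527047154084349365555232352749527307787169283848587308937353847146210079316983947720237487020619743101028663296, 18, 33⟩
theorem l35_valid : l35.Valid :=
  Lem.valid_of_chk t35 t35_valid [974, 1040] c35 l35 (by decide +kernel)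
end Crest.Agent.SnakyAux
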