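import Crest.Agent.S0047_aux.Checker

set_option autoImplicit false
set_option maxRecDepth 100000
namespace Crest.Agent.SnakyAux
open Cert
def t36 : Tbl := Tbl.nil
theorem t36_valid : t36.Valid := Tbl.valid_nil
def c36 : Cert :=
(mv 1039 (cons (cons (cons (mv 1041 (cons (cons (mv 973 (cons (fin 1038 3 973)
(mv 975 (cons (fin 1042 3 974)
(fin 972 0 972)))))
(mv 975 (cons (fin 1042 3 974)
(mv 973 (cons (fin 972 0 972)
(fin 976 0 973))))))
(cons (mv 973 (cons (fin 1038 3 973)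
(mv 975 (cons (fin 972 0 972)
(fin 976 0 973)))))
(cons (mv 1038 (cons (fin 973 3 973)
(mv 977 (cons (fin 978 2 974)
(mv 976 (cons (fin 1037 2 973)
(mv 1101 (cons (fin 1102 1 1037)
(mv 1105 (cons (fin 1106 0 1038)
(mv 912 (cons (fin 1169 7 912)
(fin 848 4 848)))))))))))))
(mv 1042 (cons (fin 975 3 974)
(mv 978 (cons (fin 979 2 975)
(mv 977 (cons (fin 1038 2 974)
(mv 1102 (cons (fin 1103 1 1038)
(mv 1106 (cons (fin 1107 0 1039)
(mv 1170 (cons (fin 1234 7 977)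
(mv 1169 (cons (fin 1233 5 977)
(mv 914 (cons (fin 1105 5 913)
(mv 850 (cons (fin 786 5 785)
(mv 851 (cons (fin 787 6 786)
(fin 915 6 850)))))))))))))))))))))))))
(cons (mv 975 (cons (cons (cons (mv 972 (cons (fin 973 0 972)
(mv 910 (cons (cons (mv 846 (cons (fin 782 4 782)
(mv 1103 (cons (fin 911 7 846)
(fin 1167 7 910)))))
(mv 846 (cons (fin 782 4 782)
(mv 1038 (cons (cons (mv 781 (cons (fin 845 7 781)
(mv 783 (cons (fin 847 6 782)
(mv 1037 (cons (fin 1101 5 845)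
(mv 976 (cons (fin 977 1 973)
(fin 1036 2 972)))))))))
(mv 781 (cons (fin 845 7 781)
(mv 847 (cons (fin 783 6 782)
(mv 911 (cons (fin 1102 5 846)
(fin 1104 4 847))))))))
(cons (mv 781 (cons (fin 845 7 781)
(mv 1037 (cons (fin 1101 5 845)
(mv 976 (cons (fin 977 1 973)
(fin 1036 2 972)))))))
(mv 783 (cons (fin 847 6 782)
(mv 1037 (cons (fin 1101 5 845)
(mv 976 (cons (fin 977 1 973)
(fin 1036 2 972)))))))))))))
(cons (mv 1103 (cons (fin 1167 7 910)
(mv 911 (cons (mv 1104 (cons (fin 847 4 847)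
(fin 1168 4 911)))
(cons (mv 848 (cons (fin 912 6 847)
(mv 784 (cons (fin 847 6 783)
(mv 1102 (cons (fin 1166 5 910)
(mv 1101 (cons (fin 1100 2 1036)
(mv 1038 (cons (fin 1165 5 909)
(mv 909 (cons (fin 845 7 845)
(mv 908 (cons (fin 971 1 907)
(fin 907 0 907)))))))))))))))
(mv 848 (cons (fin 912 6 847)
(mv 1102 (cons (fin 1166 5 910)
(mv 1101 (cons (fin 1100 2 1036)
(mv 1038 (cons (fin 1165 5 909)
(mv 845 (cons (fin 909 7 845)
(mv 1104 (cons (fin 1168 4 911)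
(mv 1037 (cons (fin 1036 3 1036)
(fin 1105 3 1037))))))))))))))))))))
(mv 846 (cons (fin 782 4 782)
(mv 1103 (cons (fin 1167 7 910)
(fin 1038 4 846))))))))))
(mv 910 (cons (cons (mv 846 (cons (fin 782 4 782)
(mv 1103 (cons (fin 911 7 846)
(fin 1167 7 910)))))
(mv 846 (cons (fin 782 4 782)
(mv 1038 (cons (cons (mv 781 (cons (fin 845 7 781)
(mv 783 (cons (fin 847 6 782)
(mv 1037 (cons (fin 1101 5 845)
(mv 976 (cons (fin 977 1 973)
(fin 1036 2 972)))))))))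
(mv 781 (cons (fin 845 7 781)
(mv 847 (cons (fin 783 6 782)
(mv 911 (cons (fin 1102 5 846)
(fin 1104 4 847))))))))
(cons (mv 781 (cons (fin 845 7 781)
(mv 1037 (cons (fin 1101 5 845)
(mv 976 (cons (fin 977 1 973)
(fin 1036 2 972)))))))
(mv 783 (cons (fin 847 6 782)
(mv 1037 (cons (fin 1101 5 845)
(mv 976 (cons (fin 977 1 973)
(fin 1036 2 972)))))))))))))
(cons (mv 1103 (cons (fin 1167 7 910)
(mv 911 (cons (mv 1104 (cons (fin 847 4 847)
(fin 1168 4 911)))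
(cons (mv 848 (cons (fin 912 6 847)
(mv 784 (cons (fin 847 6 783)
(mv 1102 (cons (fin 1166 5 910)
(mv 1101 (cons (fin 1100 2 1036)
(mv 1038 (cons (fin 1165 5 909)
(mv 909 (cons (fin 845 7 845)
(mv 908 (cons (fin 907 0 907)
(fin 976 0 908)))))))))))))))
(mv 848 (cons (fin 912 6 847)
(mv 1102 (cons (fin 1166 5 910)
(mv 1101 (cons (fin 1100 2 1036)
(mv 1038 (cons (fin 1165 5 909)
(mv 845 (cons (fin 909 7 845)
(mv 1104 (cons (fin 1168 4 911)
(mv 1037 (cons (fin 1036 3 1036)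
(fin 1105 3 1037))))))))))))))))))))
(mv 846 (cons (fin 782 4 782)
(mv 1103 (cons (fin 1167 7 910)
(fin 1038 4 846)))))))))
(cons (mv 972 (cons (fin 973 0 972)
(mv 911 (cons (cons (mv 847 (cons (fin 1104 4 847)
(mv 783 (cons (fin 1038 5 782)
(fin 976 4 783)))))
(mv 1103 (cons (cons (mv 848 (cons (fin 912 6 847)
(mv 1102 (cons (fin 1166 5 910)
(mv 1100 (cons (fin 1101 2 1036)
(mv 1168 (cons (fin 1104 4 911)
(mv 1167 (cons (fin 1232 4 975)
(mv 1231 (cons (fin 1038 7 974)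
(fin 976 6 975)))))))))))))
(cons (mv 848 (cons (fin 912 6 847)
(mv 1166 (cons (fin 1102 5 910)
(mv 1167 (cons (fin 1230 5 974)
(mv 1231 (cons (fin 1038 7 974)
(fin 976 6 975)))))))))
(mv 1102 (cons (fin 1166 5 910)
(mv 1100 (cons (fin 1101 2 1036)
(mv 1168 (cons (fin 1104 4 911)
(mv 1167 (cons (fin 1232 4 975)
(mv 1231 (cons (fin 1038 7 974)
(fin 976 6 975)))))))))))))
(cons (mv 848 (cons (fin 912 6 847)
(mv 1168 (cons (fin 1104 4 911)
(mv 1167 (cons (fin 1232 4 975)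
(mv 1231 (cons (fin 1038 7 974)
(fin 976 6 975)))))))))
(cons (mv 848 (cons (fin 912 6 847)
(mv 1102 (cons (fin 1166 5 910)
(mv 1101 (cons (fin 1100 2 1036)
(mv 1104 (cons (fin 1168 4 911)
(mv 1037 (cons (fin 1036 3 1036)
(mv 1038 (cons (fin 1105 3 1037)
(mv 1165 (cons (fin 1164 1 1100)
(fin 1229 6 973)))))))))))))))
(mv 848 (cons (fin 912 6 847)
(mv 1104 (cons (fin 1168 4 911)
(mv 1166 (cons (fin 1102 5 910)
(mv 1167 (cons (fin 1230 5 974)
(mv 1231 (cons (fin 976 6 975)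
(fin 1295 6 1039))))))))))))))))
(cons (mv 847 (cons (mv 783 (cons (fin 1038 5 782)
(fin 976 4 783)))
(cons (mv 782 (cons (fin 846 7 782)
(mv 848 (cons (fin 784 6 783)
(mv 1102 (cons (fin 1038 5 846)
(mv 1103 (cons (fin 1166 5 910)
(fin 912 6 847)))))))))
(mv 782 (cons (fin 846 7 782)
(mv 783 (cons (fin 718 7 718)
(fin 976 4 783))))))))
(cons (mv 847 (cons (fin 1104 4 847)
(mv 782 (cons (fin 846 7 782)
(mv 783 (cons (fin 718 7 718)
(fin 976 4 783)))))))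
(mv 847 (cons (fin 1104 4 847)
(mv 1038 (cons (fin 783 5 782)
(fin 1102 5 846)))))))))))
(cons (mv 972 (cons (fin 973 0 972)
(mv 910 (cons (cons (mv 846 (cons (fin 782 4 782)
(mv 1103 (cons (fin 911 7 846)
(fin 1167 7 910)))))
(mv 846 (cons (fin 782 4 782)
(mv 1038 (cons (cons (mv 781 (cons (fin 845 7 781)
(mv 783 (cons (fin 847 6 782)
(mv 1037 (cons (fin 1101 5 845)
(mv 976 (cons (fin 977 1 973)
(fin 1036 2 972)))))))))
(mv 781 (cons (fin 845 7 781)
(mv 847 (cons (fin 783 6 782)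
(mv 911 (cons (fin 1102 5 846)
(mv 848 (cons (fin 784 6 783)
(mv 849 (cons (fin 909 1 845)
(fin 850 1 846))))))))))))
(cons (mv 781 (cons (fin 845 7 781)
(mv 1037 (cons (fin 1101 5 845)
(mv 976 (cons (fin 977 1 973)
(fin 1036 2 972)))))))
(mv 783 (cons (fin 847 6 782)
(mv 1037 (cons (fin 1101 5 845)
(mv 976 (cons (fin 977 1 973)
(fin 1036 2 972)))))))))))))
(cons (mv 1103 (cons (fin 1167 7 910)
(mv 911 (cons (cons (mv 848 (cons (fin 912 6 847)
(mv 784 (cons (fin 847 6 783)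
(mv 1102 (cons (fin 1166 5 910)
(mv 1101 (cons (fin 1100 2 1036)
(mv 1038 (cons (fin 1165 5 909)
(mv 909 (cons (fin 845 7 845)
(mv 908 (cons (fin 971 1 907)
(fin 907 0 907)))))))))))))))
(mv 848 (cons (fin 912 6 847)
(mv 847 (cons (fin 784 6 783)
(mv 783 (cons (fin 719 5 718)
(fin 1038 5 782))))))))
(cons (mv 1102 (cons (fin 1166 5 910)
(mv 847 (cons (fin 1038 5 846)
(mv 783 (cons (fin 719 5 718)
(fin 976 4 783)))))))
(cons (mv 848 (cons (fin 912 6 847)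
(mv 1102 (cons (fin 1166 5 910)
(mv 1101 (cons (fin 1100 2 1036)
(mv 1038 (cons (fin 1165 5 909)
(mv 909 (cons (fin 845 7 845)
(mv 908 (cons (fin 971 1 907)
(fin 907 0 907)))))))))))))
(mv 848 (cons (fin 912 6 847)
(mv 847 (cons (fin 784 6 783)
(mv 783 (cons (fin 719 5 718)
(fin 976 4 783)))))))))))))
(mv 846 (cons (fin 782 4 782)
(mv 1103 (cons (fin 1167 7 910)
(fin 1038 4 846))))))))))
(mv 973 (cons (fin 972 0 972)
(mv 976 (cons (cons (mv 908 (cons (fin 909 3 908)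
(mv 1037 (cons (fin 1036 1 972)
(mv 1038 (cons (fin 977 1 973)
(mv 1100 (cons (fin 1101 1 1036)
(mv 1104 (cons (fin 1105 0 1037)
(mv 1168 (cons (fin 1232 7 975)
(mv 1167 (cons (fin 1231 5 975)
(mv 1103 (cons (fin 910 7 910)
(fin 912 5 911)))))))))))))))))
(cons (mv 909 (cons (fin 908 3 908)
(mv 910 (cons (fin 977 3 909)
(mv 846 (cons (fin 782 4 782)
(mv 1103 (cons (fin 1167 7 910)
(fin 1038 4 846)))))))))
(mv 1037 (cons (fin 1036 1 972)
(mv 1038 (cons (fin 977 1 973)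
(mv 1100 (cons (fin 1101 1 1036)
(mv 1104 (cons (fin 1105 0 1037)
(mv 1168 (cons (fin 1232 7 975)
(mv 1167 (cons (fin 1231 5 975)
(mv 1103 (cons (fin 910 7 910)
(fin 912 5 911)))))))))))))))))
(cons (cons (mv 908 (cons (fin 909 3 908)
(mv 1037 (cons (fin 1036 1 972)
(mv 1038 (cons (cons (mv 1100 (cons (fin 1101 1 1036)
(mv 1104 (cons (fin 1105 0 1037)
(mv 1168 (cons (fin 1232 7 975)
(mv 1167 (cons (fin 1231 5 975)
(mv 1103 (cons (fin 910 7 910)
(fin 912 5 911)))))))))))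
(mv 1104 (cons (fin 1105 0 1037)
(mv 1168 (cons (fin 1232 7 975)
(mv 1167 (cons (fin 1231 5 975)
(mv 1103 (cons (fin 910 7 910)
(fin 912 5 911))))))))))
(cons (mv 1101 (cons (fin 1100 1 1036)
(mv 910 (cons (fin 846 5 845)
(fin 1165 6 909)))))
(mv 1100 (cons (fin 1101 1 1036)
(mv 1104 (cons (fin 1105 0 1037)
(mv 1168 (cons (fin 1232 7 975)
(mv 1167 (cons (fin 1231 5 975)
(mv 1103 (cons (fin 912 5 911)
(mv 1166 (cons (fin 1230 5 974)
(mv 1164 (cons (fin 1165 2 1100)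
(mv 1169 (cons (fin 1233 4 976)
(mv 1170 (cons (fin 1102 3 1102)
(fin 1171 3 1103))))))))))))))))))))))))))
(mv 909 (cons (fin 908 3 908)
(mv 910 (cons (fin 977 3 909)
(mv 782 (cons (fin 846 4 782)
(mv 1037 (cons (fin 1036 1 972)
(mv 1101 (cons (fin 1165 6 909)
(mv 1100 (cons (fin 1164 5 908)
(mv 1102 (cons (fin 1103 2 1036)
(fin 1166 4 909))))))))))))))))
(cons (mv 908 (cons (fin 909 3 908)
(mv 1037 (cons (fin 1036 1 972)
(mv 1038 (cons (fin 977 1 973)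
(mv 1101 (cons (fin 1100 1 1036)
(mv 910 (cons (fin 846 5 845)
(fin 1165 6 909)))))))))))
(mv 908 (cons (fin 909 3 908)
(mv 1037 (cons (fin 1036 1 972)
(mv 1038 (cons (fin 977 1 973)
(mv 1100 (cons (fin 1101 1 1036)
(mv 1104 (cons (fin 1105 0 1037)
(mv 1168 (cons (fin 1232 7 975)
(mv 1167 (cons (fin 1231 5 975)
(mv 1103 (cons (fin 912 5 911)
(mv 1166 (cons (fin 1230 5 974)
(mv 1164 (cons (fin 1165 2 1100)
(mv 1169 (cons (fin 1233 4 976)
(mv 1170 (cons (fin 1102 3 1102)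
(fin 1171 3 1103))))))))))))))))))))))))))))))))))
(cons (cons (mv 973 (cons (fin 972 0 972)
(mv 976 (cons (cons (mv 908 (cons (fin 909 3 908)
(mv 1037 (cons (fin 1036 1 972)
(mv 977 (cons (fin 1038 1 973)
(mv 978 (cons (fin 979 1 975)
(mv 911 (cons (fin 910 3 910)
(mv 847 (cons (fin 783 4 783)
(fin 1104 4 847)))))))))))))
(cons (mv 909 (cons (fin 908 3 908)
(mv 977 (cons (fin 910 3 909)
(mv 978 (cons (fin 1038 1 974)
(fin 979 1 975)))))))
(mv 1037 (cons (fin 1036 1 972)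
(mv 977 (cons (fin 1038 1 973)
(mv 978 (cons (fin 979 1 975)
(mv 911 (cons (fin 910 3 910)
(mv 847 (cons (fin 783 4 783)
(fin 1104 4 847)))))))))))))
(cons (mv 908 (cons (fin 909 3 908)
(mv 1037 (cons (fin 1036 1 972)
(mv 1104 (cons (mv 911 (cons (fin 1168 7 911)
(fin 847 4 847)))
(mv 1038 (cons (fin 1105 0 1037)
(mv 1101 (cons (fin 1100 1 1036)
(mv 910 (cons (fin 846 5 845)
(fin 1165 6 909)))))))))))))
(cons (mv 909 (cons (fin 908 3 908)
(mv 910 (cons (fin 977 3 909)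
(mv 846 (cons (fin 782 4 782)
(mv 1037 (cons (fin 1036 1 972)
(fin 1101 6 845)))))))))
(mv 908 (cons (fin 909 3 908)
(mv 1037 (cons (fin 1036 1 972)
(mv 1038 (cons (fin 977 1 973)
(mv 1100 (cons (fin 1101 1 1036)
(mv 1104 (cons (fin 1105 0 1037)
(mv 911 (cons (fin 1168 7 911)
(fin 847 4 847)))))))))))))))))))
(cons (mv 972 (cons (fin 973 0 972)
(mv 1104 (cons (cons (mv 911 (cons (fin 847 4 847)
(mv 1168 (cons (fin 976 7 911)
(fin 1232 7 975)))))
(mv 1168 (cons (fin 1232 7 975)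
(mv 976 (cons (cons (mv 1167 (cons (fin 1231 5 975)
(mv 1103 (cons (fin 910 7 910)
(fin 912 5 911)))))
(mv 1169 (cons (fin 1233 4 976)
(mv 912 (cons (fin 1105 4 912)
(mv 848 (cons (fin 784 5 783)
(fin 1103 5 847))))))))
(cons (mv 1167 (cons (fin 1231 5 975)
(mv 1169 (cons (fin 1233 4 976)
(mv 1105 (cons (fin 912 4 912)
(mv 1106 (cons (fin 1107 3 1039)
(fin 1166 2 1102)))))))))
(mv 1167 (cons (fin 1231 5 975)
(mv 910 (cons (fin 1103 7 910)
(mv 977 (cons (fin 909 3 909)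
(mv 978 (cons (fin 1038 1 974)
(fin 979 1 975)))))))))))))))
(cons (mv 911 (cons (fin 847 4 847)
(mv 1103 (cons (cons (mv 848 (cons (fin 912 6 847)
(mv 910 (cons (fin 1167 7 910)
(mv 1102 (cons (fin 1166 5 910)
(mv 1101 (cons (fin 1100 2 1036)
(mv 1165 (cons (fin 1164 1 1100)
(fin 1038 5 909)))))))))))
(cons (mv 848 (cons (fin 912 6 847)
(mv 1102 (cons (fin 1166 5 910)
(mv 1101 (cons (fin 1100 2 1036)
(mv 1037 (cons (fin 1036 3 1036)
(mv 1038 (cons (fin 1105 3 1037)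
(mv 1165 (cons (fin 1164 1 1100)
(fin 910 5 909)))))))))))))
(mv 910 (cons (fin 1167 7 910)
(mv 1102 (cons (fin 1166 5 910)
(mv 1101 (cons (fin 1100 2 1036)
(mv 1165 (cons (fin 1164 1 1100)
(fin 1038 5 909)))))))))))
(cons (mv 848 (cons (fin 912 6 847)
(mv 1167 (cons (fin 910 7 910)
(mv 1231 (cons (fin 1038 7 974)
(fin 976 6 975)))))))
(cons (mv 848 (cons (fin 912 6 847)
(mv 1102 (cons (fin 1166 5 910)
(mv 1101 (cons (fin 1100 2 1036)
(mv 1037 (cons (fin 1036 3 1036)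
(mv 1038 (cons (fin 1105 3 1037)
(mv 1165 (cons (fin 1164 1 1100)
(fin 1229 6 973)))))))))))))
(mv 848 (cons (fin 912 6 847)
(mv 1102 (cons (fin 1166 5 910)
(mv 1100 (cons (fin 1101 2 1036)
(mv 1167 (cons (fin 910 7 910)
(mv 1231 (cons (fin 976 6 975)
(fin 1295 6 1039)))))))))))))))))
(mv 911 (cons (fin 847 4 847)
(mv 1168 (cons (fin 1232 7 975)
(fin 1103 4 911))))))))))
(mv 973 (cons (fin 972 0 972)
(mv 1104 (cons (cons (mv 911 (cons (fin 847 4 847)
(mv 1168 (cons (fin 976 7 911)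
(fin 1232 7 975)))))
(mv 1168 (cons (fin 1232 7 975)
(mv 976 (cons (cons (mv 908 (cons (fin 909 3 908)
(mv 1036 (cons (fin 1037 1 972)
(mv 1167 (cons (fin 1231 5 975)
(mv 1103 (cons (fin 910 7 910)
(fin 912 5 911)))))))))
(cons (mv 908 (cons (fin 909 3 908)
(mv 1036 (cons (fin 1037 1 972)
(mv 1169 (cons (fin 1233 4 976)
(mv 912 (cons (fin 1105 4 912)
(mv 848 (cons (fin 784 5 783)
(fin 1103 5 847)))))))))))
(mv 1036 (cons (fin 1037 1 972)
(mv 1167 (cons (fin 1231 5 975)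
(mv 1103 (cons (fin 910 7 910)
(fin 912 5 911)))))))))
(cons (mv 908 (cons (fin 909 3 908)
(mv 1167 (cons (fin 1231 5 975)
(mv 1103 (cons (fin 910 7 910)
(fin 912 5 911)))))))
(cons (mv 908 (cons (fin 909 3 908)
(mv 1036 (cons (fin 1037 1 972)
(mv 1167 (cons (fin 1231 5 975)
(mv 1169 (cons (fin 1233 4 976)
(mv 1105 (cons (fin 912 4 912)
(mv 1106 (cons (fin 1107 3 1039)
(fin 1166 2 1102)))))))))))))
(mv 908 (cons (fin 909 3 908)
(mv 1036 (cons (fin 1037 1 972)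
(mv 1167 (cons (fin 1231 5 975)
(mv 1103 (cons (fin 910 7 910)
(mv 1166 (cons (fin 1230 5 974)
(mv 1105 (cons (fin 1106 1 1102)
(fin 1165 2 1101))))))))))))))))))))
(cons (mv 911 (cons (fin 847 4 847)
(mv 1103 (cons (mv 910 (cons (fin 846 7 846)
(fin 1167 7 910)))
(cons (mv 848 (cons (fin 912 6 847)
(mv 1166 (cons (fin 1102 5 910)
(mv 1167 (cons (fin 1230 5 974)
(mv 1231 (cons (fin 976 6 975)
(fin 1295 6 1039)))))))))
(mv 848 (cons (fin 912 6 847)
(mv 910 (cons (fin 846 7 846)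
(mv 1102 (cons (fin 1166 5 910)
(mv 1101 (cons (fin 1100 2 1036)
(mv 1037 (cons (fin 1036 3 1036)
(fin 1165 6 909))))))))))))))))
(mv 911 (cons (fin 847 4 847)
(mv 1168 (cons (fin 1232 7 975)
(fin 1103 4 911))))))))))))
(cons (mv 972 (cons (fin 973 0 972)
(mv 910 (cons (cons (mv 846 (cons (fin 782 4 782)
(mv 1103 (cons (fin 911 7 846)
(fin 1167 7 910)))))
(mv 846 (cons (fin 782 4 782)
(mv 1038 (cons (cons (mv 781 (cons (fin 845 7 781)
(mv 783 (cons (fin 847 6 782)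
(mv 1037 (cons (fin 1101 5 845)
(mv 1036 (cons (fin 971 3 971)
(fin 1035 2 971)))))))))
(mv 781 (cons (fin 845 7 781)
(mv 1037 (cons (fin 1101 5 845)
(mv 1036 (cons (fin 971 3 971)
(fin 1035 2 971))))))))
(cons (mv 781 (cons (fin 845 7 781)
(mv 847 (cons (fin 783 6 782)
(mv 911 (cons (fin 1102 5 846)
(fin 1104 4 847)))))))
(mv 783 (cons (fin 847 6 782)
(mv 1037 (cons (fin 1101 5 845)
(mv 1036 (cons (fin 971 3 971)
(fin 1035 2 971)))))))))))))
(cons (mv 1103 (cons (fin 1167 7 910)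
(mv 911 (cons (mv 1104 (cons (fin 847 4 847)
(fin 1168 4 911)))
(cons (mv 848 (cons (fin 912 6 847)
(mv 784 (cons (fin 847 6 783)
(mv 1102 (cons (fin 1166 5 910)
(mv 1101 (cons (fin 1100 2 1036)
(mv 1038 (cons (fin 1165 5 909)
(mv 909 (cons (fin 845 7 845)
(mv 908 (cons (fin 971 1 907)
(fin 907 0 907)))))))))))))))
(mv 848 (cons (fin 912 6 847)
(mv 1102 (cons (fin 1166 5 910)
(mv 1101 (cons (fin 1100 2 1036)
(mv 1038 (cons (fin 1165 5 909)
(mv 845 (cons (fin 909 7 845)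
(mv 1104 (cons (fin 1168 4 911)
(mv 1037 (cons (fin 1036 3 1036)
(fin 1105 3 1037))))))))))))))))))))
(mv 846 (cons (fin 782 4 782)
(mv 1103 (cons (fin 1167 7 910)
(fin 1038 4 846))))))))))
(cons (mv 972 (cons (fin 973 0 972)
(mv 910 (cons (cons (mv 846 (cons (fin 782 4 782)
(mv 1103 (cons (fin 911 7 846)
(fin 1167 7 910)))))
(mv 846 (cons (fin 782 4 782)
(mv 847 (cons (cons (mv 783 (cons (fin 1038 6 782)
(mv 719 (cons (fin 655 5 654)
(fin 911 5 718)))))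
(mv 1038 (cons (fin 783 6 782)
(mv 845 (cons (fin 781 7 781)
(mv 909 (cons (fin 1102 7 845)
(mv 848 (cons (fin 908 1 844)
(fin 849 1 845))))))))))
(cons (mv 911 (cons (fin 1104 4 847)
(mv 783 (cons (fin 719 5 718)
(fin 976 4 783)))))
(mv 911 (cons (fin 1104 4 847)
(mv 784 (cons (fin 848 6 783)
(mv 1038 (cons (fin 1102 5 846)
(mv 845 (cons (fin 781 7 781)
(mv 844 (cons (fin 843 0 843)
(fin 912 0 844)))))))))))))))))
(cons (mv 1103 (cons (fin 1167 7 910)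
(mv 911 (cons (mv 1104 (cons (fin 847 4 847)
(fin 1168 4 911)))
(cons (mv 848 (cons (fin 912 6 847)
(mv 784 (cons (fin 847 6 783)
(mv 1102 (cons (fin 1166 5 910)
(mv 1101 (cons (fin 1100 2 1036)
(mv 1038 (cons (fin 1165 5 909)
(mv 909 (cons (fin 845 7 845)
(mv 908 (cons (fin 971 1 907)
(fin 907 0 907)))))))))))))))
(mv 848 (cons (fin 912 6 847)
(mv 1102 (cons (fin 1166 5 910)
(mv 1101 (cons (fin 1100 2 1036)
(mv 1038 (cons (fin 1165 5 909)
(mv 909 (cons (fin 845 7 845)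
(mv 908 (cons (fin 971 1 907)
(fin 907 0 907))))))))))))))))))
(mv 846 (cons (fin 782 4 782)
(mv 1103 (cons (fin 1167 7 910)
(fin 1038 4 846))))))))))
(mv 973 (cons (fin 972 0 972)
(mv 976 (cons (cons (mv 908 (cons (fin 909 3 908)
(mv 1037 (cons (fin 1036 1 972)
(mv 977 (cons (fin 1038 1 973)
(mv 978 (cons (fin 979 1 975)
(mv 911 (cons (fin 910 3 910)
(mv 847 (cons (fin 783 4 783)
(fin 1104 4 847)))))))))))))
(cons (mv 909 (cons (fin 908 3 908)
(mv 910 (cons (fin 977 3 909)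
(mv 846 (cons (fin 782 4 782)
(mv 1103 (cons (fin 911 7 846)
(fin 1167 7 910)))))))))
(mv 1037 (cons (fin 1036 1 972)
(mv 977 (cons (fin 1038 1 973)
(mv 978 (cons (fin 979 1 975)
(mv 911 (cons (fin 910 3 910)
(mv 847 (cons (fin 783 4 783)
(fin 1104 4 847)))))))))))))
(cons (mv 908 (cons (fin 909 3 908)
(mv 1037 (cons (fin 1036 1 972)
(mv 1104 (cons (mv 911 (cons (fin 1168 7 911)
(fin 847 4 847)))
(cons (mv 1038 (cons (fin 1105 0 1037)
(mv 1168 (cons (fin 1232 7 975)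
(mv 1167 (cons (fin 1231 5 975)
(mv 1103 (cons (fin 910 7 910)
(fin 912 5 911)))))))))
(mv 847 (cons (fin 911 4 847)
(mv 1105 (cons (fin 1038 0 1037)
(mv 912 (cons (fin 1169 4 912)
(mv 848 (cons (fin 783 7 783)
(fin 784 5 783))))))))))))))))
(cons (mv 908 (cons (fin 909 3 908)
(mv 1037 (cons (fin 1036 1 972)
(mv 1038 (cons (fin 977 1 973)
(mv 1104 (cons (fin 1105 0 1037)
(mv 1168 (cons (fin 1232 7 975)
(mv 1167 (cons (fin 1231 5 975)
(mv 1103 (cons (fin 910 7 910)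
(fin 912 5 911)))))))))))))))
(mv 908 (cons (fin 909 3 908)
(mv 1037 (cons (fin 1036 1 972)
(mv 1038 (cons (fin 977 1 973)
(mv 1104 (cons (fin 1105 0 1037)
(mv 911 (cons (fin 1168 7 911)
(fin 847 4 847))))))))))))))))))))))
(mv 1038 (cons (cons (mv 973 (cons (fin 1041 3 973)
(mv 972 (cons (fin 1037 3 972)
(fin 971 0 971)))))
(mv 1037 (cons (cons (mv 972 (cons (fin 973 3 972)
(mv 971 (cons (fin 1036 3 971)
(mv 976 (cons (fin 977 2 973)
(mv 1101 (cons (fin 1100 1 1036)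
(mv 910 (cons (fin 846 5 845)
(mv 1165 (cons (fin 1102 5 909)
(fin 1229 6 973)))))))))))))
(mv 972 (cons (fin 973 3 972)
(mv 976 (cons (fin 977 2 973)
(mv 1036 (cons (fin 971 3 971)
(mv 1104 (cons (fin 1103 0 1036)
(fin 1105 0 1037))))))))))
(cons (mv 976 (cons (fin 977 2 973)
(mv 1100 (cons (fin 1101 1 1036)
(mv 1036 (cons (fin 1099 1 1035)
(mv 1104 (cons (fin 1103 0 1036)
(fin 1105 0 1037)))))))))
(cons (mv 972 (cons (fin 973 3 972)
(mv 971 (cons (fin 1036 3 971)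
(mv 1101 (cons (fin 1100 1 1036)
(mv 910 (cons (fin 846 5 845)
(mv 1165 (cons (fin 1102 5 909)
(fin 1229 6 973)))))))))))
(mv 972 (cons (fin 973 3 972)
(mv 976 (cons (fin 977 2 973)
(mv 1101 (cons (fin 1100 1 1036)
(mv 910 (cons (fin 846 5 845)
(mv 1165 (cons (fin 1102 5 909)
(fin 1229 6 973))))))))))))))))
(cons (mv 1037 (cons (cons (mv 976 (cons (fin 977 2 973)
(mv 1100 (cons (fin 1101 1 1036)
(mv 1036 (cons (fin 1099 1 1035)
(mv 1104 (cons (fin 1103 0 1036)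
(fin 1105 0 1037)))))))))
(mv 976 (cons (fin 977 2 973)
(mv 1104 (cons (fin 1105 0 1037)
(mv 1036 (cons (fin 1103 0 1036)
(mv 971 (cons (fin 972 3 971)
(mv 1035 (cons (fin 970 3 970)
(mv 1099 (cons (fin 1098 1 1034)
(fin 1100 1 1035))))))))))))))
(cons (mv 976 (cons (fin 977 2 973)
(mv 1101 (cons (fin 1100 1 1036)
(mv 910 (cons (fin 846 5 845)
(mv 1102 (cons (fin 1041 1 1037)
(fin 1165 5 909)))))))))
(cons (mv 976 (cons (fin 977 2 973)
(mv 1104 (cons (fin 1105 0 1037)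
(mv 1103 (cons (fin 1036 0 1036)
(mv 912 (cons (fin 848 5 847)
(fin 1167 5 911)))))))))
(mv 1100 (cons (fin 1101 1 1036)
(mv 1036 (cons (fin 1099 1 1035)
(mv 1104 (cons (fin 1103 0 1036)
(fin 1105 0 1037)))))))))))
(mv 1041 (cons (fin 973 3 973)
(mv 977 (cons (fin 978 2 974)
(mv 1102 (cons (fin 1101 1 1037)
(mv 1042 (cons (fin 1103 1 1038)
(mv 1106 (cons (fin 1105 0 1038)
(fin 1107 0 1039))))))))))))))))
(cons (cons (mv 1041 (cons (cons (cons (mv 1042 (cons (fin 975 3 974)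
(mv 978 (cons (fin 979 2 975)
(mv 977 (cons (fin 1038 2 974)
(mv 1102 (cons (fin 1103 1 1038)
(mv 1106 (cons (fin 1107 0 1039)
(mv 1170 (cons (fin 1234 7 977)
(mv 1169 (cons (fin 1233 5 977)
(mv 914 (cons (fin 1105 5 913)
(mv 850 (cons (fin 786 5 785)
(mv 851 (cons (fin 787 6 786)
(fin 915 6 850)))))))))))))))))))))
(mv 1038 (cons (cons (mv 977 (cons (fin 978 2 974)
(mv 976 (cons (fin 1037 2 973)
(mv 1101 (cons (fin 1102 1 1037)
(mv 1105 (cons (fin 1106 0 1038)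
(mv 912 (cons (fin 1169 7 912)
(fin 848 4 848)))))))))))
(mv 977 (cons (fin 978 2 974)
(mv 976 (cons (fin 1037 2 973)
(mv 1105 (cons (fin 1106 0 1038)
(mv 912 (cons (fin 1169 7 912)
(fin 848 4 848))))))))))
(cons (mv 977 (cons (fin 978 2 974)
(mv 1037 (cons (fin 976 2 973)
(mv 1101 (cons (fin 1100 1 1036)
(fin 1102 1 1037)))))))
(cons (mv 1101 (cons (fin 1102 1 1037)
(mv 1037 (cons (fin 1100 1 1036)
(mv 1105 (cons (fin 1104 0 1037)
(fin 1106 0 1038)))))))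
(mv 977 (cons (fin 978 2 974)
(mv 1102 (cons (fin 1101 1 1037)
(mv 1105 (cons (fin 1106 0 1038)
(mv 1166 (cons (mv 975 (cons (fin 911 6 910)
(fin 1230 6 974)))
(mv 1165 (cons (fin 1229 5 973)
(mv 1103 (cons (fin 1104 1 1101)
(mv 910 (cons (fin 846 4 846)
(fin 1167 4 910))))))))))))))))))))
(cons (mv 1038 (cons (cons (mv 977 (cons (fin 978 2 974)
(mv 976 (cons (fin 1037 2 973)
(mv 1101 (cons (fin 1102 1 1037)
(mv 1105 (cons (fin 1106 0 1038)
(mv 912 (cons (fin 1169 7 912)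
(fin 848 4 848)))))))))))
(mv 977 (cons (fin 978 2 974)
(mv 976 (cons (fin 1037 2 973)
(mv 1105 (cons (fin 1106 0 1038)
(mv 912 (cons (fin 1169 7 912)
(fin 848 4 848))))))))))
(cons (mv 977 (cons (fin 978 2 974)
(mv 976 (cons (fin 1037 2 973)
(mv 1102 (cons (fin 1101 1 1037)
(mv 1103 (cons (fin 1042 1 1038)
(mv 910 (cons (fin 846 4 846)
(fin 1167 4 910)))))))))))
(cons (mv 1101 (cons (fin 1102 1 1037)
(mv 1037 (cons (fin 1100 1 1036)
(mv 1105 (cons (fin 1104 0 1037)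
(fin 1106 0 1038)))))))
(mv 977 (cons (fin 978 2 974)
(mv 1102 (cons (fin 1101 1 1037)
(mv 1042 (cons (fin 1103 1 1038)
(mv 1106 (cons (fin 1105 0 1038)
(fin 1107 0 1039)))))))))))))
(mv 975 (cons (fin 1042 3 974)
(mv 1104 (cons (mv 911 (cons (fin 847 4 847)
(mv 1168 (cons (fin 976 7 911)
(fin 1232 7 975)))))
(cons (mv 911 (cons (fin 847 4 847)
(mv 1103 (cons (mv 910 (cons (fin 846 7 846)
(fin 1167 7 910)))
(mv 1102 (cons (fin 1101 2 1037)
(fin 1166 5 910)))))))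
(mv 1168 (cons (fin 1232 7 975)
(mv 976 (cons (cons (mv 1167 (cons (fin 1231 5 975)
(mv 1103 (cons (fin 910 7 910)
(fin 912 5 911)))))
(mv 1169 (cons (fin 1233 4 976)
(mv 912 (cons (fin 1105 4 912)
(mv 848 (cons (fin 784 5 783)
(fin 1103 5 847))))))))
(cons (mv 1167 (cons (fin 1231 5 975)
(mv 1169 (cons (fin 1233 4 976)
(mv 1105 (cons (fin 912 4 912)
(mv 1106 (cons (fin 1107 3 1039)
(fin 1166 2 1102)))))))))
(mv 1167 (cons (fin 1231 5 975)
(mv 910 (cons (fin 1103 7 910)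
(mv 782 (cons (fin 846 4 782)
(mv 977 (cons (fin 909 3 909)
(mv 978 (cons (fin 979 1 975)
(mv 914 (cons (fin 915 2 911)
(mv 1169 (cons (fin 1105 6 913)
(fin 1233 4 976)))))))))))))))))))))))))))
(cons (cons (mv 975 (cons (fin 1042 3 974)
(mv 1038 (cons (cons (mv 977 (cons (fin 978 2 974)
(mv 976 (cons (fin 1037 1 973)
(mv 909 (cons (fin 910 3 909)
(mv 1105 (cons (fin 1106 0 1038)
(mv 912 (cons (fin 1169 7 912)
(fin 848 4 848)))))))))))
(mv 1105 (cons (fin 1106 0 1038)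
(mv 1037 (cons (fin 1104 0 1037)
(mv 1036 (cons (fin 1035 2 971)
(fin 976 2 972))))))))
(cons (mv 977 (cons (fin 978 2 974)
(mv 976 (cons (fin 1037 1 973)
(mv 910 (cons (fin 909 3 909)
(mv 846 (cons (fin 782 4 782)
(fin 1103 4 846)))))))))
(cons (mv 977 (cons (fin 978 2 974)
(mv 1105 (cons (fin 1106 0 1038)
(mv 976 (cons (mv 912 (cons (fin 1169 7 912)
(fin 848 4 848)))
(cons (mv 909 (cons (fin 910 3 909)
(mv 1169 (cons (fin 1233 7 976)
(mv 1168 (cons (fin 1232 5 976)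
(mv 1104 (cons (fin 911 7 911)
(mv 1167 (cons (fin 1231 5 975)
(mv 1165 (cons (fin 1166 2 1101)
(mv 1170 (cons (fin 1234 4 977)
(mv 1171 (cons (fin 1103 3 1103)
(fin 1172 3 1104)))))))))))))))))
(mv 848 (cons (fin 912 4 848)
(mv 910 (cons (fin 909 3 909)
(mv 846 (cons (fin 782 4 782)
(fin 1103 4 846))))))))))))))
(mv 977 (cons (fin 978 2 974)
(mv 1105 (cons (fin 1106 0 1038)
(mv 1037 (cons (fin 1104 0 1037)
(mv 1036 (cons (fin 1035 2 971)
(mv 1100 (cons (fin 1099 1 1035)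
(fin 1101 1 1036)))))))))))))))))
(mv 1042 (cons (fin 975 3 974)
(mv 1102 (cons (fin 1103 1 1038)
(mv 1038 (cons (fin 1101 1 1037)
(mv 1106 (cons (fin 1105 0 1038)
(fin 1107 0 1039))))))))))
(cons (mv 1042 (cons (fin 975 3 974)
(mv 978 (cons (fin 979 2 975)
(mv 1038 (cons (fin 977 2 974)
(mv 1102 (cons (fin 1101 1 1037)
(fin 1103 1 1038)))))))))
(mv 1042 (cons (fin 975 3 974)
(mv 978 (cons (fin 979 2 975)
(mv 977 (cons (fin 1038 2 974)
(mv 1106 (cons (fin 1107 0 1039)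
(mv 1170 (cons (fin 1234 7 977)
(mv 1169 (cons (fin 1233 5 977)
(mv 914 (cons (fin 1105 5 913)
(mv 850 (cons (fin 786 5 785)
(mv 851 (cons (fin 787 6 786)
(fin 915 6 850)))))))))))))))))))))))
(mv 975 (cons (cons (mv 973 (cons (fin 972 0 972)
(mv 1041 (cons (fin 1042 3 974)
(fin 976 0 973)))))
(mv 1041 (cons (fin 1042 3 974)
(mv 1104 (cons (mv 911 (cons (fin 847 4 847)
(mv 1168 (cons (fin 976 7 911)
(fin 1232 7 975)))))
(cons (mv 911 (cons (fin 847 4 847)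
(mv 1103 (cons (mv 910 (cons (fin 846 7 846)
(fin 1167 7 910)))
(mv 1102 (cons (fin 1101 2 1037)
(fin 1166 5 910)))))))
(mv 1168 (cons (fin 1232 7 975)
(mv 976 (cons (cons (mv 1167 (cons (fin 1231 5 975)
(mv 1103 (cons (fin 910 7 910)
(fin 912 5 911)))))
(mv 1169 (cons (fin 1233 4 976)
(mv 912 (cons (fin 1105 4 912)
(mv 848 (cons (fin 784 5 783)
(fin 1103 5 847))))))))
(cons (mv 1167 (cons (fin 1231 5 975)
(mv 1169 (cons (fin 1233 4 976)
(mv 1105 (cons (fin 912 4 912)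
(mv 1106 (cons (fin 1107 3 1039)
(fin 1166 2 1102)))))))))
(mv 1167 (cons (fin 1231 5 975)
(mv 910 (cons (fin 1103 7 910)
(mv 782 (cons (fin 846 4 782)
(mv 977 (cons (fin 909 3 909)
(mv 978 (cons (fin 979 1 975)
(mv 914 (cons (fin 915 2 911)
(mv 1169 (cons (fin 1105 6 913)
(fin 1233 4 976))))))))))))))))))))))))))
(cons (mv 973 (cons (fin 972 0 972)
(mv 1104 (cons (cons (mv 911 (cons (fin 847 4 847)
(mv 1168 (cons (fin 976 7 911)
(fin 1232 7 975)))))
(mv 1168 (cons (fin 1232 7 975)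
(mv 976 (cons (cons (mv 908 (cons (fin 909 3 908)
(mv 1036 (cons (fin 1037 1 972)
(mv 1167 (cons (fin 1231 5 975)
(mv 1103 (cons (fin 910 7 910)
(fin 912 5 911)))))))))
(cons (mv 908 (cons (fin 909 3 908)
(mv 1036 (cons (fin 1037 1 972)
(mv 1169 (cons (fin 1233 4 976)
(mv 912 (cons (fin 1105 4 912)
(mv 848 (cons (fin 784 5 783)
(fin 1103 5 847)))))))))))
(mv 1036 (cons (fin 1037 1 972)
(mv 1167 (cons (fin 1231 5 975)
(mv 1103 (cons (fin 910 7 910)
(fin 912 5 911)))))))))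
(cons (mv 908 (cons (fin 909 3 908)
(mv 1167 (cons (fin 1231 5 975)
(mv 1103 (cons (fin 910 7 910)
(fin 912 5 911)))))))
(cons (mv 908 (cons (fin 909 3 908)
(mv 1036 (cons (fin 1037 1 972)
(mv 1167 (cons (fin 1231 5 975)
(mv 1169 (cons (fin 1233 4 976)
(mv 1105 (cons (fin 912 4 912)
(mv 1106 (cons (fin 1107 3 1039)
(fin 1166 2 1102)))))))))))))
(mv 908 (cons (fin 909 3 908)
(mv 1036 (cons (fin 1037 1 972)
(mv 1167 (cons (fin 1231 5 975)
(mv 1103 (cons (fin 910 7 910)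
(mv 1166 (cons (fin 1230 5 974)
(mv 1105 (cons (fin 1106 1 1102)
(fin 1165 2 1101))))))))))))))))))))
(cons (mv 911 (cons (fin 847 4 847)
(mv 1103 (cons (mv 910 (cons (fin 846 7 846)
(fin 1167 7 910)))
(cons (mv 848 (cons (fin 912 6 847)
(mv 1166 (cons (fin 1102 5 910)
(mv 1167 (cons (fin 1230 5 974)
(mv 1231 (cons (fin 976 6 975)
(fin 1295 6 1039)))))))))
(mv 848 (cons (fin 912 6 847)
(mv 910 (cons (fin 846 7 846)
(mv 1102 (cons (fin 1166 5 910)
(mv 1101 (cons (fin 1100 2 1036)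
(mv 1037 (cons (fin 1036 3 1036)
(fin 1165 6 909))))))))))))))))
(mv 911 (cons (fin 847 4 847)
(mv 1168 (cons (fin 1232 7 975)
(fin 1103 4 911))))))))))
(mv 972 (cons (fin 973 0 972)
(mv 1041 (cons (fin 1042 3 974)
(mv 1103 (cons (cons (mv 910 (cons (fin 1167 7 910)
(mv 846 (cons (fin 911 7 846)
(fin 782 4 782)))))
(mv 911 (cons (mv 1104 (cons (fin 847 4 847)
(fin 1168 4 911)))
(cons (mv 846 (cons (fin 910 7 846)
(mv 847 (cons (fin 782 7 782)
(mv 848 (cons (fin 784 6 783)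
(fin 912 6 847)))))))
(mv 846 (cons (fin 910 7 846)
(mv 848 (cons (fin 912 6 847)
(mv 1102 (cons (fin 1166 5 910)
(mv 1101 (cons (fin 1100 2 1036)
(fin 1104 2 1037)))))))))))))
(cons (mv 1102 (cons (mv 1101 (cons (fin 1100 2 1036)
(fin 1104 2 1037)))
(cons (mv 911 (cons (fin 1166 5 910)
(mv 1104 (cons (fin 847 4 847)
(fin 1168 4 911)))))
(mv 1100 (cons (fin 1101 2 1036)
(mv 1166 (cons (fin 911 5 910)
(mv 1230 (cons (fin 1167 5 974)
(fin 1294 6 1038))))))))))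
(mv 1167 (cons (fin 910 7 910)
(mv 1166 (cons (fin 1230 5 974)
(mv 1232 (cons (fin 1168 4 975)
(mv 1231 (cons (fin 1296 4 1039)
(mv 1104 (cons (fin 1295 6 1039)
(mv 1102 (cons (fin 1101 2 1037)
(mv 1105 (cons (fin 1165 1 1101)
(fin 1106 1 1102))))))))))))))))))))))))))
(cons (mv 1041 (cons (cons (mv 973 (cons (fin 1038 3 973)
(mv 975 (cons (fin 1042 3 974)
(fin 972 0 972)))))
(mv 975 (cons (fin 1042 3 974)
(mv 973 (cons (fin 972 0 972)
(fin 976 0 973))))))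
(cons (mv 1038 (cons (fin 973 3 973)
(mv 977 (cons (fin 978 2 974)
(mv 976 (cons (fin 1037 2 973)
(mv 1101 (cons (fin 1102 1 1037)
(mv 1105 (cons (fin 1106 0 1038)
(mv 912 (cons (fin 1169 7 912)
(fin 848 4 848)))))))))))))
(mv 1042 (cons (fin 975 3 974)
(mv 978 (cons (fin 979 2 975)
(mv 977 (cons (fin 1038 2 974)
(mv 1106 (cons (fin 1107 0 1039)
(mv 1170 (cons (fin 1234 7 977)
(mv 1169 (cons (fin 1233 5 977)
(mv 914 (cons (fin 1105 5 913)
(mv 850 (cons (fin 786 5 785)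
(mv 851 (cons (fin 787 6 786)
(fin 915 6 850))))))))))))))))))))))
(mv 1041 (cons (cons (mv 973 (cons (fin 1038 3 973)
(mv 975 (cons (fin 1042 3 974)
(fin 972 0 972)))))
(mv 975 (cons (fin 1042 3 974)
(mv 972 (cons (fin 973 0 972)
(mv 1103 (cons (cons (mv 910 (cons (fin 1167 7 910)
(mv 846 (cons (fin 911 7 846)
(fin 782 4 782)))))
(mv 911 (cons (mv 1104 (cons (fin 847 4 847)
(fin 1168 4 911)))
(cons (mv 846 (cons (fin 910 7 846)
(mv 847 (cons (fin 782 7 782)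
(mv 848 (cons (fin 784 6 783)
(fin 912 6 847)))))))
(mv 846 (cons (fin 910 7 846)
(mv 848 (cons (fin 912 6 847)
(mv 1102 (cons (fin 1166 5 910)
(mv 1101 (cons (fin 1100 2 1036)
(fin 1104 2 1037)))))))))))))
(cons (mv 1102 (cons (mv 1101 (cons (fin 1100 2 1036)
(fin 1104 2 1037)))
(cons (mv 911 (cons (fin 1166 5 910)
(mv 1104 (cons (fin 847 4 847)
(fin 1168 4 911)))))
(mv 1100 (cons (fin 1101 2 1036)
(mv 1166 (cons (fin 911 5 910)
(mv 1230 (cons (fin 1167 5 974)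
(fin 1294 6 1038))))))))))
(mv 1167 (cons (fin 910 7 910)
(mv 1166 (cons (fin 1230 5 974)
(mv 1232 (cons (fin 1168 4 975)
(mv 1231 (cons (fin 1296 4 1039)
(mv 1104 (cons (fin 1295 6 1039)
(mv 1102 (cons (fin 1101 2 1037)
(mv 1105 (cons (fin 1165 1 1101)
(fin 1106 1 1102)))))))))))))))))))))))
(cons (mv 1038 (cons (fin 973 3 973)
(mv 977 (cons (fin 978 2 974)
(mv 1101 (cons (fin 1102 1 1037)
(mv 1037 (cons (fin 1100 1 1036)
(mv 1105 (cons (fin 1104 0 1037)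
(fin 1106 0 1038)))))))))))
(mv 1042 (cons (fin 975 3 974)
(mv 978 (cons (fin 979 2 975)
(mv 977 (cons (fin 1038 2 974)
(mv 1102 (cons (fin 1103 1 1038)
(mv 1106 (cons (fin 1107 0 1039)
(mv 1170 (cons (fin 1234 7 977)
(mv 1169 (cons (fin 1233 5 977)
(mv 914 (cons (fin 1105 5 913)
(mv 850 (cons (fin 786 5 785)
(mv 851 (cons (fin 787 6 786)
(fin 915 6 850)))))))))))))))))))))))))))
(cons (cons (mv 1041 (cons (cons (mv 973 (cons (fin 1038 3 973)
(mv 975 (cons (fin 1042 3 974)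
(fin 972 0 972)))))
(mv 975 (cons (fin 1042 3 974)
(mv 973 (cons (fin 972 0 972)
(fin 976 0 973))))))
(cons (mv 973 (cons (fin 1038 3 973)
(mv 975 (cons (fin 972 0 972)
(fin 976 0 973)))))
(cons (mv 1038 (cons (fin 973 3 973)
(mv 977 (cons (fin 978 2 974)
(mv 1102 (cons (fin 1101 1 1037)
(mv 1042 (cons (fin 1103 1 1038)
(mv 1106 (cons (fin 1105 0 1038)
(fin 1107 0 1039)))))))))))
(mv 975 (cons (fin 1042 3 974)
(mv 1038 (cons (cons (mv 977 (cons (fin 978 2 974)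
(mv 1102 (cons (fin 1101 1 1037)
(mv 911 (cons (fin 847 5 846)
(fin 1166 6 910)))))))
(mv 977 (cons (fin 978 2 974)
(mv 1105 (cons (fin 1106 0 1038)
(mv 976 (cons (mv 912 (cons (fin 1169 7 912)
(fin 848 4 848)))
(cons (mv 909 (cons (fin 910 3 909)
(mv 1169 (cons (fin 1233 7 976)
(mv 1168 (cons (fin 1232 5 976)
(mv 1104 (cons (fin 911 7 911)
(mv 1167 (cons (fin 1231 5 975)
(mv 1165 (cons (fin 1166 2 1101)
(mv 1170 (cons (fin 1234 4 977)
(mv 1171 (cons (fin 1103 3 1103)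
(fin 1172 3 1104)))))))))))))))))
(mv 848 (cons (fin 912 4 848)
(mv 910 (cons (fin 909 3 909)
(mv 846 (cons (fin 782 4 782)
(fin 1103 4 846)))))))))))))))
(cons (mv 1102 (cons (fin 1101 1 1037)
(mv 911 (cons (fin 847 5 846)
(fin 1166 6 910)))))
(cons (mv 977 (cons (fin 978 2 974)
(mv 1102 (cons (fin 1101 1 1037)
(mv 1105 (cons (fin 1106 0 1038)
(mv 1166 (cons (fin 1230 6 974)
(mv 1165 (cons (fin 1229 5 973)
(mv 1103 (cons (fin 1104 1 1101)
(mv 910 (cons (fin 1167 7 910)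
(fin 846 4 846)))))))))))))))
(mv 977 (cons (fin 978 2 974)
(mv 1101 (cons (fin 1102 1 1037)
(mv 1105 (cons (fin 1106 0 1038)
(mv 976 (cons (mv 912 (cons (fin 1169 7 912)
(fin 848 4 848)))
(cons (mv 909 (cons (fin 910 3 909)
(mv 1169 (cons (fin 1233 7 976)
(mv 1168 (cons (fin 1232 5 976)
(mv 1104 (cons (fin 911 7 911)
(mv 1167 (cons (fin 1231 5 975)
(mv 1170 (cons (fin 1234 4 977)
(mv 1171 (cons (fin 1103 3 1103)
(fin 1172 3 1104)))))))))))))))
(mv 848 (cons (fin 912 4 848)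
(mv 910 (cons (fin 909 3 909)
(mv 846 (cons (fin 782 4 782)
(fin 1103 4 846))))))))))))))))))))))))))
(cons (mv 975 (cons (cons (mv 973 (cons (fin 972 0 972)
(mv 1041 (cons (fin 1038 3 973)
(fin 1042 3 974)))))
(mv 1041 (cons (fin 1042 3 974)
(mv 1038 (cons (cons (mv 977 (cons (fin 978 2 974)
(mv 976 (cons (fin 1037 1 973)
(mv 909 (cons (fin 910 3 909)
(mv 1105 (cons (fin 1106 0 1038)
(mv 912 (cons (fin 1169 7 912)
(fin 848 4 848)))))))))))
(mv 1105 (cons (fin 1106 0 1038)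
(mv 1037 (cons (fin 1104 0 1037)
(mv 1036 (cons (fin 1035 2 971)
(fin 976 2 972))))))))
(cons (mv 977 (cons (fin 978 2 974)
(mv 976 (cons (fin 1037 1 973)
(mv 910 (cons (fin 909 3 909)
(mv 846 (cons (fin 782 4 782)
(fin 1103 4 846)))))))))
(cons (mv 977 (cons (fin 978 2 974)
(mv 1105 (cons (fin 1106 0 1038)
(mv 976 (cons (mv 912 (cons (fin 1169 7 912)
(fin 848 4 848)))
(cons (mv 909 (cons (fin 910 3 909)
(mv 1169 (cons (fin 1233 7 976)
(mv 1168 (cons (fin 1232 5 976)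
(mv 1104 (cons (fin 911 7 911)
(mv 1167 (cons (fin 1231 5 975)
(mv 1165 (cons (fin 1166 2 1101)
(mv 1170 (cons (fin 1234 4 977)
(mv 1171 (cons (fin 1103 3 1103)
(fin 1172 3 1104)))))))))))))))))
(mv 848 (cons (fin 912 4 848)
(mv 910 (cons (fin 909 3 909)
(mv 846 (cons (fin 782 4 782)
(fin 1103 4 846))))))))))))))
(mv 977 (cons (fin 978 2 974)
(mv 1105 (cons (fin 1106 0 1038)
(mv 1037 (cons (fin 1104 0 1037)
(mv 1036 (cons (fin 1035 2 971)
(mv 1100 (cons (fin 1099 1 1035)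
(fin 1101 1 1036))))))))))))))))))
(cons (mv 973 (cons (fin 972 0 972)
(mv 976 (cons (cons (mv 908 (cons (fin 909 3 908)
(mv 1037 (cons (fin 1036 1 972)
(mv 977 (cons (fin 1038 1 973)
(mv 978 (cons (fin 979 1 975)
(mv 911 (cons (fin 910 3 910)
(mv 847 (cons (fin 783 4 783)
(fin 1104 4 847)))))))))))))
(cons (mv 909 (cons (fin 908 3 908)
(mv 910 (cons (fin 977 3 909)
(mv 846 (cons (fin 782 4 782)
(mv 1103 (cons (fin 911 7 846)
(fin 1167 7 910)))))))))
(mv 1037 (cons (fin 1036 1 972)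
(mv 977 (cons (fin 1038 1 973)
(mv 978 (cons (fin 979 1 975)
(mv 911 (cons (fin 910 3 910)
(mv 847 (cons (fin 783 4 783)
(fin 1104 4 847)))))))))))))
(cons (mv 908 (cons (fin 909 3 908)
(mv 1037 (cons (fin 1036 1 972)
(mv 1104 (cons (mv 911 (cons (fin 1168 7 911)
(fin 847 4 847)))
(cons (mv 1038 (cons (fin 1105 0 1037)
(mv 1100 (cons (fin 1101 1 1036)
(mv 1168 (cons (fin 1232 7 975)
(mv 1167 (cons (fin 1231 5 975)
(mv 1103 (cons (fin 910 7 910)
(fin 912 5 911)))))))))))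
(mv 847 (cons (fin 911 4 847)
(mv 1038 (cons (fin 1105 0 1037)
(mv 1101 (cons (fin 1100 1 1036)
(mv 910 (cons (fin 846 5 845)
(fin 1165 6 909))))))))))))))))
(cons (mv 908 (cons (fin 909 3 908)
(mv 1037 (cons (fin 1036 1 972)
(mv 1038 (cons (fin 977 1 973)
(mv 1100 (cons (fin 1101 1 1036)
(mv 1104 (cons (fin 1105 0 1037)
(mv 1168 (cons (fin 1232 7 975)
(mv 1167 (cons (fin 1231 5 975)
(mv 1103 (cons (fin 910 7 910)
(fin 912 5 911)))))))))))))))))
(mv 908 (cons (fin 909 3 908)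
(mv 1037 (cons (fin 1036 1 972)
(mv 1038 (cons (fin 977 1 973)
(mv 1100 (cons (fin 1101 1 1036)
(mv 1104 (cons (fin 1105 0 1037)
(mv 911 (cons (fin 1168 7 911)
(fin 847 4 847)))))))))))))))))))
(mv 973 (cons (fin 972 0 972)
(mv 1041 (cons (fin 1042 3 974)
(fin 976 0 973))))))))
(mv 1041 (cons (cons (mv 973 (cons (fin 1038 3 973)
(mv 975 (cons (fin 1042 3 974)
(fin 972 0 972)))))
(mv 973 (cons (fin 1038 3 973)
(mv 975 (cons (fin 972 0 972)
(fin 976 0 973))))))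
(cons (mv 975 (cons (fin 1042 3 974)
(mv 973 (cons (fin 972 0 972)
(fin 976 0 973)))))
(cons (mv 1038 (cons (fin 973 3 973)
(mv 977 (cons (fin 978 2 974)
(mv 976 (cons (fin 1037 2 973)
(mv 1105 (cons (fin 1106 0 1038)
(mv 912 (cons (fin 1169 7 912)
(fin 848 4 848)))))))))))
(mv 1042 (cons (fin 975 3 974)
(mv 978 (cons (fin 979 2 975)
(mv 977 (cons (fin 1038 2 974)
(mv 1102 (cons (fin 1103 1 1038)
(mv 1106 (cons (fin 1107 0 1039)
(mv 1170 (cons (fin 1234 7 977)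
(mv 1169 (cons (fin 1233 5 977)
(mv 914 (cons (fin 1105 5 913)
(mv 850 (cons (fin 786 5 785)
(mv 851 (cons (fin 787 6 786)
(fin 915 6 850)))))))))))))))))))))))))))
(cons (cons (mv 1041 (cons (cons (mv 973 (cons (fin 1038 3 973)
(mv 975 (cons (fin 1042 3 974)
(fin 972 0 972)))))
(mv 973 (cons (fin 1038 3 973)
(mv 975 (cons (fin 972 0 972)
(fin 976 0 973))))))
(cons (mv 975 (cons (fin 1042 3 974)
(mv 973 (cons (fin 972 0 972)
(fin 976 0 973)))))
(cons (mv 1038 (cons (fin 973 3 973)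
(mv 977 (cons (fin 978 2 974)
(mv 976 (cons (fin 1037 2 973)
(mv 1102 (cons (fin 1101 1 1037)
(mv 1103 (cons (fin 1042 1 1038)
(mv 910 (cons (fin 846 4 846)
(fin 1167 4 910)))))))))))))
(mv 1042 (cons (fin 975 3 974)
(mv 978 (cons (fin 979 2 975)
(mv 977 (cons (fin 1038 2 974)
(mv 1103 (cons (fin 1102 1 1038)
(mv 1106 (cons (fin 1107 0 1039)
(mv 1170 (cons (fin 1234 7 977)
(mv 1169 (cons (fin 1233 5 977)
(mv 1171 (cons (fin 1235 4 978)
(mv 1168 (cons (fin 1104 3 1103)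
(mv 1231 (cons (fin 1232 1 1167)
(mv 1167 (cons (fin 1230 1 1166)
(fin 976 6 975)))))))))))))))))))))))))))
(mv 1041 (cons (cons (mv 973 (cons (fin 1038 3 973)
(mv 975 (cons (fin 1042 3 974)
(fin 972 0 972)))))
(mv 973 (cons (fin 1038 3 973)
(mv 975 (cons (fin 972 0 972)
(fin 976 0 973))))))
(cons (mv 975 (cons (fin 1042 3 974)
(mv 973 (cons (fin 972 0 972)
(fin 976 0 973)))))
(cons (mv 1038 (cons (fin 973 3 973)
(mv 1101 (cons (fin 1102 1 1037)
(mv 1037 (cons (fin 1100 1 1036)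
(mv 1105 (cons (fin 1104 0 1037)
(fin 1106 0 1038)))))))))
(mv 1042 (cons (fin 975 3 974)
(mv 978 (cons (fin 979 2 975)
(mv 1102 (cons (fin 1103 1 1038)
(mv 1038 (cons (fin 1101 1 1037)
(mv 1106 (cons (fin 1105 0 1038)
(fin 1107 0 1039))))))))))))))))
(cons (mv 975 (cons (cons (mv 973 (cons (fin 972 0 972)
(mv 1041 (cons (fin 1038 3 973)
(fin 1042 3 974)))))
(mv 1041 (cons (fin 1042 3 974)
(mv 1038 (cons (cons (mv 977 (cons (fin 978 2 974)
(mv 976 (cons (fin 1037 1 973)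
(mv 909 (cons (fin 910 3 909)
(mv 1102 (cons (fin 1101 1 1037)
(mv 911 (cons (fin 847 5 846)
(fin 1166 6 910)))))))))))
(mv 977 (cons (fin 978 2 974)
(mv 976 (cons (fin 1037 1 973)
(mv 910 (cons (fin 909 3 909)
(mv 846 (cons (fin 782 4 782)
(fin 1103 4 846))))))))))
(cons (mv 1101 (cons (fin 1102 1 1037)
(mv 1037 (cons (fin 1100 1 1036)
(mv 1036 (cons (fin 1035 2 971)
(fin 976 2 972)))))))
(mv 977 (cons (fin 978 2 974)
(mv 1102 (cons (fin 1101 1 1037)
(mv 911 (cons (fin 847 5 846)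
(fin 1166 6 910)))))))))))))
(cons (mv 972 (cons (fin 973 0 972)
(mv 910 (cons (cons (mv 846 (cons (fin 782 4 782)
(mv 1103 (cons (fin 911 7 846)
(fin 1167 7 910)))))
(mv 846 (cons (fin 782 4 782)
(mv 1038 (cons (cons (mv 781 (cons (fin 845 7 781)
(mv 783 (cons (fin 847 6 782)
(mv 1037 (cons (fin 1101 5 845)
(mv 976 (cons (fin 977 1 973)
(fin 1036 2 972)))))))))
(mv 781 (cons (fin 845 7 781)
(mv 847 (cons (fin 783 6 782)
(mv 911 (cons (fin 1102 5 846)
(fin 1104 4 847))))))))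
(cons (mv 781 (cons (fin 845 7 781)
(mv 1037 (cons (fin 1101 5 845)
(mv 976 (cons (fin 977 1 973)
(fin 1036 2 972)))))))
(mv 783 (cons (fin 847 6 782)
(mv 1037 (cons (fin 1101 5 845)
(mv 976 (cons (fin 977 1 973)
(fin 1036 2 972)))))))))))))
(cons (mv 1103 (cons (fin 1167 7 910)
(mv 911 (cons (mv 1104 (cons (fin 847 4 847)
(fin 1168 4 911)))
(cons (mv 848 (cons (fin 912 6 847)
(mv 784 (cons (fin 847 6 783)
(mv 1102 (cons (fin 1166 5 910)
(mv 1101 (cons (fin 1100 2 1036)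
(mv 1038 (cons (fin 1165 5 909)
(mv 909 (cons (fin 845 7 845)
(mv 908 (cons (fin 971 1 907)
(fin 907 0 907)))))))))))))))
(mv 848 (cons (fin 912 6 847)
(mv 1102 (cons (fin 1166 5 910)
(mv 1101 (cons (fin 1100 2 1036)
(mv 1038 (cons (fin 1165 5 909)
(mv 845 (cons (fin 909 7 845)
(mv 1104 (cons (fin 1168 4 911)
(mv 1037 (cons (fin 1036 3 1036)
(fin 1105 3 1037))))))))))))))))))))
(mv 846 (cons (fin 782 4 782)
(mv 1103 (cons (fin 1167 7 910)
(fin 1038 4 846))))))))))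
(mv 973 (cons (fin 972 0 972)
(mv 1041 (cons (fin 1042 3 974)
(fin 976 0 973))))))))
(mv 975 (cons (cons (mv 973 (cons (fin 972 0 972)
(mv 1041 (cons (fin 1038 3 973)
(fin 1042 3 974)))))
(mv 1041 (cons (fin 1042 3 974)
(mv 1038 (cons (mv 1101 (cons (fin 1102 1 1037)
(mv 1037 (cons (fin 1100 1 1036)
(mv 976 (cons (fin 977 1 973)
(fin 1036 2 972)))))))
(cons (mv 1105 (cons (fin 1106 0 1038)
(mv 1037 (cons (fin 1104 0 1037)
(mv 976 (cons (fin 977 1 973)
(fin 1036 2 972)))))))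
(mv 1102 (cons (fin 1101 1 1037)
(mv 911 (cons (fin 847 5 846)
(fin 1166 6 910)))))))))))
(cons (mv 972 (cons (fin 973 0 972)
(mv 910 (cons (cons (mv 846 (cons (fin 782 4 782)
(mv 1103 (cons (fin 911 7 846)
(fin 1167 7 910)))))
(mv 846 (cons (fin 782 4 782)
(mv 1038 (cons (cons (mv 781 (cons (fin 845 7 781)
(mv 783 (cons (fin 847 6 782)
(mv 1037 (cons (fin 1101 5 845)
(mv 976 (cons (fin 977 1 973)
(fin 1036 2 972)))))))))
(mv 781 (cons (fin 845 7 781)
(mv 847 (cons (fin 783 6 782)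
(mv 911 (cons (fin 1102 5 846)
(fin 1104 4 847))))))))
(cons (mv 781 (cons (fin 845 7 781)
(mv 1037 (cons (fin 1101 5 845)
(mv 976 (cons (fin 977 1 973)
(fin 1036 2 972)))))))
(mv 783 (cons (fin 847 6 782)
(mv 1037 (cons (fin 1101 5 845)
(mv 976 (cons (fin 977 1 973)
(fin 1036 2 972)))))))))))))
(cons (mv 1103 (cons (fin 1167 7 910)
(mv 911 (cons (mv 1104 (cons (fin 847 4 847)
(fin 1168 4 911)))
(cons (mv 848 (cons (fin 912 6 847)
(mv 784 (cons (fin 847 6 783)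
(mv 1102 (cons (fin 1166 5 910)
(mv 1101 (cons (fin 1100 2 1036)
(mv 1038 (cons (fin 1165 5 909)
(mv 909 (cons (fin 845 7 845)
(mv 908 (cons (fin 971 1 907)
(fin 907 0 907)))))))))))))))
(mv 848 (cons (fin 912 6 847)
(mv 1102 (cons (fin 1166 5 910)
(mv 1101 (cons (fin 1100 2 1036)
(mv 1038 (cons (fin 1165 5 909)
(mv 845 (cons (fin 909 7 845)
(mv 1104 (cons (fin 1168 4 911)
(mv 1037 (cons (fin 1036 3 1036)
(fin 1105 3 1037))))))))))))))))))))
(mv 846 (cons (fin 782 4 782)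
(mv 1103 (cons (fin 1167 7 910)
(fin 1038 4 846))))))))))
(mv 973 (cons (fin 972 0 972)
(mv 1041 (cons (fin 1042 3 974)
(fin 976 0 973)))))))))))))
def l36 : Lem := ⟨11781361728633673533054441723117730079171283746239247440356909899588005244909514899260159721150817405942924420470662491174673842036557007391209044253460063708080530407354770956693342717623350878333880262063391977041189311657559161319740834448813323445848447489700891174053752382374267171085078592036680673850818560, 2387329855083341204989684722992855918715503886445202323202490430161079231288206885862318260954893445970943470767602836015926954739095793948174302628343545618274212129799335300094314223786945901875894916468950252937778903678000360560833426409421599801493764226493387565750364337912777792373171441347311101151368346174751261925264325741945271541330602584958093542844220060960918026734018756608, 2387329855083341204989684722992855918715503886445202323202490430161079231288206885862318260954893445970943470767602836015926954739095793948174302628343545618274212129799335300094314223786945901875894916468950252937778903678000360560833426409421599801493764226493387565750364337912777792373171441347311101151368346174751261925264325741945271541330602584958093542844220060960918026734018756608,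 17, 33⟩
theorem l36_valid : l36.Valid :=
  Lem.valid_of_chk t36 t36_valid [974, 1040] c36 l36 (by decide +kernel)
end Crest.Agent.SnakyAux
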