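import Crest.Agent.S0047_aux.Checker

set_option autoImplicit false
set_option maxRecDepth 100000
namespace Crest.Agent.SnakyAux
open Cert
def t37 : Tbl := Tbl.nil
theorem t37_valid : t37.Valid := Tbl.valid_nil
def c37 : Cert :=
(mv 1039 (cons (cons (cons (mv 1041 (cons (cons (mv 973 (cons (fin 1038 3 973)
(mv 975 (cons (fin 1042 3 974)
(fin 972 0 972)))))
(mv 975 (cons (fin 1042 3 974)
(mv 973 (cons (fin 972 0 972)
(fin 976 0 973))))))
(cons (mv 973 (cons (fin 1038 3 973)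
(mv 975 (cons (fin 972 0 972)
(fin 976 0 973)))))
(cons (mv 1038 (cons (fin 973 3 973)
(mv 977 (cons (fin 978 2 974)
(mv 976 (cons (fin 1037 2 973)
(mv 1101 (cons (fin 1102 1 1037)
(mv 1105 (cons (fin 1106 0 1038)
(mv 1169 (cons (fin 1233 7 976)
(mv 1168 (cons (fin 1232 5 976)
(mv 913 (cons (fin 1104 5 912)
(mv 849 (cons (fin 785 5 784)
(mv 850 (cons (fin 786 6 785)
(fin 914 6 849)))))))))))))))))))))
(mv 975 (cons (fin 1042 3 974)
(mv 1038 (cons (mv 977 (cons (fin 978 2 974)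
(mv 976 (cons (fin 1037 1 973)
(mv 909 (cons (fin 910 3 909)
(mv 913 (cons (fin 914 2 910)
(mv 849 (cons (fin 785 5 784)
(fin 1104 5 848)))))))))))
(cons (mv 1101 (cons (fin 1102 1 1037)
(mv 1037 (cons (fin 1100 1 1036)
(mv 1036 (cons (fin 1035 2 971)
(fin 976 2 972)))))))
(mv 977 (cons (fin 978 2 974)
(mv 1102 (cons (fin 1101 1 1037)
(mv 911 (cons (fin 847 5 846)
(fin 1166 6 910))))))))))))))))
(cons (mv 975 (cons (cons (cons (mv 972 (cons (fin 973 0 972)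
(mv 910 (cons (cons (mv 846 (cons (fin 782 4 782)
(mv 1103 (cons (fin 911 7 846)
(fin 1167 7 910)))))
(mv 846 (cons (fin 782 4 782)
(mv 1038 (cons (cons (mv 781 (cons (fin 845 7 781)
(mv 783 (cons (fin 847 6 782)
(mv 1037 (cons (fin 1101 5 845)
(mv 976 (cons (fin 977 1 973)
(fin 1036 2 972)))))))))
(mv 781 (cons (fin 845 7 781)
(mv 847 (cons (fin 783 6 782)
(mv 911 (cons (fin 1102 5 846)
(fin 1104 4 847))))))))
(cons (mv 781 (cons (fin 845 7 781)
(mv 1037 (cons (fin 1101 5 845)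
(mv 976 (cons (fin 977 1 973)
(fin 1036 2 972)))))))
(mv 783 (cons (fin 847 6 782)
(mv 1037 (cons (fin 1101 5 845)
(mv 976 (cons (fin 977 1 973)
(fin 1036 2 972)))))))))))))
(cons (mv 1103 (cons (fin 1167 7 910)
(mv 911 (cons (mv 1104 (cons (fin 847 4 847)
(fin 1168 4 911)))
(cons (mv 1102 (cons (fin 1166 5 910)
(mv 847 (cons (fin 1038 5 846)
(mv 783 (cons (fin 719 5 718)
(fin 976 4 783)))))))
(mv 1102 (cons (fin 1166 5 910)
(mv 1101 (cons (fin 1100 2 1036)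
(mv 1038 (cons (fin 1165 5 909)
(mv 845 (cons (fin 909 7 845)
(mv 1104 (cons (fin 1168 4 911)
(mv 1037 (cons (fin 1036 3 1036)
(fin 1105 3 1037))))))))))))))))))
(mv 846 (cons (fin 782 4 782)
(mv 1103 (cons (fin 1167 7 910)
(fin 1038 4 846))))))))))
(mv 910 (cons (cons (mv 846 (cons (fin 782 4 782)
(mv 1103 (cons (fin 911 7 846)
(fin 1167 7 910)))))
(mv 846 (cons (fin 782 4 782)
(mv 1038 (cons (cons (mv 781 (cons (fin 845 7 781)
(mv 783 (cons (fin 847 6 782)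
(mv 1037 (cons (fin 1101 5 845)
(mv 976 (cons (fin 977 1 973)
(fin 1036 2 972)))))))))
(mv 781 (cons (fin 845 7 781)
(mv 847 (cons (fin 783 6 782)
(mv 911 (cons (fin 1102 5 846)
(fin 1104 4 847))))))))
(cons (mv 781 (cons (fin 845 7 781)
(mv 1037 (cons (fin 1101 5 845)
(mv 976 (cons (fin 977 1 973)
(fin 1036 2 972)))))))
(mv 783 (cons (fin 847 6 782)
(mv 1037 (cons (fin 1101 5 845)
(mv 976 (cons (fin 977 1 973)
(fin 1036 2 972)))))))))))))
(cons (mv 1103 (cons (fin 1167 7 910)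
(mv 911 (cons (mv 1104 (cons (fin 847 4 847)
(fin 1168 4 911)))
(cons (mv 1102 (cons (fin 1166 5 910)
(mv 847 (cons (fin 1038 5 846)
(mv 783 (cons (fin 719 5 718)
(fin 976 4 783)))))))
(mv 1102 (cons (fin 1166 5 910)
(mv 1101 (cons (fin 1100 2 1036)
(mv 1038 (cons (fin 1165 5 909)
(mv 845 (cons (fin 909 7 845)
(mv 1104 (cons (fin 1168 4 911)
(mv 1037 (cons (fin 1036 3 1036)
(fin 1105 3 1037))))))))))))))))))
(mv 846 (cons (fin 782 4 782)
(mv 1103 (cons (fin 1167 7 910)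
(fin 1038 4 846)))))))))
(cons (mv 973 (cons (fin 972 0 972)
(mv 1103 (cons (cons (cons (mv 1167 (cons (mv 1231 (cons (fin 1038 7 974)
(fin 976 6 975)))
(mv 1166 (cons (fin 1230 5 974)
(mv 911 (cons (fin 1102 5 910)
(mv 1104 (cons (fin 847 4 847)
(fin 1168 4 911)))))))))
(mv 911 (cons (mv 1104 (cons (fin 847 4 847)
(fin 1168 4 911)))
(cons (mv 1102 (cons (fin 1166 5 910)
(mv 847 (cons (fin 1038 5 846)
(mv 782 (cons (fin 846 7 782)
(mv 783 (cons (fin 718 7 718)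
(fin 976 4 783)))))))))
(mv 1102 (cons (fin 1166 5 910)
(mv 1101 (cons (fin 1100 2 1036)
(mv 1104 (cons (fin 1168 4 911)
(mv 1037 (cons (fin 1036 3 1036)
(mv 1038 (cons (fin 1105 3 1037)
(mv 1165 (cons (fin 1164 1 1100)
(fin 1229 6 973)))))))))))))))))
(cons (mv 911 (cons (mv 1104 (cons (fin 847 4 847)
(fin 1168 4 911)))
(cons (mv 1102 (cons (fin 1166 5 910)
(mv 847 (cons (fin 1038 5 846)
(mv 782 (cons (fin 846 7 782)
(mv 783 (cons (fin 718 7 718)
(mv 784 (cons (fin 720 6 719)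
(fin 848 6 783)))))))))))
(mv 1102 (cons (fin 1166 5 910)
(mv 1101 (cons (fin 1100 2 1036)
(mv 1104 (cons (fin 1168 4 911)
(mv 1037 (cons (fin 1036 3 1036)
(mv 1038 (cons (fin 1105 3 1037)
(mv 1165 (cons (fin 1164 1 1100)
(fin 1229 6 973))))))))))))))))
(mv 1167 (cons (mv 1231 (cons (fin 1038 7 974)
(fin 976 6 975)))
(cons (mv 1166 (cons (fin 1230 5 974)
(mv 1102 (cons (fin 911 5 910)
(mv 909 (cons (fin 1038 7 909)
(mv 1101 (cons (fin 1100 2 1036)
(fin 1037 4 909)))))))))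
(mv 976 (cons (fin 1231 6 975)
(mv 908 (cons (fin 909 3 908)
(mv 1036 (cons (fin 1037 1 972)
(mv 1166 (cons (fin 1230 5 974)
(mv 1102 (cons (fin 911 5 910)
(mv 1101 (cons (fin 1100 2 1036)
(mv 1168 (cons (fin 1169 3 1101)
(fin 1232 4 975))))))))))))))))))))
(cons (cons (mv 976 (cons (cons (mv 908 (cons (fin 909 3 908)
(mv 1037 (cons (fin 1036 1 972)
(mv 977 (cons (fin 1038 1 973)
(mv 913 (cons (fin 914 2 910)
(mv 785 (cons (fin 849 5 784)
(mv 978 (cons (fin 979 1 975)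
(mv 1104 (cons (fin 1168 6 912)
(mv 1167 (cons (fin 1231 6 975)
(mv 1166 (cons (fin 1230 5 974)
(mv 1105 (cons (fin 1106 1 1102)
(mv 1165 (cons (fin 1102 1 1101)
(fin 1164 2 1100)))))))))))))))))))))))
(mv 909 (cons (fin 908 3 908)
(mv 1167 (cons (fin 1231 6 975)
(mv 1166 (cons (fin 1230 5 974)
(mv 1038 (cons (fin 1102 7 909)
(mv 781 (cons (fin 845 4 781)
(mv 977 (cons (fin 978 1 974)
(mv 913 (cons (fin 914 2 910)
(mv 1168 (cons (fin 1104 6 912)
(fin 1232 4 975))))))))))))))))))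
(cons (mv 908 (cons (fin 909 3 908)
(mv 1037 (cons (fin 1036 1 972)
(mv 977 (cons (fin 1038 1 973)
(mv 914 (cons (fin 913 2 910)
(mv 978 (cons (fin 979 1 975)
(fin 915 2 911)))))))))))
(cons (mv 1037 (cons (fin 1036 1 972)
(mv 977 (cons (fin 1038 1 973)
(mv 913 (cons (fin 914 2 910)
(mv 785 (cons (fin 849 5 784)
(mv 978 (cons (fin 979 1 975)
(mv 1104 (cons (fin 1168 6 912)
(mv 1167 (cons (fin 1231 6 975)
(mv 1166 (cons (fin 1230 5 974)
(mv 1105 (cons (fin 1106 1 1102)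
(mv 1165 (cons (fin 1102 1 1101)
(fin 1164 2 1100)))))))))))))))))))))
(mv 909 (cons (fin 908 3 908)
(mv 1037 (cons (fin 1036 1 972)
(mv 1167 (cons (fin 1231 6 975)
(mv 1166 (cons (fin 1230 5 974)
(mv 1101 (cons (fin 1102 4 909)
(mv 1100 (cons (fin 1164 5 908)
(mv 1168 (cons (fin 1165 3 1100)
(fin 1232 4 975)))))))))))))))))))
(mv 976 (cons (cons (mv 908 (cons (fin 909 3 908)
(mv 1036 (cons (fin 1037 1 972)
(mv 1167 (cons (fin 1231 6 975)
(mv 1166 (cons (fin 1230 5 974)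
(mv 911 (cons (fin 1102 5 910)
(mv 847 (cons (fin 783 4 783)
(fin 1104 4 847)))))))))))))
(mv 908 (cons (fin 909 3 908)
(mv 1167 (cons (fin 1231 6 975)
(mv 1166 (cons (fin 1230 5 974)
(mv 911 (cons (fin 1102 5 910)
(mv 847 (cons (fin 783 4 783)
(fin 1104 4 847))))))))))))
(cons (mv 908 (cons (fin 909 3 908)
(mv 1037 (cons (fin 1036 1 972)
(mv 977 (cons (fin 1038 1 973)
(mv 914 (cons (fin 913 2 910)
(mv 978 (cons (fin 979 1 975)
(fin 915 2 911)))))))))))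
(mv 1036 (cons (fin 1037 1 972)
(mv 1167 (cons (fin 1231 6 975)
(mv 1166 (cons (fin 1230 5 974)
(mv 911 (cons (fin 1102 5 910)
(mv 847 (cons (fin 783 4 783)
(fin 1104 4 847)))))))))))))))
(cons (mv 1167 (cons (mv 1231 (cons (fin 1038 7 974)
(fin 976 6 975)))
(mv 1166 (cons (fin 1230 5 974)
(mv 1168 (cons (fin 1232 4 975)
(mv 1104 (cons (fin 911 4 911)
(mv 1105 (cons (fin 1106 1 1102)
(fin 1165 2 1101)))))))))))
(cons (mv 976 (cons (cons (mv 908 (cons (fin 909 3 908)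
(mv 1036 (cons (fin 1037 1 972)
(mv 1167 (cons (fin 1231 6 975)
(mv 1168 (cons (fin 1232 4 975)
(mv 1104 (cons (fin 911 7 911)
(mv 913 (cons (fin 977 6 912)
(mv 1169 (cons (fin 1233 4 976)
(mv 1102 (cons (fin 1170 3 1102)
(fin 1101 0 1101)))))))))))))))))
(mv 908 (cons (fin 909 3 908)
(mv 1167 (cons (fin 1231 6 975)
(mv 1168 (cons (fin 1232 4 975)
(mv 1104 (cons (fin 911 7 911)
(mv 913 (cons (fin 977 6 912)
(mv 1169 (cons (fin 1233 4 976)
(mv 1102 (cons (fin 1170 3 1102)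
(fin 1101 0 1101))))))))))))))))
(cons (mv 908 (cons (fin 909 3 908)
(mv 1037 (cons (fin 1036 1 972)
(mv 977 (cons (fin 1038 1 973)
(mv 914 (cons (fin 913 2 910)
(mv 978 (cons (fin 979 1 975)
(fin 915 2 911)))))))))))
(cons (mv 1036 (cons (fin 1037 1 972)
(mv 1167 (cons (fin 1231 6 975)
(mv 1168 (cons (fin 1232 4 975)
(mv 1104 (cons (fin 911 7 911)
(mv 913 (cons (fin 977 6 912)
(mv 1169 (cons (fin 1233 4 976)
(mv 1102 (cons (fin 1170 3 1102)
(fin 1101 0 1101)))))))))))))))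
(mv 908 (cons (fin 909 3 908)
(mv 1036 (cons (fin 1037 1 972)
(mv 1167 (cons (fin 1231 6 975)
(mv 1168 (cons (fin 1232 4 975)
(mv 1104 (cons (fin 911 7 911)
(mv 1169 (cons (fin 1233 4 976)
(mv 1102 (cons (fin 1170 3 1102)
(fin 1101 0 1101)))))))))))))))))))
(mv 911 (cons (mv 1104 (cons (fin 847 4 847)
(fin 1168 4 911)))
(cons (mv 1166 (cons (fin 1102 5 910)
(mv 1167 (cons (fin 1230 5 974)
(mv 1231 (cons (fin 976 6 975)
(mv 1232 (cons (fin 1168 4 975)
(fin 1296 4 1039)))))))))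
(mv 847 (cons (fin 1104 4 847)
(mv 782 (cons (fin 846 7 782)
(mv 783 (cons (fin 718 7 718)
(fin 976 4 783)))))))))))))))))
(cons (mv 972 (cons (fin 973 0 972)
(mv 1103 (cons (cons (mv 910 (cons (fin 1167 7 910)
(mv 846 (cons (fin 911 7 846)
(fin 782 4 782)))))
(mv 911 (cons (cons (mv 846 (cons (fin 910 7 846)
(mv 847 (cons (fin 782 7 782)
(mv 783 (cons (fin 1038 5 782)
(fin 976 4 783)))))))
(mv 1102 (cons (fin 1166 5 910)
(mv 847 (cons (fin 1038 5 846)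
(mv 783 (cons (fin 976 4 783)
(mv 784 (cons (fin 720 6 719)
(fin 848 6 783))))))))))
(cons (mv 910 (cons (fin 846 7 846)
(mv 1102 (cons (fin 1166 5 910)
(mv 1101 (cons (fin 1100 2 1036)
(mv 1038 (cons (fin 1165 5 909)
(mv 909 (cons (fin 845 7 845)
(mv 908 (cons (fin 971 1 907)
(fin 907 0 907)))))))))))))
(mv 846 (cons (fin 910 7 846)
(mv 847 (cons (fin 782 7 782)
(mv 783 (cons (fin 976 4 783)
(mv 784 (cons (fin 720 6 719)
(fin 848 6 783)))))))))))))
(cons (mv 1167 (cons (mv 1231 (cons (fin 1038 7 974)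
(fin 976 6 975)))
(mv 1166 (cons (fin 1230 5 974)
(mv 1102 (cons (fin 911 5 910)
(mv 1101 (cons (fin 1100 2 1036)
(mv 1168 (cons (fin 1169 3 1101)
(fin 1232 4 975)))))))))))
(mv 910 (cons (fin 1167 7 910)
(mv 846 (cons (fin 782 4 782)
(fin 1038 4 846))))))))))
(mv 973 (cons (fin 972 0 972)
(mv 976 (cons (cons (mv 908 (cons (fin 909 3 908)
(mv 1037 (cons (fin 1036 1 972)
(mv 977 (cons (fin 1038 1 973)
(mv 914 (cons (fin 913 2 910)
(mv 978 (cons (fin 979 1 975)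
(fin 915 2 911)))))))))))
(mv 909 (cons (fin 908 3 908)
(mv 910 (cons (fin 977 3 909)
(mv 846 (cons (fin 782 4 782)
(mv 1103 (cons (fin 1167 7 910)
(fin 1038 4 846))))))))))
(cons (mv 1037 (cons (fin 1036 1 972)
(mv 977 (cons (fin 1038 1 973)
(mv 914 (cons (fin 913 2 910)
(mv 978 (cons (fin 979 1 975)
(fin 915 2 911)))))))))
(cons (mv 908 (cons (fin 909 3 908)
(mv 1037 (cons (fin 1036 1 972)
(mv 1038 (cons (cons (mv 1100 (cons (fin 1101 1 1036)
(mv 1104 (cons (fin 1105 0 1037)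
(mv 1168 (cons (fin 1232 7 975)
(mv 1167 (cons (fin 1231 5 975)
(mv 1103 (cons (fin 910 7 910)
(mv 1166 (cons (fin 1230 5 974)
(mv 1164 (cons (fin 1165 2 1100)
(mv 1169 (cons (fin 1233 4 976)
(mv 1170 (cons (fin 1102 3 1102)
(fin 1171 3 1103)))))))))))))))))))
(mv 1104 (cons (fin 1105 0 1037)
(mv 1168 (cons (fin 1232 7 975)
(mv 1167 (cons (fin 1231 5 975)
(mv 1103 (cons (fin 910 7 910)
(mv 1166 (cons (fin 1230 5 974)
(mv 1164 (cons (fin 1165 2 1100)
(mv 1169 (cons (fin 1233 4 976)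
(mv 1170 (cons (fin 1102 3 1102)
(fin 1171 3 1103))))))))))))))))))
(cons (mv 1101 (cons (fin 1100 1 1036)
(mv 910 (cons (fin 846 5 845)
(fin 1165 6 909)))))
(cons (mv 1101 (cons (fin 1100 1 1036)
(mv 1104 (cons (fin 1105 0 1037)
(mv 1165 (cons (fin 1229 6 973)
(mv 1164 (cons (fin 1228 5 972)
(mv 1102 (cons (fin 1103 1 1100)
(mv 1162 (cons (fin 1163 2 1098)
(mv 1166 (cons (fin 1230 7 973)
(mv 1167 (cons (fin 1231 4 974)
(mv 1168 (cons (fin 1169 3 1101)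
(fin 1232 7 975)))))))))))))))))))
(mv 1100 (cons (fin 1101 1 1036)
(mv 1104 (cons (fin 1105 0 1037)
(mv 1168 (cons (fin 1232 7 975)
(mv 1167 (cons (fin 1231 5 975)
(mv 1103 (cons (fin 910 7 910)
(mv 1166 (cons (fin 1230 5 974)
(mv 1169 (cons (fin 1233 4 976)
(mv 1170 (cons (fin 1102 3 1102)
(fin 1171 3 1103)))))))))))))))))))))))))
(mv 909 (cons (fin 908 3 908)
(mv 910 (cons (fin 977 3 909)
(mv 782 (cons (fin 846 4 782)
(mv 1037 (cons (fin 1036 1 972)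
(mv 1101 (cons (fin 1165 6 909)
(mv 1100 (cons (fin 1164 5 908)
(mv 1102 (cons (fin 1103 2 1036)
(fin 1166 4 909))))))))))))))))))))))))
(cons (cons (mv 973 (cons (fin 972 0 972)
(mv 976 (cons (cons (mv 908 (cons (fin 909 3 908)
(mv 1037 (cons (fin 1036 1 972)
(mv 977 (cons (fin 1038 1 973)
(mv 913 (cons (fin 914 2 910)
(mv 785 (cons (fin 849 5 784)
(mv 978 (cons (fin 979 1 975)
(mv 911 (cons (fin 910 3 910)
(mv 847 (cons (fin 783 4 783)
(fin 1104 4 847)))))))))))))))))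
(cons (mv 909 (cons (fin 908 3 908)
(mv 977 (cons (fin 910 3 909)
(mv 978 (cons (fin 1038 1 974)
(fin 979 1 975)))))))
(mv 1037 (cons (fin 1036 1 972)
(mv 977 (cons (fin 1038 1 973)
(mv 913 (cons (fin 914 2 910)
(mv 785 (cons (fin 849 5 784)
(mv 978 (cons (fin 979 1 975)
(mv 911 (cons (fin 910 3 910)
(mv 847 (cons (fin 783 4 783)
(fin 1104 4 847)))))))))))))))))
(cons (mv 908 (cons (fin 909 3 908)
(mv 1037 (cons (fin 1036 1 972)
(mv 1104 (cons (mv 911 (cons (fin 1168 7 911)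
(fin 847 4 847)))
(cons (mv 847 (cons (fin 911 4 847)
(mv 1038 (cons (fin 1105 0 1037)
(mv 1101 (cons (fin 1100 1 1036)
(mv 910 (cons (fin 846 5 845)
(fin 1165 6 909)))))))))
(mv 1038 (cons (fin 1105 0 1037)
(mv 1101 (cons (fin 1100 1 1036)
(mv 910 (cons (fin 846 5 845)
(fin 1165 6 909))))))))))))))
(cons (mv 909 (cons (fin 908 3 908)
(mv 910 (cons (fin 977 3 909)
(mv 846 (cons (fin 782 4 782)
(mv 1037 (cons (fin 1036 1 972)
(fin 1101 6 845)))))))))
(mv 908 (cons (fin 909 3 908)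
(mv 1037 (cons (fin 1036 1 972)
(mv 977 (cons (fin 1038 1 973)
(mv 914 (cons (fin 913 2 910)
(mv 978 (cons (fin 979 1 975)
(fin 915 2 911)))))))))))))))))
(cons (mv 972 (cons (fin 973 0 972)
(mv 1104 (cons (cons (mv 911 (cons (fin 847 4 847)
(mv 1168 (cons (fin 976 7 911)
(fin 1232 7 975)))))
(mv 911 (cons (fin 847 4 847)
(mv 1103 (cons (cons (mv 910 (cons (fin 1167 7 910)
(mv 1102 (cons (fin 1166 5 910)
(mv 1101 (cons (fin 1100 2 1036)
(mv 1165 (cons (fin 1164 1 1100)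
(fin 1038 5 909)))))))))
(mv 1102 (cons (fin 1166 5 910)
(mv 1101 (cons (fin 1100 2 1036)
(mv 1037 (cons (fin 1036 3 1036)
(mv 1038 (cons (fin 1105 3 1037)
(mv 1165 (cons (fin 1164 1 1100)
(fin 910 5 909))))))))))))
(cons (mv 1167 (cons (fin 910 7 910)
(mv 1231 (cons (fin 1038 7 974)
(fin 976 6 975)))))
(cons (mv 1102 (cons (fin 1166 5 910)
(mv 1101 (cons (fin 1100 2 1036)
(mv 1037 (cons (fin 1036 3 1036)
(mv 1038 (cons (fin 1105 3 1037)
(mv 1165 (cons (fin 1164 1 1100)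
(fin 1229 6 973)))))))))))
(mv 1102 (cons (fin 1166 5 910)
(mv 1100 (cons (fin 1101 2 1036)
(mv 1167 (cons (fin 910 7 910)
(mv 1231 (cons (fin 976 6 975)
(fin 1295 6 1039))))))))))))))))
(cons (mv 1168 (cons (fin 1232 7 975)
(mv 976 (cons (mv 913 (cons (fin 977 6 912)
(mv 1167 (cons (fin 1231 5 975)
(mv 1103 (cons (fin 910 7 910)
(mv 1166 (cons (fin 1230 5 974)
(mv 1105 (cons (fin 1106 1 1102)
(fin 1165 2 1101)))))))))))
(cons (mv 1167 (cons (fin 1231 5 975)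
(mv 1103 (cons (fin 910 7 910)
(mv 1166 (cons (fin 1230 5 974)
(mv 1105 (cons (fin 1106 1 1102)
(fin 1165 2 1101)))))))))
(mv 977 (cons (fin 913 6 912)
(mv 978 (cons (fin 1038 1 974)
(fin 979 1 975))))))))))
(mv 911 (cons (fin 847 4 847)
(mv 1168 (cons (fin 1232 7 975)
(fin 1103 4 911))))))))))
(mv 972 (cons (fin 973 0 972)
(mv 910 (cons (cons (mv 846 (cons (fin 782 4 782)
(mv 1103 (cons (fin 911 7 846)
(fin 1167 7 910)))))
(mv 1103 (cons (fin 1167 7 910)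
(mv 911 (cons (mv 847 (cons (fin 1104 4 847)
(mv 783 (cons (fin 719 5 718)
(fin 1038 5 782)))))
(cons (mv 1102 (cons (fin 1166 5 910)
(mv 1101 (cons (fin 1100 2 1036)
(mv 1038 (cons (fin 1165 5 909)
(mv 909 (cons (fin 845 7 845)
(mv 908 (cons (fin 971 1 907)
(fin 907 0 907)))))))))))
(mv 847 (cons (fin 1104 4 847)
(mv 783 (cons (fin 719 5 718)
(fin 976 4 783)))))))))))
(cons (mv 846 (cons (fin 782 4 782)
(mv 1038 (cons (cons (mv 781 (cons (fin 845 7 781)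
(mv 783 (cons (fin 847 6 782)
(mv 1037 (cons (fin 1101 5 845)
(mv 976 (cons (fin 977 1 973)
(fin 1036 2 972)))))))))
(mv 781 (cons (fin 845 7 781)
(mv 847 (cons (fin 783 6 782)
(mv 911 (cons (fin 1102 5 846)
(fin 1104 4 847))))))))
(cons (mv 781 (cons (fin 845 7 781)
(mv 1037 (cons (fin 1101 5 845)
(mv 976 (cons (fin 977 1 973)
(fin 1036 2 972)))))))
(mv 783 (cons (fin 847 6 782)
(mv 1037 (cons (fin 1101 5 845)
(mv 976 (cons (fin 977 1 973)
(fin 1036 2 972))))))))))))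
(mv 846 (cons (fin 782 4 782)
(mv 1103 (cons (fin 1167 7 910)
(fin 1038 4 846))))))))))))
(cons (mv 973 (cons (fin 972 0 972)
(mv 1104 (cons (cons (mv 911 (cons (fin 847 4 847)
(mv 1168 (cons (fin 976 7 911)
(fin 1232 7 975)))))
(mv 911 (cons (fin 847 4 847)
(mv 1103 (cons (mv 910 (cons (fin 846 7 846)
(fin 1167 7 910)))
(cons (mv 1166 (cons (fin 1102 5 910)
(mv 1167 (cons (fin 1230 5 974)
(mv 1231 (cons (fin 976 6 975)
(fin 1295 6 1039)))))))
(mv 910 (cons (fin 846 7 846)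
(mv 1102 (cons (fin 1166 5 910)
(mv 1101 (cons (fin 1100 2 1036)
(mv 1037 (cons (fin 1036 3 1036)
(fin 1165 6 909)))))))))))))))
(cons (mv 1168 (cons (fin 1232 7 975)
(mv 1167 (cons (cons (mv 910 (cons (fin 1103 7 910)
(mv 782 (cons (fin 846 4 782)
(mv 976 (cons (fin 1231 5 975)
(mv 909 (cons (fin 908 3 908)
(fin 977 3 909)))))))))
(mv 1103 (cons (fin 910 7 910)
(mv 1166 (cons (fin 1230 5 974)
(mv 1105 (cons (fin 1106 1 1102)
(fin 1165 2 1101))))))))
(cons (mv 976 (cons (fin 1231 5 975)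
(mv 909 (cons (fin 908 3 908)
(mv 977 (cons (fin 910 3 909)
(fin 913 6 912)))))))
(mv 1231 (cons (fin 976 5 975)
(mv 1295 (cons (fin 1103 6 1039)
(fin 1359 6 1103))))))))))
(mv 911 (cons (fin 847 4 847)
(mv 1168 (cons (fin 1232 7 975)
(fin 1103 4 911))))))))))
(cons (mv 972 (cons (fin 973 0 972)
(mv 910 (cons (cons (mv 846 (cons (fin 782 4 782)
(mv 1103 (cons (fin 911 7 846)
(fin 1167 7 910)))))
(mv 1103 (cons (fin 1167 7 910)
(mv 911 (cons (mv 1104 (cons (fin 847 4 847)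
(fin 1168 4 911)))
(cons (mv 1102 (cons (fin 1166 5 910)
(mv 847 (cons (fin 1038 5 846)
(mv 783 (cons (fin 719 5 718)
(mv 784 (cons (fin 720 6 719)
(fin 848 6 783)))))))))
(mv 1102 (cons (fin 1166 5 910)
(mv 1101 (cons (fin 1100 2 1036)
(mv 1038 (cons (fin 1165 5 909)
(mv 845 (cons (fin 909 7 845)
(mv 1104 (cons (fin 1168 4 911)
(mv 1037 (cons (fin 1036 3 1036)
(fin 1105 3 1037)))))))))))))))))))
(cons (mv 846 (cons (fin 782 4 782)
(mv 1038 (cons (cons (mv 781 (cons (fin 845 7 781)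
(mv 783 (cons (fin 847 6 782)
(mv 1037 (cons (fin 1101 5 845)
(mv 1036 (cons (fin 971 3 971)
(fin 1035 2 971)))))))))
(mv 781 (cons (fin 845 7 781)
(mv 1037 (cons (fin 1101 5 845)
(mv 1036 (cons (fin 971 3 971)
(fin 1035 2 971))))))))
(cons (mv 781 (cons (fin 845 7 781)
(mv 847 (cons (fin 783 6 782)
(mv 911 (cons (fin 1102 5 846)
(fin 1104 4 847)))))))
(mv 783 (cons (fin 847 6 782)
(mv 1037 (cons (fin 1101 5 845)
(mv 1036 (cons (fin 971 3 971)
(fin 1035 2 971))))))))))))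
(mv 846 (cons (fin 782 4 782)
(mv 1103 (cons (fin 1167 7 910)
(fin 1038 4 846))))))))))
(mv 973 (cons (fin 972 0 972)
(mv 976 (cons (cons (mv 908 (cons (fin 909 3 908)
(mv 1037 (cons (fin 1036 1 972)
(mv 977 (cons (fin 1038 1 973)
(mv 913 (cons (fin 914 2 910)
(mv 785 (cons (fin 849 5 784)
(mv 978 (cons (fin 979 1 975)
(mv 911 (cons (fin 910 3 910)
(mv 847 (cons (fin 783 4 783)
(fin 1104 4 847)))))))))))))))))
(mv 909 (cons (fin 908 3 908)
(mv 910 (cons (fin 977 3 909)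
(mv 846 (cons (fin 782 4 782)
(mv 1103 (cons (fin 911 7 846)
(fin 1167 7 910))))))))))
(cons (mv 1037 (cons (fin 1036 1 972)
(mv 977 (cons (fin 1038 1 973)
(mv 913 (cons (fin 914 2 910)
(mv 785 (cons (fin 849 5 784)
(mv 978 (cons (fin 979 1 975)
(mv 911 (cons (fin 910 3 910)
(mv 847 (cons (fin 783 4 783)
(fin 1104 4 847)))))))))))))))
(cons (mv 909 (cons (fin 908 3 908)
(mv 1037 (cons (fin 1036 1 972)
(mv 1038 (cons (mv 845 (cons (fin 781 4 781)
(fin 1102 4 845)))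
(cons (mv 781 (cons (fin 845 4 781)
(mv 1104 (cons (fin 1105 0 1037)
(mv 911 (cons (fin 1168 7 911)
(fin 847 4 847)))))))
(mv 1102 (cons (fin 1166 7 909)
(mv 847 (cons (fin 911 5 846)
(mv 1104 (cons (fin 1105 0 1037)
(mv 1168 (cons (fin 1232 7 975)
(mv 1167 (cons (fin 1231 5 975)
(mv 910 (cons (fin 1103 7 910)
(mv 846 (cons (fin 782 5 781)
(fin 783 6 782))))))))))))))))))))))
(mv 908 (cons (fin 909 3 908)
(mv 1037 (cons (fin 1036 1 972)
(mv 977 (cons (fin 1038 1 973)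
(mv 914 (cons (fin 913 2 910)
(mv 978 (cons (fin 979 1 975)
(fin 915 2 911))))))))))))))))))))))
(mv 1038 (cons (cons (mv 973 (cons (fin 1041 3 973)
(mv 972 (cons (fin 1037 3 972)
(fin 971 0 971)))))
(mv 1037 (cons (cons (mv 972 (cons (fin 973 3 972)
(mv 971 (cons (fin 1036 3 971)
(mv 976 (cons (fin 977 2 973)
(mv 1101 (cons (fin 1100 1 1036)
(mv 910 (cons (fin 846 5 845)
(mv 1165 (cons (fin 1102 5 909)
(fin 1229 6 973)))))))))))))
(mv 972 (cons (fin 973 3 972)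
(mv 976 (cons (fin 977 2 973)
(mv 1036 (cons (fin 971 3 971)
(mv 1104 (cons (fin 1103 0 1036)
(fin 1105 0 1037))))))))))
(cons (mv 976 (cons (fin 977 2 973)
(mv 1100 (cons (fin 1101 1 1036)
(mv 1036 (cons (fin 1099 1 1035)
(mv 1104 (cons (fin 1103 0 1036)
(fin 1105 0 1037)))))))))
(cons (mv 972 (cons (fin 973 3 972)
(mv 971 (cons (fin 1036 3 971)
(mv 1101 (cons (fin 1100 1 1036)
(mv 910 (cons (fin 846 5 845)
(mv 1165 (cons (fin 1102 5 909)
(fin 1229 6 973)))))))))))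
(mv 972 (cons (fin 973 3 972)
(mv 976 (cons (fin 977 2 973)
(mv 1101 (cons (fin 1100 1 1036)
(mv 910 (cons (fin 846 5 845)
(mv 1165 (cons (fin 1102 5 909)
(fin 1229 6 973))))))))))))))))
(cons (mv 1037 (cons (cons (mv 976 (cons (fin 977 2 973)
(mv 1100 (cons (fin 1101 1 1036)
(mv 1036 (cons (fin 1099 1 1035)
(mv 1104 (cons (fin 1103 0 1036)
(fin 1105 0 1037)))))))))
(mv 976 (cons (fin 977 2 973)
(mv 1104 (cons (fin 1105 0 1037)
(mv 1036 (cons (fin 1103 0 1036)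
(mv 971 (cons (fin 972 3 971)
(mv 1035 (cons (fin 970 3 970)
(mv 1099 (cons (fin 1098 1 1034)
(fin 1100 1 1035))))))))))))))
(cons (mv 976 (cons (fin 977 2 973)
(mv 1101 (cons (fin 1100 1 1036)
(mv 910 (cons (fin 846 5 845)
(mv 1102 (cons (fin 1041 1 1037)
(fin 1165 5 909)))))))))
(cons (mv 976 (cons (fin 977 2 973)
(mv 1104 (cons (fin 1105 0 1037)
(mv 1103 (cons (fin 1036 0 1036)
(mv 910 (cons (fin 846 4 846)
(mv 1167 (cons (fin 1231 7 974)
(fin 1102 4 910)))))))))))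
(mv 1100 (cons (fin 1101 1 1036)
(mv 1036 (cons (fin 1099 1 1035)
(mv 1104 (cons (fin 1103 0 1036)
(fin 1105 0 1037)))))))))))
(mv 1041 (cons (fin 973 3 973)
(mv 977 (cons (fin 978 2 974)
(mv 1102 (cons (fin 1101 1 1037)
(mv 1042 (cons (fin 1103 1 1038)
(mv 1106 (cons (fin 1105 0 1038)
(fin 1107 0 1039))))))))))))))))
(cons (cons (mv 1041 (cons (cons (mv 975 (cons (fin 1042 3 974)
(mv 1038 (cons (mv 977 (cons (fin 978 2 974)
(mv 976 (cons (fin 1037 1 973)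
(mv 909 (cons (fin 910 3 909)
(mv 913 (cons (fin 914 2 910)
(mv 849 (cons (fin 785 5 784)
(fin 1104 5 848)))))))))))
(cons (mv 1101 (cons (fin 1102 1 1037)
(mv 1037 (cons (fin 1100 1 1036)
(mv 1036 (cons (fin 1035 2 971)
(fin 976 2 972)))))))
(mv 977 (cons (fin 978 2 974)
(mv 1102 (cons (fin 1101 1 1037)
(mv 911 (cons (fin 847 5 846)
(fin 1166 6 910))))))))))))
(cons (mv 1038 (cons (cons (mv 977 (cons (fin 978 2 974)
(mv 976 (cons (fin 1037 2 973)
(mv 1101 (cons (fin 1102 1 1037)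
(mv 1105 (cons (fin 1106 0 1038)
(mv 1169 (cons (fin 1233 7 976)
(mv 1168 (cons (fin 1232 5 976)
(mv 913 (cons (fin 1104 5 912)
(mv 914 (cons (fin 975 2 910)
(fin 850 6 849)))))))))))))))))
(mv 1101 (cons (fin 1102 1 1037)
(mv 1037 (cons (fin 1100 1 1036)
(mv 1105 (cons (fin 1104 0 1037)
(fin 1106 0 1038))))))))
(cons (mv 977 (cons (fin 978 2 974)
(mv 976 (cons (fin 1037 2 973)
(mv 1105 (cons (fin 1106 0 1038)
(mv 1169 (cons (fin 1233 7 976)
(mv 1168 (cons (fin 1232 5 976)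
(mv 913 (cons (fin 1104 5 912)
(mv 914 (cons (fin 975 2 910)
(fin 850 6 849)))))))))))))))
(cons (mv 977 (cons (fin 978 2 974)
(mv 1037 (cons (fin 976 2 973)
(mv 1101 (cons (fin 1100 1 1036)
(fin 1102 1 1037)))))))
(mv 977 (cons (fin 978 2 974)
(mv 1101 (cons (fin 1102 1 1037)
(mv 1105 (cons (fin 1106 0 1038)
(mv 913 (cons (mv 1104 (cons (fin 849 5 848)
(fin 1168 5 912)))
(cons (mv 850 (cons (fin 914 6 849)
(mv 849 (cons (fin 786 6 785)
(mv 784 (cons (fin 848 7 784)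
(mv 785 (cons (fin 720 7 720)
(fin 976 5 784)))))))))
(mv 850 (cons (fin 914 6 849)
(mv 1168 (cons (fin 1104 5 912)
(mv 1169 (cons (fin 1232 5 976)
(mv 1233 (cons (fin 976 7 976)
(mv 1234 (cons (fin 1170 4 977)
(fin 1298 4 1041))))))))))))))))))))))))
(mv 1038 (cons (cons (mv 977 (cons (fin 978 2 974)
(mv 976 (cons (fin 1037 2 973)
(mv 1101 (cons (fin 1102 1 1037)
(mv 1105 (cons (fin 1106 0 1038)
(mv 1169 (cons (fin 1233 7 976)
(mv 1168 (cons (fin 1232 5 976)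
(mv 913 (cons (fin 1104 5 912)
(mv 849 (cons (fin 785 5 784)
(mv 850 (cons (fin 786 6 785)
(fin 914 6 849)))))))))))))))))))
(mv 977 (cons (fin 978 2 974)
(mv 976 (cons (fin 1037 2 973)
(mv 1105 (cons (fin 1106 0 1038)
(mv 1169 (cons (fin 1233 7 976)
(mv 1168 (cons (fin 1232 5 976)
(mv 913 (cons (fin 1104 5 912)
(mv 849 (cons (fin 785 5 784)
(mv 850 (cons (fin 786 6 785)
(fin 914 6 849))))))))))))))))))
(cons (mv 977 (cons (fin 978 2 974)
(mv 976 (cons (fin 1037 2 973)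
(mv 1102 (cons (fin 1101 1 1037)
(mv 1103 (cons (fin 1042 1 1038)
(mv 910 (cons (fin 846 4 846)
(fin 1167 4 910)))))))))))
(cons (mv 1101 (cons (fin 1102 1 1037)
(mv 1037 (cons (fin 1100 1 1036)
(mv 1105 (cons (fin 1104 0 1037)
(fin 1106 0 1038)))))))
(mv 977 (cons (fin 978 2 974)
(mv 1102 (cons (fin 1101 1 1037)
(mv 1042 (cons (fin 1103 1 1038)
(mv 1106 (cons (fin 1105 0 1038)
(fin 1107 0 1039)))))))))))))))
(cons (mv 975 (cons (fin 1042 3 974)
(mv 1104 (cons (mv 911 (cons (fin 847 4 847)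
(mv 1168 (cons (fin 976 7 911)
(fin 1232 7 975)))))
(cons (mv 911 (cons (fin 847 4 847)
(mv 1103 (cons (mv 910 (cons (fin 846 7 846)
(fin 1167 7 910)))
(mv 1102 (cons (fin 1101 2 1037)
(fin 1166 5 910)))))))
(mv 1168 (cons (fin 1232 7 975)
(mv 976 (cons (cons (mv 913 (cons (fin 977 6 912)
(mv 1167 (cons (fin 1231 5 975)
(mv 1103 (cons (fin 910 7 910)
(mv 1101 (cons (fin 1102 2 1037)
(mv 1166 (cons (fin 1230 5 974)
(mv 1105 (cons (fin 1106 1 1102)
(fin 1165 2 1101)))))))))))))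
(mv 1167 (cons (fin 1231 5 975)
(mv 1103 (cons (fin 910 7 910)
(mv 1101 (cons (fin 1102 2 1037)
(mv 1166 (cons (fin 1230 5 974)
(mv 1105 (cons (fin 1106 1 1102)
(fin 1165 2 1101))))))))))))
(cons (mv 977 (cons (fin 913 6 912)
(mv 909 (cons (fin 910 3 909)
(mv 978 (cons (fin 979 1 975)
(mv 914 (cons (fin 915 2 911)
(mv 1169 (cons (fin 1105 6 913)
(fin 1233 4 976)))))))))))
(cons (mv 913 (cons (fin 977 6 912)
(mv 1167 (cons (fin 1231 5 975)
(mv 1103 (cons (fin 910 7 910)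
(mv 1101 (cons (fin 1102 2 1037)
(mv 1166 (cons (fin 1230 5 974)
(mv 1165 (cons (fin 1100 3 1100)
(fin 1164 2 1100)))))))))))))
(mv 977 (cons (fin 913 6 912)
(mv 978 (cons (fin 979 1 975)
(mv 914 (cons (fin 915 2 911)
(mv 1169 (cons (fin 1105 6 913)
(fin 1233 4 976))))))))))))))))))))
(cons (mv 1042 (cons (fin 975 3 974)
(mv 978 (cons (fin 979 2 975)
(mv 977 (cons (fin 1038 2 974)
(mv 1106 (cons (fin 1107 0 1039)
(mv 913 (cons (fin 1170 7 913)
(fin 849 4 849)))))))))))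
(mv 1042 (cons (fin 975 3 974)
(mv 1102 (cons (fin 1103 1 1038)
(mv 1038 (cons (fin 1101 1 1037)
(mv 1106 (cons (fin 1105 0 1038)
(fin 1107 0 1039)))))))))))))
(mv 975 (cons (cons (mv 973 (cons (fin 972 0 972)
(mv 1041 (cons (fin 1042 3 974)
(fin 976 0 973)))))
(mv 1041 (cons (fin 1042 3 974)
(mv 1104 (cons (mv 911 (cons (fin 847 4 847)
(mv 1168 (cons (fin 976 7 911)
(fin 1232 7 975)))))
(cons (mv 911 (cons (fin 847 4 847)
(mv 1103 (cons (mv 910 (cons (fin 846 7 846)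
(fin 1167 7 910)))
(mv 1102 (cons (fin 1101 2 1037)
(fin 1166 5 910)))))))
(mv 1168 (cons (fin 1232 7 975)
(mv 976 (cons (cons (mv 913 (cons (fin 977 6 912)
(mv 1167 (cons (fin 1231 5 975)
(mv 1103 (cons (fin 910 7 910)
(mv 1101 (cons (fin 1102 2 1037)
(mv 1166 (cons (fin 1230 5 974)
(mv 1105 (cons (fin 1106 1 1102)
(fin 1165 2 1101)))))))))))))
(mv 1167 (cons (fin 1231 5 975)
(mv 1103 (cons (fin 910 7 910)
(mv 1101 (cons (fin 1102 2 1037)
(mv 1166 (cons (fin 1230 5 974)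
(mv 1105 (cons (fin 1106 1 1102)
(fin 1165 2 1101))))))))))))
(cons (mv 977 (cons (fin 913 6 912)
(mv 909 (cons (fin 910 3 909)
(mv 978 (cons (fin 979 1 975)
(mv 914 (cons (fin 915 2 911)
(mv 1169 (cons (fin 1105 6 913)
(fin 1233 4 976)))))))))))
(cons (mv 913 (cons (fin 977 6 912)
(mv 1167 (cons (fin 1231 5 975)
(mv 1103 (cons (fin 910 7 910)
(mv 1101 (cons (fin 1102 2 1037)
(mv 1166 (cons (fin 1230 5 974)
(mv 1165 (cons (fin 1100 3 1100)
(fin 1164 2 1100)))))))))))))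
(mv 977 (cons (fin 913 6 912)
(mv 978 (cons (fin 979 1 975)
(mv 914 (cons (fin 915 2 911)
(mv 1169 (cons (fin 1105 6 913)
(fin 1233 4 976)))))))))))))))))))))
(cons (mv 973 (cons (fin 972 0 972)
(mv 1104 (cons (cons (mv 911 (cons (fin 847 4 847)
(mv 1168 (cons (fin 976 7 911)
(fin 1232 7 975)))))
(mv 911 (cons (fin 847 4 847)
(mv 1103 (cons (mv 910 (cons (fin 846 7 846)
(fin 1167 7 910)))
(cons (mv 1166 (cons (fin 1102 5 910)
(mv 1167 (cons (fin 1230 5 974)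
(mv 1231 (cons (fin 976 6 975)
(fin 1295 6 1039)))))))
(mv 910 (cons (fin 846 7 846)
(mv 1102 (cons (fin 1166 5 910)
(mv 1101 (cons (fin 1100 2 1036)
(mv 1037 (cons (fin 1036 3 1036)
(fin 1165 6 909)))))))))))))))
(cons (mv 1168 (cons (fin 1232 7 975)
(mv 1167 (cons (cons (mv 910 (cons (fin 1103 7 910)
(mv 782 (cons (fin 846 4 782)
(mv 976 (cons (fin 1231 5 975)
(mv 909 (cons (fin 908 3 908)
(fin 977 3 909)))))))))
(mv 1103 (cons (fin 910 7 910)
(mv 1166 (cons (fin 1230 5 974)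
(mv 1105 (cons (fin 1106 1 1102)
(fin 1165 2 1101))))))))
(cons (mv 976 (cons (fin 1231 5 975)
(mv 909 (cons (fin 908 3 908)
(mv 977 (cons (fin 910 3 909)
(fin 913 6 912)))))))
(mv 1231 (cons (fin 976 5 975)
(mv 1295 (cons (fin 1103 6 1039)
(fin 1359 6 1103))))))))))
(mv 911 (cons (fin 847 4 847)
(mv 1168 (cons (fin 1232 7 975)
(fin 1103 4 911))))))))))
(mv 973 (cons (fin 972 0 972)
(mv 1041 (cons (fin 1042 3 974)
(mv 1103 (cons (cons (mv 910 (cons (fin 1167 7 910)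
(mv 846 (cons (fin 911 7 846)
(fin 782 4 782)))))
(mv 1102 (cons (mv 1101 (cons (fin 1100 2 1036)
(fin 1104 2 1037)))
(cons (mv 911 (cons (fin 1166 5 910)
(mv 1104 (cons (fin 847 4 847)
(fin 1168 4 911)))))
(mv 1101 (cons (fin 1100 2 1036)
(mv 1166 (cons (fin 911 5 910)
(mv 1037 (cons (fin 909 4 909)
(mv 1165 (cons (fin 910 6 909)
(fin 1230 4 973)))))))))))))
(cons (mv 1102 (cons (mv 1101 (cons (fin 1100 2 1036)
(fin 1104 2 1037)))
(cons (mv 911 (cons (fin 1166 5 910)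
(mv 1104 (cons (fin 847 4 847)
(fin 1168 4 911)))))
(mv 1100 (cons (fin 1101 2 1036)
(mv 1166 (cons (fin 911 5 910)
(mv 1230 (cons (fin 1167 5 974)
(fin 1294 6 1038))))))))))
(mv 1167 (cons (fin 910 7 910)
(mv 1166 (cons (fin 1230 5 974)
(mv 1232 (cons (fin 1168 4 975)
(mv 1231 (cons (fin 1296 4 1039)
(mv 1104 (cons (fin 1295 6 1039)
(mv 1102 (cons (fin 1101 2 1037)
(mv 1105 (cons (fin 1165 1 1101)
(fin 1106 1 1102))))))))))))))))))))))))))
(cons (mv 1041 (cons (cons (mv 973 (cons (fin 1038 3 973)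
(mv 975 (cons (fin 1042 3 974)
(fin 972 0 972)))))
(mv 975 (cons (fin 1042 3 974)
(mv 973 (cons (fin 972 0 972)
(fin 976 0 973))))))
(cons (mv 973 (cons (fin 1038 3 973)
(mv 975 (cons (fin 972 0 972)
(fin 976 0 973)))))
(cons (mv 1038 (cons (fin 973 3 973)
(mv 977 (cons (fin 978 2 974)
(mv 976 (cons (fin 1037 2 973)
(mv 1102 (cons (fin 1101 1 1037)
(mv 1042 (cons (fin 1103 1 1038)
(mv 1106 (cons (fin 1105 0 1038)
(fin 1107 0 1039)))))))))))))
(mv 1042 (cons (fin 975 3 974)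
(mv 978 (cons (fin 979 2 975)
(mv 977 (cons (fin 1038 2 974)
(mv 1102 (cons (fin 1103 1 1038)
(mv 1106 (cons (fin 1107 0 1039)
(mv 913 (cons (fin 1170 7 913)
(fin 849 4 849)))))))))))))))))
(mv 1041 (cons (cons (mv 973 (cons (fin 1038 3 973)
(mv 975 (cons (fin 1042 3 974)
(fin 972 0 972)))))
(mv 975 (cons (fin 1042 3 974)
(mv 973 (cons (fin 972 0 972)
(mv 1103 (cons (cons (mv 910 (cons (fin 1167 7 910)
(mv 846 (cons (fin 911 7 846)
(fin 782 4 782)))))
(mv 1102 (cons (mv 1101 (cons (fin 1100 2 1036)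
(fin 1104 2 1037)))
(cons (mv 911 (cons (fin 1166 5 910)
(mv 1104 (cons (fin 847 4 847)
(fin 1168 4 911)))))
(mv 1101 (cons (fin 1100 2 1036)
(mv 1166 (cons (fin 911 5 910)
(mv 1037 (cons (fin 909 4 909)
(mv 1165 (cons (fin 910 6 909)
(fin 1230 4 973)))))))))))))
(cons (mv 1102 (cons (mv 1101 (cons (fin 1100 2 1036)
(fin 1104 2 1037)))
(cons (mv 911 (cons (fin 1166 5 910)
(mv 1104 (cons (fin 847 4 847)
(fin 1168 4 911)))))
(mv 1100 (cons (fin 1101 2 1036)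
(mv 1166 (cons (fin 911 5 910)
(mv 1230 (cons (fin 1167 5 974)
(fin 1294 6 1038))))))))))
(mv 1167 (cons (fin 910 7 910)
(mv 1166 (cons (fin 1230 5 974)
(mv 1232 (cons (fin 1168 4 975)
(mv 1231 (cons (fin 1296 4 1039)
(mv 1104 (cons (fin 1295 6 1039)
(mv 1102 (cons (fin 1101 2 1037)
(mv 1105 (cons (fin 1165 1 1101)
(fin 1106 1 1102)))))))))))))))))))))))
(cons (mv 973 (cons (fin 1038 3 973)
(mv 975 (cons (fin 972 0 972)
(mv 1103 (cons (cons (mv 910 (cons (fin 1167 7 910)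
(mv 846 (cons (fin 911 7 846)
(fin 782 4 782)))))
(mv 1102 (cons (mv 1101 (cons (fin 1100 2 1036)
(fin 1104 2 1037)))
(cons (mv 911 (cons (fin 1166 5 910)
(mv 1104 (cons (fin 847 4 847)
(fin 1168 4 911)))))
(mv 1101 (cons (fin 1100 2 1036)
(mv 1166 (cons (fin 911 5 910)
(mv 1037 (cons (fin 909 4 909)
(mv 1165 (cons (fin 910 6 909)
(fin 1230 4 973)))))))))))))
(cons (mv 1102 (cons (mv 1101 (cons (fin 1100 2 1036)
(fin 1104 2 1037)))
(cons (mv 911 (cons (fin 1166 5 910)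
(mv 1104 (cons (fin 847 4 847)
(fin 1168 4 911)))))
(mv 1100 (cons (fin 1101 2 1036)
(mv 1166 (cons (fin 911 5 910)
(mv 1230 (cons (fin 1167 5 974)
(fin 1294 6 1038))))))))))
(mv 1167 (cons (fin 910 7 910)
(mv 1166 (cons (fin 1230 5 974)
(mv 1232 (cons (fin 1168 4 975)
(mv 1231 (cons (fin 1296 4 1039)
(mv 1104 (cons (fin 1295 6 1039)
(mv 1102 (cons (fin 1101 2 1037)
(mv 1105 (cons (fin 1165 1 1101)
(fin 1106 1 1102))))))))))))))))))))))
(cons (mv 1038 (cons (fin 973 3 973)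
(mv 977 (cons (fin 978 2 974)
(mv 1101 (cons (fin 1102 1 1037)
(mv 1037 (cons (fin 1100 1 1036)
(mv 1105 (cons (fin 1104 0 1037)
(fin 1106 0 1038)))))))))))
(mv 1042 (cons (fin 975 3 974)
(mv 978 (cons (fin 979 2 975)
(mv 977 (cons (fin 1038 2 974)
(mv 1102 (cons (fin 1103 1 1038)
(mv 1106 (cons (fin 1107 0 1039)
(mv 913 (cons (fin 1170 7 913)
(fin 849 4 849))))))))))))))))))))
(cons (cons (mv 1041 (cons (cons (mv 973 (cons (fin 1038 3 973)
(mv 975 (cons (fin 1042 3 974)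
(fin 972 0 972)))))
(mv 975 (cons (fin 1042 3 974)
(mv 973 (cons (fin 972 0 972)
(fin 976 0 973))))))
(cons (mv 973 (cons (fin 1038 3 973)
(mv 975 (cons (fin 972 0 972)
(fin 976 0 973)))))
(cons (mv 1038 (cons (fin 973 3 973)
(mv 977 (cons (fin 978 2 974)
(mv 1102 (cons (fin 1101 1 1037)
(mv 1042 (cons (fin 1103 1 1038)
(mv 1106 (cons (fin 1105 0 1038)
(fin 1107 0 1039)))))))))))
(mv 1042 (cons (fin 975 3 974)
(mv 978 (cons (fin 979 2 975)
(mv 977 (cons (fin 1038 2 974)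
(mv 1102 (cons (fin 1103 1 1038)
(mv 1106 (cons (fin 1107 0 1039)
(mv 913 (cons (fin 1170 7 913)
(fin 849 4 849)))))))))))))))))
(cons (mv 975 (cons (cons (mv 973 (cons (fin 972 0 972)
(mv 1041 (cons (fin 1038 3 973)
(fin 1042 3 974)))))
(mv 1041 (cons (fin 1042 3 974)
(mv 1038 (cons (cons (mv 977 (cons (fin 978 2 974)
(mv 976 (cons (fin 1037 1 973)
(mv 909 (cons (fin 910 3 909)
(mv 913 (cons (fin 914 2 910)
(mv 849 (cons (fin 785 5 784)
(fin 1104 5 848)))))))))))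
(mv 1105 (cons (fin 1106 0 1038)
(mv 1037 (cons (fin 1104 0 1037)
(mv 1036 (cons (fin 1035 2 971)
(fin 976 2 972))))))))
(cons (mv 977 (cons (fin 978 2 974)
(mv 1105 (cons (fin 1106 0 1038)
(mv 1104 (cons (mv 913 (cons (fin 849 5 848)
(fin 1168 5 912)))
(cons (mv 847 (cons (fin 911 4 847)
(mv 913 (cons (fin 849 5 848)
(mv 914 (cons (fin 976 2 910)
(fin 850 6 849)))))))
(mv 911 (cons (fin 847 4 847)
(mv 1168 (cons (fin 976 7 911)
(fin 1232 7 975))))))))))))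
(cons (mv 977 (cons (fin 978 2 974)
(mv 1105 (cons (fin 1106 0 1038)
(mv 1037 (cons (fin 1104 0 1037)
(mv 1036 (cons (fin 1035 2 971)
(mv 1100 (cons (fin 1099 1 1035)
(fin 1101 1 1036)))))))))))
(mv 977 (cons (fin 978 2 974)
(mv 976 (cons (fin 1037 1 973)
(mv 910 (cons (fin 909 3 909)
(mv 846 (cons (fin 782 4 782)
(fin 1103 4 846))))))))))))))))
(cons (mv 973 (cons (fin 972 0 972)
(mv 976 (cons (cons (mv 908 (cons (fin 909 3 908)
(mv 1037 (cons (fin 1036 1 972)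
(mv 977 (cons (fin 1038 1 973)
(mv 913 (cons (fin 914 2 910)
(mv 785 (cons (fin 849 5 784)
(mv 978 (cons (fin 979 1 975)
(mv 911 (cons (fin 910 3 910)
(mv 847 (cons (fin 783 4 783)
(fin 1104 4 847)))))))))))))))))
(mv 909 (cons (fin 908 3 908)
(mv 910 (cons (fin 977 3 909)
(mv 846 (cons (fin 782 4 782)
(mv 1103 (cons (fin 911 7 846)
(fin 1167 7 910))))))))))
(cons (mv 1037 (cons (fin 1036 1 972)
(mv 977 (cons (fin 1038 1 973)
(mv 913 (cons (fin 914 2 910)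
(mv 785 (cons (fin 849 5 784)
(mv 978 (cons (fin 979 1 975)
(mv 911 (cons (fin 910 3 910)
(mv 847 (cons (fin 783 4 783)
(fin 1104 4 847)))))))))))))))
(cons (mv 908 (cons (fin 909 3 908)
(mv 1037 (cons (fin 1036 1 972)
(mv 1104 (cons (mv 911 (cons (fin 1168 7 911)
(fin 847 4 847)))
(cons (mv 847 (cons (fin 911 4 847)
(mv 1038 (cons (fin 1105 0 1037)
(mv 1101 (cons (fin 1100 1 1036)
(mv 910 (cons (fin 846 5 845)
(fin 1165 6 909)))))))))
(mv 1038 (cons (fin 1105 0 1037)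
(mv 1101 (cons (fin 1100 1 1036)
(mv 910 (cons (fin 846 5 845)
(fin 1165 6 909))))))))))))))
(mv 908 (cons (fin 909 3 908)
(mv 1037 (cons (fin 1036 1 972)
(mv 977 (cons (fin 1038 1 973)
(mv 914 (cons (fin 913 2 910)
(mv 978 (cons (fin 979 1 975)
(fin 915 2 911)))))))))))))))))
(mv 973 (cons (fin 972 0 972)
(mv 1041 (cons (fin 1042 3 974)
(fin 976 0 973))))))))
(mv 1041 (cons (cons (mv 973 (cons (fin 1038 3 973)
(mv 975 (cons (fin 1042 3 974)
(fin 972 0 972)))))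
(mv 973 (cons (fin 1038 3 973)
(mv 975 (cons (fin 972 0 972)
(fin 976 0 973))))))
(cons (mv 975 (cons (fin 1042 3 974)
(mv 973 (cons (fin 972 0 972)
(fin 976 0 973)))))
(cons (mv 1038 (cons (fin 973 3 973)
(mv 1101 (cons (fin 1102 1 1037)
(mv 1037 (cons (fin 1100 1 1036)
(mv 1105 (cons (fin 1104 0 1037)
(fin 1106 0 1038)))))))))
(mv 1042 (cons (fin 975 3 974)
(mv 978 (cons (fin 979 2 975)
(mv 1102 (cons (fin 1103 1 1038)
(mv 1038 (cons (fin 1101 1 1037)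
(mv 1106 (cons (fin 1105 0 1038)
(fin 1107 0 1039)))))))))))))))))
(cons (cons (mv 1041 (cons (cons (mv 973 (cons (fin 1038 3 973)
(mv 975 (cons (fin 1042 3 974)
(fin 972 0 972)))))
(mv 973 (cons (fin 1038 3 973)
(mv 975 (cons (fin 972 0 972)
(fin 976 0 973))))))
(cons (mv 975 (cons (fin 1042 3 974)
(mv 973 (cons (fin 972 0 972)
(fin 976 0 973)))))
(cons (mv 1038 (cons (fin 973 3 973)
(mv 977 (cons (fin 978 2 974)
(mv 976 (cons (fin 1037 2 973)
(mv 1105 (cons (fin 1106 0 1038)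
(mv 1169 (cons (fin 1233 7 976)
(mv 1168 (cons (fin 1232 5 976)
(mv 913 (cons (fin 1104 5 912)
(mv 849 (cons (fin 785 5 784)
(mv 850 (cons (fin 786 6 785)
(fin 914 6 849)))))))))))))))))))
(mv 1042 (cons (fin 975 3 974)
(mv 978 (cons (fin 979 2 975)
(mv 977 (cons (fin 1038 2 974)
(mv 1102 (cons (fin 1103 1 1038)
(mv 1106 (cons (fin 1107 0 1039)
(mv 913 (cons (fin 1170 7 913)
(fin 849 4 849)))))))))))))))))
(mv 1041 (cons (cons (mv 973 (cons (fin 1038 3 973)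
(mv 975 (cons (fin 1042 3 974)
(fin 972 0 972)))))
(mv 973 (cons (fin 1038 3 973)
(mv 975 (cons (fin 972 0 972)
(fin 976 0 973))))))
(cons (mv 975 (cons (fin 1042 3 974)
(mv 973 (cons (fin 972 0 972)
(fin 976 0 973)))))
(cons (mv 1038 (cons (fin 973 3 973)
(mv 977 (cons (fin 978 2 974)
(mv 976 (cons (fin 1037 2 973)
(mv 1102 (cons (fin 1101 1 1037)
(mv 1103 (cons (fin 1042 1 1038)
(mv 910 (cons (fin 846 4 846)
(fin 1167 4 910)))))))))))))
(mv 1042 (cons (fin 975 3 974)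
(mv 978 (cons (fin 979 2 975)
(mv 977 (cons (fin 1038 2 974)
(mv 1102 (cons (fin 1103 1 1038)
(mv 1106 (cons (fin 1107 0 1039)
(mv 913 (cons (fin 1170 7 913)
(fin 849 4 849))))))))))))))))))
(cons (mv 975 (cons (cons (mv 973 (cons (fin 972 0 972)
(mv 1041 (cons (fin 1038 3 973)
(fin 1042 3 974)))))
(mv 1041 (cons (fin 1042 3 974)
(mv 1038 (cons (mv 977 (cons (fin 978 2 974)
(mv 976 (cons (fin 1037 1 973)
(mv 909 (cons (fin 910 3 909)
(mv 913 (cons (fin 914 2 910)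
(mv 849 (cons (fin 785 5 784)
(fin 1104 5 848)))))))))))
(cons (mv 1101 (cons (fin 1102 1 1037)
(mv 1037 (cons (fin 1100 1 1036)
(mv 1036 (cons (fin 1035 2 971)
(fin 976 2 972)))))))
(mv 977 (cons (fin 978 2 974)
(mv 1102 (cons (fin 1101 1 1037)
(mv 911 (cons (fin 847 5 846)
(fin 1166 6 910)))))))))))))
(cons (mv 972 (cons (fin 973 0 972)
(mv 910 (cons (cons (mv 846 (cons (fin 782 4 782)
(mv 1103 (cons (fin 911 7 846)
(fin 1167 7 910)))))
(mv 846 (cons (fin 782 4 782)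
(mv 1038 (cons (cons (mv 781 (cons (fin 845 7 781)
(mv 783 (cons (fin 847 6 782)
(mv 1037 (cons (fin 1101 5 845)
(mv 976 (cons (fin 977 1 973)
(fin 1036 2 972)))))))))
(mv 781 (cons (fin 845 7 781)
(mv 847 (cons (fin 783 6 782)
(mv 911 (cons (fin 1102 5 846)
(fin 1104 4 847))))))))
(cons (mv 781 (cons (fin 845 7 781)
(mv 1037 (cons (fin 1101 5 845)
(mv 976 (cons (fin 977 1 973)
(fin 1036 2 972)))))))
(mv 783 (cons (fin 847 6 782)
(mv 1037 (cons (fin 1101 5 845)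
(mv 976 (cons (fin 977 1 973)
(fin 1036 2 972)))))))))))))
(cons (mv 1103 (cons (fin 1167 7 910)
(mv 911 (cons (mv 1104 (cons (fin 847 4 847)
(fin 1168 4 911)))
(cons (mv 1102 (cons (fin 1166 5 910)
(mv 847 (cons (fin 1038 5 846)
(mv 783 (cons (fin 719 5 718)
(fin 976 4 783)))))))
(mv 1102 (cons (fin 1166 5 910)
(mv 1101 (cons (fin 1100 2 1036)
(mv 1038 (cons (fin 1165 5 909)
(mv 845 (cons (fin 909 7 845)
(mv 1104 (cons (fin 1168 4 911)
(mv 1037 (cons (fin 1036 3 1036)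
(fin 1105 3 1037))))))))))))))))))
(mv 846 (cons (fin 782 4 782)
(mv 1103 (cons (fin 1167 7 910)
(fin 1038 4 846))))))))))
(mv 973 (cons (fin 972 0 972)
(mv 1041 (cons (fin 1042 3 974)
(fin 976 0 973))))))))
(mv 975 (cons (cons (mv 973 (cons (fin 972 0 972)
(mv 1041 (cons (fin 1038 3 973)
(fin 1042 3 974)))))
(mv 1041 (cons (fin 1042 3 974)
(mv 1038 (cons (mv 1101 (cons (fin 1102 1 1037)
(mv 1037 (cons (fin 1100 1 1036)
(mv 976 (cons (fin 977 1 973)
(fin 1036 2 972)))))))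
(cons (mv 1105 (cons (fin 1106 0 1038)
(mv 1037 (cons (fin 1104 0 1037)
(mv 976 (cons (fin 977 1 973)
(fin 1036 2 972)))))))
(mv 1102 (cons (fin 1101 1 1037)
(mv 911 (cons (fin 847 5 846)
(fin 1166 6 910)))))))))))
(cons (mv 972 (cons (fin 973 0 972)
(mv 910 (cons (cons (mv 846 (cons (fin 782 4 782)
(mv 1103 (cons (fin 911 7 846)
(fin 1167 7 910)))))
(mv 846 (cons (fin 782 4 782)
(mv 1038 (cons (cons (mv 781 (cons (fin 845 7 781)
(mv 783 (cons (fin 847 6 782)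
(mv 1037 (cons (fin 1101 5 845)
(mv 976 (cons (fin 977 1 973)
(fin 1036 2 972)))))))))
(mv 781 (cons (fin 845 7 781)
(mv 847 (cons (fin 783 6 782)
(mv 911 (cons (fin 1102 5 846)
(fin 1104 4 847))))))))
(cons (mv 781 (cons (fin 845 7 781)
(mv 1037 (cons (fin 1101 5 845)
(mv 976 (cons (fin 977 1 973)
(fin 1036 2 972)))))))
(mv 783 (cons (fin 847 6 782)
(mv 1037 (cons (fin 1101 5 845)
(mv 976 (cons (fin 977 1 973)
(fin 1036 2 972)))))))))))))
(cons (mv 1103 (cons (fin 1167 7 910)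
(mv 911 (cons (mv 1104 (cons (fin 847 4 847)
(fin 1168 4 911)))
(cons (mv 1102 (cons (fin 1166 5 910)
(mv 847 (cons (fin 1038 5 846)
(mv 783 (cons (fin 719 5 718)
(fin 976 4 783)))))))
(mv 1102 (cons (fin 1166 5 910)
(mv 1101 (cons (fin 1100 2 1036)
(mv 1038 (cons (fin 1165 5 909)
(mv 845 (cons (fin 909 7 845)
(mv 1104 (cons (fin 1168 4 911)
(mv 1037 (cons (fin 1036 3 1036)
(fin 1105 3 1037))))))))))))))))))
(mv 846 (cons (fin 782 4 782)
(mv 1103 (cons (fin 1167 7 910)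
(fin 1038 4 846))))))))))
(mv 973 (cons (fin 972 0 972)
(mv 1041 (cons (fin 1042 3 974)
(fin 976 0 973)))))))))))))
def l37 : Lem := ⟨11781361728633673533054441723117730079171283746239247440356909899588005244909514899260159721150817405942924420470662491174673842036557007391209044253460063708080530407354770956693342717623350878333880262063391977041189311657559161319740834448813323445848447489700891174053752382374267171085078592036680673850818560, 12582417958928144873307821809519400369460532768372007706829773812881070023724122275959154962040909777313771422153055800121183772098488624308640895270684088915778665479939918492196292805584510277507737173906475565432695416428401234372183860935835669571486160181326824403446713464667320466156274396885855925437392690693321628624648500743699730568642548776977489510832842963606931140804390139684849640360357396480, 12582417958928144873307821809519400369460532768372007706829773812881070023724122275959154962040909777313771422153055800121183772098488624308640895270684088915778665479939918492196292805584510277507737173906475565432695416428401234372183860935835669571486160181326824403446713464667320466156274396885855925437392690693321628624648500743699730568642548776977489510832842963606931140804390139684849640360357396480,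 17, 33⟩
theorem l37_valid : l37.Valid :=
  Lem.valid_of_chk t37 t37_valid [974, 1040] c37 l37 (by decide +kernel)
end Crest.Agent.SnakyAux
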