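import Crest.Agent.S0047_aux.Checker

set_option autoImplicit false
set_option maxRecDepth 100000
namespace Crest.Agent.SnakyAux
open Cert
def t38 : Tbl := Tbl.nil
theorem t38_valid : t38.Valid := Tbl.valid_nil
def c38 : Cert :=
(mv 975 (cons (cons (cons (mv 973 (cons (cons (mv 972 (cons (fin 1039 0 972)
(mv 907 (cons (fin 908 3 907)
(mv 906 (cons (fin 971 3 906)
(mv 911 (cons (fin 912 2 908)
(mv 976 (cons (fin 1041 0 973)
(mv 1036 (cons (fin 1035 1 971)
(fin 1037 1 972)))))))))))))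
(mv 972 (cons (fin 1039 0 972)
(mv 907 (cons (fin 908 3 907)
(mv 911 (cons (fin 912 2 908)
(mv 971 (cons (fin 906 3 906)
(fin 910 2 907))))))))))
(cons (mv 976 (cons (fin 1041 0 973)
(mv 908 (cons (fin 909 3 908)
(mv 913 (cons (fin 912 2 909)
(mv 977 (cons (fin 914 2 910)
(mv 1037 (cons (fin 1036 1 972)
(fin 1038 1 973)))))))))))
(cons (mv 972 (cons (fin 1039 0 972)
(mv 907 (cons (fin 908 3 907)
(mv 906 (cons (fin 971 3 906)
(mv 976 (cons (fin 1041 0 973)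
(mv 1036 (cons (fin 1035 1 971)
(fin 1037 1 972)))))))))))
(mv 972 (cons (fin 1039 0 972)
(mv 911 (cons (fin 912 2 908)
(mv 910 (cons (fin 971 2 907)
(mv 976 (cons (fin 1041 0 973)
(mv 977 (cons (fin 909 3 909)
(fin 978 3 910)))))))))))))))
(cons (mv 1039 (cons (cons (cons (mv 1041 (cons (fin 1042 3 974)
(mv 1038 (cons (cons (mv 977 (cons (fin 978 2 974)
(mv 976 (cons (fin 1037 1 973)
(mv 909 (cons (fin 910 3 909)
(mv 913 (cons (fin 914 2 910)
(mv 849 (cons (fin 785 5 784)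
(fin 1104 5 848)))))))))))
(mv 1105 (cons (fin 1106 0 1038)
(mv 1037 (cons (fin 1104 0 1037)
(mv 1036 (cons (fin 1035 2 971)
(fin 976 2 972))))))))
(cons (mv 977 (cons (fin 978 2 974)
(mv 1105 (cons (fin 1106 0 1038)
(mv 976 (cons (mv 912 (cons (fin 1169 7 912)
(fin 848 4 848)))
(mv 909 (cons (fin 910 3 909)
(mv 913 (cons (fin 914 2 910)
(mv 849 (cons (fin 785 5 784)
(fin 1104 5 848)))))))))))))
(cons (mv 977 (cons (fin 978 2 974)
(mv 1105 (cons (fin 1106 0 1038)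
(mv 1037 (cons (fin 1104 0 1037)
(mv 1036 (cons (fin 1035 2 971)
(mv 1100 (cons (fin 1099 1 1035)
(fin 1101 1 1036)))))))))))
(mv 977 (cons (fin 978 2 974)
(mv 976 (cons (fin 1037 1 973)
(mv 909 (cons (fin 910 3 909)
(mv 913 (cons (fin 914 2 910)
(mv 785 (cons (fin 849 5 784)
(mv 1105 (cons (fin 1106 0 1038)
(mv 912 (cons (fin 848 7 848)
(fin 1169 7 912)))))))))))))))))))))
(mv 1104 (cons (cons (mv 911 (cons (fin 847 4 847)
(mv 1168 (cons (fin 976 7 911)
(fin 1232 7 975)))))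
(mv 1168 (cons (fin 1232 7 975)
(mv 976 (cons (cons (mv 913 (cons (fin 977 6 912)
(mv 849 (cons (fin 912 6 848)
(mv 1167 (cons (fin 1231 5 975)
(mv 1103 (cons (fin 910 7 910)
(mv 1166 (cons (fin 1230 5 974)
(mv 1105 (cons (fin 1106 1 1102)
(fin 1165 2 1101)))))))))))))
(mv 1167 (cons (fin 1231 5 975)
(mv 1103 (cons (fin 910 7 910)
(fin 912 5 911))))))
(cons (mv 913 (cons (fin 977 6 912)
(mv 912 (cons (fin 849 6 848)
(mv 848 (cons (fin 784 5 783)
(fin 1103 5 847)))))))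
(cons (mv 913 (cons (fin 977 6 912)
(mv 1167 (cons (fin 1231 5 975)
(mv 1103 (cons (fin 910 7 910)
(mv 1166 (cons (fin 1230 5 974)
(mv 1105 (cons (fin 1106 1 1102)
(fin 1165 2 1101)))))))))))
(mv 913 (cons (fin 977 6 912)
(mv 912 (cons (fin 849 6 848)
(mv 1169 (cons (fin 1105 4 912)
(fin 1233 4 976))))))))))))))
(cons (mv 911 (cons (fin 847 4 847)
(mv 1103 (cons (mv 910 (cons (fin 846 7 846)
(fin 1167 7 910)))
(cons (mv 912 (cons (fin 848 6 847)
(mv 913 (cons (fin 914 1 910)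
(mv 976 (cons (fin 1167 5 911)
(fin 849 6 848)))))))
(mv 846 (cons (fin 910 7 846)
(mv 912 (cons (fin 848 6 847)
(mv 913 (cons (fin 914 1 910)
(mv 976 (cons (fin 849 6 848)
(mv 1105 (cons (fin 1169 4 912)
(mv 1038 (cons (fin 1106 3 1038)
(fin 1037 0 1037))))))))))))))))))
(mv 911 (cons (fin 847 4 847)
(mv 1168 (cons (fin 1232 7 975)
(fin 1103 4 911)))))))))
(cons (mv 1041 (cons (fin 1042 3 974)
(mv 911 (cons (cons (cons (mv 847 (cons (mv 783 (cons (fin 1038 5 782)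
(fin 976 4 783)))
(cons (mv 782 (cons (fin 846 7 782)
(mv 848 (cons (fin 784 6 783)
(mv 912 (cons (fin 1103 6 847)
(mv 913 (cons (fin 914 1 910)
(mv 1105 (cons (fin 977 7 848)
(fin 976 4 848)))))))))))
(mv 782 (cons (fin 846 7 782)
(mv 783 (cons (fin 718 7 718)
(fin 1038 5 782))))))))
(mv 1103 (cons (mv 910 (cons (fin 846 7 846)
(fin 1167 7 910)))
(cons (mv 912 (cons (fin 848 6 847)
(mv 913 (cons (fin 914 1 910)
(mv 1167 (cons (fin 976 6 911)
(mv 1166 (cons (fin 1230 5 974)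
(mv 1231 (cons (fin 1038 7 974)
(mv 1232 (cons (fin 1168 4 975)
(fin 1296 4 1039)))))))))))))
(mv 910 (cons (fin 846 7 846)
(mv 912 (cons (fin 848 6 847)
(mv 913 (cons (fin 914 1 910)
(mv 849 (cons (fin 850 2 846)
(mv 977 (cons (fin 978 0 910)
(mv 976 (cons (fin 909 3 909)
(fin 785 5 784)))))))))))))))))
(cons (mv 1103 (cons (mv 910 (cons (fin 846 7 846)
(fin 1167 7 910)))
(cons (mv 848 (cons (fin 912 6 847)
(mv 847 (cons (fin 784 6 783)
(mv 782 (cons (fin 846 7 782)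
(mv 783 (cons (fin 718 7 718)
(fin 976 4 783)))))))))
(mv 848 (cons (fin 912 6 847)
(mv 784 (cons (fin 847 6 783)
(mv 1167 (cons (fin 910 7 910)
(mv 1166 (cons (fin 1230 5 974)
(mv 1231 (cons (fin 976 6 975)
(mv 1232 (cons (fin 1168 4 975)
(fin 1296 4 1039))))))))))))))))
(mv 1038 (cons (cons (mv 783 (cons (fin 847 5 782)
(mv 977 (cons (fin 978 2 974)
(mv 976 (cons (fin 1037 1 973)
(mv 909 (cons (fin 910 3 909)
(mv 913 (cons (fin 914 2 910)
(mv 785 (cons (fin 849 5 784)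
(mv 1105 (cons (fin 1106 0 1038)
(mv 912 (cons (fin 848 7 848)
(fin 1169 7 912)))))))))))))))))
(cons (mv 847 (cons (fin 783 5 782)
(mv 846 (cons (fin 782 7 782)
(mv 848 (cons (fin 784 6 783)
(mv 1105 (cons (fin 1106 0 1038)
(mv 912 (cons (fin 976 4 848)
(mv 845 (cons (fin 844 0 844)
(fin 913 0 845)))))))))))))
(mv 977 (cons (fin 978 2 974)
(mv 976 (cons (fin 1037 1 973)
(mv 909 (cons (fin 910 3 909)
(mv 913 (cons (fin 914 2 910)
(mv 785 (cons (fin 849 5 784)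
(mv 1105 (cons (fin 1106 0 1038)
(mv 912 (cons (fin 848 7 848)
(fin 1169 7 912)))))))))))))))))
(cons (mv 783 (cons (fin 847 5 782)
(mv 977 (cons (fin 978 2 974)
(mv 976 (cons (fin 1037 1 973)
(mv 909 (cons (fin 910 3 909)
(mv 913 (cons (fin 914 2 910)
(mv 849 (cons (fin 785 5 784)
(mv 848 (cons (fin 784 7 784)
(mv 850 (cons (fin 786 6 785)
(mv 851 (cons (fin 912 1 847)
(mv 788 (cons (fin 787 2 784)
(mv 852 (cons (fin 789 2 785)
(mv 916 (cons (fin 915 0 848)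
(fin 917 0 849)))))))))))))))))))))))))
(cons (mv 847 (cons (fin 783 5 782)
(mv 782 (cons (fin 846 7 782)
(mv 848 (cons (fin 784 6 783)
(mv 977 (cons (fin 978 2 974)
(mv 1105 (cons (fin 1106 0 1038)
(mv 913 (cons (fin 912 7 848)
(mv 850 (cons (fin 914 6 849)
(mv 849 (cons (fin 910 1 846)
(fin 786 6 785)))))))))))))))))
(mv 783 (cons (fin 847 5 782)
(mv 977 (cons (fin 978 2 974)
(mv 1037 (cons (fin 976 1 973)
(mv 1036 (cons (fin 1035 2 971)
(mv 1100 (cons (fin 1099 1 1035)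
(fin 1101 1 1036)))))))))))))))))
(cons (cons (mv 1038 (cons (cons (mv 783 (cons (fin 847 5 782)
(mv 977 (cons (fin 978 2 974)
(mv 976 (cons (fin 1037 1 973)
(mv 909 (cons (fin 910 3 909)
(mv 913 (cons (fin 914 2 910)
(mv 785 (cons (fin 849 5 784)
(mv 1105 (cons (fin 1106 0 1038)
(mv 912 (cons (fin 848 7 848)
(fin 1169 7 912)))))))))))))))))
(cons (mv 847 (cons (fin 783 5 782)
(mv 848 (cons (fin 784 6 783)
(mv 912 (cons (fin 1103 6 847)
(mv 1105 (cons (fin 1106 0 1038)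
(fin 976 4 848)))))))))
(mv 977 (cons (fin 978 2 974)
(mv 976 (cons (fin 1037 1 973)
(mv 909 (cons (fin 910 3 909)
(mv 913 (cons (fin 914 2 910)
(mv 785 (cons (fin 849 5 784)
(mv 1105 (cons (fin 1106 0 1038)
(mv 912 (cons (fin 848 7 848)
(fin 1169 7 912)))))))))))))))))
(cons (mv 783 (cons (fin 847 5 782)
(mv 977 (cons (fin 978 2 974)
(mv 976 (cons (fin 1037 1 973)
(mv 909 (cons (fin 910 3 909)
(mv 913 (cons (fin 914 2 910)
(mv 849 (cons (fin 785 5 784)
(mv 848 (cons (fin 784 7 784)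
(mv 850 (cons (fin 786 6 785)
(mv 912 (cons (fin 851 1 847)
(fin 1103 5 847)))))))))))))))))))
(cons (mv 847 (cons (fin 783 5 782)
(mv 848 (cons (fin 784 6 783)
(mv 912 (cons (fin 1103 6 847)
(mv 913 (cons (fin 914 1 910)
(mv 977 (cons (fin 978 2 974)
(fin 1105 7 848)))))))))))
(mv 783 (cons (fin 847 5 782)
(mv 977 (cons (fin 978 2 974)
(mv 1037 (cons (fin 976 1 973)
(mv 1036 (cons (fin 1035 2 971)
(mv 1100 (cons (fin 1099 1 1035)
(fin 1101 1 1036)))))))))))))))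
(mv 847 (cons (mv 783 (cons (fin 1038 5 782)
(fin 976 4 783)))
(mv 846 (cons (fin 782 7 782)
(mv 848 (cons (fin 784 6 783)
(mv 910 (cons (fin 1103 7 846)
(mv 849 (cons (fin 909 1 845)
(fin 850 1 846))))))))))))
(cons (mv 1038 (cons (cons (mv 783 (cons (fin 847 5 782)
(mv 977 (cons (fin 978 2 974)
(mv 976 (cons (fin 1037 1 973)
(mv 909 (cons (fin 910 3 909)
(mv 913 (cons (fin 914 2 910)
(mv 785 (cons (fin 849 5 784)
(mv 1105 (cons (fin 1106 0 1038)
(mv 1169 (cons (fin 912 7 912)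
(fin 1233 7 976)))))))))))))))))
(mv 847 (cons (fin 783 5 782)
(mv 846 (cons (fin 782 7 782)
(mv 910 (cons (fin 1103 7 846)
(mv 781 (cons (fin 845 7 781)
(mv 1037 (cons (fin 1101 5 845)
(mv 1036 (cons (fin 1035 2 971)
(fin 976 2 972))))))))))))))
(cons (mv 977 (cons (fin 978 2 974)
(mv 976 (cons (fin 1037 1 973)
(mv 909 (cons (fin 910 3 909)
(mv 913 (cons (fin 914 2 910)
(mv 785 (cons (fin 849 5 784)
(mv 1105 (cons (fin 1106 0 1038)
(mv 1169 (cons (fin 912 7 912)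
(fin 1233 7 976)))))))))))))))
(cons (mv 847 (cons (fin 783 5 782)
(mv 846 (cons (fin 782 7 782)
(mv 910 (cons (fin 1103 7 846)
(mv 845 (cons (fin 781 7 781)
(mv 844 (cons (fin 843 0 843)
(fin 912 0 844)))))))))))
(mv 783 (cons (fin 847 5 782)
(mv 977 (cons (fin 978 2 974)
(mv 976 (cons (fin 1037 1 973)
(mv 913 (cons (fin 914 2 910)
(mv 785 (cons (fin 849 5 784)
(mv 1105 (cons (fin 1106 0 1038)
(mv 1169 (cons (fin 912 7 912)
(fin 1233 7 976)))))))))))))))))))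
(mv 1103 (cons (mv 910 (cons (fin 846 7 846)
(fin 1167 7 910)))
(cons (mv 848 (cons (fin 912 6 847)
(mv 847 (cons (fin 784 6 783)
(mv 782 (cons (fin 846 7 782)
(mv 783 (cons (fin 718 7 718)
(fin 1038 5 782)))))))))
(mv 848 (cons (fin 912 6 847)
(mv 784 (cons (fin 847 6 783)
(mv 1167 (cons (fin 910 7 910)
(mv 1166 (cons (fin 1230 5 974)
(mv 1231 (cons (fin 1038 7 974)
(mv 1232 (cons (fin 1168 4 975)
(fin 1296 4 1039))))))))))))))))))))))
(cons (mv 1041 (cons (fin 1042 3 974)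
(mv 1038 (cons (cons (mv 977 (cons (fin 978 2 974)
(mv 976 (cons (fin 1037 1 973)
(mv 913 (cons (fin 914 2 910)
(mv 849 (cons (fin 785 5 784)
(fin 1104 5 848)))))))))
(mv 1105 (cons (fin 1106 0 1038)
(mv 1037 (cons (fin 1104 0 1037)
(mv 1036 (cons (fin 1035 2 971)
(fin 976 2 972))))))))
(cons (mv 977 (cons (fin 978 2 974)
(mv 1105 (cons (fin 1106 0 1038)
(mv 1104 (cons (mv 913 (cons (fin 849 5 848)
(fin 1168 5 912)))
(cons (mv 847 (cons (fin 911 4 847)
(mv 913 (cons (fin 849 5 848)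
(mv 914 (cons (fin 976 2 910)
(fin 850 6 849)))))))
(mv 911 (cons (fin 847 4 847)
(mv 1168 (cons (fin 976 7 911)
(fin 1232 7 975))))))))))))
(cons (mv 977 (cons (fin 978 2 974)
(mv 1105 (cons (fin 1106 0 1038)
(mv 1037 (cons (fin 1104 0 1037)
(mv 1036 (cons (fin 1035 2 971)
(mv 1100 (cons (fin 1099 1 1035)
(fin 1101 1 1036)))))))))))
(mv 977 (cons (fin 978 2 974)
(mv 976 (cons (fin 1037 1 973)
(mv 913 (cons (fin 914 2 910)
(mv 785 (cons (fin 849 5 784)
(mv 1105 (cons (fin 1106 0 1038)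
(mv 912 (cons (fin 848 7 848)
(fin 1169 7 912)))))))))))))))))))
(mv 1041 (cons (fin 1042 3 974)
(mv 910 (cons (cons (mv 846 (cons (fin 782 4 782)
(mv 1103 (cons (fin 911 7 846)
(fin 1167 7 910)))))
(mv 1103 (cons (fin 1167 7 910)
(mv 911 (cons (mv 1104 (cons (fin 847 4 847)
(fin 1168 4 911)))
(cons (mv 848 (cons (fin 912 6 847)
(mv 847 (cons (fin 784 6 783)
(mv 783 (cons (fin 719 5 718)
(fin 1038 5 782)))))))
(mv 912 (cons (fin 848 6 847)
(mv 913 (cons (fin 914 1 910)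
(mv 849 (cons (fin 850 2 846)
(mv 977 (cons (fin 978 0 910)
(fin 1104 5 848)))))))))))))))
(cons (mv 846 (cons (fin 782 4 782)
(mv 1038 (cons (cons (mv 781 (cons (fin 845 7 781)
(mv 783 (cons (fin 847 6 782)
(mv 977 (cons (fin 978 2 974)
(mv 1037 (cons (fin 1101 5 845)
(mv 1105 (cons (fin 1104 0 1037)
(fin 1106 0 1038)))))))))))
(mv 781 (cons (fin 845 7 781)
(mv 847 (cons (fin 783 6 782)
(mv 911 (cons (fin 1104 4 847)
(mv 848 (cons (fin 784 6 783)
(mv 849 (cons (fin 909 1 845)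
(fin 850 1 846))))))))))))
(cons (mv 781 (cons (fin 845 7 781)
(mv 977 (cons (fin 978 2 974)
(mv 1037 (cons (fin 1101 5 845)
(mv 1105 (cons (fin 1104 0 1037)
(fin 1106 0 1038)))))))))
(cons (mv 783 (cons (fin 847 6 782)
(mv 977 (cons (fin 978 2 974)
(mv 1037 (cons (fin 1101 5 845)
(mv 1105 (cons (fin 1104 0 1037)
(fin 1106 0 1038)))))))))
(mv 783 (cons (fin 847 6 782)
(mv 845 (cons (fin 781 7 781)
(mv 977 (cons (fin 978 2 974)
(mv 1037 (cons (fin 1101 5 845)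
(mv 1036 (cons (fin 1035 2 971)
(mv 972 (cons (fin 971 3 971)
(mv 1100 (cons (fin 1099 1 1035)
(mv 908 (cons (fin 909 6 844)
(mv 843 (cons (fin 907 7 843)
(mv 844 (cons (fin 911 0 843)
(fin 779 7 779)))))))))))))))))))))))))))
(mv 846 (cons (fin 782 4 782)
(mv 1103 (cons (fin 1167 7 910)
(fin 1038 4 846)))))))))))))
(cons (cons (mv 1041 (cons (fin 1042 3 974)
(mv 1104 (cons (cons (mv 911 (cons (fin 847 4 847)
(mv 1168 (cons (fin 976 7 911)
(fin 1232 7 975)))))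
(mv 911 (cons (fin 847 4 847)
(mv 1103 (cons (mv 910 (cons (fin 846 7 846)
(fin 1167 7 910)))
(mv 912 (cons (fin 848 6 847)
(mv 913 (cons (fin 914 1 910)
(mv 849 (cons (fin 977 5 848)
(fin 976 6 848))))))))))))
(cons (mv 1168 (cons (fin 1232 7 975)
(mv 976 (cons (cons (mv 913 (cons (fin 977 6 912)
(mv 849 (cons (fin 912 6 848)
(mv 1167 (cons (fin 1231 5 975)
(mv 1103 (cons (fin 910 7 910)
(mv 1166 (cons (fin 1230 5 974)
(mv 1105 (cons (fin 1106 1 1102)
(fin 1165 2 1101)))))))))))))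
(mv 1167 (cons (fin 1231 5 975)
(mv 1103 (cons (fin 910 7 910)
(fin 912 5 911))))))
(cons (mv 913 (cons (fin 977 6 912)
(mv 912 (cons (fin 849 6 848)
(mv 848 (cons (fin 784 5 783)
(fin 1103 5 847)))))))
(cons (mv 913 (cons (fin 977 6 912)
(mv 1167 (cons (fin 1231 5 975)
(mv 1103 (cons (fin 910 7 910)
(mv 1166 (cons (fin 1230 5 974)
(mv 1105 (cons (fin 1106 1 1102)
(fin 1165 2 1101)))))))))))
(mv 913 (cons (fin 977 6 912)
(mv 912 (cons (fin 849 6 848)
(mv 848 (cons (fin 784 5 783)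
(fin 1105 4 848)))))))))))))
(mv 911 (cons (fin 847 4 847)
(mv 1168 (cons (fin 1232 7 975)
(fin 1103 4 911))))))))))
(mv 1041 (cons (fin 1042 3 974)
(mv 1104 (cons (cons (mv 911 (cons (fin 847 4 847)
(mv 1168 (cons (fin 976 7 911)
(fin 1232 7 975)))))
(mv 1168 (cons (fin 1232 7 975)
(mv 976 (cons (cons (mv 1167 (cons (fin 1231 5 975)
(mv 1103 (cons (fin 910 7 910)
(fin 912 5 911)))))
(mv 1169 (cons (fin 1233 4 976)
(mv 912 (cons (fin 1105 4 912)
(mv 848 (cons (fin 784 5 783)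
(fin 1103 5 847))))))))
(cons (mv 1167 (cons (fin 1231 5 975)
(mv 1103 (cons (fin 910 7 910)
(mv 1166 (cons (fin 1230 5 974)
(mv 1105 (cons (fin 1106 1 1102)
(fin 1165 2 1101)))))))))
(mv 1167 (cons (fin 1231 5 975)
(mv 1169 (cons (fin 1233 4 976)
(mv 912 (cons (fin 1105 4 912)
(mv 848 (cons (fin 784 5 783)
(mv 849 (cons (fin 785 6 784)
(fin 913 6 848)))))))))))))))))
(cons (mv 911 (cons (fin 847 4 847)
(mv 1103 (cons (mv 910 (cons (fin 846 7 846)
(fin 1167 7 910)))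
(cons (mv 912 (cons (fin 848 6 847)
(mv 913 (cons (fin 914 1 910)
(mv 976 (cons (fin 1167 5 911)
(fin 849 6 848)))))))
(mv 846 (cons (fin 910 7 846)
(mv 912 (cons (fin 848 6 847)
(mv 913 (cons (fin 914 1 910)
(mv 976 (cons (fin 849 6 848)
(mv 1105 (cons (fin 1169 4 912)
(mv 1038 (cons (fin 1106 3 1038)
(fin 1037 0 1037))))))))))))))))))
(mv 911 (cons (fin 847 4 847)
(mv 1168 (cons (fin 1232 7 975)
(fin 1103 4 911)))))))))))
(cons (mv 1041 (cons (fin 1042 3 974)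
(mv 1038 (cons (cons (mv 977 (cons (fin 978 2 974)
(mv 976 (cons (fin 1037 1 973)
(mv 909 (cons (fin 910 3 909)
(mv 913 (cons (fin 914 2 910)
(mv 849 (cons (fin 785 5 784)
(fin 1104 5 848)))))))))))
(mv 1105 (cons (fin 1106 0 1038)
(mv 1037 (cons (fin 1104 0 1037)
(mv 1036 (cons (fin 1035 2 971)
(fin 976 2 972))))))))
(cons (mv 977 (cons (fin 978 2 974)
(mv 1105 (cons (fin 1106 0 1038)
(mv 1104 (cons (mv 913 (cons (fin 849 5 848)
(fin 1168 5 912)))
(cons (mv 847 (cons (fin 911 4 847)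
(mv 913 (cons (fin 849 5 848)
(mv 914 (cons (fin 976 2 910)
(fin 850 6 849)))))))
(mv 911 (cons (fin 847 4 847)
(mv 1168 (cons (fin 976 7 911)
(fin 1232 7 975))))))))))))
(cons (mv 977 (cons (fin 978 2 974)
(mv 1105 (cons (fin 1106 0 1038)
(mv 1037 (cons (fin 1104 0 1037)
(mv 1036 (cons (fin 1035 2 971)
(mv 1100 (cons (fin 1099 1 1035)
(fin 1101 1 1036)))))))))))
(mv 977 (cons (fin 978 2 974)
(mv 976 (cons (fin 1037 1 973)
(mv 910 (cons (fin 909 3 909)
(mv 846 (cons (fin 782 4 782)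
(fin 1103 4 846)))))))))))))))
(cons (mv 1041 (cons (fin 1042 3 974)
(mv 1104 (cons (cons (mv 911 (cons (fin 847 4 847)
(mv 1168 (cons (fin 976 7 911)
(fin 1232 7 975)))))
(mv 911 (cons (fin 847 4 847)
(mv 1103 (cons (mv 910 (cons (fin 846 7 846)
(fin 1167 7 910)))
(mv 912 (cons (fin 848 6 847)
(mv 913 (cons (fin 914 1 910)
(mv 849 (cons (fin 977 5 848)
(fin 976 6 848))))))))))))
(cons (mv 1168 (cons (fin 1232 7 975)
(mv 976 (cons (mv 913 (cons (fin 977 6 912)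
(mv 912 (cons (fin 849 6 848)
(mv 848 (cons (fin 784 5 783)
(fin 1103 5 847)))))))
(cons (mv 1167 (cons (fin 1231 5 975)
(mv 1103 (cons (fin 910 7 910)
(fin 912 5 911)))))
(mv 977 (cons (fin 913 6 912)
(mv 978 (cons (fin 1038 1 974)
(fin 979 1 975))))))))))
(mv 911 (cons (fin 847 4 847)
(mv 1168 (cons (fin 1232 7 975)
(fin 1103 4 911))))))))))
(mv 1041 (cons (fin 1042 3 974)
(mv 1038 (cons (cons (mv 977 (cons (fin 978 2 974)
(mv 976 (cons (fin 1037 1 973)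
(mv 909 (cons (fin 910 3 909)
(mv 1105 (cons (fin 1106 0 1038)
(mv 912 (cons (fin 1169 7 912)
(fin 848 4 848)))))))))))
(mv 1105 (cons (fin 1106 0 1038)
(mv 1037 (cons (fin 1104 0 1037)
(mv 1036 (cons (fin 1035 2 971)
(fin 976 2 972))))))))
(cons (mv 977 (cons (fin 978 2 974)
(mv 976 (cons (fin 1037 1 973)
(mv 910 (cons (fin 909 3 909)
(mv 846 (cons (fin 782 4 782)
(fin 1103 4 846)))))))))
(cons (mv 977 (cons (fin 978 2 974)
(mv 1105 (cons (fin 1106 0 1038)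
(mv 976 (cons (mv 912 (cons (fin 1169 7 912)
(fin 848 4 848)))
(cons (mv 909 (cons (fin 910 3 909)
(mv 1169 (cons (fin 1233 7 976)
(mv 1168 (cons (fin 1232 5 976)
(mv 1104 (cons (fin 911 7 911)
(mv 1167 (cons (fin 1231 5 975)
(mv 1165 (cons (fin 1166 2 1101)
(mv 1170 (cons (fin 1234 4 977)
(mv 1171 (cons (fin 1103 3 1103)
(fin 1172 3 1104)))))))))))))))))
(mv 848 (cons (fin 912 4 848)
(mv 910 (cons (fin 909 3 909)
(mv 846 (cons (fin 782 4 782)
(fin 1103 4 846))))))))))))))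
(mv 977 (cons (fin 978 2 974)
(mv 1105 (cons (fin 1106 0 1038)
(mv 1037 (cons (fin 1104 0 1037)
(mv 1036 (cons (fin 1035 2 971)
(mv 1100 (cons (fin 1099 1 1035)
(fin 1101 1 1036))))))))))))))))))))))
(mv 976 (cons (cons (mv 973 (cons (fin 1041 0 973)
(mv 908 (cons (fin 909 3 908)
(mv 907 (cons (fin 972 3 907)
(mv 913 (cons (fin 912 2 909)
(mv 977 (cons (fin 914 2 910)
(mv 1037 (cons (fin 1036 1 972)
(fin 1038 1 973)))))))))))))
(cons (mv 977 (cons (cons (mv 909 (cons (fin 910 3 909)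
(mv 913 (cons (fin 914 2 910)
(mv 849 (cons (fin 785 5 784)
(mv 1041 (cons (fin 1042 0 974)
(fin 1104 5 848)))))))))
(mv 910 (cons (fin 909 3 909)
(mv 911 (cons (fin 978 3 910)
(mv 847 (cons (fin 783 4 783)
(mv 1104 (cons (fin 912 7 847)
(fin 1168 7 911))))))))))
(cons (mv 913 (cons (fin 914 2 910)
(mv 849 (cons (fin 785 5 784)
(mv 1041 (cons (fin 1042 0 974)
(fin 1104 5 848)))))))
(mv 909 (cons (fin 910 3 909)
(mv 913 (cons (fin 914 2 910)
(mv 849 (cons (fin 785 5 784)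
(mv 1037 (cons (fin 1038 1 973)
(mv 1041 (cons (fin 1042 0 974)
(mv 786 (cons (fin 850 6 785)
(mv 848 (cons (fin 784 7 784)
(mv 1105 (cons (fin 912 7 848)
(mv 1169 (cons (fin 1233 7 976)
(mv 1170 (cons (fin 1106 4 913)
(fin 1234 4 977))))))))))))))))))))))))
(mv 977 (cons (cons (mv 909 (cons (fin 910 3 909)
(mv 908 (cons (fin 973 3 908)
(mv 913 (cons (fin 914 2 910)
(mv 849 (cons (fin 785 5 784)
(mv 1104 (cons (fin 912 6 848)
(fin 1168 6 912)))))))))))
(mv 909 (cons (fin 910 3 909)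
(mv 973 (cons (fin 908 3 908)
(mv 1037 (cons (fin 1036 1 972)
(fin 1038 1 973))))))))
(cons (mv 913 (cons (fin 914 2 910)
(mv 785 (cons (fin 849 5 784)
(mv 912 (cons (fin 973 2 909)
(mv 1037 (cons (fin 1038 1 973)
(mv 1104 (cons (fin 1168 6 912)
(mv 847 (cons (fin 911 7 847)
(mv 848 (cons (fin 783 7 783)
(mv 784 (cons (fin 721 6 720)
(fin 720 4 720)))))))))))))))))
(mv 909 (cons (fin 910 3 909)
(mv 913 (cons (fin 914 2 910)
(mv 849 (cons (fin 785 5 784)
(mv 1104 (cons (fin 912 6 848)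
(fin 1168 6 912))))))))))))))
(cons (mv 973 (cons (fin 1041 0 973)
(mv 908 (cons (fin 909 3 908)
(mv 912 (cons (fin 913 2 909)
(mv 972 (cons (fin 907 3 907)
(fin 911 2 908)))))))))
(cons (mv 973 (cons (fin 1041 0 973)
(mv 908 (cons (fin 909 3 908)
(mv 972 (cons (fin 907 3 907)
(mv 1036 (cons (fin 1035 1 971)
(fin 1037 1 972)))))))))
(mv 973 (cons (fin 1041 0 973)
(mv 912 (cons (fin 913 2 909)
(mv 911 (cons (fin 972 2 908)
(mv 847 (cons (fin 1104 7 847)
(fin 783 4 783)))))))))))))))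
(cons (cons (mv 973 (cons (cons (mv 972 (cons (fin 1039 0 972)
(mv 907 (cons (fin 908 3 907)
(mv 906 (cons (fin 971 3 906)
(mv 912 (cons (fin 911 2 908)
(mv 976 (cons (fin 913 2 909)
(mv 1036 (cons (fin 1035 1 971)
(fin 1037 1 972)))))))))))))
(cons (mv 976 (cons (cons (mv 908 (cons (fin 909 3 908)
(mv 913 (cons (fin 912 2 909)
(mv 977 (cons (fin 914 2 910)
(mv 1037 (cons (fin 1036 1 972)
(fin 1038 1 973)))))))))
(mv 909 (cons (fin 908 3 908)
(mv 913 (cons (fin 912 2 909)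
(mv 977 (cons (fin 910 3 909)
(fin 914 2 910))))))))
(cons (mv 909 (cons (fin 908 3 908)
(mv 910 (cons (fin 977 3 909)
(mv 1037 (cons (fin 1036 1 972)
(mv 846 (cons (fin 782 5 781)
(fin 1101 6 845)))))))))
(cons (mv 913 (cons (fin 912 2 909)
(mv 977 (cons (fin 914 2 910)
(mv 1037 (cons (fin 1036 1 972)
(fin 1038 1 973)))))))
(mv 908 (cons (fin 909 3 908)
(mv 912 (cons (fin 913 2 909)
(mv 1036 (cons (fin 1037 1 972)
(mv 848 (cons (mv 1039 (cons (fin 784 5 783)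
(fin 1103 5 847)))
(cons (mv 783 (cons (fin 847 7 783)
(mv 784 (cons (fin 719 7 719)
(mv 785 (cons (fin 721 6 720)
(fin 849 6 784)))))))
(mv 783 (cons (fin 847 7 783)
(mv 785 (cons (fin 849 6 784)
(mv 1103 (cons (fin 1039 5 847)
(mv 1104 (cons (fin 1167 5 911)
(mv 1168 (cons (fin 911 7 911)
(mv 1169 (cons (fin 1105 4 912)
(fin 1233 4 976))))))))))))))))))))))))))
(mv 976 (cons (cons (mv 908 (cons (fin 909 3 908)
(mv 907 (cons (fin 972 3 907)
(mv 913 (cons (fin 912 2 909)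
(mv 977 (cons (fin 914 2 910)
(mv 1037 (cons (fin 1036 1 972)
(fin 1038 1 973)))))))))))
(mv 908 (cons (fin 909 3 908)
(mv 972 (cons (fin 907 3 907)
(mv 1036 (cons (fin 1035 1 971)
(fin 1037 1 972))))))))
(cons (mv 912 (cons (fin 913 2 909)
(mv 911 (cons (fin 972 2 908)
(mv 847 (cons (fin 1104 7 847)
(fin 783 4 783)))))))
(mv 908 (cons (fin 909 3 908)
(mv 913 (cons (fin 912 2 909)
(mv 977 (cons (fin 914 2 910)
(mv 1037 (cons (fin 1036 1 972)
(fin 1038 1 973))))))))))))))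
(cons (mv 972 (cons (fin 1039 0 972)
(mv 907 (cons (fin 908 3 907)
(mv 911 (cons (fin 912 2 908)
(mv 971 (cons (fin 906 3 906)
(fin 910 2 907)))))))))
(cons (mv 972 (cons (fin 1039 0 972)
(mv 907 (cons (fin 908 3 907)
(mv 971 (cons (fin 906 3 906)
(mv 1035 (cons (fin 1034 1 970)
(fin 1036 1 971)))))))))
(mv 972 (cons (fin 1039 0 972)
(mv 911 (cons (fin 912 2 908)
(mv 910 (cons (fin 971 2 907)
(mv 1036 (cons (fin 1035 1 971)
(mv 976 (cons (fin 1037 1 972)
(mv 977 (cons (fin 909 3 909)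
(fin 978 3 910)))))))))))))))))
(mv 1039 (cons (cons (mv 973 (cons (fin 972 0 972)
(mv 1041 (cons (fin 1038 3 973)
(fin 1042 3 974)))))
(mv 1041 (cons (fin 1042 3 974)
(mv 910 (cons (cons (mv 846 (cons (fin 782 4 782)
(mv 1103 (cons (fin 911 7 846)
(fin 1167 7 910)))))
(mv 1103 (cons (fin 1167 7 910)
(mv 911 (cons (mv 1104 (cons (fin 847 4 847)
(fin 1168 4 911)))
(cons (mv 848 (cons (fin 912 6 847)
(mv 847 (cons (fin 784 6 783)
(mv 783 (cons (fin 719 5 718)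
(fin 1038 5 782)))))))
(mv 912 (cons (fin 848 6 847)
(mv 913 (cons (fin 914 1 910)
(mv 849 (cons (fin 850 2 846)
(mv 977 (cons (fin 978 0 910)
(fin 1104 5 848)))))))))))))))
(cons (mv 846 (cons (fin 782 4 782)
(mv 1038 (cons (cons (mv 781 (cons (fin 845 7 781)
(mv 783 (cons (fin 847 6 782)
(mv 977 (cons (fin 978 2 974)
(mv 1037 (cons (fin 1101 5 845)
(mv 1105 (cons (fin 1104 0 1037)
(fin 1106 0 1038)))))))))))
(mv 781 (cons (fin 845 7 781)
(mv 847 (cons (fin 783 6 782)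
(mv 911 (cons (fin 1104 4 847)
(mv 848 (cons (fin 784 6 783)
(mv 849 (cons (fin 909 1 845)
(fin 850 1 846))))))))))))
(cons (mv 781 (cons (fin 845 7 781)
(mv 977 (cons (fin 978 2 974)
(mv 1037 (cons (fin 1101 5 845)
(mv 1105 (cons (fin 1104 0 1037)
(fin 1106 0 1038)))))))))
(cons (mv 783 (cons (fin 847 6 782)
(mv 977 (cons (fin 978 2 974)
(mv 1037 (cons (fin 1101 5 845)
(mv 1105 (cons (fin 1104 0 1037)
(fin 1106 0 1038)))))))))
(mv 783 (cons (fin 847 6 782)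
(mv 845 (cons (fin 781 7 781)
(mv 977 (cons (fin 978 2 974)
(mv 1037 (cons (fin 1101 5 845)
(mv 1036 (cons (fin 1035 2 971)
(mv 972 (cons (fin 971 3 971)
(mv 1100 (cons (fin 1099 1 1035)
(mv 908 (cons (fin 909 6 844)
(mv 843 (cons (fin 907 7 843)
(mv 844 (cons (fin 911 0 843)
(fin 779 7 779)))))))))))))))))))))))))))
(mv 846 (cons (fin 782 4 782)
(mv 1103 (cons (fin 1167 7 910)
(fin 1038 4 846)))))))))))
(cons (mv 973 (cons (fin 972 0 972)
(mv 910 (cons (cons (mv 846 (cons (fin 782 4 782)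
(mv 1103 (cons (fin 911 7 846)
(fin 1167 7 910)))))
(mv 1103 (cons (fin 1167 7 910)
(mv 911 (cons (mv 912 (cons (fin 913 1 909)
(fin 848 6 847)))
(mv 1104 (cons (fin 847 4 847)
(fin 1168 4 911))))))))
(cons (mv 846 (cons (fin 782 4 782)
(mv 1038 (cons (cons (mv 781 (cons (fin 845 7 781)
(mv 847 (cons (fin 783 6 782)
(mv 911 (cons (fin 1104 4 847)
(mv 848 (cons (fin 784 6 783)
(mv 849 (cons (fin 909 1 845)
(fin 850 1 846)))))))))))
(mv 845 (cons (fin 781 7 781)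
(mv 1037 (cons (fin 1101 5 845)
(mv 1036 (cons (fin 1035 2 971)
(mv 1100 (cons (fin 1099 1 1035)
(fin 909 5 844))))))))))
(cons (mv 847 (cons (fin 783 6 782)
(mv 911 (cons (fin 1104 4 847)
(mv 848 (cons (fin 784 6 783)
(mv 849 (cons (fin 909 1 845)
(fin 850 1 846)))))))))
(mv 781 (cons (fin 845 7 781)
(mv 847 (cons (fin 783 6 782)
(mv 911 (cons (fin 1104 4 847)
(mv 848 (cons (fin 784 6 783)
(mv 849 (cons (fin 850 1 846)
(mv 913 (cons (fin 912 1 909)
(fin 914 0 846))))))))))))))))))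
(mv 846 (cons (fin 782 4 782)
(mv 1103 (cons (fin 1167 7 910)
(fin 1038 4 846))))))))))
(cons (mv 1041 (cons (fin 1042 3 974)
(mv 1038 (cons (fin 973 3 973)
(mv 977 (cons (fin 978 2 974)
(mv 1105 (cons (fin 1106 0 1038)
(mv 1037 (cons (fin 1104 0 1037)
(mv 1036 (cons (fin 1035 2 971)
(mv 1100 (cons (fin 1099 1 1035)
(fin 1101 1 1036)))))))))))))))
(mv 973 (cons (fin 972 0 972)
(mv 1041 (cons (fin 1042 3 974)
(mv 911 (cons (cons (mv 847 (cons (fin 1104 4 847)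
(mv 782 (cons (fin 846 7 782)
(mv 718 (cons (fin 783 7 718)
(mv 848 (cons (fin 784 6 783)
(mv 912 (cons (fin 1103 6 847)
(mv 913 (cons (fin 910 1 909)
(fin 914 1 910)))))))))))))
(cons (mv 912 (cons (mv 913 (cons (fin 910 1 909)
(fin 914 1 910)))
(cons (mv 1103 (cons (fin 848 6 847)
(mv 910 (cons (fin 846 7 846)
(fin 1167 7 910)))))
(mv 848 (cons (fin 1103 6 847)
(mv 720 (cons (fin 784 5 719)
(mv 913 (cons (fin 914 1 910)
(mv 977 (cons (fin 1105 7 848)
(mv 849 (cons (fin 1104 5 848)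
(mv 850 (cons (fin 851 1 847)
(fin 786 6 785))))))))))))))))
(mv 912 (cons (mv 913 (cons (fin 910 1 909)
(fin 914 1 910)))
(mv 848 (cons (fin 1103 6 847)
(mv 784 (cons (fin 720 5 719)
(fin 847 6 783)))))))))
(cons (mv 847 (cons (fin 1104 4 847)
(mv 782 (cons (fin 846 7 782)
(mv 783 (cons (fin 718 7 718)
(mv 784 (cons (fin 720 6 719)
(fin 848 6 783)))))))))
(cons (mv 847 (cons (fin 1104 4 847)
(mv 782 (cons (fin 846 7 782)
(mv 783 (cons (fin 718 7 718)
(mv 719 (cons (fin 910 5 718)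
(mv 720 (cons (fin 656 6 655)
(fin 784 6 719)))))))))))
(mv 847 (cons (fin 1104 4 847)
(mv 782 (cons (fin 846 7 782)
(mv 783 (cons (fin 718 7 718)
(mv 910 (cons (fin 719 5 718)
(mv 912 (cons (fin 913 1 909)
(mv 1103 (cons (fin 1167 7 910)
(fin 848 6 847))))))))))))))))))))))))))
(cons (mv 1041 (cons (cons (mv 973 (cons (fin 976 0 973)
(mv 1039 (cons (fin 1038 3 973)
(fin 1042 3 974)))))
(mv 1039 (cons (fin 1042 3 974)
(mv 1038 (cons (fin 973 3 973)
(mv 977 (cons (fin 978 2 974)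
(mv 1105 (cons (fin 1106 0 1038)
(mv 1037 (cons (fin 1104 0 1037)
(mv 1036 (cons (fin 1035 2 971)
(mv 1100 (cons (fin 1099 1 1035)
(fin 1101 1 1036))))))))))))))))
(cons (mv 976 (cons (fin 973 0 973)
(mv 977 (cons (fin 1042 0 974)
(mv 909 (cons (fin 910 3 909)
(mv 913 (cons (fin 914 2 910)
(mv 849 (cons (fin 785 5 784)
(fin 1104 5 848)))))))))))
(cons (mv 1039 (cons (fin 1042 3 974)
(mv 1038 (cons (cons (mv 977 (cons (fin 978 2 974)
(mv 976 (cons (fin 1037 1 973)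
(mv 909 (cons (fin 910 3 909)
(mv 913 (cons (fin 914 2 910)
(mv 849 (cons (fin 785 5 784)
(fin 1104 5 848)))))))))))
(mv 1105 (cons (fin 1106 0 1038)
(mv 1037 (cons (fin 1104 0 1037)
(mv 1036 (cons (fin 1035 2 971)
(fin 976 2 972))))))))
(cons (mv 977 (cons (fin 978 2 974)
(mv 1105 (cons (fin 1106 0 1038)
(mv 976 (cons (mv 912 (cons (fin 1169 7 912)
(fin 848 4 848)))
(mv 909 (cons (fin 910 3 909)
(mv 913 (cons (fin 914 2 910)
(mv 849 (cons (fin 785 5 784)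
(fin 1104 5 848)))))))))))))
(cons (mv 977 (cons (fin 978 2 974)
(mv 1105 (cons (fin 1106 0 1038)
(mv 1037 (cons (fin 1104 0 1037)
(mv 1036 (cons (fin 1035 2 971)
(mv 1100 (cons (fin 1099 1 1035)
(fin 1101 1 1036)))))))))))
(mv 977 (cons (fin 978 2 974)
(mv 976 (cons (fin 1037 1 973)
(mv 909 (cons (fin 910 3 909)
(mv 913 (cons (fin 914 2 910)
(mv 785 (cons (fin 849 5 784)
(mv 1105 (cons (fin 1106 0 1038)
(mv 912 (cons (fin 848 7 848)
(fin 1169 7 912)))))))))))))))))))))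
(mv 973 (cons (fin 976 0 973)
(mv 1039 (cons (fin 1038 3 973)
(mv 911 (cons (cons (mv 847 (cons (fin 1104 4 847)
(mv 782 (cons (fin 846 7 782)
(mv 718 (cons (fin 783 7 718)
(mv 848 (cons (fin 784 6 783)
(mv 912 (cons (fin 1103 6 847)
(mv 913 (cons (fin 910 1 909)
(fin 914 1 910)))))))))))))
(cons (mv 912 (cons (mv 913 (cons (fin 910 1 909)
(fin 914 1 910)))
(cons (mv 1103 (cons (fin 848 6 847)
(mv 910 (cons (fin 846 7 846)
(fin 1167 7 910)))))
(mv 848 (cons (fin 1103 6 847)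
(mv 720 (cons (fin 784 5 719)
(mv 913 (cons (fin 914 1 910)
(mv 977 (cons (fin 1105 7 848)
(mv 849 (cons (fin 1104 5 848)
(mv 850 (cons (fin 851 1 847)
(fin 786 6 785))))))))))))))))
(mv 912 (cons (mv 913 (cons (fin 910 1 909)
(fin 914 1 910)))
(mv 848 (cons (fin 1103 6 847)
(mv 784 (cons (fin 720 5 719)
(fin 847 6 783)))))))))
(cons (mv 847 (cons (fin 1104 4 847)
(mv 782 (cons (fin 846 7 782)
(mv 783 (cons (fin 718 7 718)
(mv 784 (cons (fin 720 6 719)
(fin 848 6 783)))))))))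
(cons (mv 847 (cons (fin 1104 4 847)
(mv 782 (cons (fin 846 7 782)
(mv 783 (cons (fin 718 7 718)
(mv 719 (cons (fin 910 5 718)
(mv 720 (cons (fin 656 6 655)
(fin 784 6 719)))))))))))
(mv 847 (cons (fin 1104 4 847)
(mv 782 (cons (fin 846 7 782)
(mv 783 (cons (fin 718 7 718)
(mv 910 (cons (fin 719 5 718)
(mv 912 (cons (fin 913 1 909)
(mv 1103 (cons (fin 1167 7 910)
(fin 848 6 847)))))))))))))))))))))))))
(mv 973 (cons (cons (mv 972 (cons (fin 1039 0 972)
(mv 907 (cons (fin 908 3 907)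
(mv 906 (cons (fin 971 3 906)
(mv 976 (cons (fin 1041 0 973)
(mv 1036 (cons (fin 1035 1 971)
(fin 1037 1 972)))))))))))
(cons (mv 972 (cons (fin 1039 0 972)
(mv 907 (cons (fin 908 3 907)
(mv 971 (cons (fin 906 3 906)
(mv 1035 (cons (fin 1034 1 970)
(fin 1036 1 971)))))))))
(mv 976 (cons (fin 1041 0 973)
(mv 908 (cons (fin 909 3 908)
(mv 907 (cons (fin 972 3 907)
(mv 913 (cons (fin 912 2 909)
(mv 977 (cons (fin 914 2 910)
(mv 1037 (cons (fin 1036 1 972)
(fin 1038 1 973)))))))))))))))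
(cons (mv 976 (cons (fin 1041 0 973)
(mv 908 (cons (fin 909 3 908)
(mv 913 (cons (fin 912 2 909)
(mv 977 (cons (fin 914 2 910)
(mv 1037 (cons (fin 1036 1 972)
(fin 1038 1 973)))))))))))
(cons (mv 972 (cons (fin 1039 0 972)
(mv 908 (cons (fin 907 3 907)
(mv 976 (cons (fin 909 3 908)
(fin 1041 0 973)))))))
(mv 972 (cons (fin 1039 0 972)
(mv 976 (cons (fin 1041 0 973)
(mv 1036 (cons (fin 1035 1 971)
(fin 1037 1 972))))))))))))))
(cons (cons (mv 973 (cons (cons (mv 972 (cons (fin 1039 0 972)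
(mv 907 (cons (fin 908 3 907)
(mv 906 (cons (fin 971 3 906)
(mv 911 (cons (fin 912 2 908)
(mv 976 (cons (fin 1041 0 973)
(mv 1036 (cons (fin 1035 1 971)
(fin 1037 1 972)))))))))))))
(mv 972 (cons (fin 1039 0 972)
(mv 907 (cons (fin 908 3 907)
(mv 911 (cons (fin 912 2 908)
(mv 971 (cons (fin 906 3 906)
(fin 910 2 907))))))))))
(cons (mv 976 (cons (fin 1041 0 973)
(mv 909 (cons (fin 908 3 908)
(mv 910 (cons (fin 977 3 909)
(mv 912 (cons (fin 913 2 909)
(mv 1037 (cons (fin 1036 1 972)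
(mv 846 (cons (fin 782 5 781)
(fin 1101 6 845)))))))))))))
(cons (mv 972 (cons (fin 1039 0 972)
(mv 907 (cons (fin 908 3 907)
(mv 906 (cons (fin 971 3 906)
(mv 976 (cons (fin 1041 0 973)
(mv 1036 (cons (fin 1035 1 971)
(fin 1037 1 972)))))))))))
(mv 972 (cons (fin 1039 0 972)
(mv 911 (cons (fin 912 2 908)
(mv 910 (cons (fin 971 2 907)
(mv 976 (cons (fin 1041 0 973)
(mv 977 (cons (fin 909 3 909)
(fin 978 3 910)))))))))))))))
(cons (mv 973 (cons (cons (mv 972 (cons (fin 1039 0 972)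
(mv 907 (cons (fin 908 3 907)
(mv 906 (cons (fin 971 3 906)
(mv 911 (cons (fin 912 2 908)
(mv 976 (cons (fin 1041 0 973)
(mv 1036 (cons (fin 1035 1 971)
(fin 1037 1 972)))))))))))))
(cons (mv 976 (cons (fin 1041 0 973)
(mv 908 (cons (fin 909 3 908)
(mv 912 (cons (fin 913 2 909)
(mv 1036 (cons (fin 1037 1 972)
(mv 848 (cons (mv 1039 (cons (fin 784 5 783)
(fin 1103 5 847)))
(cons (mv 783 (cons (fin 847 7 783)
(mv 784 (cons (fin 719 7 719)
(mv 785 (cons (fin 721 6 720)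
(fin 849 6 784)))))))
(mv 783 (cons (fin 847 7 783)
(mv 785 (cons (fin 849 6 784)
(mv 1103 (cons (fin 1039 5 847)
(mv 1104 (cons (fin 1167 5 911)
(mv 1168 (cons (fin 911 7 911)
(mv 1169 (cons (fin 1105 4 912)
(fin 1233 4 976))))))))))))))))))))))))
(mv 972 (cons (fin 1039 0 972)
(mv 907 (cons (fin 908 3 907)
(mv 911 (cons (fin 912 2 908)
(mv 971 (cons (fin 906 3 906)
(fin 910 2 907)))))))))))
(cons (mv 976 (cons (fin 1041 0 973)
(mv 908 (cons (fin 909 3 908)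
(mv 912 (cons (fin 913 2 909)
(mv 972 (cons (fin 907 3 907)
(fin 911 2 908)))))))))
(cons (mv 972 (cons (fin 1039 0 972)
(mv 907 (cons (fin 908 3 907)
(mv 906 (cons (fin 971 3 906)
(mv 976 (cons (fin 1041 0 973)
(mv 1036 (cons (fin 1035 1 971)
(fin 1037 1 972)))))))))))
(mv 972 (cons (fin 1039 0 972)
(mv 911 (cons (fin 912 2 908)
(mv 910 (cons (fin 971 2 907)
(mv 976 (cons (fin 1041 0 973)
(mv 1036 (cons (fin 1035 1 971)
(fin 1037 1 972)))))))))))))))
(mv 1039 (cons (cons (mv 973 (cons (fin 972 0 972)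
(mv 1041 (cons (fin 1038 3 973)
(fin 1042 3 974)))))
(mv 1041 (cons (fin 1042 3 974)
(mv 1038 (cons (cons (mv 977 (cons (fin 978 2 974)
(mv 976 (cons (fin 1037 1 973)
(mv 909 (cons (fin 910 3 909)
(mv 913 (cons (fin 914 2 910)
(mv 849 (cons (fin 785 5 784)
(fin 1104 5 848)))))))))))
(mv 1105 (cons (fin 1106 0 1038)
(mv 1037 (cons (fin 1104 0 1037)
(mv 1036 (cons (fin 1035 2 971)
(fin 976 2 972))))))))
(cons (mv 977 (cons (fin 978 2 974)
(mv 1105 (cons (fin 1106 0 1038)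
(mv 1104 (cons (mv 913 (cons (fin 849 5 848)
(fin 1168 5 912)))
(cons (mv 847 (cons (fin 911 4 847)
(mv 913 (cons (fin 849 5 848)
(mv 914 (cons (fin 976 2 910)
(fin 850 6 849)))))))
(mv 911 (cons (fin 847 4 847)
(mv 1168 (cons (fin 976 7 911)
(fin 1232 7 975))))))))))))
(cons (mv 977 (cons (fin 978 2 974)
(mv 1105 (cons (fin 1106 0 1038)
(mv 1037 (cons (fin 1104 0 1037)
(mv 1036 (cons (fin 1035 2 971)
(mv 1100 (cons (fin 1099 1 1035)
(fin 1101 1 1036)))))))))))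
(mv 977 (cons (fin 978 2 974)
(mv 976 (cons (fin 1037 1 973)
(mv 910 (cons (fin 909 3 909)
(mv 846 (cons (fin 782 4 782)
(fin 1103 4 846))))))))))))))))
(cons (mv 973 (cons (fin 972 0 972)
(mv 976 (cons (cons (mv 908 (cons (fin 909 3 908)
(mv 1037 (cons (fin 1036 1 972)
(mv 977 (cons (fin 1038 1 973)
(mv 913 (cons (fin 914 2 910)
(mv 785 (cons (fin 849 5 784)
(mv 978 (cons (fin 979 1 975)
(mv 911 (cons (fin 910 3 910)
(mv 847 (cons (fin 783 4 783)
(fin 1104 4 847)))))))))))))))))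
(mv 909 (cons (fin 908 3 908)
(mv 910 (cons (fin 977 3 909)
(mv 846 (cons (fin 782 4 782)
(mv 1103 (cons (fin 911 7 846)
(fin 1167 7 910))))))))))
(cons (mv 1037 (cons (fin 1036 1 972)
(mv 977 (cons (fin 1038 1 973)
(mv 913 (cons (fin 914 2 910)
(mv 785 (cons (fin 849 5 784)
(mv 978 (cons (fin 979 1 975)
(mv 911 (cons (fin 910 3 910)
(mv 847 (cons (fin 783 4 783)
(fin 1104 4 847)))))))))))))))
(cons (mv 908 (cons (fin 909 3 908)
(mv 1037 (cons (fin 1036 1 972)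
(mv 1104 (cons (mv 911 (cons (fin 1168 7 911)
(fin 847 4 847)))
(cons (mv 847 (cons (fin 911 4 847)
(mv 1038 (cons (fin 1105 0 1037)
(mv 1101 (cons (fin 1100 1 1036)
(mv 910 (cons (fin 846 5 845)
(fin 1165 6 909)))))))))
(mv 1038 (cons (fin 1105 0 1037)
(mv 1101 (cons (fin 1100 1 1036)
(mv 910 (cons (fin 846 5 845)
(fin 1165 6 909))))))))))))))
(mv 908 (cons (fin 909 3 908)
(mv 1037 (cons (fin 1036 1 972)
(mv 977 (cons (fin 1038 1 973)
(mv 914 (cons (fin 913 2 910)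
(mv 978 (cons (fin 979 1 975)
(fin 915 2 911)))))))))))))))))
(mv 973 (cons (fin 972 0 972)
(mv 1041 (cons (fin 1042 3 974)
(fin 976 0 973))))))))))
(cons (cons (mv 973 (cons (cons (mv 972 (cons (fin 1039 0 972)
(mv 907 (cons (fin 908 3 907)
(mv 906 (cons (fin 971 3 906)
(mv 912 (cons (fin 911 2 908)
(mv 976 (cons (fin 913 2 909)
(fin 1041 0 973)))))))))))
(mv 976 (cons (fin 1041 0 973)
(mv 909 (cons (fin 908 3 908)
(mv 913 (cons (fin 912 2 909)
(mv 977 (cons (fin 910 3 909)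
(fin 914 2 910))))))))))
(cons (mv 972 (cons (fin 1039 0 972)
(mv 907 (cons (fin 908 3 907)
(mv 911 (cons (fin 912 2 908)
(mv 971 (cons (fin 906 3 906)
(fin 910 2 907)))))))))
(cons (mv 972 (cons (fin 1039 0 972)
(mv 907 (cons (fin 908 3 907)
(mv 971 (cons (fin 906 3 906)
(mv 1035 (cons (fin 1034 1 970)
(fin 1036 1 971)))))))))
(mv 972 (cons (fin 1039 0 972)
(mv 911 (cons (fin 912 2 908)
(mv 910 (cons (fin 971 2 907)
(mv 976 (cons (fin 1041 0 973)
(mv 977 (cons (fin 909 3 909)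
(fin 978 3 910)))))))))))))))
(mv 973 (cons (cons (mv 972 (cons (fin 1039 0 972)
(mv 907 (cons (fin 908 3 907)
(mv 906 (cons (fin 971 3 906)
(mv 911 (cons (fin 912 2 908)
(mv 976 (cons (fin 1041 0 973)
(mv 1036 (cons (fin 1035 1 971)
(fin 1037 1 972)))))))))))))
(mv 976 (cons (fin 1041 0 973)
(mv 909 (cons (fin 908 3 908)
(mv 910 (cons (fin 977 3 909)
(mv 1037 (cons (fin 1036 1 972)
(mv 846 (cons (fin 782 5 781)
(fin 1101 6 845))))))))))))
(cons (mv 972 (cons (fin 1039 0 972)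
(mv 907 (cons (fin 908 3 907)
(mv 911 (cons (fin 912 2 908)
(mv 971 (cons (fin 906 3 906)
(fin 910 2 907)))))))))
(mv 972 (cons (fin 1039 0 972)
(mv 911 (cons (fin 912 2 908)
(mv 910 (cons (fin 971 2 907)
(mv 976 (cons (fin 1041 0 973)
(mv 977 (cons (fin 909 3 909)
(fin 978 3 910)))))))))))))))
(cons (mv 973 (cons (cons (mv 972 (cons (fin 1039 0 972)
(mv 907 (cons (fin 908 3 907)
(mv 906 (cons (fin 971 3 906)
(mv 911 (cons (fin 912 2 908)
(mv 976 (cons (fin 1041 0 973)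
(mv 1036 (cons (fin 1035 1 971)
(fin 1037 1 972)))))))))))))
(mv 976 (cons (fin 1041 0 973)
(mv 913 (cons (fin 912 2 909)
(mv 977 (cons (fin 914 2 910)
(mv 1037 (cons (fin 1036 1 972)
(fin 1038 1 973))))))))))
(cons (mv 972 (cons (fin 1039 0 972)
(mv 907 (cons (fin 908 3 907)
(mv 911 (cons (fin 912 2 908)
(mv 971 (cons (fin 906 3 906)
(fin 910 2 907)))))))))
(mv 972 (cons (fin 1039 0 972)
(mv 907 (cons (fin 908 3 907)
(mv 906 (cons (fin 971 3 906)
(mv 976 (cons (fin 1041 0 973)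
(mv 1036 (cons (fin 1035 1 971)
(fin 1037 1 972))))))))))))))
(mv 1039 (cons (cons (mv 973 (cons (fin 972 0 972)
(mv 1041 (cons (fin 1038 3 973)
(fin 1042 3 974)))))
(mv 1041 (cons (fin 1042 3 974)
(mv 1038 (cons (cons (mv 977 (cons (fin 978 2 974)
(mv 976 (cons (fin 1037 1 973)
(mv 909 (cons (fin 910 3 909)
(mv 913 (cons (fin 914 2 910)
(mv 849 (cons (fin 785 5 784)
(fin 1104 5 848)))))))))))
(mv 1105 (cons (fin 1106 0 1038)
(mv 1104 (cons (fin 1037 0 1037)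
(mv 911 (cons (fin 847 4 847)
(mv 1168 (cons (fin 976 7 911)
(fin 1232 7 975))))))))))
(cons (mv 977 (cons (fin 978 2 974)
(mv 1105 (cons (fin 1106 0 1038)
(mv 976 (cons (mv 912 (cons (fin 1169 7 912)
(fin 848 4 848)))
(mv 909 (cons (fin 910 3 909)
(mv 913 (cons (fin 914 2 910)
(mv 849 (cons (fin 785 5 784)
(fin 1104 5 848)))))))))))))
(cons (mv 977 (cons (fin 978 2 974)
(mv 1105 (cons (fin 1106 0 1038)
(mv 1104 (cons (fin 1037 0 1037)
(mv 913 (cons (fin 849 5 848)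
(fin 1168 5 912)))))))))
(mv 977 (cons (fin 978 2 974)
(mv 976 (cons (fin 1037 1 973)
(mv 909 (cons (fin 910 3 909)
(mv 913 (cons (fin 914 2 910)
(mv 785 (cons (fin 849 5 784)
(mv 1105 (cons (fin 1106 0 1038)
(mv 912 (cons (fin 848 7 848)
(fin 1169 7 912))))))))))))))))))))))
(cons (mv 972 (cons (fin 973 0 972)
(mv 1104 (cons (cons (mv 911 (cons (fin 847 4 847)
(mv 1168 (cons (fin 976 7 911)
(fin 1232 7 975)))))
(mv 1168 (cons (fin 1232 7 975)
(mv 976 (cons (cons (mv 913 (cons (fin 977 6 912)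
(mv 849 (cons (fin 912 6 848)
(mv 1167 (cons (fin 1231 5 975)
(mv 1103 (cons (fin 910 7 910)
(mv 1166 (cons (fin 1230 5 974)
(mv 1105 (cons (fin 1106 1 1102)
(fin 1165 2 1101)))))))))))))
(mv 1167 (cons (fin 1231 5 975)
(mv 1103 (cons (fin 910 7 910)
(fin 912 5 911))))))
(cons (mv 913 (cons (fin 977 6 912)
(mv 912 (cons (fin 849 6 848)
(mv 848 (cons (fin 784 5 783)
(fin 1103 5 847)))))))
(cons (mv 913 (cons (fin 977 6 912)
(mv 1167 (cons (fin 1231 5 975)
(mv 1103 (cons (fin 910 7 910)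
(mv 1166 (cons (fin 1230 5 974)
(mv 1105 (cons (fin 1106 1 1102)
(fin 1165 2 1101)))))))))))
(mv 913 (cons (fin 977 6 912)
(mv 912 (cons (fin 849 6 848)
(mv 1169 (cons (fin 1105 4 912)
(fin 1233 4 976))))))))))))))
(cons (mv 911 (cons (fin 847 4 847)
(mv 1103 (cons (mv 910 (cons (fin 846 7 846)
(fin 1167 7 910)))
(cons (mv 912 (cons (fin 848 6 847)
(mv 913 (cons (fin 914 1 910)
(mv 976 (cons (fin 1167 5 911)
(fin 849 6 848)))))))
(mv 846 (cons (fin 910 7 846)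
(mv 912 (cons (fin 848 6 847)
(mv 913 (cons (fin 914 1 910)
(mv 976 (cons (fin 849 6 848)
(mv 1105 (cons (fin 1169 4 912)
(mv 1038 (cons (fin 1106 3 1038)
(fin 1037 0 1037))))))))))))))))))
(mv 911 (cons (fin 847 4 847)
(mv 1168 (cons (fin 1232 7 975)
(fin 1103 4 911))))))))))
(mv 973 (cons (fin 972 0 972)
(mv 1041 (cons (fin 1042 3 974)
(fin 976 0 973)))))))))))))
def l38 : Lem := ⟨11781361728633673533054441723117730079171283746239247440356909899588005244909514899260159721150817405942924420470662491174673842036557007391209044253460063708080530407354770956693342717623350878333880262063391977041189311657559161319740834448813323445848447489700891174053752382374267171085078592036680673850818560, 1364188488619052117039239347866456513649002796463150053637294125683934874660798996081554077143514954939560719391993467315760357060950252092440883751412338874275525570214500389399737906729202328074757823334610136385500361863201927522570783463195824829582227387468155397530892724606380359839728503856520185448653189108344328697799108718651444011567270790529619021488303782140165829998766194688,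 1364188488619052117039239347866456513649002796463150053637294125683934874660798996081554077143514954939560719391993467315760357060950252092440883751412338874275525570214500389399737906729202328074757823334610136385500361863201927522570783463195824829582227387468155397530892724606380359839728503856520185448653189108344328697799108718651444011567270790529619021488303782140165829998766194688, 18, 33⟩
theorem l38_valid : l38.Valid :=
  Lem.valid_of_chk t38 t38_valid [974, 1040] c38 l38 (by decide +kernel)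
end Crest.Agent.SnakyAux
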