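import Crest.Agent.S0047_aux.Checker

set_option autoImplicit false
set_option maxRecDepth 100000
namespace Crest.Agent.SnakyAux
open Cert
def t39 : Tbl := Tbl.nil
theorem t39_valid : t39.Valid := Tbl.valid_nil
def c39 : Cert :=
(mv 1039 (cons (cons (cons (mv 1041 (cons (cons (mv 973 (cons (fin 1038 3 973)
(mv 975 (cons (fin 1042 3 974)
(fin 972 0 972)))))
(mv 973 (cons (fin 1038 3 973)
(mv 975 (cons (fin 972 0 972)
(fin 976 0 973))))))
(cons (mv 975 (cons (fin 1042 3 974)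
(mv 973 (cons (fin 972 0 972)
(fin 976 0 973)))))
(cons (mv 1038 (cons (fin 973 3 973)
(mv 1101 (cons (fin 1102 1 1037)
(mv 1037 (cons (fin 1100 1 1036)
(mv 1105 (cons (fin 1104 0 1037)
(fin 1106 0 1038)))))))))
(mv 1042 (cons (fin 975 3 974)
(mv 978 (cons (fin 979 2 975)
(mv 1102 (cons (fin 1103 1 1038)
(mv 1038 (cons (fin 1101 1 1037)
(mv 1106 (cons (fin 1105 0 1038)
(fin 1107 0 1039)))))))))))))))
(mv 975 (cons (cons (cons (mv 972 (cons (fin 973 0 972)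
(mv 1104 (cons (mv 911 (cons (fin 847 4 847)
(mv 1168 (cons (fin 976 7 911)
(fin 1232 7 975)))))
(cons (mv 1168 (cons (fin 1232 7 975)
(mv 1167 (cons (cons (mv 910 (cons (fin 1103 7 910)
(mv 782 (cons (fin 846 4 782)
(mv 976 (cons (fin 1231 5 975)
(mv 1169 (cons (fin 1233 4 976)
(mv 912 (cons (fin 1105 4 912)
(mv 848 (cons (fin 784 5 783)
(mv 849 (cons (fin 785 6 784)
(fin 913 6 848)))))))))))))))
(mv 976 (cons (fin 1231 5 975)
(mv 1169 (cons (fin 1233 4 976)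
(mv 912 (cons (fin 1105 4 912)
(mv 848 (cons (fin 784 5 783)
(mv 849 (cons (fin 785 6 784)
(fin 913 6 848))))))))))))
(cons (mv 1103 (cons (fin 910 7 910)
(mv 1231 (cons (fin 1038 7 974)
(fin 1295 6 1039)))))
(mv 1103 (cons (fin 910 7 910)
(mv 912 (cons (fin 976 5 911)
(mv 1166 (cons (fin 1230 5 974)
(mv 1105 (cons (fin 1106 1 1102)
(fin 1165 2 1101))))))))))))))
(mv 911 (cons (fin 847 4 847)
(mv 1103 (cons (mv 910 (cons (fin 846 7 846)
(fin 1167 7 910)))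
(mv 848 (cons (fin 912 6 847)
(mv 1102 (cons (fin 1166 5 910)
(mv 1101 (cons (fin 1100 2 1036)
(mv 1037 (cons (fin 1036 3 1036)
(mv 1038 (cons (fin 1105 3 1037)
(mv 1165 (cons (fin 1164 1 1100)
(fin 1229 6 973))))))))))))))))))))))
(cons (mv 1104 (cons (mv 911 (cons (fin 847 4 847)
(mv 1168 (cons (fin 976 7 911)
(fin 1232 7 975)))))
(cons (mv 1168 (cons (fin 1232 7 975)
(mv 1167 (cons (cons (mv 910 (cons (fin 1103 7 910)
(mv 782 (cons (fin 846 4 782)
(mv 976 (cons (fin 1231 5 975)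
(mv 1169 (cons (fin 1233 4 976)
(mv 912 (cons (fin 1105 4 912)
(mv 848 (cons (fin 784 5 783)
(mv 849 (cons (fin 785 6 784)
(fin 913 6 848)))))))))))))))
(mv 976 (cons (fin 1231 5 975)
(mv 1169 (cons (fin 1233 4 976)
(mv 912 (cons (fin 1105 4 912)
(mv 848 (cons (fin 784 5 783)
(mv 849 (cons (fin 785 6 784)
(fin 913 6 848))))))))))))
(cons (mv 1103 (cons (fin 910 7 910)
(mv 1231 (cons (fin 1038 7 974)
(fin 1295 6 1039)))))
(mv 1103 (cons (fin 910 7 910)
(mv 912 (cons (fin 976 5 911)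
(mv 1166 (cons (fin 1230 5 974)
(mv 1105 (cons (fin 1106 1 1102)
(fin 1165 2 1101))))))))))))))
(mv 911 (cons (fin 847 4 847)
(mv 1103 (cons (mv 910 (cons (fin 846 7 846)
(fin 1167 7 910)))
(mv 848 (cons (fin 912 6 847)
(mv 1102 (cons (fin 1166 5 910)
(mv 1101 (cons (fin 1100 2 1036)
(mv 1037 (cons (fin 1036 3 1036)
(mv 1038 (cons (fin 1105 3 1037)
(mv 1165 (cons (fin 1164 1 1100)
(fin 1229 6 973))))))))))))))))))))
(mv 972 (cons (fin 973 0 972)
(mv 910 (cons (cons (mv 846 (cons (fin 782 4 782)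
(mv 1103 (cons (fin 911 7 846)
(fin 1167 7 910)))))
(mv 846 (cons (fin 782 4 782)
(mv 1038 (cons (cons (mv 781 (cons (fin 845 7 781)
(mv 783 (cons (fin 847 6 782)
(mv 1037 (cons (fin 1101 5 845)
(mv 1036 (cons (fin 971 3 971)
(fin 1035 2 971)))))))))
(mv 781 (cons (fin 845 7 781)
(mv 847 (cons (fin 783 6 782)
(mv 911 (cons (fin 1102 5 846)
(mv 848 (cons (fin 784 6 783)
(mv 849 (cons (fin 909 1 845)
(fin 850 1 846))))))))))))
(cons (mv 781 (cons (fin 845 7 781)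
(mv 1037 (cons (fin 1101 5 845)
(mv 1036 (cons (fin 971 3 971)
(fin 1035 2 971)))))))
(mv 783 (cons (fin 847 6 782)
(mv 1037 (cons (fin 1101 5 845)
(mv 1036 (cons (fin 971 3 971)
(fin 1035 2 971)))))))))))))
(cons (mv 1103 (cons (fin 1167 7 910)
(mv 911 (cons (cons (mv 848 (cons (fin 912 6 847)
(mv 784 (cons (fin 847 6 783)
(mv 1102 (cons (fin 1166 5 910)
(mv 1101 (cons (fin 1100 2 1036)
(mv 1038 (cons (fin 1165 5 909)
(mv 909 (cons (fin 845 7 845)
(mv 908 (cons (fin 971 1 907)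
(fin 907 0 907)))))))))))))))
(mv 848 (cons (fin 912 6 847)
(mv 847 (cons (fin 784 6 783)
(mv 783 (cons (fin 719 5 718)
(fin 1038 5 782))))))))
(cons (mv 1102 (cons (fin 1166 5 910)
(mv 847 (cons (fin 1038 5 846)
(mv 783 (cons (fin 719 5 718)
(fin 976 4 783)))))))
(cons (mv 848 (cons (fin 912 6 847)
(mv 1102 (cons (fin 1166 5 910)
(mv 1101 (cons (fin 1100 2 1036)
(mv 1038 (cons (fin 1165 5 909)
(mv 909 (cons (fin 845 7 845)
(mv 908 (cons (fin 971 1 907)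
(fin 907 0 907)))))))))))))
(mv 848 (cons (fin 912 6 847)
(mv 847 (cons (fin 784 6 783)
(mv 783 (cons (fin 719 5 718)
(fin 976 4 783)))))))))))))
(mv 846 (cons (fin 782 4 782)
(mv 1103 (cons (fin 1167 7 910)
(fin 1038 4 846))))))))))))
(cons (mv 972 (cons (fin 973 0 972)
(mv 911 (cons (cons (mv 847 (cons (fin 1104 4 847)
(mv 783 (cons (fin 1038 5 782)
(fin 976 4 783)))))
(mv 1103 (cons (cons (mv 848 (cons (fin 912 6 847)
(mv 1102 (cons (fin 1166 5 910)
(mv 1100 (cons (fin 1101 2 1036)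
(mv 1168 (cons (fin 1104 4 911)
(mv 1167 (cons (fin 1232 4 975)
(mv 1231 (cons (fin 1038 7 974)
(fin 976 6 975)))))))))))))
(cons (mv 1102 (cons (fin 1166 5 910)
(mv 1100 (cons (fin 1101 2 1036)
(mv 1168 (cons (fin 1104 4 911)
(mv 1167 (cons (fin 1232 4 975)
(mv 1231 (cons (fin 1038 7 974)
(fin 976 6 975)))))))))))
(mv 848 (cons (fin 912 6 847)
(mv 1166 (cons (fin 1102 5 910)
(mv 1167 (cons (fin 1230 5 974)
(mv 1231 (cons (fin 1038 7 974)
(fin 976 6 975)))))))))))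
(cons (mv 848 (cons (fin 912 6 847)
(mv 1168 (cons (fin 1104 4 911)
(mv 1167 (cons (fin 1232 4 975)
(mv 1231 (cons (fin 1038 7 974)
(fin 976 6 975)))))))))
(cons (mv 848 (cons (fin 912 6 847)
(mv 1102 (cons (fin 1166 5 910)
(mv 1101 (cons (fin 1100 2 1036)
(mv 1104 (cons (fin 1168 4 911)
(mv 1037 (cons (fin 1036 3 1036)
(mv 1038 (cons (fin 1105 3 1037)
(mv 1165 (cons (fin 1164 1 1100)
(fin 1229 6 973)))))))))))))))
(mv 848 (cons (fin 912 6 847)
(mv 1104 (cons (fin 1168 4 911)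
(mv 1166 (cons (fin 1102 5 910)
(mv 1167 (cons (fin 1230 5 974)
(mv 1231 (cons (fin 976 6 975)
(fin 1295 6 1039))))))))))))))))
(cons (mv 847 (cons (mv 783 (cons (fin 1038 5 782)
(fin 976 4 783)))
(cons (mv 782 (cons (fin 846 7 782)
(mv 848 (cons (fin 784 6 783)
(mv 1102 (cons (fin 1038 5 846)
(mv 1103 (cons (fin 1166 5 910)
(fin 912 6 847)))))))))
(mv 782 (cons (fin 846 7 782)
(mv 783 (cons (fin 718 7 718)
(fin 976 4 783))))))))
(cons (mv 847 (cons (fin 1104 4 847)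
(mv 782 (cons (fin 846 7 782)
(mv 783 (cons (fin 718 7 718)
(fin 976 4 783)))))))
(mv 847 (cons (fin 1104 4 847)
(mv 1038 (cons (fin 783 5 782)
(fin 1102 5 846)))))))))))
(cons (mv 973 (cons (fin 972 0 972)
(mv 976 (cons (cons (mv 908 (cons (fin 909 3 908)
(mv 912 (cons (fin 913 2 909)
(mv 848 (cons (fin 784 5 783)
(fin 1103 5 847)))))))
(mv 908 (cons (fin 909 3 908)
(mv 1037 (cons (fin 1036 1 972)
(mv 1038 (cons (cons (mv 1100 (cons (fin 1101 1 1036)
(mv 1104 (cons (fin 1105 0 1037)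
(mv 1168 (cons (fin 1232 7 975)
(mv 1167 (cons (fin 1231 5 975)
(mv 1103 (cons (fin 910 7 910)
(mv 1166 (cons (fin 1230 5 974)
(mv 1164 (cons (fin 1165 2 1100)
(mv 1169 (cons (fin 1233 4 976)
(mv 1170 (cons (fin 1102 3 1102)
(fin 1171 3 1103)))))))))))))))))))
(mv 1104 (cons (fin 1105 0 1037)
(mv 1168 (cons (fin 1232 7 975)
(mv 1167 (cons (fin 1231 5 975)
(mv 1103 (cons (fin 910 7 910)
(mv 1166 (cons (fin 1230 5 974)
(mv 1164 (cons (fin 1165 2 1100)
(mv 1169 (cons (fin 1233 4 976)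
(mv 1170 (cons (fin 1102 3 1102)
(fin 1171 3 1103))))))))))))))))))
(cons (mv 1101 (cons (fin 1100 1 1036)
(mv 910 (cons (fin 846 5 845)
(fin 1165 6 909)))))
(cons (mv 1101 (cons (fin 1100 1 1036)
(mv 1104 (cons (fin 1105 0 1037)
(mv 1165 (cons (fin 1229 6 973)
(mv 1164 (cons (fin 1228 5 972)
(mv 1102 (cons (fin 1103 1 1100)
(mv 1162 (cons (fin 1163 2 1098)
(mv 1166 (cons (fin 1230 7 973)
(mv 1167 (cons (fin 1231 4 974)
(mv 1168 (cons (fin 1169 3 1101)
(fin 1232 7 975)))))))))))))))))))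
(mv 1100 (cons (fin 1101 1 1036)
(mv 1104 (cons (fin 1105 0 1037)
(mv 1168 (cons (fin 1232 7 975)
(mv 1167 (cons (fin 1231 5 975)
(mv 1103 (cons (fin 910 7 910)
(mv 1166 (cons (fin 1230 5 974)
(mv 1169 (cons (fin 1233 4 976)
(mv 1170 (cons (fin 1102 3 1102)
(fin 1171 3 1103))))))))))))))))))))))))))
(cons (mv 912 (cons (fin 913 2 909)
(mv 848 (cons (fin 784 5 783)
(fin 1103 5 847)))))
(mv 909 (cons (fin 908 3 908)
(mv 912 (cons (fin 913 2 909)
(mv 848 (cons (fin 784 5 783)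
(mv 847 (cons (fin 783 7 783)
(mv 849 (cons (fin 785 6 784)
(mv 846 (cons (fin 910 1 845)
(mv 781 (cons (fin 782 3 781)
(mv 845 (cons (fin 780 3 780)
(fin 1038 4 781))))))))))))))))))))))
(mv 973 (cons (fin 972 0 972)
(mv 976 (cons (cons (mv 908 (cons (fin 909 3 908)
(mv 912 (cons (fin 913 2 909)
(mv 848 (cons (fin 784 5 783)
(mv 785 (cons (fin 849 6 784)
(mv 847 (cons (fin 783 7 783)
(mv 911 (cons (fin 1104 7 847)
(mv 782 (cons (fin 846 7 782)
(mv 1037 (cons (fin 1036 1 972)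
(mv 1038 (cons (fin 1102 5 846)
(mv 1101 (cons (fin 1100 1 1036)
(mv 1165 (cons (fin 910 6 909)
(fin 1229 6 973)))))))))))))))))))))))
(cons (mv 908 (cons (fin 909 3 908)
(mv 1037 (cons (fin 1036 1 972)
(mv 1104 (cons (mv 911 (cons (fin 1168 7 911)
(fin 847 4 847)))
(cons (mv 847 (cons (fin 911 4 847)
(mv 1038 (cons (fin 1105 0 1037)
(mv 1101 (cons (fin 1100 1 1036)
(mv 910 (cons (fin 846 5 845)
(fin 1165 6 909)))))))))
(mv 1038 (cons (fin 1105 0 1037)
(mv 1101 (cons (fin 1100 1 1036)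
(mv 910 (cons (fin 846 5 845)
(fin 1165 6 909))))))))))))))
(mv 908 (cons (fin 909 3 908)
(mv 912 (cons (fin 913 2 909)
(mv 848 (cons (fin 784 5 783)
(mv 785 (cons (fin 849 6 784)
(mv 847 (cons (fin 783 7 783)
(mv 911 (cons (fin 1104 7 847)
(mv 846 (cons (fin 782 7 782)
(mv 845 (cons (fin 844 0 844)
(mv 781 (cons (fin 780 3 780)
(mv 1038 (cons (fin 910 7 781)
(fin 1102 5 846)))))))))))))))))))))))
(cons (cons (mv 912 (cons (fin 913 2 909)
(mv 848 (cons (fin 784 5 783)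
(mv 785 (cons (fin 849 6 784)
(mv 847 (cons (fin 783 7 783)
(mv 911 (cons (fin 1104 7 847)
(mv 782 (cons (fin 846 7 782)
(mv 1037 (cons (fin 1036 1 972)
(mv 1038 (cons (fin 1102 5 846)
(mv 1101 (cons (fin 1100 1 1036)
(mv 1165 (cons (fin 910 6 909)
(fin 1229 6 973)))))))))))))))))))))
(mv 909 (cons (fin 908 3 908)
(mv 912 (cons (fin 913 2 909)
(mv 848 (cons (fin 784 5 783)
(mv 847 (cons (fin 783 7 783)
(mv 849 (cons (fin 785 6 784)
(mv 846 (cons (fin 910 1 845)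
(mv 781 (cons (fin 782 3 781)
(mv 845 (cons (fin 780 3 780)
(fin 1038 4 781))))))))))))))))))
(cons (mv 909 (cons (fin 908 3 908)
(mv 912 (cons (fin 913 2 909)
(mv 848 (cons (fin 784 5 783)
(mv 849 (cons (fin 785 6 784)
(mv 910 (cons (fin 911 2 845)
(mv 782 (cons (fin 846 4 782)
(mv 1037 (cons (fin 1036 1 972)
(mv 1101 (cons (fin 1165 6 909)
(mv 1100 (cons (fin 1038 1 1036)
(fin 1164 5 908)))))))))))))))))))
(mv 908 (cons (fin 909 3 908)
(mv 912 (cons (fin 913 2 909)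
(mv 848 (cons (fin 784 5 783)
(mv 785 (cons (fin 849 6 784)
(mv 847 (cons (fin 783 7 783)
(mv 1036 (cons (fin 1037 1 972)
(mv 1104 (cons (fin 911 7 847)
(mv 1168 (cons (fin 1232 7 975)
(mv 1169 (cons (fin 1105 4 912)
(fin 1233 4 976))))))))))))))))))))))))))))
(cons (cons (mv 972 (cons (fin 973 0 972)
(mv 910 (cons (cons (mv 846 (cons (fin 782 4 782)
(mv 1103 (cons (fin 911 7 846)
(fin 1167 7 910)))))
(mv 846 (cons (fin 782 4 782)
(mv 1038 (cons (cons (mv 781 (cons (fin 845 7 781)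
(mv 1037 (cons (fin 1101 5 845)
(mv 1036 (cons (fin 971 3 971)
(fin 1035 2 971)))))))
(mv 845 (cons (fin 781 7 781)
(mv 909 (cons (fin 1102 7 845)
(mv 908 (cons (fin 907 0 907)
(mv 911 (cons (fin 971 1 907)
(fin 976 0 908))))))))))
(cons (mv 1037 (cons (fin 1101 5 845)
(mv 1036 (cons (fin 971 3 971)
(fin 1035 2 971)))))
(mv 781 (cons (fin 845 7 781)
(mv 1037 (cons (fin 1101 5 845)
(mv 1036 (cons (fin 1035 2 971)
(fin 976 2 972)))))))))))))
(cons (mv 1103 (cons (fin 1167 7 910)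
(mv 911 (cons (cons (mv 848 (cons (fin 912 6 847)
(mv 1102 (cons (fin 1166 5 910)
(mv 1101 (cons (fin 1100 2 1036)
(mv 1038 (cons (fin 1165 5 909)
(mv 845 (cons (fin 909 7 845)
(mv 1104 (cons (fin 1168 4 911)
(mv 1037 (cons (fin 1036 3 1036)
(fin 1105 3 1037)))))))))))))))
(mv 848 (cons (fin 912 6 847)
(mv 1102 (cons (fin 1166 5 910)
(mv 1101 (cons (fin 1100 2 1036)
(mv 1038 (cons (fin 1165 5 909)
(mv 909 (cons (fin 845 7 845)
(mv 908 (cons (fin 971 1 907)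
(fin 907 0 907))))))))))))))
(cons (mv 1102 (cons (fin 1166 5 910)
(mv 1101 (cons (fin 1100 2 1036)
(mv 1038 (cons (fin 1165 5 909)
(mv 845 (cons (fin 909 7 845)
(mv 1104 (cons (fin 1168 4 911)
(mv 1037 (cons (fin 1036 3 1036)
(fin 1105 3 1037)))))))))))))
(mv 912 (cons (fin 848 6 847)
(mv 913 (cons (fin 914 1 910)
(mv 849 (cons (fin 850 2 846)
(mv 1104 (cons (fin 976 6 848)
(fin 1168 4 911))))))))))))))
(mv 846 (cons (fin 782 4 782)
(mv 1103 (cons (fin 1167 7 910)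
(fin 1038 4 846))))))))))
(cons (mv 972 (cons (fin 973 0 972)
(mv 1104 (cons (cons (mv 911 (cons (fin 847 4 847)
(mv 1168 (cons (fin 976 7 911)
(fin 1232 7 975)))))
(mv 1168 (cons (fin 1232 7 975)
(mv 1167 (cons (cons (mv 910 (cons (fin 1103 7 910)
(mv 976 (cons (fin 1231 5 975)
(mv 1169 (cons (fin 1233 4 976)
(mv 912 (cons (fin 1105 4 912)
(mv 848 (cons (fin 784 5 783)
(mv 849 (cons (fin 785 6 784)
(fin 913 6 848)))))))))))))
(mv 976 (cons (fin 1231 5 975)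
(mv 1169 (cons (fin 1233 4 976)
(mv 912 (cons (fin 1105 4 912)
(mv 848 (cons (fin 784 5 783)
(mv 849 (cons (fin 785 6 784)
(fin 913 6 848))))))))))))
(cons (mv 1103 (cons (fin 910 7 910)
(mv 1231 (cons (fin 1038 7 974)
(fin 1295 6 1039)))))
(mv 1103 (cons (fin 910 7 910)
(mv 912 (cons (fin 976 5 911)
(mv 1166 (cons (fin 1230 5 974)
(mv 1105 (cons (fin 1106 1 1102)
(fin 1165 2 1101)))))))))))))))
(cons (mv 911 (cons (fin 847 4 847)
(mv 1103 (cons (cons (mv 848 (cons (fin 912 6 847)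
(mv 910 (cons (fin 1167 7 910)
(mv 1102 (cons (fin 1166 5 910)
(mv 1101 (cons (fin 1100 2 1036)
(mv 1165 (cons (fin 1164 1 1100)
(fin 1038 5 909)))))))))))
(cons (mv 848 (cons (fin 912 6 847)
(mv 1102 (cons (fin 1166 5 910)
(mv 1101 (cons (fin 1100 2 1036)
(mv 1037 (cons (fin 1036 3 1036)
(mv 1038 (cons (fin 1105 3 1037)
(mv 1165 (cons (fin 1164 1 1100)
(fin 910 5 909)))))))))))))
(mv 910 (cons (fin 1167 7 910)
(mv 1102 (cons (fin 1166 5 910)
(mv 1101 (cons (fin 1100 2 1036)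
(mv 1165 (cons (fin 1164 1 1100)
(fin 1038 5 909)))))))))))
(cons (mv 848 (cons (fin 912 6 847)
(mv 1167 (cons (fin 910 7 910)
(mv 1231 (cons (fin 1038 7 974)
(fin 976 6 975)))))))
(cons (mv 848 (cons (fin 912 6 847)
(mv 1102 (cons (fin 1166 5 910)
(mv 1101 (cons (fin 1100 2 1036)
(mv 1037 (cons (fin 1036 3 1036)
(mv 1038 (cons (fin 1105 3 1037)
(mv 1165 (cons (fin 1164 1 1100)
(fin 1229 6 973)))))))))))))
(mv 848 (cons (fin 912 6 847)
(mv 1102 (cons (fin 1166 5 910)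
(mv 1100 (cons (fin 1101 2 1036)
(mv 1167 (cons (fin 910 7 910)
(mv 1231 (cons (fin 976 6 975)
(fin 1295 6 1039)))))))))))))))))
(mv 911 (cons (fin 847 4 847)
(mv 1168 (cons (fin 1232 7 975)
(fin 1103 4 911))))))))))
(mv 972 (cons (fin 973 0 972)
(mv 1104 (cons (cons (mv 911 (cons (fin 847 4 847)
(mv 1168 (cons (fin 976 7 911)
(fin 1232 7 975)))))
(mv 1168 (cons (fin 1232 7 975)
(mv 1167 (cons (cons (mv 910 (cons (fin 1103 7 910)
(mv 782 (cons (fin 846 4 782)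
(mv 976 (cons (fin 1231 5 975)
(mv 1169 (cons (fin 1233 4 976)
(mv 912 (cons (fin 1105 4 912)
(mv 848 (cons (fin 784 5 783)
(mv 849 (cons (fin 785 6 784)
(fin 913 6 848)))))))))))))))
(mv 976 (cons (fin 1231 5 975)
(mv 1169 (cons (fin 1233 4 976)
(mv 912 (cons (fin 1105 4 912)
(mv 848 (cons (fin 784 5 783)
(mv 849 (cons (fin 785 6 784)
(fin 913 6 848))))))))))))
(cons (mv 1103 (cons (fin 910 7 910)
(mv 1166 (cons (fin 1230 5 974)
(mv 1105 (cons (fin 1106 1 1102)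
(fin 1165 2 1101)))))))
(mv 976 (cons (fin 1231 5 975)
(mv 1103 (cons (fin 910 7 910)
(fin 912 5 911)))))))))))
(cons (mv 911 (cons (fin 847 4 847)
(mv 1103 (cons (mv 910 (cons (fin 846 7 846)
(fin 1167 7 910)))
(cons (mv 848 (cons (fin 912 6 847)
(mv 1166 (cons (fin 1102 5 910)
(mv 1167 (cons (fin 1230 5 974)
(mv 1231 (cons (fin 976 6 975)
(fin 1295 6 1039)))))))))
(mv 910 (cons (fin 846 7 846)
(mv 912 (cons (fin 848 6 847)
(mv 913 (cons (fin 914 1 910)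
(mv 849 (cons (fin 850 2 846)
(fin 976 6 848))))))))))))))
(mv 911 (cons (fin 847 4 847)
(mv 1168 (cons (fin 1232 7 975)
(fin 1103 4 911))))))))))))
(cons (cons (mv 972 (cons (fin 973 0 972)
(mv 910 (cons (cons (mv 846 (cons (fin 782 4 782)
(mv 1103 (cons (fin 911 7 846)
(fin 1167 7 910)))))
(mv 846 (cons (fin 782 4 782)
(mv 1038 (cons (cons (mv 781 (cons (fin 845 7 781)
(mv 783 (cons (fin 847 6 782)
(mv 1037 (cons (fin 1101 5 845)
(mv 1036 (cons (fin 971 3 971)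
(fin 1035 2 971)))))))))
(mv 781 (cons (fin 845 7 781)
(mv 1037 (cons (fin 1101 5 845)
(mv 1036 (cons (fin 971 3 971)
(fin 1035 2 971))))))))
(cons (mv 781 (cons (fin 845 7 781)
(mv 847 (cons (fin 783 6 782)
(mv 911 (cons (fin 1102 5 846)
(fin 1104 4 847)))))))
(mv 783 (cons (fin 847 6 782)
(mv 1037 (cons (fin 1101 5 845)
(mv 1036 (cons (fin 971 3 971)
(fin 1035 2 971)))))))))))))
(cons (mv 1103 (cons (fin 1167 7 910)
(mv 911 (cons (mv 1104 (cons (fin 847 4 847)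
(fin 1168 4 911)))
(cons (mv 848 (cons (fin 912 6 847)
(mv 784 (cons (fin 847 6 783)
(mv 1102 (cons (fin 1166 5 910)
(mv 1101 (cons (fin 1100 2 1036)
(mv 1038 (cons (fin 1165 5 909)
(mv 909 (cons (fin 845 7 845)
(mv 908 (cons (fin 971 1 907)
(fin 907 0 907)))))))))))))))
(mv 848 (cons (fin 912 6 847)
(mv 1102 (cons (fin 1166 5 910)
(mv 1101 (cons (fin 1100 2 1036)
(mv 1038 (cons (fin 1165 5 909)
(mv 845 (cons (fin 909 7 845)
(mv 1104 (cons (fin 1168 4 911)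
(mv 1037 (cons (fin 1036 3 1036)
(fin 1105 3 1037))))))))))))))))))))
(mv 846 (cons (fin 782 4 782)
(mv 1103 (cons (fin 1167 7 910)
(fin 1038 4 846))))))))))
(mv 972 (cons (fin 973 0 972)
(mv 910 (cons (cons (mv 846 (cons (fin 782 4 782)
(mv 1103 (cons (fin 911 7 846)
(fin 1167 7 910)))))
(mv 846 (cons (fin 782 4 782)
(mv 1038 (cons (cons (mv 781 (cons (fin 845 7 781)
(mv 783 (cons (fin 847 6 782)
(mv 1037 (cons (fin 1101 5 845)
(mv 1036 (cons (fin 971 3 971)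
(fin 1035 2 971)))))))))
(mv 781 (cons (fin 845 7 781)
(mv 847 (cons (fin 783 6 782)
(mv 911 (cons (fin 1102 5 846)
(fin 1104 4 847))))))))
(cons (mv 781 (cons (fin 845 7 781)
(mv 1037 (cons (fin 1101 5 845)
(mv 1036 (cons (fin 971 3 971)
(fin 1035 2 971)))))))
(mv 783 (cons (fin 847 6 782)
(mv 1037 (cons (fin 1101 5 845)
(mv 1036 (cons (fin 971 3 971)
(fin 1035 2 971)))))))))))))
(cons (mv 1103 (cons (fin 1167 7 910)
(mv 911 (cons (mv 1104 (cons (fin 847 4 847)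
(fin 1168 4 911)))
(cons (mv 1102 (cons (fin 1166 5 910)
(mv 847 (cons (fin 1038 5 846)
(mv 783 (cons (fin 719 5 718)
(fin 976 4 783)))))))
(mv 1102 (cons (fin 1166 5 910)
(mv 1101 (cons (fin 1100 2 1036)
(mv 1038 (cons (fin 1165 5 909)
(mv 845 (cons (fin 909 7 845)
(mv 1104 (cons (fin 1168 4 911)
(mv 1037 (cons (fin 1036 3 1036)
(fin 1105 3 1037))))))))))))))))))
(mv 846 (cons (fin 782 4 782)
(mv 1103 (cons (fin 1167 7 910)
(fin 1038 4 846)))))))))))
(cons (mv 972 (cons (fin 973 0 972)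
(mv 1104 (cons (cons (mv 911 (cons (fin 847 4 847)
(mv 1168 (cons (fin 976 7 911)
(fin 1232 7 975)))))
(mv 1168 (cons (fin 1232 7 975)
(mv 1167 (cons (cons (mv 910 (cons (fin 1103 7 910)
(mv 782 (cons (fin 846 4 782)
(mv 976 (cons (fin 1231 5 975)
(mv 1169 (cons (fin 1233 4 976)
(mv 912 (cons (fin 1105 4 912)
(mv 848 (cons (fin 784 5 783)
(mv 849 (cons (fin 785 6 784)
(fin 913 6 848)))))))))))))))
(mv 976 (cons (fin 1231 5 975)
(mv 1169 (cons (fin 1233 4 976)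
(mv 912 (cons (fin 1105 4 912)
(mv 848 (cons (fin 784 5 783)
(mv 849 (cons (fin 785 6 784)
(fin 913 6 848))))))))))))
(cons (mv 1103 (cons (fin 910 7 910)
(mv 1231 (cons (fin 1038 7 974)
(fin 1295 6 1039)))))
(mv 1103 (cons (fin 910 7 910)
(mv 912 (cons (fin 976 5 911)
(mv 1166 (cons (fin 1230 5 974)
(mv 1105 (cons (fin 1106 1 1102)
(fin 1165 2 1101)))))))))))))))
(cons (mv 911 (cons (fin 847 4 847)
(mv 1103 (cons (mv 910 (cons (fin 846 7 846)
(fin 1167 7 910)))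
(cons (mv 912 (cons (fin 848 6 847)
(mv 913 (cons (fin 914 1 910)
(mv 976 (cons (fin 1167 5 911)
(fin 849 6 848)))))))
(mv 846 (cons (fin 910 7 846)
(mv 912 (cons (fin 848 6 847)
(mv 913 (cons (fin 914 1 910)
(mv 976 (cons (fin 849 6 848)
(mv 1105 (cons (fin 1169 4 912)
(mv 1038 (cons (fin 1106 3 1038)
(fin 1037 0 1037))))))))))))))))))
(mv 911 (cons (fin 847 4 847)
(mv 1168 (cons (fin 1232 7 975)
(fin 1103 4 911))))))))))
(mv 972 (cons (fin 973 0 972)
(mv 1104 (cons (mv 911 (cons (fin 847 4 847)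
(mv 1168 (cons (fin 976 7 911)
(fin 1232 7 975)))))
(cons (mv 1168 (cons (fin 1232 7 975)
(mv 1167 (cons (cons (mv 910 (cons (fin 1103 7 910)
(mv 782 (cons (fin 846 4 782)
(mv 976 (cons (fin 1231 5 975)
(mv 1169 (cons (fin 1233 4 976)
(mv 912 (cons (fin 1105 4 912)
(mv 848 (cons (fin 784 5 783)
(mv 849 (cons (fin 785 6 784)
(fin 913 6 848)))))))))))))))
(mv 976 (cons (fin 1231 5 975)
(mv 1169 (cons (fin 1233 4 976)
(mv 912 (cons (fin 1105 4 912)
(mv 848 (cons (fin 784 5 783)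
(mv 849 (cons (fin 785 6 784)
(fin 913 6 848))))))))))))
(cons (mv 1103 (cons (fin 910 7 910)
(mv 1231 (cons (fin 1038 7 974)
(fin 1295 6 1039)))))
(mv 1103 (cons (fin 910 7 910)
(mv 976 (cons (fin 912 5 911)
(mv 1166 (cons (fin 1230 5 974)
(mv 1105 (cons (fin 1106 1 1102)
(mv 1037 (cons (fin 1038 0 1037)
(mv 1169 (cons (fin 1233 4 976)
(mv 1102 (cons (fin 1101 3 1101)
(fin 1170 3 1102))))))))))))))))))))
(mv 911 (cons (fin 847 4 847)
(mv 1103 (cons (mv 910 (cons (fin 846 7 846)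
(fin 1167 7 910)))
(mv 848 (cons (fin 912 6 847)
(mv 1102 (cons (fin 1166 5 910)
(mv 1101 (cons (fin 1100 2 1036)
(mv 1037 (cons (fin 1036 3 1036)
(mv 1105 (cons (fin 1038 3 1037)
(mv 1106 (cons (fin 1107 3 1039)
(mv 1170 (cons (fin 1169 0 1102)
(fin 1171 0 1103))))))))))))))))))))))))))))))
(cons (mv 1038 (cons (cons (mv 973 (cons (fin 1041 3 973)
(mv 972 (cons (fin 1037 3 972)
(fin 971 0 971)))))
(mv 1037 (cons (cons (mv 972 (cons (fin 973 3 972)
(mv 971 (cons (fin 1036 3 971)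
(mv 1101 (cons (fin 1100 1 1036)
(mv 910 (cons (fin 846 5 845)
(mv 1165 (cons (fin 1102 5 909)
(fin 1229 6 973)))))))))))
(mv 972 (cons (fin 973 3 972)
(mv 1036 (cons (fin 971 3 971)
(mv 1104 (cons (fin 1103 0 1036)
(fin 1105 0 1037))))))))
(cons (mv 1100 (cons (fin 1101 1 1036)
(mv 1036 (cons (fin 1099 1 1035)
(mv 1104 (cons (fin 1103 0 1036)
(fin 1105 0 1037)))))))
(mv 972 (cons (fin 973 3 972)
(mv 1101 (cons (fin 1100 1 1036)
(mv 910 (cons (fin 846 5 845)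
(mv 1165 (cons (fin 1102 5 909)
(fin 1229 6 973)))))))))))))
(cons (mv 1037 (cons (cons (mv 1100 (cons (fin 1101 1 1036)
(mv 1036 (cons (fin 1099 1 1035)
(mv 1104 (cons (fin 1103 0 1036)
(fin 1105 0 1037)))))))
(mv 1104 (cons (fin 1105 0 1037)
(mv 1036 (cons (fin 1103 0 1036)
(mv 971 (cons (fin 972 3 971)
(mv 1035 (cons (fin 970 3 970)
(mv 1099 (cons (fin 1098 1 1034)
(fin 1100 1 1035))))))))))))
(cons (mv 1101 (cons (fin 1100 1 1036)
(mv 910 (cons (fin 846 5 845)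
(mv 1102 (cons (fin 1041 1 1037)
(fin 1165 5 909)))))))
(mv 1104 (cons (fin 1105 0 1037)
(mv 1103 (cons (fin 1036 0 1036)
(mv 910 (cons (fin 846 4 846)
(mv 1167 (cons (fin 1231 7 974)
(fin 1102 4 910))))))))))))
(mv 1041 (cons (fin 973 3 973)
(mv 1102 (cons (fin 1101 1 1037)
(mv 1042 (cons (fin 1103 1 1038)
(mv 1106 (cons (fin 1105 0 1038)
(fin 1107 0 1039))))))))))))
(mv 975 (cons (cons (cons (mv 1041 (cons (fin 1042 3 974)
(mv 1038 (cons (mv 1101 (cons (fin 1102 1 1037)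
(mv 1037 (cons (fin 1100 1 1036)
(mv 1036 (cons (fin 1035 2 971)
(fin 976 2 972)))))))
(cons (mv 1105 (cons (fin 1106 0 1038)
(mv 1037 (cons (fin 1104 0 1037)
(mv 1036 (cons (fin 1035 2 971)
(fin 976 2 972)))))))
(mv 1102 (cons (fin 1101 1 1037)
(mv 911 (cons (fin 847 5 846)
(fin 1166 6 910))))))))))
(mv 1104 (cons (mv 911 (cons (fin 847 4 847)
(mv 1168 (cons (fin 976 7 911)
(fin 1232 7 975)))))
(cons (mv 1168 (cons (fin 1232 7 975)
(mv 1167 (cons (cons (mv 910 (cons (fin 1103 7 910)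
(mv 782 (cons (fin 846 4 782)
(mv 976 (cons (fin 1231 5 975)
(mv 1169 (cons (fin 1233 4 976)
(mv 912 (cons (fin 1105 4 912)
(mv 848 (cons (fin 784 5 783)
(mv 849 (cons (fin 785 6 784)
(fin 913 6 848)))))))))))))))
(mv 976 (cons (fin 1231 5 975)
(mv 1169 (cons (fin 1233 4 976)
(mv 912 (cons (fin 1105 4 912)
(mv 848 (cons (fin 784 5 783)
(mv 849 (cons (fin 785 6 784)
(fin 913 6 848))))))))))))
(cons (mv 1103 (cons (fin 910 7 910)
(mv 1231 (cons (fin 1038 7 974)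
(fin 1295 6 1039)))))
(mv 1103 (cons (fin 910 7 910)
(mv 912 (cons (fin 976 5 911)
(mv 1166 (cons (fin 1230 5 974)
(mv 1105 (cons (fin 1106 1 1102)
(fin 1165 2 1101))))))))))))))
(mv 911 (cons (fin 847 4 847)
(mv 1103 (cons (mv 910 (cons (fin 846 7 846)
(fin 1167 7 910)))
(mv 848 (cons (fin 912 6 847)
(mv 1102 (cons (fin 1166 5 910)
(mv 1101 (cons (fin 1100 2 1036)
(mv 1037 (cons (fin 1036 3 1036)
(mv 1038 (cons (fin 1105 3 1037)
(mv 1165 (cons (fin 1164 1 1100)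
(fin 1229 6 973)))))))))))))))))))))
(cons (mv 1041 (cons (fin 1042 3 974)
(mv 910 (cons (cons (mv 846 (cons (fin 782 4 782)
(mv 1103 (cons (fin 911 7 846)
(fin 1167 7 910)))))
(mv 846 (cons (fin 782 4 782)
(mv 1038 (cons (mv 1101 (cons (fin 1102 1 1037)
(fin 1037 5 845)))
(cons (mv 781 (cons (fin 845 7 781)
(mv 847 (cons (fin 783 6 782)
(mv 911 (cons (fin 1102 5 846)
(mv 848 (cons (fin 784 6 783)
(mv 849 (cons (fin 909 1 845)
(fin 850 1 846)))))))))))
(mv 781 (cons (fin 845 7 781)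
(mv 783 (cons (fin 847 6 782)
(mv 1037 (cons (fin 1101 5 845)
(mv 1036 (cons (fin 1035 2 971)
(fin 976 2 972)))))))))))))))
(cons (mv 1103 (cons (fin 1167 7 910)
(mv 1102 (cons (mv 1101 (cons (fin 1038 1 1037)
(fin 1100 2 1036)))
(cons (mv 911 (cons (fin 1166 5 910)
(mv 847 (cons (fin 1038 5 846)
(mv 783 (cons (fin 719 5 718)
(fin 976 4 783)))))))
(mv 911 (cons (fin 1166 5 910)
(mv 848 (cons (fin 912 6 847)
(mv 847 (cons (fin 784 6 783)
(mv 783 (cons (fin 719 5 718)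
(fin 976 4 783))))))))))))))
(mv 846 (cons (fin 782 4 782)
(mv 1103 (cons (fin 1167 7 910)
(fin 1038 4 846))))))))))
(mv 1041 (cons (fin 1042 3 974)
(mv 1038 (cons (mv 1101 (cons (fin 1102 1 1037)
(mv 1037 (cons (fin 1100 1 1036)
(mv 1036 (cons (fin 1035 2 971)
(fin 976 2 972)))))))
(cons (mv 1105 (cons (fin 1106 0 1038)
(mv 1037 (cons (fin 1104 0 1037)
(mv 1036 (cons (fin 1035 2 971)
(fin 976 2 972)))))))
(mv 1102 (cons (fin 1101 1 1037)
(mv 1105 (cons (fin 1106 0 1038)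
(mv 1166 (cons (fin 1230 6 974)
(mv 1165 (cons (fin 1229 5 973)
(mv 1103 (cons (fin 1104 1 1101)
(mv 910 (cons (fin 1167 7 910)
(fin 846 4 846))))))))))))))))))))
(cons (cons (mv 1041 (cons (fin 1042 3 974)
(mv 1104 (cons (mv 911 (cons (fin 847 4 847)
(mv 1168 (cons (fin 976 7 911)
(fin 1232 7 975)))))
(cons (mv 1168 (cons (fin 1232 7 975)
(mv 976 (cons (cons (mv 1167 (cons (fin 1231 5 975)
(mv 1103 (cons (fin 910 7 910)
(fin 912 5 911)))))
(mv 1169 (cons (fin 1233 4 976)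
(mv 912 (cons (fin 1105 4 912)
(mv 848 (cons (fin 784 5 783)
(fin 1103 5 847))))))))
(cons (mv 1167 (cons (fin 1231 5 975)
(mv 1103 (cons (fin 910 7 910)
(mv 1101 (cons (fin 1102 2 1037)
(mv 1166 (cons (fin 1230 5 974)
(mv 1105 (cons (fin 1106 1 1102)
(fin 1165 2 1101)))))))))))
(mv 1167 (cons (fin 1231 5 975)
(mv 1169 (cons (fin 1233 4 976)
(mv 912 (cons (fin 1105 4 912)
(mv 848 (cons (fin 784 5 783)
(mv 849 (cons (fin 785 6 784)
(fin 913 6 848))))))))))))))))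
(mv 911 (cons (fin 847 4 847)
(mv 1103 (cons (mv 910 (cons (fin 846 7 846)
(fin 1167 7 910)))
(mv 1102 (cons (fin 1101 2 1037)
(fin 1166 5 910))))))))))))
(mv 1041 (cons (fin 1042 3 974)
(mv 1038 (cons (cons (mv 1101 (cons (fin 1102 1 1037)
(mv 1037 (cons (fin 1100 1 1036)
(mv 1105 (cons (fin 1104 0 1037)
(fin 1106 0 1038)))))))
(mv 1105 (cons (fin 1106 0 1038)
(mv 1037 (cons (fin 1104 0 1037)
(mv 1036 (cons (fin 1035 2 971)
(mv 1100 (cons (fin 1099 1 1035)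
(fin 1101 1 1036))))))))))
(cons (mv 1105 (cons (fin 1106 0 1038)
(mv 1104 (cons (fin 1037 0 1037)
(mv 911 (cons (fin 847 4 847)
(mv 1168 (cons (fin 1232 7 975)
(fin 1103 4 911)))))))))
(cons (mv 1101 (cons (fin 1102 1 1037)
(mv 1037 (cons (fin 1100 1 1036)
(mv 910 (cons (fin 846 5 845)
(mv 1036 (cons (fin 1035 2 971)
(mv 1103 (cons (fin 1104 0 1036)
(fin 1167 7 910)))))))))))
(mv 1102 (cons (fin 1101 1 1037)
(mv 911 (cons (fin 847 5 846)
(fin 1166 6 910))))))))))))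
(cons (mv 1041 (cons (fin 1042 3 974)
(mv 1104 (cons (cons (mv 911 (cons (fin 847 4 847)
(mv 1168 (cons (fin 976 7 911)
(fin 1232 7 975)))))
(mv 1168 (cons (fin 1232 7 975)
(mv 976 (cons (cons (mv 1167 (cons (fin 1231 5 975)
(mv 1103 (cons (fin 910 7 910)
(fin 912 5 911)))))
(mv 1169 (cons (fin 1233 4 976)
(mv 912 (cons (fin 1105 4 912)
(mv 848 (cons (fin 784 5 783)
(fin 1103 5 847))))))))
(cons (mv 1167 (cons (fin 1231 5 975)
(mv 1103 (cons (fin 910 7 910)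
(mv 1166 (cons (fin 1230 5 974)
(mv 1105 (cons (fin 1106 1 1102)
(fin 1165 2 1101)))))))))
(mv 1167 (cons (fin 1231 5 975)
(mv 1169 (cons (fin 1233 4 976)
(mv 912 (cons (fin 1105 4 912)
(mv 848 (cons (fin 784 5 783)
(mv 849 (cons (fin 785 6 784)
(fin 913 6 848)))))))))))))))))
(cons (mv 911 (cons (fin 847 4 847)
(mv 1103 (cons (mv 910 (cons (fin 846 7 846)
(fin 1167 7 910)))
(cons (mv 912 (cons (fin 848 6 847)
(mv 913 (cons (fin 914 1 910)
(mv 976 (cons (fin 1167 5 911)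
(fin 849 6 848)))))))
(mv 846 (cons (fin 910 7 846)
(mv 912 (cons (fin 848 6 847)
(mv 913 (cons (fin 914 1 910)
(mv 976 (cons (fin 849 6 848)
(mv 1105 (cons (fin 1169 4 912)
(mv 1038 (cons (fin 1106 3 1038)
(fin 1037 0 1037))))))))))))))))))
(mv 911 (cons (fin 847 4 847)
(mv 1168 (cons (fin 1232 7 975)
(fin 1103 4 911))))))))))
(mv 1041 (cons (fin 1042 3 974)
(mv 1038 (cons (cons (mv 1101 (cons (fin 1102 1 1037)
(mv 1037 (cons (fin 1100 1 1036)
(mv 1036 (cons (fin 1035 2 971)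
(fin 976 2 972)))))))
(mv 1105 (cons (fin 1106 0 1038)
(mv 1037 (cons (fin 1104 0 1037)
(mv 1036 (cons (fin 1035 2 971)
(fin 976 2 972))))))))
(cons (mv 1102 (cons (fin 1101 1 1037)
(mv 911 (cons (fin 847 5 846)
(mv 1105 (cons (fin 1106 0 1038)
(mv 1103 (cons (mv 910 (cons (fin 846 7 846)
(fin 1167 7 910)))
(cons (mv 848 (cons (fin 912 6 847)
(mv 1104 (cons (fin 1168 4 911)
(mv 1167 (cons (fin 1231 7 974)
(mv 1169 (cons (fin 1170 0 1102)
(mv 1233 (cons (fin 976 7 976)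
(fin 1297 7 1040)))))))))))
(mv 846 (cons (fin 910 7 846)
(mv 848 (cons (fin 912 6 847)
(mv 1104 (cons (fin 1168 4 911)
(mv 1169 (cons (fin 1170 0 1102)
(mv 1233 (cons (fin 976 7 976)
(fin 1297 7 1040))))))))))))))))))))
(mv 1101 (cons (fin 1102 1 1037)
(mv 1037 (cons (fin 1100 1 1036)
(mv 1105 (cons (fin 1104 0 1037)
(fin 1106 0 1038))))))))))))))))))
(cons (cons (mv 975 (cons (cons (mv 973 (cons (fin 972 0 972)
(mv 1041 (cons (fin 1042 3 974)
(fin 976 0 973)))))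
(mv 1041 (cons (fin 1042 3 974)
(mv 1104 (cons (mv 911 (cons (fin 847 4 847)
(mv 1168 (cons (fin 976 7 911)
(fin 1232 7 975)))))
(cons (mv 1168 (cons (fin 1232 7 975)
(mv 976 (cons (cons (mv 1167 (cons (fin 1231 5 975)
(mv 1103 (cons (fin 910 7 910)
(fin 912 5 911)))))
(mv 1169 (cons (fin 1233 4 976)
(mv 912 (cons (fin 1105 4 912)
(mv 848 (cons (fin 784 5 783)
(fin 1103 5 847))))))))
(cons (mv 1167 (cons (fin 1231 5 975)
(mv 1103 (cons (fin 910 7 910)
(mv 1101 (cons (fin 1102 2 1037)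
(mv 1166 (cons (fin 1230 5 974)
(mv 1105 (cons (fin 1106 1 1102)
(fin 1165 2 1101)))))))))))
(mv 1167 (cons (fin 1231 5 975)
(mv 1169 (cons (fin 1233 4 976)
(mv 912 (cons (fin 1105 4 912)
(mv 848 (cons (fin 784 5 783)
(mv 849 (cons (fin 785 6 784)
(fin 913 6 848))))))))))))))))
(mv 911 (cons (fin 847 4 847)
(mv 1103 (cons (mv 910 (cons (fin 846 7 846)
(fin 1167 7 910)))
(mv 1102 (cons (fin 1101 2 1037)
(fin 1166 5 910)))))))))))))
(cons (mv 972 (cons (fin 973 0 972)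
(mv 1104 (cons (cons (mv 911 (cons (fin 847 4 847)
(mv 1168 (cons (fin 976 7 911)
(fin 1232 7 975)))))
(mv 1168 (cons (fin 1232 7 975)
(mv 1167 (cons (cons (mv 910 (cons (fin 1103 7 910)
(mv 782 (cons (fin 846 4 782)
(mv 976 (cons (fin 1231 5 975)
(mv 1169 (cons (fin 1233 4 976)
(mv 912 (cons (fin 1105 4 912)
(mv 848 (cons (fin 784 5 783)
(mv 849 (cons (fin 785 6 784)
(fin 913 6 848)))))))))))))))
(mv 976 (cons (fin 1231 5 975)
(mv 1169 (cons (fin 1233 4 976)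
(mv 912 (cons (fin 1105 4 912)
(mv 848 (cons (fin 784 5 783)
(mv 849 (cons (fin 785 6 784)
(fin 913 6 848))))))))))))
(cons (mv 1103 (cons (fin 910 7 910)
(mv 1166 (cons (fin 1230 5 974)
(mv 1105 (cons (fin 1106 1 1102)
(fin 1165 2 1101)))))))
(mv 976 (cons (fin 1231 5 975)
(mv 1103 (cons (fin 910 7 910)
(fin 912 5 911)))))))))))
(cons (mv 911 (cons (fin 847 4 847)
(mv 1103 (cons (mv 910 (cons (fin 846 7 846)
(fin 1167 7 910)))
(cons (mv 848 (cons (fin 912 6 847)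
(mv 1166 (cons (fin 1102 5 910)
(mv 1167 (cons (fin 1230 5 974)
(mv 1231 (cons (fin 976 6 975)
(fin 1295 6 1039)))))))))
(mv 910 (cons (fin 846 7 846)
(mv 912 (cons (fin 848 6 847)
(mv 913 (cons (fin 914 1 910)
(mv 849 (cons (fin 850 2 846)
(fin 976 6 848))))))))))))))
(mv 911 (cons (fin 847 4 847)
(mv 1168 (cons (fin 1232 7 975)
(fin 1103 4 911))))))))))
(mv 973 (cons (fin 972 0 972)
(mv 1041 (cons (fin 1042 3 974)
(mv 1103 (cons (cons (mv 910 (cons (fin 1167 7 910)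
(mv 846 (cons (fin 911 7 846)
(fin 782 4 782)))))
(mv 1102 (cons (mv 1101 (cons (fin 1100 2 1036)
(fin 1104 2 1037)))
(cons (mv 911 (cons (fin 1166 5 910)
(mv 1104 (cons (fin 847 4 847)
(fin 1168 4 911)))))
(mv 1100 (cons (fin 1101 2 1036)
(mv 1166 (cons (fin 911 5 910)
(mv 1230 (cons (fin 1167 5 974)
(fin 1294 6 1038)))))))))))
(cons (mv 911 (cons (mv 1104 (cons (fin 847 4 847)
(fin 1168 4 911)))
(cons (mv 846 (cons (fin 910 7 846)
(mv 847 (cons (fin 782 7 782)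
(mv 848 (cons (fin 784 6 783)
(fin 912 6 847)))))))
(mv 846 (cons (fin 910 7 846)
(mv 848 (cons (fin 912 6 847)
(mv 1102 (cons (fin 1166 5 910)
(mv 1101 (cons (fin 1100 2 1036)
(fin 1104 2 1037))))))))))))
(mv 1167 (cons (fin 910 7 910)
(mv 1166 (cons (fin 1230 5 974)
(mv 1232 (cons (fin 1168 4 975)
(mv 1231 (cons (fin 1296 4 1039)
(mv 1104 (cons (fin 1295 6 1039)
(mv 1102 (cons (fin 1101 2 1037)
(mv 1105 (cons (fin 1165 1 1101)
(fin 1106 1 1102)))))))))))))))))))))))))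
(mv 1041 (cons (cons (mv 973 (cons (fin 1038 3 973)
(mv 975 (cons (fin 1042 3 974)
(fin 972 0 972)))))
(mv 975 (cons (fin 1042 3 974)
(mv 973 (cons (fin 972 0 972)
(fin 976 0 973))))))
(cons (mv 1038 (cons (fin 973 3 973)
(mv 1101 (cons (fin 1102 1 1037)
(mv 1037 (cons (fin 1100 1 1036)
(mv 1105 (cons (fin 1104 0 1037)
(fin 1106 0 1038)))))))))
(mv 1042 (cons (fin 975 3 974)
(mv 978 (cons (fin 979 2 975)
(mv 1106 (cons (fin 1107 0 1039)
(mv 1105 (cons (fin 1038 0 1038)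
(mv 914 (cons (fin 850 5 849)
(fin 1169 5 913)))))))))))))))
(cons (mv 1041 (cons (cons (mv 973 (cons (fin 1038 3 973)
(mv 975 (cons (fin 1042 3 974)
(fin 972 0 972)))))
(mv 973 (cons (fin 1038 3 973)
(mv 975 (cons (fin 972 0 972)
(fin 976 0 973))))))
(cons (mv 975 (cons (fin 1042 3 974)
(mv 973 (cons (fin 972 0 972)
(fin 976 0 973)))))
(cons (mv 1038 (cons (fin 973 3 973)
(mv 1102 (cons (fin 1101 1 1037)
(mv 1042 (cons (fin 1103 1 1038)
(mv 1106 (cons (fin 1105 0 1038)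
(fin 1107 0 1039)))))))))
(mv 975 (cons (fin 1042 3 974)
(mv 910 (cons (cons (mv 846 (cons (fin 782 4 782)
(mv 1103 (cons (fin 911 7 846)
(fin 1167 7 910)))))
(mv 846 (cons (fin 782 4 782)
(mv 1038 (cons (mv 1101 (cons (fin 1102 1 1037)
(fin 1037 5 845)))
(cons (mv 781 (cons (fin 845 7 781)
(mv 847 (cons (fin 783 6 782)
(mv 911 (cons (fin 1102 5 846)
(mv 848 (cons (fin 784 6 783)
(mv 849 (cons (fin 909 1 845)
(fin 850 1 846)))))))))))
(mv 781 (cons (fin 845 7 781)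
(mv 783 (cons (fin 847 6 782)
(mv 1037 (cons (fin 1101 5 845)
(mv 1036 (cons (fin 1035 2 971)
(fin 976 2 972)))))))))))))))
(cons (mv 1103 (cons (fin 1167 7 910)
(mv 1102 (cons (mv 1101 (cons (fin 1038 1 1037)
(fin 1100 2 1036)))
(cons (mv 911 (cons (fin 1166 5 910)
(mv 847 (cons (fin 1038 5 846)
(mv 783 (cons (fin 719 5 718)
(fin 976 4 783)))))))
(mv 911 (cons (fin 1166 5 910)
(mv 848 (cons (fin 912 6 847)
(mv 847 (cons (fin 784 6 783)
(mv 783 (cons (fin 719 5 718)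
(fin 976 4 783))))))))))))))
(mv 846 (cons (fin 782 4 782)
(mv 1103 (cons (fin 1167 7 910)
(fin 1038 4 846))))))))))))))
(cons (mv 975 (cons (cons (mv 973 (cons (fin 972 0 972)
(mv 1041 (cons (fin 1038 3 973)
(fin 1042 3 974)))))
(mv 1041 (cons (fin 1042 3 974)
(mv 1104 (cons (cons (mv 911 (cons (fin 847 4 847)
(mv 1168 (cons (fin 976 7 911)
(fin 1232 7 975)))))
(mv 1168 (cons (fin 1232 7 975)
(mv 976 (cons (cons (mv 1167 (cons (fin 1231 5 975)
(mv 1103 (cons (fin 910 7 910)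
(fin 912 5 911)))))
(mv 1169 (cons (fin 1233 4 976)
(mv 912 (cons (fin 1105 4 912)
(mv 848 (cons (fin 784 5 783)
(fin 1103 5 847))))))))
(cons (mv 1167 (cons (fin 1231 5 975)
(mv 1103 (cons (fin 910 7 910)
(mv 1166 (cons (fin 1230 5 974)
(mv 1105 (cons (fin 1106 1 1102)
(fin 1165 2 1101)))))))))
(mv 1167 (cons (fin 1231 5 975)
(mv 1169 (cons (fin 1233 4 976)
(mv 912 (cons (fin 1105 4 912)
(mv 848 (cons (fin 784 5 783)
(mv 849 (cons (fin 785 6 784)
(fin 913 6 848)))))))))))))))))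
(cons (mv 911 (cons (fin 847 4 847)
(mv 1103 (cons (mv 910 (cons (fin 846 7 846)
(fin 1167 7 910)))
(cons (mv 912 (cons (fin 848 6 847)
(mv 913 (cons (fin 914 1 910)
(mv 976 (cons (fin 1167 5 911)
(fin 849 6 848)))))))
(mv 846 (cons (fin 910 7 846)
(mv 912 (cons (fin 848 6 847)
(mv 913 (cons (fin 914 1 910)
(mv 976 (cons (fin 849 6 848)
(mv 1105 (cons (fin 1169 4 912)
(mv 1038 (cons (fin 1106 3 1038)
(fin 1037 0 1037))))))))))))))))))
(mv 911 (cons (fin 847 4 847)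
(mv 1168 (cons (fin 1232 7 975)
(fin 1103 4 911)))))))))))
(cons (mv 972 (cons (fin 973 0 972)
(mv 1104 (cons (cons (mv 911 (cons (fin 847 4 847)
(mv 1168 (cons (fin 976 7 911)
(fin 1232 7 975)))))
(mv 1168 (cons (fin 1232 7 975)
(mv 1167 (cons (cons (mv 910 (cons (fin 1103 7 910)
(mv 782 (cons (fin 846 4 782)
(mv 976 (cons (fin 1231 5 975)
(mv 1169 (cons (fin 1233 4 976)
(mv 912 (cons (fin 1105 4 912)
(mv 848 (cons (fin 784 5 783)
(mv 849 (cons (fin 785 6 784)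
(fin 913 6 848)))))))))))))))
(mv 976 (cons (fin 1231 5 975)
(mv 1169 (cons (fin 1233 4 976)
(mv 912 (cons (fin 1105 4 912)
(mv 848 (cons (fin 784 5 783)
(mv 849 (cons (fin 785 6 784)
(fin 913 6 848))))))))))))
(cons (mv 1103 (cons (fin 910 7 910)
(mv 1231 (cons (fin 1038 7 974)
(fin 1295 6 1039)))))
(mv 1103 (cons (fin 910 7 910)
(mv 912 (cons (fin 976 5 911)
(mv 1166 (cons (fin 1230 5 974)
(mv 1105 (cons (fin 1106 1 1102)
(fin 1165 2 1101)))))))))))))))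
(cons (mv 911 (cons (fin 847 4 847)
(mv 1103 (cons (mv 910 (cons (fin 846 7 846)
(fin 1167 7 910)))
(cons (mv 912 (cons (fin 848 6 847)
(mv 913 (cons (fin 914 1 910)
(mv 976 (cons (fin 1167 5 911)
(fin 849 6 848)))))))
(mv 846 (cons (fin 910 7 846)
(mv 912 (cons (fin 848 6 847)
(mv 913 (cons (fin 914 1 910)
(mv 976 (cons (fin 849 6 848)
(mv 1105 (cons (fin 1169 4 912)
(mv 1038 (cons (fin 1106 3 1038)
(fin 1037 0 1037))))))))))))))))))
(mv 911 (cons (fin 847 4 847)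
(mv 1168 (cons (fin 1232 7 975)
(fin 1103 4 911))))))))))
(mv 973 (cons (fin 972 0 972)
(mv 1041 (cons (fin 1042 3 974)
(fin 976 0 973))))))))
(mv 975 (cons (cons (mv 973 (cons (fin 972 0 972)
(mv 1041 (cons (fin 1038 3 973)
(fin 1042 3 974)))))
(mv 1041 (cons (fin 1042 3 974)
(mv 910 (cons (cons (mv 846 (cons (fin 782 4 782)
(mv 1103 (cons (fin 911 7 846)
(fin 1167 7 910)))))
(mv 846 (cons (fin 782 4 782)
(mv 1038 (cons (mv 1101 (cons (fin 1102 1 1037)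
(fin 1037 5 845)))
(cons (mv 781 (cons (fin 845 7 781)
(mv 847 (cons (fin 783 6 782)
(mv 911 (cons (fin 1102 5 846)
(fin 1104 4 847)))))))
(mv 781 (cons (fin 845 7 781)
(mv 783 (cons (fin 847 6 782)
(mv 1037 (cons (fin 1101 5 845)
(mv 1036 (cons (fin 1035 2 971)
(fin 976 2 972)))))))))))))))
(cons (mv 1103 (cons (fin 1167 7 910)
(mv 911 (cons (mv 1104 (cons (fin 847 4 847)
(fin 1168 4 911)))
(cons (mv 848 (cons (fin 912 6 847)
(mv 784 (cons (fin 847 6 783)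
(mv 1102 (cons (fin 1166 5 910)
(mv 1101 (cons (fin 1038 1 1037)
(fin 1100 2 1036)))))))))
(mv 848 (cons (fin 912 6 847)
(mv 1102 (cons (fin 1166 5 910)
(mv 1101 (cons (fin 1038 1 1037)
(fin 1100 2 1036))))))))))))
(mv 846 (cons (fin 782 4 782)
(mv 1103 (cons (fin 1167 7 910)
(fin 1038 4 846)))))))))))
(cons (mv 972 (cons (fin 973 0 972)
(mv 910 (cons (cons (mv 846 (cons (fin 782 4 782)
(mv 1103 (cons (fin 911 7 846)
(fin 1167 7 910)))))
(mv 846 (cons (fin 782 4 782)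
(mv 1038 (cons (cons (mv 781 (cons (fin 845 7 781)
(mv 783 (cons (fin 847 6 782)
(mv 1037 (cons (fin 1101 5 845)
(mv 1036 (cons (fin 971 3 971)
(fin 1035 2 971)))))))))
(mv 781 (cons (fin 845 7 781)
(mv 1037 (cons (fin 1101 5 845)
(mv 1036 (cons (fin 971 3 971)
(fin 1035 2 971))))))))
(cons (mv 781 (cons (fin 845 7 781)
(mv 847 (cons (fin 783 6 782)
(mv 911 (cons (fin 1102 5 846)
(fin 1104 4 847)))))))
(mv 783 (cons (fin 847 6 782)
(mv 1037 (cons (fin 1101 5 845)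
(mv 1036 (cons (fin 971 3 971)
(fin 1035 2 971)))))))))))))
(cons (mv 1103 (cons (fin 1167 7 910)
(mv 911 (cons (mv 1104 (cons (fin 847 4 847)
(fin 1168 4 911)))
(cons (mv 848 (cons (fin 912 6 847)
(mv 784 (cons (fin 847 6 783)
(mv 1102 (cons (fin 1166 5 910)
(mv 1101 (cons (fin 1100 2 1036)
(mv 1038 (cons (fin 1165 5 909)
(mv 909 (cons (fin 845 7 845)
(mv 908 (cons (fin 971 1 907)
(fin 907 0 907)))))))))))))))
(mv 848 (cons (fin 912 6 847)
(mv 1102 (cons (fin 1166 5 910)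
(mv 1101 (cons (fin 1100 2 1036)
(mv 1038 (cons (fin 1165 5 909)
(mv 909 (cons (fin 845 7 845)
(mv 908 (cons (fin 971 1 907)
(fin 907 0 907))))))))))))))))))
(mv 846 (cons (fin 782 4 782)
(mv 1103 (cons (fin 1167 7 910)
(fin 1038 4 846))))))))))
(mv 973 (cons (fin 972 0 972)
(mv 1041 (cons (fin 1042 3 974)
(fin 976 0 973)))))))))))))
def l39 : Lem := ⟨11781361728633673533054441723117730079171283746239247440356909899588005244909514899260159721150817405942924420470662491174673842036557007391209044253460063708080530407354770956693342717623350878333880262063391977041189311657559161319740834448813323445848447489700891174053752382374267171085078592036680673850818560, 5115706832321445437039083299929592411985236391131857151413793558587649424566435962595610896715669531210907766852620638391563495035491195976196718478571139876985818663604023919125226149631248608534522287490676181335892211560980601156651292192770876124084750945728497325421594879957417731674396569797486629984577941265755584072698535675350665342997738802479254794102098723598850519388540370944,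 5115706832321445437039083299929592411985236391131857151413793558587649424566435962595610896715669531210907766852620638391563495035491195976196718478571139876985818663604023919125226149631248608534522287490676181335892211560980601156651292192770876124084750945728497325421594879957417731674396569797486629984577941265755584072698535675350665342997738802479254794102098723598850519388540370944, 17, 33⟩
theorem l39_valid : l39.Valid :=
  Lem.valid_of_chk t39 t39_valid [974, 1040] c39 l39 (by decide +kernel)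
end Crest.Agent.SnakyAux
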