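import Crest.Agent.S0047_aux.Checker

set_option autoImplicit false
set_option maxRecDepth 100000
namespace Crest.Agent.SnakyAux
open Cert
def t40 : Tbl := Tbl.nil
theorem t40_valid : t40.Valid := Tbl.valid_nil
def c40 : Cert :=
(mv 975 (cons (cons (cons (mv 973 (cons (cons (mv 972 (cons (fin 1039 0 972)
(mv 907 (cons (fin 908 3 907)
(mv 906 (cons (fin 971 3 906)
(mv 912 (cons (fin 911 2 908)
(mv 976 (cons (fin 913 2 909)
(fin 1041 0 973)))))))))))
(mv 976 (cons (fin 1041 0 973)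
(mv 909 (cons (fin 908 3 908)
(mv 913 (cons (fin 912 2 909)
(mv 977 (cons (fin 910 3 909)
(fin 914 2 910))))))))))
(cons (mv 972 (cons (fin 1039 0 972)
(mv 907 (cons (fin 908 3 907)
(mv 911 (cons (fin 912 2 908)
(mv 971 (cons (fin 906 3 906)
(fin 910 2 907)))))))))
(cons (mv 972 (cons (fin 1039 0 972)
(mv 907 (cons (fin 908 3 907)
(mv 971 (cons (fin 906 3 906)
(mv 1035 (cons (fin 1034 1 970)
(fin 1036 1 971)))))))))
(mv 972 (cons (fin 1039 0 972)
(mv 911 (cons (fin 912 2 908)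
(mv 910 (cons (fin 971 2 907)
(mv 976 (cons (fin 1041 0 973)
(mv 977 (cons (fin 909 3 909)
(fin 978 3 910)))))))))))))))
(mv 1039 (cons (cons (cons (mv 1041 (cons (fin 1042 3 974)
(mv 1038 (cons (mv 977 (cons (fin 978 2 974)
(mv 1102 (cons (fin 1101 1 1037)
(mv 911 (cons (fin 847 5 846)
(fin 1166 6 910)))))))
(cons (mv 977 (cons (fin 978 2 974)
(mv 1105 (cons (fin 1106 0 1038)
(mv 976 (cons (mv 912 (cons (fin 1169 7 912)
(fin 848 4 848)))
(mv 909 (cons (fin 910 3 909)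
(mv 913 (cons (fin 914 2 910)
(mv 849 (cons (fin 785 5 784)
(fin 1104 5 848)))))))))))))
(mv 1102 (cons (fin 1101 1 1037)
(mv 911 (cons (fin 847 5 846)
(fin 1166 6 910))))))))))
(mv 910 (cons (cons (mv 846 (cons (fin 782 4 782)
(mv 1103 (cons (fin 911 7 846)
(fin 1167 7 910)))))
(mv 846 (cons (fin 782 4 782)
(mv 847 (cons (cons (mv 783 (cons (fin 1038 6 782)
(mv 719 (cons (fin 655 5 654)
(fin 911 5 718)))))
(mv 1038 (cons (fin 783 6 782)
(mv 845 (cons (fin 781 7 781)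
(mv 909 (cons (fin 1102 7 845)
(mv 848 (cons (fin 908 1 844)
(fin 849 1 845))))))))))
(cons (mv 911 (cons (fin 1104 4 847)
(mv 783 (cons (fin 719 5 718)
(fin 976 4 783)))))
(mv 911 (cons (fin 1104 4 847)
(mv 784 (cons (fin 848 6 783)
(mv 1038 (cons (fin 1102 5 846)
(mv 845 (cons (fin 781 7 781)
(mv 844 (cons (fin 843 0 843)
(fin 912 0 844)))))))))))))))))
(cons (mv 1103 (cons (fin 1167 7 910)
(mv 911 (cons (mv 1104 (cons (fin 847 4 847)
(fin 1168 4 911)))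
(cons (mv 848 (cons (fin 912 6 847)
(mv 784 (cons (fin 847 6 783)
(mv 1102 (cons (fin 1166 5 910)
(mv 1101 (cons (fin 1100 2 1036)
(mv 1038 (cons (fin 1165 5 909)
(mv 909 (cons (fin 845 7 845)
(mv 908 (cons (fin 907 0 907)
(fin 976 0 908)))))))))))))))
(mv 848 (cons (fin 912 6 847)
(mv 1102 (cons (fin 1166 5 910)
(mv 1101 (cons (fin 1100 2 1036)
(mv 1038 (cons (fin 1165 5 909)
(mv 909 (cons (fin 845 7 845)
(mv 908 (cons (fin 907 0 907)
(fin 976 0 908))))))))))))))))))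
(mv 846 (cons (fin 782 4 782)
(mv 1103 (cons (fin 1167 7 910)
(fin 1038 4 846)))))))))
(cons (mv 1041 (cons (fin 1042 3 974)
(mv 1038 (cons (cons (mv 977 (cons (fin 978 2 974)
(mv 1102 (cons (fin 1101 1 1037)
(mv 911 (cons (fin 847 5 846)
(fin 1166 6 910)))))))
(mv 977 (cons (fin 978 2 974)
(mv 1105 (cons (fin 1106 0 1038)
(mv 1104 (cons (mv 913 (cons (fin 849 5 848)
(fin 1168 5 912)))
(cons (mv 847 (cons (fin 911 4 847)
(mv 913 (cons (fin 849 5 848)
(mv 914 (cons (fin 976 2 910)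
(fin 850 6 849)))))))
(mv 911 (cons (fin 847 4 847)
(mv 1168 (cons (fin 976 7 911)
(fin 1232 7 975)))))))))))))
(cons (mv 1102 (cons (fin 1101 1 1037)
(mv 911 (cons (fin 847 5 846)
(fin 1166 6 910)))))
(mv 977 (cons (fin 978 2 974)
(mv 1102 (cons (fin 1101 1 1037)
(mv 1105 (cons (fin 1106 0 1038)
(mv 1166 (cons (fin 1230 6 974)
(mv 1165 (cons (fin 1229 5 973)
(mv 1103 (cons (fin 1104 1 1101)
(mv 1163 (cons (fin 1164 2 1099)
(mv 1167 (cons (fin 1231 7 974)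
(mv 976 (cons (fin 912 6 911)
(mv 913 (cons (fin 914 2 910)
(mv 785 (cons (fin 849 5 784)
(mv 1168 (cons (fin 1232 4 975)
(mv 1169 (cons (fin 1170 3 1102)
(fin 1233 7 976))))))))))))))))))))))))))))))))
(mv 1041 (cons (fin 1042 3 974)
(mv 1038 (cons (mv 977 (cons (fin 978 2 974)
(mv 1102 (cons (fin 1101 1 1037)
(mv 911 (cons (fin 847 5 846)
(fin 1166 6 910)))))))
(cons (mv 977 (cons (fin 978 2 974)
(mv 1105 (cons (fin 1106 0 1038)
(mv 976 (cons (mv 912 (cons (fin 1169 7 912)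
(fin 848 4 848)))
(mv 910 (cons (fin 909 3 909)
(mv 846 (cons (fin 782 4 782)
(fin 1103 4 846)))))))))))
(mv 1102 (cons (fin 1101 1 1037)
(mv 911 (cons (fin 847 5 846)
(fin 1166 6 910))))))))))))
(cons (cons (mv 1041 (cons (fin 1042 3 974)
(mv 1038 (cons (cons (mv 977 (cons (fin 978 2 974)
(mv 1102 (cons (fin 1101 1 1037)
(mv 1105 (cons (fin 1106 0 1038)
(mv 1166 (cons (fin 1230 6 974)
(mv 1165 (cons (fin 1229 5 973)
(mv 1103 (cons (fin 1104 1 1101)
(mv 910 (cons (fin 1167 7 910)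
(fin 846 4 846)))))))))))))))
(mv 977 (cons (fin 978 2 974)
(mv 1105 (cons (fin 1106 0 1038)
(mv 976 (cons (mv 912 (cons (fin 1169 7 912)
(fin 848 4 848)))
(mv 909 (cons (fin 910 3 909)
(mv 913 (cons (fin 914 2 910)
(mv 849 (cons (fin 785 5 784)
(fin 1104 5 848))))))))))))))
(cons (mv 1102 (cons (fin 1101 1 1037)
(mv 1105 (cons (fin 1106 0 1038)
(mv 1166 (cons (fin 1230 6 974)
(mv 1165 (cons (fin 1229 5 973)
(mv 1103 (cons (fin 1104 1 1101)
(mv 910 (cons (fin 1167 7 910)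
(fin 846 4 846)))))))))))))
(cons (mv 977 (cons (fin 978 2 974)
(mv 1102 (cons (fin 1101 1 1037)
(mv 1166 (cons (fin 1230 6 974)
(mv 1165 (cons (fin 1229 5 973)
(mv 1167 (cons (fin 1231 4 974)
(mv 910 (cons (fin 1103 7 910)
(mv 909 (cons (fin 976 3 909)
(fin 845 7 845)))))))))))))))
(mv 977 (cons (fin 978 2 974)
(mv 1102 (cons (fin 1101 1 1037)
(mv 1105 (cons (fin 1106 0 1038)
(mv 1166 (cons (fin 1230 6 974)
(mv 1165 (cons (fin 1229 5 973)
(mv 1103 (cons (fin 1104 1 1101)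
(mv 1163 (cons (fin 1164 2 1099)
(mv 1167 (cons (fin 1231 7 974)
(mv 976 (cons (fin 912 6 911)
(mv 913 (cons (fin 914 2 910)
(mv 785 (cons (fin 849 5 784)
(mv 1168 (cons (fin 1232 4 975)
(mv 1169 (cons (fin 1170 3 1102)
(fin 1233 7 976)))))))))))))))))))))))))))))))))
(mv 1041 (cons (fin 1042 3 974)
(mv 1038 (cons (cons (mv 977 (cons (fin 978 2 974)
(mv 1102 (cons (fin 1101 1 1037)
(mv 911 (cons (fin 847 5 846)
(fin 1166 6 910)))))))
(mv 977 (cons (fin 978 2 974)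
(mv 1105 (cons (fin 1106 0 1038)
(mv 1104 (cons (mv 913 (cons (fin 849 5 848)
(fin 1168 5 912)))
(cons (mv 911 (cons (fin 847 4 847)
(mv 913 (cons (fin 849 5 848)
(mv 912 (cons (fin 914 1 910)
(fin 848 7 848)))))))
(mv 911 (cons (fin 847 4 847)
(mv 1168 (cons (fin 1232 7 975)
(fin 1103 4 911)))))))))))))
(cons (mv 1102 (cons (fin 1101 1 1037)
(mv 911 (cons (fin 847 5 846)
(fin 1166 6 910)))))
(mv 977 (cons (fin 978 2 974)
(mv 1102 (cons (fin 1101 1 1037)
(mv 1105 (cons (fin 1106 0 1038)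
(mv 1166 (cons (fin 1230 6 974)
(mv 1165 (cons (fin 1229 5 973)
(mv 1103 (cons (fin 1104 1 1101)
(mv 910 (cons (fin 1167 7 910)
(fin 846 4 846)))))))))))))))))))))
(cons (mv 1041 (cons (fin 1042 3 974)
(mv 1104 (cons (mv 911 (cons (fin 847 4 847)
(mv 1168 (cons (fin 976 7 911)
(fin 1232 7 975)))))
(cons (mv 911 (cons (fin 847 4 847)
(mv 1103 (cons (mv 910 (cons (fin 846 7 846)
(fin 1167 7 910)))
(mv 1102 (cons (fin 1101 2 1037)
(fin 1166 5 910)))))))
(mv 1168 (cons (fin 1232 7 975)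
(mv 976 (cons (cons (mv 913 (cons (fin 977 6 912)
(mv 849 (cons (fin 912 6 848)
(mv 1167 (cons (fin 1231 5 975)
(mv 1103 (cons (fin 910 7 910)
(mv 1101 (cons (fin 1102 2 1037)
(mv 1166 (cons (fin 1230 5 974)
(mv 1105 (cons (fin 1106 1 1102)
(fin 1165 2 1101)))))))))))))))
(mv 1167 (cons (fin 1231 5 975)
(mv 1103 (cons (fin 910 7 910)
(fin 912 5 911))))))
(cons (mv 913 (cons (fin 977 6 912)
(mv 912 (cons (fin 849 6 848)
(mv 848 (cons (fin 784 5 783)
(fin 1103 5 847)))))))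
(cons (mv 913 (cons (fin 977 6 912)
(mv 1167 (cons (fin 1231 5 975)
(mv 1103 (cons (fin 910 7 910)
(mv 1101 (cons (fin 1102 2 1037)
(mv 1166 (cons (fin 1230 5 974)
(mv 1105 (cons (fin 1106 1 1102)
(fin 1165 2 1101)))))))))))))
(mv 913 (cons (fin 977 6 912)
(mv 912 (cons (fin 849 6 848)
(mv 848 (cons (fin 784 5 783)
(fin 1105 4 848))))))))))))))))))
(cons (mv 1041 (cons (fin 1042 3 974)
(mv 1104 (cons (cons (mv 911 (cons (fin 847 4 847)
(mv 1168 (cons (fin 976 7 911)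
(fin 1232 7 975)))))
(mv 911 (cons (fin 847 4 847)
(mv 1103 (cons (mv 910 (cons (fin 846 7 846)
(fin 1167 7 910)))
(mv 912 (cons (fin 848 6 847)
(mv 913 (cons (fin 914 1 910)
(mv 849 (cons (fin 977 5 848)
(fin 976 6 848))))))))))))
(cons (mv 1168 (cons (fin 1232 7 975)
(mv 977 (cons (mv 913 (cons (fin 849 5 848)
(fin 1105 5 912)))
(mv 978 (cons (fin 1038 2 974)
(mv 979 (cons (fin 976 1 975)
(fin 980 1 976)))))))))
(mv 911 (cons (fin 847 4 847)
(mv 1168 (cons (fin 1232 7 975)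
(fin 1103 4 911))))))))))
(mv 1041 (cons (fin 1042 3 974)
(mv 1038 (cons (cons (mv 977 (cons (fin 978 2 974)
(mv 1102 (cons (fin 1101 1 1037)
(mv 911 (cons (fin 847 5 846)
(fin 1166 6 910)))))))
(mv 977 (cons (fin 978 2 974)
(mv 1105 (cons (fin 1106 0 1038)
(mv 1104 (cons (mv 913 (cons (fin 849 5 848)
(fin 1168 5 912)))
(cons (mv 847 (cons (fin 911 4 847)
(mv 913 (cons (fin 849 5 848)
(mv 914 (cons (fin 976 2 910)
(fin 850 6 849)))))))
(mv 911 (cons (fin 847 4 847)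
(mv 1168 (cons (fin 976 7 911)
(fin 1232 7 975)))))))))))))
(cons (mv 1102 (cons (fin 1101 1 1037)
(mv 911 (cons (fin 847 5 846)
(fin 1166 6 910)))))
(mv 977 (cons (fin 978 2 974)
(mv 1102 (cons (fin 1101 1 1037)
(mv 1105 (cons (fin 1106 0 1038)
(mv 1166 (cons (fin 1230 6 974)
(mv 1165 (cons (fin 1229 5 973)
(mv 1103 (cons (fin 1104 1 1101)
(mv 910 (cons (fin 1167 7 910)
(fin 846 4 846))))))))))))))))))))))))))
(cons (mv 976 (cons (cons (mv 973 (cons (fin 1041 0 973)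
(mv 908 (cons (fin 909 3 908)
(mv 912 (cons (fin 913 2 909)
(mv 972 (cons (fin 907 3 907)
(fin 911 2 908)))))))))
(cons (mv 977 (cons (cons (mv 909 (cons (fin 910 3 909)
(mv 913 (cons (fin 914 2 910)
(mv 849 (cons (fin 785 5 784)
(mv 1041 (cons (fin 1042 0 974)
(fin 1104 5 848)))))))))
(mv 910 (cons (fin 909 3 909)
(mv 911 (cons (fin 978 3 910)
(mv 847 (cons (fin 783 4 783)
(mv 1104 (cons (fin 912 7 847)
(fin 1168 7 911))))))))))
(cons (mv 913 (cons (fin 914 2 910)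
(mv 849 (cons (fin 785 5 784)
(mv 1041 (cons (fin 1042 0 974)
(fin 1104 5 848)))))))
(mv 909 (cons (fin 910 3 909)
(mv 913 (cons (fin 914 2 910)
(mv 849 (cons (fin 785 5 784)
(mv 1041 (cons (fin 1042 0 974)
(mv 786 (cons (fin 850 6 785)
(mv 848 (cons (fin 784 7 784)
(mv 1105 (cons (fin 912 7 848)
(mv 1169 (cons (fin 1233 7 976)
(mv 1170 (cons (fin 1106 4 913)
(fin 1234 4 977))))))))))))))))))))))
(mv 977 (cons (cons (mv 909 (cons (fin 910 3 909)
(mv 908 (cons (fin 973 3 908)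
(mv 913 (cons (fin 914 2 910)
(mv 849 (cons (fin 785 5 784)
(mv 1104 (cons (fin 912 6 848)
(fin 1168 6 912)))))))))))
(mv 910 (cons (fin 909 3 909)
(mv 911 (cons (fin 978 3 910)
(mv 847 (cons (fin 783 4 783)
(mv 1104 (cons (fin 912 7 847)
(fin 1168 7 911))))))))))
(cons (mv 913 (cons (fin 914 2 910)
(mv 785 (cons (fin 849 5 784)
(mv 912 (cons (fin 973 2 909)
(mv 1104 (cons (fin 1168 6 912)
(mv 847 (cons (fin 911 7 847)
(mv 848 (cons (fin 783 7 783)
(mv 784 (cons (fin 721 6 720)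
(fin 720 4 720)))))))))))))))
(cons (mv 909 (cons (fin 910 3 909)
(mv 913 (cons (fin 914 2 910)
(mv 973 (cons (fin 908 3 908)
(fin 912 2 909)))))))
(mv 910 (cons (fin 909 3 909)
(mv 914 (cons (fin 913 2 910)
(mv 978 (cons (fin 911 3 910)
(fin 915 2 911)))))))))))))
(cons (cons (mv 973 (cons (fin 1041 0 973)
(mv 909 (cons (fin 908 3 908)
(mv 913 (cons (fin 912 2 909)
(mv 977 (cons (fin 910 3 909)
(fin 914 2 910)))))))))
(mv 973 (cons (fin 1041 0 973)
(mv 908 (cons (fin 909 3 908)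
(mv 972 (cons (fin 907 3 907)
(mv 911 (cons (fin 912 2 908)
(mv 783 (cons (fin 847 4 783)
(mv 971 (cons (fin 910 2 907)
(mv 1035 (cons (fin 1034 1 970)
(fin 1036 1 971))))))))))))))))
(cons (mv 973 (cons (fin 1041 0 973)
(mv 912 (cons (fin 913 2 909)
(mv 911 (cons (fin 972 2 908)
(mv 847 (cons (fin 1104 7 847)
(fin 783 4 783)))))))))
(mv 1041 (cons (fin 973 0 973)
(mv 977 (cons (fin 1042 0 974)
(mv 909 (cons (fin 910 3 909)
(mv 913 (cons (fin 914 2 910)
(mv 849 (cons (fin 785 5 784)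
(fin 1104 5 848)))))))))))))))
(cons (mv 1039 (cons (cons (cons (mv 972 (cons (fin 973 0 972)
(mv 910 (cons (cons (mv 846 (cons (fin 782 4 782)
(mv 1103 (cons (fin 911 7 846)
(fin 1167 7 910)))))
(mv 846 (cons (fin 782 4 782)
(mv 847 (cons (cons (mv 783 (cons (fin 1038 6 782)
(mv 719 (cons (fin 655 5 654)
(fin 911 5 718)))))
(mv 1038 (cons (fin 783 6 782)
(mv 845 (cons (fin 781 7 781)
(mv 909 (cons (fin 1102 7 845)
(mv 848 (cons (fin 908 1 844)
(fin 849 1 845))))))))))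
(cons (mv 911 (cons (fin 1104 4 847)
(mv 783 (cons (fin 719 5 718)
(fin 976 4 783)))))
(mv 911 (cons (fin 1104 4 847)
(mv 784 (cons (fin 848 6 783)
(mv 1038 (cons (fin 1102 5 846)
(mv 845 (cons (fin 781 7 781)
(mv 844 (cons (fin 843 0 843)
(fin 912 0 844)))))))))))))))))
(cons (mv 1103 (cons (fin 1167 7 910)
(mv 911 (cons (mv 1104 (cons (fin 847 4 847)
(fin 1168 4 911)))
(cons (mv 848 (cons (fin 912 6 847)
(mv 784 (cons (fin 847 6 783)
(mv 1102 (cons (fin 1166 5 910)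
(mv 1101 (cons (fin 1100 2 1036)
(mv 1038 (cons (fin 1165 5 909)
(mv 909 (cons (fin 845 7 845)
(mv 908 (cons (fin 971 1 907)
(fin 907 0 907)))))))))))))))
(mv 848 (cons (fin 912 6 847)
(mv 1102 (cons (fin 1166 5 910)
(mv 1101 (cons (fin 1100 2 1036)
(mv 1038 (cons (fin 1165 5 909)
(mv 909 (cons (fin 845 7 845)
(mv 908 (cons (fin 971 1 907)
(fin 907 0 907))))))))))))))))))
(mv 846 (cons (fin 782 4 782)
(mv 1103 (cons (fin 1167 7 910)
(fin 1038 4 846))))))))))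
(mv 910 (cons (cons (mv 846 (cons (fin 782 4 782)
(mv 1103 (cons (fin 911 7 846)
(fin 1167 7 910)))))
(mv 846 (cons (fin 782 4 782)
(mv 847 (cons (cons (mv 783 (cons (fin 1038 6 782)
(mv 719 (cons (fin 655 5 654)
(fin 911 5 718)))))
(mv 1038 (cons (fin 783 6 782)
(mv 845 (cons (fin 781 7 781)
(mv 909 (cons (fin 1102 7 845)
(mv 848 (cons (fin 908 1 844)
(fin 849 1 845))))))))))
(cons (mv 911 (cons (fin 1104 4 847)
(mv 783 (cons (fin 719 5 718)
(fin 976 4 783)))))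
(mv 911 (cons (fin 1104 4 847)
(mv 784 (cons (fin 848 6 783)
(mv 1038 (cons (fin 1102 5 846)
(mv 845 (cons (fin 781 7 781)
(mv 844 (cons (fin 843 0 843)
(fin 912 0 844)))))))))))))))))
(cons (mv 1103 (cons (fin 1167 7 910)
(mv 911 (cons (mv 1104 (cons (fin 847 4 847)
(fin 1168 4 911)))
(cons (mv 848 (cons (fin 912 6 847)
(mv 784 (cons (fin 847 6 783)
(mv 1102 (cons (fin 1166 5 910)
(mv 1101 (cons (fin 1100 2 1036)
(mv 1038 (cons (fin 1165 5 909)
(mv 909 (cons (fin 845 7 845)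
(mv 908 (cons (fin 907 0 907)
(fin 976 0 908)))))))))))))))
(mv 848 (cons (fin 912 6 847)
(mv 1102 (cons (fin 1166 5 910)
(mv 1101 (cons (fin 1100 2 1036)
(mv 1038 (cons (fin 1165 5 909)
(mv 909 (cons (fin 845 7 845)
(mv 908 (cons (fin 907 0 907)
(fin 976 0 908))))))))))))))))))
(mv 846 (cons (fin 782 4 782)
(mv 1103 (cons (fin 1167 7 910)
(fin 1038 4 846)))))))))
(cons (mv 972 (cons (fin 973 0 972)
(mv 1104 (cons (cons (mv 911 (cons (fin 847 4 847)
(mv 1168 (cons (fin 976 7 911)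
(fin 1232 7 975)))))
(mv 1168 (cons (fin 1232 7 975)
(mv 976 (cons (mv 913 (cons (fin 977 6 912)
(mv 912 (cons (fin 849 6 848)
(mv 848 (cons (fin 784 5 783)
(fin 1103 5 847)))))))
(cons (mv 1167 (cons (fin 1231 5 975)
(mv 912 (cons (fin 1103 5 911)
(mv 1169 (cons (fin 1105 4 912)
(fin 1233 4 976)))))))
(mv 977 (cons (fin 913 6 912)
(mv 978 (cons (fin 1038 1 974)
(fin 979 1 975)))))))))))
(cons (mv 911 (cons (fin 847 4 847)
(mv 1103 (cons (cons (mv 848 (cons (fin 912 6 847)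
(mv 1166 (cons (fin 1102 5 910)
(mv 1167 (cons (fin 1230 5 974)
(mv 1231 (cons (fin 1038 7 974)
(fin 976 6 975)))))))))
(mv 1166 (cons (fin 1102 5 910)
(mv 1167 (cons (fin 1230 5 974)
(mv 1231 (cons (fin 1038 7 974)
(fin 976 6 975))))))))
(cons (mv 912 (cons (fin 848 6 847)
(mv 913 (cons (fin 914 1 910)
(mv 976 (cons (fin 1167 5 911)
(fin 849 6 848)))))))
(cons (mv 912 (cons (fin 848 6 847)
(mv 913 (cons (fin 914 1 910)
(mv 976 (cons (fin 849 6 848)
(mv 1102 (cons (fin 1166 5 910)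
(mv 1100 (cons (fin 1101 2 1036)
(mv 1105 (cons (fin 1169 4 912)
(mv 1106 (cons (fin 1038 3 1038)
(fin 1107 3 1039)))))))))))))))
(mv 848 (cons (fin 912 6 847)
(mv 1166 (cons (fin 1102 5 910)
(mv 1167 (cons (fin 1230 5 974)
(mv 1231 (cons (fin 1038 7 974)
(fin 1295 6 1039)))))))))))))))
(mv 911 (cons (fin 847 4 847)
(mv 1168 (cons (fin 1232 7 975)
(fin 1103 4 911))))))))))
(cons (mv 972 (cons (fin 973 0 972)
(mv 1103 (cons (cons (mv 910 (cons (fin 1167 7 910)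
(mv 846 (cons (fin 911 7 846)
(fin 782 4 782)))))
(mv 911 (cons (cons (mv 846 (cons (fin 910 7 846)
(mv 847 (cons (fin 782 7 782)
(mv 783 (cons (fin 1038 5 782)
(fin 976 4 783)))))))
(mv 848 (cons (fin 912 6 847)
(mv 847 (cons (fin 784 6 783)
(mv 783 (cons (fin 1038 5 782)
(fin 976 4 783))))))))
(cons (mv 848 (cons (fin 912 6 847)
(mv 910 (cons (fin 846 7 846)
(mv 1102 (cons (fin 1166 5 910)
(mv 1101 (cons (fin 1100 2 1036)
(mv 1038 (cons (fin 1165 5 909)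
(mv 909 (cons (fin 845 7 845)
(mv 908 (cons (fin 971 1 907)
(fin 907 0 907)))))))))))))))
(mv 846 (cons (fin 910 7 846)
(mv 847 (cons (fin 782 7 782)
(mv 848 (cons (fin 784 6 783)
(fin 912 6 847)))))))))))
(cons (mv 1167 (cons (cons (mv 976 (cons (fin 912 6 911)
(fin 1231 6 975)))
(mv 912 (cons (fin 976 6 911)
(mv 911 (cons (fin 848 6 847)
(mv 1166 (cons (fin 1102 5 910)
(fin 1230 5 974))))))))
(cons (mv 1038 (cons (fin 1231 7 974)
(mv 1166 (cons (fin 1230 5 974)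
(mv 911 (cons (fin 1102 5 910)
(mv 847 (cons (fin 783 5 782)
(mv 848 (cons (fin 784 6 783)
(fin 912 6 847)))))))))))
(mv 1231 (cons (fin 1038 7 974)
(fin 976 6 975))))))
(mv 910 (cons (fin 1167 7 910)
(mv 846 (cons (fin 782 4 782)
(fin 1038 4 846))))))))))
(mv 973 (cons (fin 972 0 972)
(mv 976 (cons (cons (mv 908 (cons (fin 909 3 908)
(mv 912 (cons (fin 913 2 909)
(mv 848 (cons (fin 784 5 783)
(fin 1103 5 847)))))))
(mv 909 (cons (fin 908 3 908)
(mv 910 (cons (fin 977 3 909)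
(mv 846 (cons (fin 782 4 782)
(mv 1103 (cons (fin 1167 7 910)
(fin 1038 4 846))))))))))
(cons (mv 912 (cons (fin 913 2 909)
(mv 848 (cons (fin 784 5 783)
(fin 1103 5 847)))))
(mv 908 (cons (fin 909 3 908)
(mv 913 (cons (fin 912 2 909)
(mv 977 (cons (fin 914 2 910)
(mv 978 (cons (fin 1038 1 974)
(fin 979 1 975)))))))))))))))))
(cons (cons (mv 973 (cons (fin 972 0 972)
(mv 976 (cons (cons (mv 908 (cons (fin 909 3 908)
(mv 912 (cons (fin 913 2 909)
(mv 848 (cons (fin 784 5 783)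
(mv 785 (cons (fin 849 6 784)
(mv 847 (cons (fin 783 7 783)
(mv 911 (cons (fin 1104 7 847)
(mv 846 (cons (fin 782 7 782)
(mv 845 (cons (fin 844 0 844)
(mv 781 (cons (fin 780 3 780)
(mv 1038 (cons (fin 910 7 781)
(fin 1102 5 846)))))))))))))))))))))
(mv 909 (cons (fin 908 3 908)
(mv 977 (cons (fin 910 3 909)
(mv 978 (cons (fin 1038 1 974)
(fin 979 1 975))))))))
(cons (mv 912 (cons (fin 913 2 909)
(mv 848 (cons (fin 784 5 783)
(mv 785 (cons (fin 849 6 784)
(mv 847 (cons (fin 783 7 783)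
(mv 911 (cons (fin 1104 7 847)
(mv 846 (cons (fin 782 7 782)
(mv 845 (cons (fin 844 0 844)
(mv 781 (cons (fin 780 3 780)
(mv 1038 (cons (fin 910 7 781)
(fin 1102 5 846)))))))))))))))))))
(mv 908 (cons (fin 909 3 908)
(mv 912 (cons (fin 913 2 909)
(mv 848 (cons (fin 784 5 783)
(mv 785 (cons (fin 849 6 784)
(mv 847 (cons (fin 783 7 783)
(mv 1104 (cons (fin 911 7 847)
(mv 1168 (cons (fin 1232 7 975)
(mv 1169 (cons (fin 1105 4 912)
(fin 1233 4 976))))))))))))))))))))))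
(mv 972 (cons (fin 973 0 972)
(mv 910 (cons (cons (mv 846 (cons (fin 782 4 782)
(mv 1103 (cons (fin 911 7 846)
(fin 1167 7 910)))))
(mv 846 (cons (fin 782 4 782)
(mv 847 (cons (cons (mv 783 (cons (fin 1038 6 782)
(mv 719 (cons (fin 655 5 654)
(fin 911 5 718)))))
(mv 1038 (cons (fin 783 6 782)
(mv 845 (cons (fin 781 7 781)
(mv 909 (cons (fin 1102 7 845)
(mv 848 (cons (fin 908 1 844)
(fin 849 1 845))))))))))
(cons (mv 911 (cons (fin 1104 4 847)
(mv 719 (cons (fin 783 5 718)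
(mv 848 (cons (fin 784 6 783)
(mv 849 (cons (fin 909 1 845)
(fin 850 1 846)))))))))
(mv 911 (cons (fin 1104 4 847)
(mv 784 (cons (fin 848 6 783)
(mv 1038 (cons (fin 1102 5 846)
(mv 845 (cons (fin 781 7 781)
(mv 844 (cons (fin 843 0 843)
(fin 912 0 844)))))))))))))))))
(cons (mv 1103 (cons (fin 1167 7 910)
(mv 911 (cons (mv 1104 (cons (fin 847 4 847)
(fin 1168 4 911)))
(cons (mv 848 (cons (fin 912 6 847)
(mv 784 (cons (fin 847 6 783)
(mv 1102 (cons (fin 1166 5 910)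
(mv 1101 (cons (fin 1100 2 1036)
(mv 1038 (cons (fin 1165 5 909)
(mv 909 (cons (fin 845 7 845)
(mv 908 (cons (fin 971 1 907)
(fin 907 0 907)))))))))))))))
(mv 848 (cons (fin 912 6 847)
(mv 1102 (cons (fin 1166 5 910)
(mv 1101 (cons (fin 1100 2 1036)
(mv 1038 (cons (fin 1165 5 909)
(mv 909 (cons (fin 845 7 845)
(mv 908 (cons (fin 971 1 907)
(fin 907 0 907))))))))))))))))))
(mv 846 (cons (fin 782 4 782)
(mv 1103 (cons (fin 1167 7 910)
(fin 1038 4 846)))))))))))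
(cons (mv 972 (cons (fin 973 0 972)
(mv 1104 (cons (cons (mv 911 (cons (fin 847 4 847)
(mv 1168 (cons (fin 976 7 911)
(fin 1232 7 975)))))
(mv 1168 (cons (fin 1232 7 975)
(mv 976 (cons (cons (mv 913 (cons (fin 977 6 912)
(mv 849 (cons (fin 912 6 848)
(mv 1167 (cons (fin 1231 5 975)
(mv 1103 (cons (fin 910 7 910)
(mv 1166 (cons (fin 1230 5 974)
(mv 1105 (cons (fin 1106 1 1102)
(fin 1165 2 1101)))))))))))))
(mv 913 (cons (fin 977 6 912)
(mv 912 (cons (fin 849 6 848)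
(mv 848 (cons (fin 784 5 783)
(fin 1103 5 847))))))))
(cons (mv 1167 (cons (fin 1231 5 975)
(mv 1103 (cons (fin 910 7 910)
(fin 912 5 911)))))
(cons (mv 913 (cons (fin 977 6 912)
(mv 1167 (cons (fin 1231 5 975)
(mv 1103 (cons (fin 910 7 910)
(mv 1166 (cons (fin 1230 5 974)
(mv 1105 (cons (fin 1106 1 1102)
(fin 1165 2 1101)))))))))))
(mv 913 (cons (fin 977 6 912)
(mv 912 (cons (fin 849 6 848)
(mv 1169 (cons (fin 1105 4 912)
(fin 1233 4 976))))))))))))))
(cons (mv 911 (cons (fin 847 4 847)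
(mv 1103 (cons (mv 910 (cons (fin 846 7 846)
(fin 1167 7 910)))
(cons (mv 848 (cons (fin 912 6 847)
(mv 1166 (cons (fin 1102 5 910)
(mv 1167 (cons (fin 1230 5 974)
(mv 1231 (cons (fin 976 6 975)
(fin 1295 6 1039)))))))))
(mv 910 (cons (fin 846 7 846)
(mv 912 (cons (fin 848 6 847)
(mv 913 (cons (fin 914 1 910)
(mv 849 (cons (fin 850 2 846)
(fin 976 6 848))))))))))))))
(mv 911 (cons (fin 847 4 847)
(mv 1168 (cons (fin 1232 7 975)
(fin 1103 4 911))))))))))
(cons (mv 972 (cons (fin 973 0 972)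
(mv 910 (cons (cons (mv 846 (cons (fin 782 4 782)
(mv 1103 (cons (fin 911 7 846)
(fin 1167 7 910)))))
(mv 846 (cons (fin 782 4 782)
(mv 847 (cons (cons (mv 783 (cons (fin 1038 6 782)
(mv 719 (cons (fin 655 5 654)
(fin 911 5 718)))))
(mv 1038 (cons (fin 783 6 782)
(mv 845 (cons (fin 781 7 781)
(mv 909 (cons (fin 1102 7 845)
(mv 848 (cons (fin 908 1 844)
(fin 849 1 845))))))))))
(cons (mv 911 (cons (fin 1104 4 847)
(mv 783 (cons (fin 719 5 718)
(fin 976 4 783)))))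
(mv 911 (cons (fin 1104 4 847)
(mv 784 (cons (fin 848 6 783)
(mv 1038 (cons (fin 1102 5 846)
(mv 845 (cons (fin 781 7 781)
(mv 844 (cons (fin 843 0 843)
(mv 779 (cons (fin 780 3 779)
(mv 908 (cons (fin 907 1 843)
(mv 909 (cons (fin 971 1 907)
(fin 976 0 908)))))))))))))))))))))))
(cons (mv 1103 (cons (fin 1167 7 910)
(mv 911 (cons (mv 1104 (cons (fin 847 4 847)
(fin 1168 4 911)))
(cons (mv 1102 (cons (fin 1166 5 910)
(mv 847 (cons (fin 1038 5 846)
(mv 783 (cons (fin 719 5 718)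
(fin 976 4 783)))))))
(mv 1102 (cons (fin 1166 5 910)
(mv 1101 (cons (fin 1100 2 1036)
(mv 1038 (cons (fin 1165 5 909)
(mv 909 (cons (fin 845 7 845)
(mv 908 (cons (fin 971 1 907)
(fin 907 0 907))))))))))))))))
(mv 846 (cons (fin 782 4 782)
(mv 1103 (cons (fin 1167 7 910)
(fin 1038 4 846))))))))))
(mv 972 (cons (fin 973 0 972)
(mv 910 (cons (cons (mv 846 (cons (fin 782 4 782)
(mv 1103 (cons (fin 911 7 846)
(fin 1167 7 910)))))
(mv 846 (cons (fin 782 4 782)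
(mv 1038 (cons (cons (mv 781 (cons (fin 845 7 781)
(mv 847 (cons (fin 783 6 782)
(mv 911 (cons (fin 1102 5 846)
(fin 1104 4 847)))))))
(mv 845 (cons (fin 781 7 781)
(mv 909 (cons (fin 1102 7 845)
(mv 908 (cons (fin 907 0 907)
(mv 911 (cons (fin 971 1 907)
(fin 976 0 908))))))))))
(cons (mv 847 (cons (fin 783 6 782)
(mv 911 (cons (fin 1102 5 846)
(fin 1104 4 847)))))
(cons (mv 845 (cons (fin 781 7 781)
(mv 847 (cons (fin 783 6 782)
(mv 911 (cons (fin 1104 4 847)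
(mv 844 (cons (fin 843 0 843)
(fin 912 0 844)))))))))
(mv 783 (cons (fin 847 6 782)
(mv 845 (cons (fin 781 7 781)
(mv 1102 (cons (fin 909 7 845)
(mv 1165 (cons (fin 1101 5 909)
(mv 1166 (cons (fin 1229 5 973)
(fin 1230 6 974))))))))))))))))))
(cons (mv 1103 (cons (fin 1167 7 910)
(mv 911 (cons (mv 1104 (cons (fin 847 4 847)
(fin 1168 4 911)))
(cons (mv 1102 (cons (fin 1166 5 910)
(mv 847 (cons (fin 1038 5 846)
(mv 783 (cons (fin 719 5 718)
(fin 976 4 783)))))))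
(mv 1102 (cons (fin 1166 5 910)
(mv 1101 (cons (fin 1100 2 1036)
(mv 1038 (cons (fin 1165 5 909)
(mv 909 (cons (fin 845 7 845)
(mv 908 (cons (fin 971 1 907)
(fin 907 0 907))))))))))))))))
(mv 846 (cons (fin 782 4 782)
(mv 1103 (cons (fin 1167 7 910)
(fin 1038 4 846)))))))))))))))
(mv 1039 (cons (cons (mv 973 (cons (fin 972 0 972)
(mv 1041 (cons (fin 1038 3 973)
(fin 1042 3 974)))))
(mv 972 (cons (fin 973 0 972)
(mv 910 (cons (cons (mv 846 (cons (fin 782 4 782)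
(mv 1103 (cons (fin 911 7 846)
(fin 1167 7 910)))))
(mv 846 (cons (fin 782 4 782)
(mv 847 (cons (cons (mv 783 (cons (fin 1038 6 782)
(mv 719 (cons (fin 655 5 654)
(fin 911 5 718)))))
(mv 1038 (cons (fin 783 6 782)
(mv 845 (cons (fin 781 7 781)
(mv 909 (cons (fin 1102 7 845)
(mv 848 (cons (fin 908 1 844)
(fin 849 1 845))))))))))
(cons (mv 911 (cons (fin 1104 4 847)
(mv 719 (cons (fin 783 5 718)
(mv 848 (cons (fin 784 6 783)
(mv 849 (cons (fin 909 1 845)
(fin 850 1 846)))))))))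
(mv 911 (cons (fin 1104 4 847)
(mv 784 (cons (fin 848 6 783)
(mv 1038 (cons (fin 1102 5 846)
(mv 845 (cons (fin 781 7 781)
(mv 844 (cons (fin 843 0 843)
(fin 912 0 844)))))))))))))))))
(cons (mv 1103 (cons (fin 1167 7 910)
(mv 911 (cons (mv 1104 (cons (fin 847 4 847)
(fin 1168 4 911)))
(cons (mv 848 (cons (fin 912 6 847)
(mv 784 (cons (fin 847 6 783)
(mv 1102 (cons (fin 1166 5 910)
(mv 1101 (cons (fin 1100 2 1036)
(mv 1038 (cons (fin 1165 5 909)
(mv 909 (cons (fin 845 7 845)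
(mv 908 (cons (fin 971 1 907)
(fin 907 0 907)))))))))))))))
(mv 848 (cons (fin 912 6 847)
(mv 1102 (cons (fin 1166 5 910)
(mv 1101 (cons (fin 1100 2 1036)
(mv 1038 (cons (fin 1165 5 909)
(mv 909 (cons (fin 845 7 845)
(mv 908 (cons (fin 971 1 907)
(fin 907 0 907))))))))))))))))))
(mv 846 (cons (fin 782 4 782)
(mv 1103 (cons (fin 1167 7 910)
(fin 1038 4 846)))))))))))
(cons (mv 1041 (cons (fin 1042 3 974)
(mv 1038 (cons (cons (mv 977 (cons (fin 978 2 974)
(mv 1102 (cons (fin 1101 1 1037)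
(mv 911 (cons (fin 847 5 846)
(fin 1166 6 910)))))))
(mv 977 (cons (fin 978 2 974)
(mv 1105 (cons (fin 1106 0 1038)
(mv 1104 (cons (mv 913 (cons (fin 849 5 848)
(fin 1168 5 912)))
(cons (mv 911 (cons (fin 847 4 847)
(mv 913 (cons (fin 849 5 848)
(mv 912 (cons (fin 914 1 910)
(fin 848 7 848)))))))
(mv 911 (cons (fin 847 4 847)
(mv 1168 (cons (fin 1232 7 975)
(fin 1103 4 911)))))))))))))
(cons (mv 1102 (cons (fin 1101 1 1037)
(mv 911 (cons (fin 847 5 846)
(fin 1166 6 910)))))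
(mv 977 (cons (fin 978 2 974)
(mv 1102 (cons (fin 1101 1 1037)
(mv 1105 (cons (fin 1106 0 1038)
(mv 1166 (cons (fin 1230 6 974)
(mv 1165 (cons (fin 1229 5 973)
(mv 1103 (cons (fin 1104 1 1101)
(mv 910 (cons (fin 1167 7 910)
(fin 846 4 846))))))))))))))))))))
(mv 972 (cons (fin 973 0 972)
(mv 1041 (cons (fin 1042 3 974)
(mv 1103 (cons (cons (mv 910 (cons (fin 1167 7 910)
(mv 846 (cons (fin 911 7 846)
(fin 782 4 782)))))
(mv 911 (cons (mv 1104 (cons (fin 847 4 847)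
(fin 1168 4 911)))
(cons (mv 846 (cons (fin 910 7 846)
(mv 847 (cons (fin 782 7 782)
(mv 848 (cons (fin 784 6 783)
(fin 912 6 847)))))))
(mv 846 (cons (fin 910 7 846)
(mv 848 (cons (fin 912 6 847)
(mv 1102 (cons (fin 1166 5 910)
(mv 1101 (cons (fin 1100 2 1036)
(fin 1104 2 1037)))))))))))))
(cons (mv 1102 (cons (mv 1101 (cons (fin 1100 2 1036)
(fin 1104 2 1037)))
(cons (mv 911 (cons (fin 1166 5 910)
(mv 1104 (cons (fin 847 4 847)
(fin 1168 4 911)))))
(mv 1100 (cons (fin 1101 2 1036)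
(mv 1166 (cons (fin 911 5 910)
(mv 1230 (cons (fin 1167 5 974)
(fin 1294 6 1038))))))))))
(mv 1167 (cons (fin 910 7 910)
(mv 1166 (cons (fin 1230 5 974)
(mv 1232 (cons (fin 1168 4 975)
(mv 1231 (cons (fin 1296 4 1039)
(mv 1104 (cons (fin 1295 6 1039)
(mv 1102 (cons (fin 1101 2 1037)
(mv 1105 (cons (fin 1165 1 1101)
(fin 1106 1 1102))))))))))))))))))))))))))))
(cons (cons (mv 973 (cons (mv 972 (cons (fin 1039 0 972)
(mv 907 (cons (fin 908 3 907)
(mv 971 (cons (fin 906 3 906)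
(mv 1035 (cons (fin 1034 1 970)
(fin 1036 1 971)))))))))
(cons (mv 976 (cons (fin 1041 0 973)
(mv 909 (cons (fin 908 3 908)
(mv 913 (cons (fin 912 2 909)
(mv 977 (cons (fin 910 3 909)
(fin 914 2 910)))))))))
(mv 976 (cons (fin 1041 0 973)
(mv 912 (cons (fin 913 2 909)
(mv 1039 (cons (fin 972 0 972)
(mv 848 (cons (fin 784 5 783)
(fin 1103 5 847))))))))))))
(mv 973 (cons (cons (mv 972 (cons (fin 1039 0 972)
(mv 907 (cons (fin 908 3 907)
(mv 906 (cons (fin 971 3 906)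
(mv 912 (cons (fin 911 2 908)
(mv 976 (cons (fin 913 2 909)
(fin 1041 0 973)))))))))))
(cons (mv 976 (cons (fin 1041 0 973)
(mv 908 (cons (fin 909 3 908)
(mv 912 (cons (fin 913 2 909)
(mv 848 (cons (mv 1039 (cons (fin 784 5 783)
(fin 1103 5 847)))
(cons (mv 783 (cons (fin 847 7 783)
(mv 784 (cons (fin 719 7 719)
(mv 785 (cons (fin 721 6 720)
(fin 849 6 784)))))))
(mv 783 (cons (fin 847 7 783)
(mv 785 (cons (fin 849 6 784)
(mv 1103 (cons (fin 1039 5 847)
(mv 1104 (cons (fin 1167 5 911)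
(mv 1168 (cons (fin 911 7 911)
(mv 1169 (cons (fin 1105 4 912)
(fin 1233 4 976))))))))))))))))))))))
(mv 972 (cons (fin 1039 0 972)
(mv 907 (cons (fin 908 3 907)
(mv 911 (cons (fin 912 2 908)
(mv 971 (cons (fin 906 3 906)
(mv 1035 (cons (fin 1034 1 970)
(fin 1036 1 971)))))))))))))
(cons (mv 976 (cons (fin 1041 0 973)
(mv 908 (cons (fin 909 3 908)
(mv 912 (cons (fin 913 2 909)
(mv 972 (cons (fin 907 3 907)
(fin 911 2 908)))))))))
(cons (mv 972 (cons (fin 1039 0 972)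
(mv 907 (cons (fin 908 3 907)
(mv 971 (cons (fin 906 3 906)
(mv 1035 (cons (fin 1034 1 970)
(fin 1036 1 971)))))))))
(mv 972 (cons (fin 1039 0 972)
(mv 912 (cons (fin 911 2 908)
(mv 976 (cons (fin 913 2 909)
(fin 1041 0 973))))))))))))
(cons (mv 1039 (cons (cons (mv 973 (cons (fin 972 0 972)
(mv 1041 (cons (fin 1038 3 973)
(fin 1042 3 974)))))
(mv 972 (cons (fin 973 0 972)
(mv 910 (cons (cons (mv 846 (cons (fin 782 4 782)
(mv 1103 (cons (fin 911 7 846)
(fin 1167 7 910)))))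
(mv 846 (cons (fin 782 4 782)
(mv 847 (cons (cons (mv 783 (cons (fin 1038 6 782)
(mv 719 (cons (fin 655 5 654)
(fin 911 5 718)))))
(mv 1038 (cons (fin 783 6 782)
(mv 845 (cons (fin 781 7 781)
(mv 909 (cons (fin 1102 7 845)
(mv 848 (cons (fin 908 1 844)
(fin 849 1 845))))))))))
(cons (mv 911 (cons (fin 1104 4 847)
(mv 783 (cons (fin 719 5 718)
(fin 976 4 783)))))
(mv 911 (cons (fin 1104 4 847)
(mv 784 (cons (fin 848 6 783)
(mv 1038 (cons (fin 1102 5 846)
(mv 845 (cons (fin 781 7 781)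
(mv 844 (cons (fin 843 0 843)
(mv 779 (cons (fin 780 3 779)
(mv 908 (cons (fin 907 1 843)
(mv 909 (cons (fin 971 1 907)
(fin 976 0 908)))))))))))))))))))))))
(cons (mv 1103 (cons (fin 1167 7 910)
(mv 911 (cons (mv 1104 (cons (fin 847 4 847)
(fin 1168 4 911)))
(cons (mv 1102 (cons (fin 1166 5 910)
(mv 847 (cons (fin 1038 5 846)
(mv 783 (cons (fin 719 5 718)
(fin 976 4 783)))))))
(mv 1102 (cons (fin 1166 5 910)
(mv 1101 (cons (fin 1100 2 1036)
(mv 1038 (cons (fin 1165 5 909)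
(mv 909 (cons (fin 845 7 845)
(mv 908 (cons (fin 971 1 907)
(fin 907 0 907))))))))))))))))
(mv 846 (cons (fin 782 4 782)
(mv 1103 (cons (fin 1167 7 910)
(fin 1038 4 846)))))))))))
(cons (mv 1041 (cons (fin 1042 3 974)
(mv 1038 (cons (cons (mv 977 (cons (fin 978 2 974)
(mv 1102 (cons (fin 1101 1 1037)
(mv 911 (cons (fin 847 5 846)
(fin 1166 6 910)))))))
(mv 977 (cons (fin 978 2 974)
(mv 1105 (cons (fin 1106 0 1038)
(mv 1104 (cons (mv 913 (cons (fin 849 5 848)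
(fin 1168 5 912)))
(cons (mv 847 (cons (fin 911 4 847)
(mv 913 (cons (fin 849 5 848)
(mv 914 (cons (fin 976 2 910)
(fin 850 6 849)))))))
(mv 911 (cons (fin 847 4 847)
(mv 1168 (cons (fin 976 7 911)
(fin 1232 7 975)))))))))))))
(cons (mv 1102 (cons (fin 1101 1 1037)
(mv 911 (cons (fin 847 5 846)
(fin 1166 6 910)))))
(mv 977 (cons (fin 978 2 974)
(mv 1102 (cons (fin 1101 1 1037)
(mv 1105 (cons (fin 1106 0 1038)
(mv 1166 (cons (fin 1230 6 974)
(mv 1165 (cons (fin 1229 5 973)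
(mv 1103 (cons (fin 1104 1 1101)
(mv 910 (cons (fin 1167 7 910)
(fin 846 4 846))))))))))))))))))))
(mv 973 (cons (fin 972 0 972)
(mv 1041 (cons (fin 1042 3 974)
(fin 976 0 973))))))))
(cons (mv 1039 (cons (cons (mv 973 (cons (fin 972 0 972)
(mv 1041 (cons (fin 1038 3 973)
(fin 1042 3 974)))))
(mv 972 (cons (fin 973 0 972)
(mv 910 (cons (cons (mv 846 (cons (fin 782 4 782)
(mv 1103 (cons (fin 911 7 846)
(fin 1167 7 910)))))
(mv 846 (cons (fin 782 4 782)
(mv 847 (cons (cons (mv 783 (cons (fin 1038 6 782)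
(mv 719 (cons (fin 655 5 654)
(fin 911 5 718)))))
(mv 1038 (cons (fin 783 6 782)
(mv 845 (cons (fin 781 7 781)
(mv 909 (cons (fin 1102 7 845)
(mv 848 (cons (fin 908 1 844)
(fin 849 1 845))))))))))
(cons (mv 911 (cons (fin 1104 4 847)
(mv 783 (cons (fin 719 5 718)
(fin 976 4 783)))))
(mv 911 (cons (fin 1104 4 847)
(mv 784 (cons (fin 848 6 783)
(mv 1038 (cons (fin 1102 5 846)
(mv 845 (cons (fin 781 7 781)
(mv 844 (cons (fin 843 0 843)
(fin 912 0 844)))))))))))))))))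
(cons (mv 1103 (cons (fin 1167 7 910)
(mv 911 (cons (mv 1104 (cons (fin 847 4 847)
(fin 1168 4 911)))
(cons (mv 848 (cons (fin 912 6 847)
(mv 784 (cons (fin 847 6 783)
(mv 1102 (cons (fin 1166 5 910)
(mv 1101 (cons (fin 1100 2 1036)
(mv 1038 (cons (fin 1165 5 909)
(mv 909 (cons (fin 845 7 845)
(mv 908 (cons (fin 971 1 907)
(fin 907 0 907)))))))))))))))
(mv 848 (cons (fin 912 6 847)
(mv 1102 (cons (fin 1166 5 910)
(mv 1101 (cons (fin 1100 2 1036)
(mv 1038 (cons (fin 1165 5 909)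
(mv 909 (cons (fin 845 7 845)
(mv 908 (cons (fin 971 1 907)
(fin 907 0 907))))))))))))))))))
(mv 846 (cons (fin 782 4 782)
(mv 1103 (cons (fin 1167 7 910)
(fin 1038 4 846)))))))))))
(cons (mv 1041 (cons (fin 1042 3 974)
(mv 1038 (cons (cons (mv 977 (cons (fin 978 2 974)
(mv 1102 (cons (fin 1101 1 1037)
(mv 911 (cons (fin 847 5 846)
(fin 1166 6 910)))))))
(mv 977 (cons (fin 978 2 974)
(mv 1105 (cons (fin 1106 0 1038)
(mv 976 (cons (mv 912 (cons (fin 1169 7 912)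
(fin 848 4 848)))
(cons (mv 909 (cons (fin 910 3 909)
(mv 1169 (cons (fin 1233 7 976)
(mv 1168 (cons (fin 1232 5 976)
(mv 1104 (cons (fin 911 7 911)
(mv 1167 (cons (fin 1231 5 975)
(mv 1165 (cons (fin 1166 2 1101)
(mv 1170 (cons (fin 1234 4 977)
(mv 1171 (cons (fin 1103 3 1103)
(fin 1172 3 1104)))))))))))))))))
(mv 848 (cons (fin 912 4 848)
(mv 910 (cons (fin 909 3 909)
(mv 846 (cons (fin 782 4 782)
(fin 1103 4 846)))))))))))))))
(cons (mv 1102 (cons (fin 1101 1 1037)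
(mv 911 (cons (fin 847 5 846)
(fin 1166 6 910)))))
(cons (mv 977 (cons (fin 978 2 974)
(mv 1102 (cons (fin 1101 1 1037)
(mv 1105 (cons (fin 1106 0 1038)
(mv 1166 (cons (fin 1230 6 974)
(mv 1165 (cons (fin 1229 5 973)
(mv 1103 (cons (fin 1104 1 1101)
(mv 910 (cons (fin 1167 7 910)
(fin 846 4 846)))))))))))))))
(mv 977 (cons (fin 978 2 974)
(mv 1101 (cons (fin 1102 1 1037)
(mv 1105 (cons (fin 1106 0 1038)
(mv 976 (cons (mv 912 (cons (fin 1169 7 912)
(fin 848 4 848)))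
(cons (mv 909 (cons (fin 910 3 909)
(mv 1169 (cons (fin 1233 7 976)
(mv 1168 (cons (fin 1232 5 976)
(mv 1104 (cons (fin 911 7 911)
(mv 1167 (cons (fin 1231 5 975)
(mv 1170 (cons (fin 1234 4 977)
(mv 1171 (cons (fin 1103 3 1103)
(fin 1172 3 1104)))))))))))))))
(mv 848 (cons (fin 912 4 848)
(mv 910 (cons (fin 909 3 909)
(mv 846 (cons (fin 782 4 782)
(fin 1103 4 846))))))))))))))))))))))
(mv 973 (cons (fin 972 0 972)
(mv 1041 (cons (fin 1042 3 974)
(fin 976 0 973))))))))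
(mv 1039 (cons (cons (mv 973 (cons (fin 972 0 972)
(mv 1041 (cons (fin 1038 3 973)
(fin 1042 3 974)))))
(mv 972 (cons (fin 973 0 972)
(mv 1104 (cons (cons (mv 911 (cons (fin 847 4 847)
(mv 1168 (cons (fin 976 7 911)
(fin 1232 7 975)))))
(mv 1168 (cons (fin 1232 7 975)
(mv 976 (cons (cons (mv 913 (cons (fin 977 6 912)
(mv 849 (cons (fin 912 6 848)
(mv 1167 (cons (fin 1231 5 975)
(mv 1103 (cons (fin 910 7 910)
(mv 1166 (cons (fin 1230 5 974)
(mv 1105 (cons (fin 1106 1 1102)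
(fin 1165 2 1101)))))))))))))
(mv 913 (cons (fin 977 6 912)
(mv 912 (cons (fin 849 6 848)
(mv 848 (cons (fin 784 5 783)
(fin 1103 5 847))))))))
(cons (mv 1167 (cons (fin 1231 5 975)
(mv 1103 (cons (fin 910 7 910)
(fin 912 5 911)))))
(cons (mv 913 (cons (fin 977 6 912)
(mv 1167 (cons (fin 1231 5 975)
(mv 1103 (cons (fin 910 7 910)
(mv 1166 (cons (fin 1230 5 974)
(mv 1105 (cons (fin 1106 1 1102)
(fin 1165 2 1101)))))))))))
(mv 913 (cons (fin 977 6 912)
(mv 912 (cons (fin 849 6 848)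
(mv 1169 (cons (fin 1105 4 912)
(fin 1233 4 976))))))))))))))
(cons (mv 911 (cons (fin 847 4 847)
(mv 1103 (cons (mv 910 (cons (fin 846 7 846)
(fin 1167 7 910)))
(cons (mv 848 (cons (fin 912 6 847)
(mv 1166 (cons (fin 1102 5 910)
(mv 1167 (cons (fin 1230 5 974)
(mv 1231 (cons (fin 1038 7 974)
(fin 976 6 975)))))))))
(mv 846 (cons (fin 910 7 846)
(mv 912 (cons (fin 848 6 847)
(mv 913 (cons (fin 914 1 910)
(mv 976 (cons (fin 849 6 848)
(mv 1102 (cons (fin 1166 5 910)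
(mv 1100 (cons (fin 1101 2 1036)
(mv 1105 (cons (fin 1169 4 912)
(mv 1106 (cons (fin 1038 3 1038)
(fin 1107 3 1039))))))))))))))))))))))
(mv 911 (cons (fin 847 4 847)
(mv 1168 (cons (fin 1232 7 975)
(fin 1103 4 911)))))))))))
(cons (mv 1041 (cons (fin 1042 3 974)
(mv 1038 (cons (cons (mv 977 (cons (fin 978 2 974)
(mv 1102 (cons (fin 1101 1 1037)
(mv 911 (cons (fin 847 5 846)
(fin 1166 6 910)))))))
(mv 977 (cons (fin 978 2 974)
(mv 1105 (cons (fin 1106 0 1038)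
(mv 1104 (cons (mv 913 (cons (fin 849 5 848)
(fin 1168 5 912)))
(cons (mv 847 (cons (fin 911 4 847)
(mv 913 (cons (fin 849 5 848)
(mv 914 (cons (fin 976 2 910)
(fin 850 6 849)))))))
(mv 911 (cons (fin 847 4 847)
(mv 1168 (cons (fin 976 7 911)
(fin 1232 7 975)))))))))))))
(cons (mv 1102 (cons (fin 1101 1 1037)
(mv 911 (cons (fin 847 5 846)
(fin 1166 6 910)))))
(mv 977 (cons (fin 978 2 974)
(mv 1102 (cons (fin 1101 1 1037)
(mv 1105 (cons (fin 1106 0 1038)
(mv 1166 (cons (fin 1230 6 974)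
(mv 1165 (cons (fin 1229 5 973)
(mv 1103 (cons (fin 1104 1 1101)
(mv 910 (cons (fin 1167 7 910)
(fin 846 4 846))))))))))))))))))))
(mv 973 (cons (fin 972 0 972)
(mv 1041 (cons (fin 1042 3 974)
(fin 976 0 973)))))))))))))
def l40 : Lem := ⟨11781361728633673533054441723117730079171283746239247440356909899588005244909514899260159721150817405942924420470662491174673842036557007391209044253460063708080530407354770956693342717623350878333880262063391977041189311657559161319740834448813323445848447489700891174053752382374267171085078592036680673850818560, 2387329855083341204398062273776658660595539775939700492428079590993702309743728713185398362309998419776431564246717652842282782600854038884315879095452259241129293933621867333449693931557930770575188205034756288540297945297591800646159131245902811324278778930996003634743877909296609514791240712552186227470268433577482026383283174140153218748211454276681161693873742428161852695209511485440,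 2387329855083341204398062273776658660595539775939700492428079590993702309743728713185398362309998419776431564246717652842282782600854038884315879095452259241129293933621867333449693931557930770575188205034756288540297945297591800646159131245902811324278778930996003634743877909296609514791240712552186227470268433577482026383283174140153218748211454276681161693873742428161852695209511485440, 18, 33⟩
theorem l40_valid : l40.Valid :=
  Lem.valid_of_chk t40 t40_valid [974, 1040] c40 l40 (by decide +kernel)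
end Crest.Agent.SnakyAux
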