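import Crest.Agent.S0047_aux.Checker

set_option autoImplicit false
set_option maxRecDepth 100000
namespace Crest.Agent.SnakyAux
open Cert
def t44 : Tbl := Tbl.nil
theorem t44_valid : t44.Valid := Tbl.valid_nil
def c44 : Cert :=
(mv 975 (cons (cons (cons (mv 973 (cons (cons (mv 972 (cons (fin 1039 0 972)
(mv 907 (cons (fin 908 3 907)
(mv 906 (cons (fin 971 3 906)
(mv 911 (cons (fin 912 2 908)
(mv 976 (cons (fin 1041 0 973)
(mv 1036 (cons (fin 1035 1 971)
(fin 1037 1 972)))))))))))))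
(mv 972 (cons (fin 1039 0 972)
(mv 907 (cons (fin 908 3 907)
(mv 911 (cons (fin 912 2 908)
(mv 971 (cons (fin 906 3 906)
(fin 910 2 907))))))))))
(cons (mv 976 (cons (fin 1041 0 973)
(mv 908 (cons (fin 909 3 908)
(mv 913 (cons (fin 912 2 909)
(mv 977 (cons (fin 914 2 910)
(mv 1037 (cons (fin 1036 1 972)
(fin 1038 1 973)))))))))))
(cons (mv 972 (cons (fin 1039 0 972)
(mv 907 (cons (fin 908 3 907)
(mv 906 (cons (fin 971 3 906)
(mv 976 (cons (fin 1041 0 973)
(mv 1036 (cons (fin 1035 1 971)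
(fin 1037 1 972)))))))))))
(mv 972 (cons (fin 1039 0 972)
(mv 911 (cons (fin 912 2 908)
(mv 910 (cons (fin 971 2 907)
(mv 976 (cons (fin 1041 0 973)
(mv 977 (cons (fin 909 3 909)
(fin 978 3 910)))))))))))))))
(cons (mv 976 (cons (cons (cons (mv 977 (cons (cons (mv 909 (cons (fin 910 3 909)
(mv 913 (cons (fin 914 2 910)
(mv 785 (cons (fin 849 5 784)
(mv 1038 (cons (fin 1037 1 973)
(mv 978 (cons (fin 1039 1 974)
(mv 1041 (cons (fin 1042 0 974)
(mv 979 (cons (fin 980 1 976)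
(mv 912 (cons (fin 911 3 911)
(mv 848 (cons (fin 1105 7 848)
(fin 784 4 784)))))))))))))))))))
(cons (mv 909 (cons (fin 910 3 909)
(mv 1038 (cons (fin 1037 1 973)
(mv 978 (cons (fin 1039 1 974)
(mv 914 (cons (fin 915 2 911)
(mv 1041 (cons (fin 1042 0 974)
(mv 786 (cons (fin 850 5 785)
(mv 979 (cons (fin 980 1 976)
(mv 912 (cons (fin 911 3 911)
(mv 848 (cons (fin 784 4 784)
(fin 1105 4 848)))))))))))))))))))
(mv 909 (cons (fin 910 3 909)
(mv 913 (cons (fin 914 2 910)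
(mv 849 (cons (fin 785 5 784)
(mv 1041 (cons (fin 1042 0 974)
(fin 1104 5 848)))))))))))
(cons (mv 909 (cons (fin 910 3 909)
(mv 913 (cons (fin 914 2 910)
(mv 849 (cons (fin 785 5 784)
(mv 1104 (cons (fin 912 6 848)
(fin 1168 6 912)))))))))
(cons (mv 913 (cons (fin 914 2 910)
(mv 785 (cons (fin 849 5 784)
(mv 1038 (cons (fin 1037 1 973)
(mv 978 (cons (fin 1039 1 974)
(mv 1041 (cons (fin 1042 0 974)
(mv 979 (cons (fin 980 1 976)
(mv 912 (cons (fin 911 3 911)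
(mv 848 (cons (fin 1105 7 848)
(fin 784 4 784)))))))))))))))))
(mv 909 (cons (fin 910 3 909)
(mv 1038 (cons (fin 1037 1 973)
(mv 978 (cons (fin 1039 1 974)
(mv 1041 (cons (fin 1042 0 974)
(mv 979 (cons (fin 980 1 976)
(mv 912 (cons (fin 911 3 911)
(mv 848 (cons (fin 784 4 784)
(fin 1105 4 848)))))))))))))))))))
(mv 911 (cons (cons (mv 847 (cons (fin 783 4 783)
(mv 1104 (cons (fin 912 7 847)
(fin 1168 7 911)))))
(mv 1104 (cons (fin 1168 7 911)
(mv 912 (cons (mv 913 (cons (fin 914 1 910)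
(fin 849 6 848)))
(mv 1105 (cons (fin 1169 4 912)
(mv 848 (cons (fin 1041 4 848)
(mv 784 (cons (fin 720 5 719)
(fin 1039 5 783))))))))))))
(cons (mv 847 (cons (fin 783 4 783)
(mv 1039 (cons (cons (mv 782 (cons (fin 846 7 782)
(mv 848 (cons (fin 784 6 783)
(mv 1038 (cons (fin 1102 5 846)
(mv 1036 (cons (fin 1037 2 972)
(mv 1041 (cons (fin 1042 3 974)
(mv 1105 (cons (fin 1106 0 1038)
(fin 912 4 848)))))))))))))
(mv 782 (cons (fin 846 7 782)
(mv 848 (cons (fin 784 6 783)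
(mv 1041 (cons (fin 1042 3 974)
(mv 912 (cons (fin 1105 4 848)
(mv 849 (cons (fin 785 6 784)
(mv 850 (cons (fin 910 1 846)
(fin 851 1 847))))))))))))))
(cons (mv 846 (cons (fin 782 7 782)
(mv 1038 (cons (fin 1102 5 846)
(mv 1037 (cons (fin 1036 2 972)
(mv 1101 (cons (fin 1100 1 1036)
(fin 910 5 845)))))))))
(mv 848 (cons (fin 784 6 783)
(mv 1038 (cons (fin 1102 5 846)
(mv 1036 (cons (fin 1037 2 972)
(mv 1041 (cons (fin 1042 3 974)
(mv 1105 (cons (fin 1106 0 1038)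
(fin 912 4 848))))))))))))))))
(mv 847 (cons (fin 783 4 783)
(mv 1104 (cons (fin 1168 7 911)
(fin 1039 4 847)))))))))
(cons (mv 977 (cons (cons (mv 909 (cons (fin 910 3 909)
(mv 913 (cons (fin 914 2 910)
(mv 785 (cons (fin 849 5 784)
(mv 1038 (cons (fin 1037 1 973)
(mv 1039 (cons (fin 978 1 974)
(mv 1041 (cons (fin 1042 3 974)
(mv 1101 (cons (fin 1102 1 1037)
(mv 1104 (cons (fin 1168 6 912)
(mv 1105 (cons (fin 1106 0 1038)
(mv 912 (cons (fin 848 7 848)
(fin 1169 7 912)))))))))))))))))))))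
(cons (mv 909 (cons (fin 910 3 909)
(mv 1038 (cons (fin 1037 1 973)
(mv 978 (cons (fin 1039 1 974)
(mv 915 (cons (fin 914 2 911)
(mv 979 (cons (fin 916 2 912)
(mv 1041 (cons (fin 980 1 976)
(fin 1042 0 974)))))))))))))
(mv 909 (cons (fin 910 3 909)
(mv 913 (cons (fin 914 2 910)
(mv 849 (cons (fin 785 5 784)
(mv 1041 (cons (fin 1042 0 974)
(fin 1104 5 848)))))))))))
(cons (mv 909 (cons (fin 910 3 909)
(mv 913 (cons (fin 914 2 910)
(mv 849 (cons (fin 785 5 784)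
(mv 1104 (cons (fin 912 6 848)
(fin 1168 6 912)))))))))
(cons (mv 909 (cons (fin 910 3 909)
(mv 1038 (cons (fin 1037 1 973)
(mv 1039 (cons (fin 978 1 974)
(mv 1041 (cons (fin 1042 3 974)
(mv 1101 (cons (fin 1102 1 1037)
(mv 1105 (cons (fin 1106 0 1038)
(mv 912 (cons (fin 1169 7 912)
(fin 848 4 848)))))))))))))))
(mv 913 (cons (fin 914 2 910)
(mv 785 (cons (fin 849 5 784)
(mv 1038 (cons (fin 1037 1 973)
(mv 1039 (cons (fin 978 1 974)
(mv 1041 (cons (fin 1042 3 974)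
(mv 1101 (cons (fin 1102 1 1037)
(mv 1104 (cons (fin 1168 6 912)
(mv 1105 (cons (fin 1106 0 1038)
(mv 912 (cons (fin 848 7 848)
(fin 1169 7 912)))))))))))))))))))))))
(cons (mv 977 (cons (mv 909 (cons (fin 910 3 909)
(mv 913 (cons (fin 914 2 910)
(mv 849 (cons (fin 785 5 784)
(mv 1104 (cons (fin 912 6 848)
(fin 1168 6 912)))))))))
(cons (mv 910 (cons (fin 909 3 909)
(mv 911 (cons (fin 978 3 910)
(mv 847 (cons (fin 783 4 783)
(mv 1038 (cons (fin 1037 1 973)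
(fin 1102 6 846)))))))))
(mv 913 (cons (fin 914 2 910)
(mv 849 (cons (fin 785 5 784)
(mv 1104 (cons (fin 912 6 848)
(fin 1168 6 912))))))))))
(mv 977 (cons (cons (mv 909 (cons (fin 910 3 909)
(mv 913 (cons (fin 914 2 910)
(mv 785 (cons (fin 849 5 784)
(mv 1038 (cons (fin 1037 1 973)
(mv 978 (cons (fin 1039 1 974)
(mv 1041 (cons (fin 1042 0 974)
(mv 979 (cons (fin 980 1 976)
(mv 912 (cons (fin 911 3 911)
(mv 848 (cons (fin 1105 7 848)
(fin 784 4 784)))))))))))))))))))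
(cons (mv 909 (cons (fin 910 3 909)
(mv 913 (cons (fin 914 2 910)
(mv 849 (cons (fin 785 5 784)
(mv 1041 (cons (fin 1042 0 974)
(mv 786 (cons (fin 850 6 785)
(mv 848 (cons (fin 784 7 784)
(mv 1105 (cons (fin 912 7 848)
(mv 1169 (cons (fin 1233 7 976)
(mv 1170 (cons (fin 1106 4 913)
(fin 1234 4 977)))))))))))))))))))
(mv 909 (cons (fin 910 3 909)
(mv 914 (cons (fin 913 2 910)
(mv 978 (cons (fin 915 2 911)
(mv 1038 (cons (fin 1037 1 973)
(fin 1039 1 974)))))))))))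
(cons (mv 913 (cons (fin 914 2 910)
(mv 785 (cons (fin 849 5 784)
(mv 1038 (cons (fin 1037 1 973)
(mv 978 (cons (fin 1039 1 974)
(mv 1041 (cons (fin 1042 0 974)
(mv 979 (cons (fin 980 1 976)
(mv 912 (cons (fin 911 3 911)
(mv 848 (cons (fin 1105 7 848)
(fin 784 4 784)))))))))))))))))
(cons (mv 909 (cons (fin 910 3 909)
(mv 1038 (cons (fin 1037 1 973)
(mv 978 (cons (fin 1039 1 974)
(mv 914 (cons (fin 915 2 911)
(mv 1041 (cons (fin 1042 0 974)
(mv 786 (cons (fin 850 5 785)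
(mv 979 (cons (fin 980 1 976)
(mv 912 (cons (fin 911 3 911)
(mv 848 (cons (fin 784 4 784)
(fin 1105 4 848)))))))))))))))))))
(mv 909 (cons (fin 910 3 909)
(mv 1038 (cons (fin 1037 1 973)
(mv 978 (cons (fin 1039 1 974)
(mv 1041 (cons (fin 1042 0 974)
(mv 979 (cons (fin 980 1 976)
(mv 912 (cons (fin 911 3 911)
(mv 848 (cons (fin 784 4 784)
(fin 1105 4 848))))))))))))))))))))))
(cons (cons (mv 977 (cons (cons (mv 909 (cons (fin 910 3 909)
(mv 913 (cons (fin 914 2 910)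
(mv 849 (cons (fin 785 5 784)
(mv 1041 (cons (fin 1042 0 974)
(fin 1104 5 848)))))))))
(mv 910 (cons (fin 909 3 909)
(mv 911 (cons (fin 978 3 910)
(mv 847 (cons (fin 783 4 783)
(mv 1104 (cons (fin 912 7 847)
(fin 1168 7 911))))))))))
(cons (mv 913 (cons (fin 914 2 910)
(mv 849 (cons (fin 785 5 784)
(mv 1041 (cons (fin 1042 0 974)
(fin 1104 5 848)))))))
(mv 909 (cons (fin 910 3 909)
(mv 913 (cons (fin 914 2 910)
(mv 849 (cons (fin 785 5 784)
(mv 1041 (cons (fin 1042 0 974)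
(mv 786 (cons (fin 850 6 785)
(mv 848 (cons (fin 784 7 784)
(mv 1105 (cons (fin 912 7 848)
(mv 1169 (cons (fin 1233 7 976)
(mv 1170 (cons (fin 1106 4 913)
(fin 1234 4 977))))))))))))))))))))))
(mv 977 (cons (cons (mv 909 (cons (fin 910 3 909)
(mv 1038 (cons (fin 1037 1 973)
(mv 978 (cons (fin 1039 1 974)
(mv 914 (cons (fin 915 2 911)
(mv 1041 (cons (fin 1042 0 974)
(mv 786 (cons (fin 850 5 785)
(mv 979 (cons (fin 980 1 976)
(mv 912 (cons (fin 911 3 911)
(mv 848 (cons (fin 784 4 784)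
(fin 1105 4 848)))))))))))))))))))
(mv 910 (cons (fin 909 3 909)
(mv 911 (cons (fin 978 3 910)
(mv 847 (cons (fin 783 4 783)
(mv 1104 (cons (fin 912 7 847)
(fin 1168 7 911))))))))))
(cons (mv 1038 (cons (fin 1037 1 973)
(mv 978 (cons (fin 1039 1 974)
(mv 914 (cons (fin 915 2 911)
(mv 1041 (cons (fin 1042 0 974)
(mv 786 (cons (fin 850 5 785)
(mv 979 (cons (fin 980 1 976)
(mv 912 (cons (fin 911 3 911)
(mv 848 (cons (fin 784 4 784)
(fin 1105 4 848)))))))))))))))))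
(cons (mv 909 (cons (fin 910 3 909)
(mv 1038 (cons (fin 1037 1 973)
(mv 1041 (cons (fin 1042 0 974)
(mv 1105 (cons (mv 912 (cons (fin 1169 7 912)
(fin 848 4 848)))
(cons (mv 848 (cons (fin 912 4 848)
(mv 1039 (cons (fin 1106 0 1038)
(mv 1102 (cons (fin 1101 1 1037)
(mv 911 (cons (fin 847 5 846)
(fin 1166 6 910)))))))))
(mv 1039 (cons (fin 1106 0 1038)
(mv 1102 (cons (fin 1101 1 1037)
(mv 911 (cons (fin 847 5 846)
(fin 1166 6 910))))))))))))))))
(mv 909 (cons (fin 910 3 909)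
(mv 1038 (cons (fin 1037 1 973)
(mv 978 (cons (fin 1039 1 974)
(mv 915 (cons (fin 914 2 911)
(mv 979 (cons (fin 916 2 912)
(mv 1041 (cons (fin 980 1 976)
(fin 1042 0 974))))))))))))))))))
(cons (mv 977 (cons (cons (mv 913 (cons (fin 914 2 910)
(mv 785 (cons (fin 849 5 784)
(mv 1038 (cons (fin 1037 1 973)
(mv 978 (cons (fin 1039 1 974)
(mv 1041 (cons (fin 1042 0 974)
(mv 979 (cons (fin 980 1 976)
(mv 912 (cons (fin 911 3 911)
(mv 848 (cons (fin 1105 7 848)
(fin 784 4 784)))))))))))))))))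
(mv 1038 (cons (fin 1037 1 973)
(mv 978 (cons (fin 1039 1 974)
(mv 914 (cons (fin 915 2 911)
(mv 1041 (cons (fin 1042 0 974)
(mv 786 (cons (fin 850 5 785)
(mv 979 (cons (fin 980 1 976)
(mv 912 (cons (fin 911 3 911)
(mv 848 (cons (fin 784 4 784)
(fin 1105 4 848))))))))))))))))))
(cons (mv 913 (cons (fin 914 2 910)
(mv 849 (cons (fin 785 5 784)
(mv 1041 (cons (fin 1042 0 974)
(fin 1104 5 848)))))))
(cons (mv 913 (cons (fin 914 2 910)
(mv 849 (cons (fin 785 5 784)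
(mv 1104 (cons (fin 912 6 848)
(fin 1168 6 912)))))))
(mv 1038 (cons (fin 1037 1 973)
(mv 978 (cons (fin 1039 1 974)
(mv 1041 (cons (fin 1042 0 974)
(mv 979 (cons (fin 980 1 976)
(mv 912 (cons (fin 911 3 911)
(mv 848 (cons (fin 784 4 784)
(fin 1105 4 848)))))))))))))))))
(cons (mv 977 (cons (cons (mv 909 (cons (fin 910 3 909)
(mv 1038 (cons (fin 1037 1 973)
(mv 978 (cons (fin 1039 1 974)
(mv 1041 (cons (fin 1042 0 974)
(mv 979 (cons (fin 980 1 976)
(mv 912 (cons (fin 911 3 911)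
(mv 848 (cons (fin 784 4 784)
(fin 1105 4 848)))))))))))))))
(cons (mv 910 (cons (fin 909 3 909)
(mv 911 (cons (fin 978 3 910)
(mv 847 (cons (fin 783 4 783)
(mv 1104 (cons (fin 912 7 847)
(fin 1168 7 911)))))))))
(mv 1038 (cons (fin 1037 1 973)
(mv 978 (cons (fin 1039 1 974)
(mv 1041 (cons (fin 1042 0 974)
(mv 979 (cons (fin 980 1 976)
(mv 912 (cons (fin 911 3 911)
(mv 848 (cons (fin 784 4 784)
(fin 1105 4 848)))))))))))))))
(cons (mv 909 (cons (fin 910 3 909)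
(mv 1038 (cons (fin 1037 1 973)
(mv 1039 (cons (fin 978 1 974)
(mv 1041 (cons (fin 1042 3 974)
(mv 1101 (cons (fin 1102 1 1037)
(mv 1105 (cons (fin 1106 0 1038)
(mv 912 (cons (fin 1169 7 912)
(fin 848 4 848)))))))))))))))
(cons (mv 909 (cons (fin 910 3 909)
(mv 1038 (cons (fin 1037 1 973)
(mv 1041 (cons (fin 1042 0 974)
(mv 1105 (cons (mv 912 (cons (fin 1169 7 912)
(fin 848 4 848)))
(cons (mv 1039 (cons (fin 1106 0 1038)
(mv 1101 (cons (fin 1102 1 1037)
(mv 1169 (cons (fin 1233 7 976)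
(mv 1168 (cons (fin 1232 5 976)
(mv 1104 (cons (fin 911 7 911)
(fin 913 5 912)))))))))))
(mv 848 (cons (fin 912 4 848)
(mv 1039 (cons (fin 1106 0 1038)
(mv 1102 (cons (fin 1101 1 1037)
(mv 911 (cons (fin 847 5 846)
(fin 1166 6 910))))))))))))))))))
(mv 909 (cons (fin 910 3 909)
(mv 1038 (cons (fin 1037 1 973)
(mv 1039 (cons (fin 978 1 974)
(mv 1041 (cons (fin 1042 3 974)
(mv 1101 (cons (fin 1102 1 1037)
(mv 1105 (cons (fin 1106 0 1038)
(mv 1169 (cons (fin 1233 7 976)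
(mv 1168 (cons (fin 1232 5 976)
(mv 1104 (cons (fin 911 7 911)
(fin 913 5 912)))))))))))))))))))))))
(mv 977 (cons (cons (mv 909 (cons (fin 910 3 909)
(mv 913 (cons (fin 914 2 910)
(mv 785 (cons (fin 849 5 784)
(mv 1038 (cons (fin 1037 1 973)
(mv 1039 (cons (fin 978 1 974)
(mv 1041 (cons (fin 1042 3 974)
(mv 1101 (cons (fin 1102 1 1037)
(mv 1105 (cons (fin 1106 0 1038)
(mv 1168 (cons (fin 1104 5 912)
(mv 1169 (cons (fin 1233 7 976)
(fin 1232 5 976)))))))))))))))))))))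
(cons (mv 909 (cons (fin 910 3 909)
(mv 913 (cons (fin 914 2 910)
(mv 849 (cons (fin 785 5 784)
(mv 1041 (cons (fin 1042 0 974)
(fin 1104 5 848)))))))))
(mv 909 (cons (fin 910 3 909)
(mv 1038 (cons (fin 1037 1 973)
(mv 978 (cons (fin 1039 1 974)
(mv 915 (cons (fin 914 2 911)
(mv 979 (cons (fin 916 2 912)
(mv 1041 (cons (fin 980 1 976)
(fin 1042 0 974)))))))))))))))
(cons (mv 909 (cons (fin 910 3 909)
(mv 914 (cons (fin 913 2 910)
(mv 978 (cons (fin 915 2 911)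
(mv 1038 (cons (fin 1037 1 973)
(fin 1039 1 974)))))))))
(cons (mv 913 (cons (fin 914 2 910)
(mv 785 (cons (fin 849 5 784)
(mv 1038 (cons (fin 1037 1 973)
(mv 1039 (cons (fin 978 1 974)
(mv 1041 (cons (fin 1042 3 974)
(mv 1101 (cons (fin 1102 1 1037)
(mv 1105 (cons (fin 1106 0 1038)
(mv 1168 (cons (fin 1104 5 912)
(mv 1169 (cons (fin 1233 7 976)
(fin 1232 5 976)))))))))))))))))))
(mv 909 (cons (fin 910 3 909)
(mv 1038 (cons (fin 1037 1 973)
(mv 1039 (cons (fin 978 1 974)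
(mv 1041 (cons (fin 1042 3 974)
(mv 1101 (cons (fin 1102 1 1037)
(mv 1105 (cons (fin 1106 0 1038)
(mv 1169 (cons (fin 1233 7 976)
(mv 1168 (cons (fin 1232 5 976)
(mv 1104 (cons (fin 911 7 911)
(fin 913 5 912))))))))))))))))))))))))))))
(mv 976 (cons (cons (mv 973 (cons (fin 1041 0 973)
(mv 908 (cons (fin 909 3 908)
(mv 907 (cons (fin 972 3 907)
(mv 913 (cons (fin 912 2 909)
(mv 977 (cons (fin 914 2 910)
(mv 1037 (cons (fin 1036 1 972)
(fin 1038 1 973)))))))))))))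
(cons (mv 977 (cons (mv 909 (cons (fin 910 3 909)
(mv 913 (cons (fin 914 2 910)
(mv 849 (cons (fin 785 5 784)
(mv 1041 (cons (fin 1042 0 974)
(fin 1104 5 848)))))))))
(cons (mv 910 (cons (fin 909 3 909)
(mv 911 (cons (fin 978 3 910)
(mv 847 (cons (fin 783 4 783)
(mv 1038 (cons (fin 1037 1 973)
(fin 1102 6 846)))))))))
(mv 913 (cons (fin 914 2 910)
(mv 849 (cons (fin 785 5 784)
(mv 1041 (cons (fin 1042 0 974)
(fin 1104 5 848))))))))))
(mv 977 (cons (cons (mv 909 (cons (fin 910 3 909)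
(mv 908 (cons (fin 973 3 908)
(mv 913 (cons (fin 914 2 910)
(mv 849 (cons (fin 785 5 784)
(mv 1104 (cons (fin 912 6 848)
(fin 1168 6 912)))))))))))
(mv 909 (cons (fin 910 3 909)
(mv 973 (cons (fin 908 3 908)
(mv 1037 (cons (fin 1036 1 972)
(fin 1038 1 973))))))))
(cons (mv 913 (cons (fin 914 2 910)
(mv 785 (cons (fin 849 5 784)
(mv 912 (cons (fin 973 2 909)
(mv 1037 (cons (fin 1038 1 973)
(mv 1104 (cons (fin 1168 6 912)
(mv 847 (cons (fin 911 7 847)
(mv 848 (cons (fin 783 7 783)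
(mv 784 (cons (fin 721 6 720)
(fin 720 4 720)))))))))))))))))
(mv 909 (cons (fin 910 3 909)
(mv 913 (cons (fin 914 2 910)
(mv 849 (cons (fin 785 5 784)
(mv 1104 (cons (fin 912 6 848)
(fin 1168 6 912))))))))))))))
(cons (mv 973 (cons (fin 1041 0 973)
(mv 908 (cons (fin 909 3 908)
(mv 912 (cons (fin 913 2 909)
(mv 972 (cons (fin 907 3 907)
(fin 911 2 908)))))))))
(cons (mv 973 (cons (fin 1041 0 973)
(mv 908 (cons (fin 909 3 908)
(mv 972 (cons (fin 907 3 907)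
(mv 1036 (cons (fin 1035 1 971)
(fin 1037 1 972)))))))))
(mv 973 (cons (fin 1041 0 973)
(mv 912 (cons (fin 913 2 909)
(mv 911 (cons (fin 972 2 908)
(mv 847 (cons (fin 1104 7 847)
(fin 783 4 783)))))))))))))))
(cons (mv 973 (cons (cons (mv 972 (cons (fin 1039 0 972)
(mv 907 (cons (fin 908 3 907)
(mv 906 (cons (fin 971 3 906)
(mv 912 (cons (fin 911 2 908)
(mv 976 (cons (fin 913 2 909)
(mv 1036 (cons (fin 1035 1 971)
(fin 1037 1 972)))))))))))))
(cons (mv 976 (cons (cons (mv 908 (cons (fin 909 3 908)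
(mv 913 (cons (fin 912 2 909)
(mv 977 (cons (fin 914 2 910)
(mv 1037 (cons (fin 1036 1 972)
(fin 1038 1 973)))))))))
(mv 909 (cons (fin 908 3 908)
(mv 913 (cons (fin 912 2 909)
(mv 977 (cons (fin 910 3 909)
(fin 914 2 910))))))))
(cons (mv 909 (cons (fin 908 3 908)
(mv 910 (cons (fin 977 3 909)
(mv 1037 (cons (fin 1036 1 972)
(mv 846 (cons (fin 782 5 781)
(fin 1101 6 845)))))))))
(cons (mv 913 (cons (fin 912 2 909)
(mv 977 (cons (fin 914 2 910)
(mv 1037 (cons (fin 1036 1 972)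
(fin 1038 1 973)))))))
(mv 908 (cons (fin 909 3 908)
(mv 912 (cons (fin 913 2 909)
(mv 1036 (cons (fin 1037 1 972)
(mv 1104 (cons (mv 911 (cons (fin 847 7 847)
(fin 1168 7 911)))
(cons (mv 1169 (cons (fin 1105 4 912)
(mv 1168 (cons (fin 1233 4 976)
(mv 1231 (cons (fin 1167 5 975)
(mv 1232 (cons (fin 1039 7 975)
(fin 1295 5 1039)))))))))
(mv 847 (cons (fin 911 7 847)
(mv 848 (cons (fin 783 7 783)
(mv 784 (cons (fin 1039 5 783)
(mv 785 (cons (fin 721 6 720)
(fin 849 6 784))))))))))))))))))))))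
(mv 976 (cons (cons (mv 908 (cons (fin 909 3 908)
(mv 907 (cons (fin 972 3 907)
(mv 913 (cons (fin 912 2 909)
(mv 977 (cons (fin 914 2 910)
(mv 1037 (cons (fin 1036 1 972)
(fin 1038 1 973)))))))))))
(mv 908 (cons (fin 909 3 908)
(mv 972 (cons (fin 907 3 907)
(mv 1036 (cons (fin 1035 1 971)
(fin 1037 1 972))))))))
(cons (mv 912 (cons (fin 913 2 909)
(mv 911 (cons (fin 972 2 908)
(mv 847 (cons (fin 1104 7 847)
(fin 783 4 783)))))))
(mv 908 (cons (fin 909 3 908)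
(mv 913 (cons (fin 912 2 909)
(mv 977 (cons (fin 914 2 910)
(mv 1037 (cons (fin 1036 1 972)
(fin 1038 1 973))))))))))))))
(cons (mv 972 (cons (fin 1039 0 972)
(mv 907 (cons (fin 908 3 907)
(mv 911 (cons (fin 912 2 908)
(mv 971 (cons (fin 906 3 906)
(fin 910 2 907)))))))))
(cons (mv 972 (cons (fin 1039 0 972)
(mv 907 (cons (fin 908 3 907)
(mv 971 (cons (fin 906 3 906)
(mv 1035 (cons (fin 1034 1 970)
(fin 1036 1 971)))))))))
(mv 972 (cons (fin 1039 0 972)
(mv 911 (cons (fin 912 2 908)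
(mv 910 (cons (fin 971 2 907)
(mv 1036 (cons (fin 1035 1 971)
(mv 976 (cons (fin 1037 1 972)
(mv 977 (cons (fin 909 3 909)
(fin 978 3 910)))))))))))))))))
(cons (mv 1038 (cons (cons (mv 1039 (cons (mv 973 (cons (fin 1041 3 973)
(fin 972 0 972)))
(cons (mv 972 (cons (fin 973 0 972)
(mv 1037 (cons (mv 1036 (cons (fin 971 3 971)
(fin 1035 2 971)))
(mv 1101 (cons (fin 1100 1 1036)
(mv 910 (cons (fin 846 5 845)
(mv 1165 (cons (fin 1102 5 909)
(fin 1229 6 973)))))))))))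
(mv 1041 (cons (fin 1042 3 974)
(mv 977 (cons (fin 978 2 974)
(mv 1101 (cons (fin 1102 1 1037)
(mv 1037 (cons (fin 1100 1 1036)
(mv 1105 (cons (fin 1104 0 1037)
(fin 1106 0 1038))))))))))))))
(cons (mv 1102 (cons (cons (mv 911 (cons (fin 1166 6 910)
(mv 847 (cons (fin 783 5 782)
(fin 910 6 846)))))
(mv 910 (cons (cons (mv 845 (cons (fin 909 7 845)
(mv 846 (cons (fin 781 7 781)
(mv 847 (cons (fin 783 6 782)
(fin 911 6 846)))))))
(mv 845 (cons (fin 909 7 845)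
(mv 846 (cons (fin 781 7 781)
(mv 1101 (cons (fin 1037 5 845)
(fin 1165 5 909))))))))
(cons (mv 847 (cons (fin 911 6 846)
(mv 846 (cons (fin 783 6 782)
(mv 1101 (cons (fin 1037 5 845)
(fin 1165 5 909)))))))
(mv 909 (cons (fin 845 7 845)
(mv 908 (cons (fin 907 0 907)
(mv 911 (cons (fin 847 6 846)
(mv 843 (cons (fin 844 3 843)
(mv 972 (cons (fin 971 1 907)
(mv 912 (cons (fin 973 1 908)
(mv 849 (cons (fin 848 2 845)
(mv 913 (cons (fin 914 1 910)
(fin 850 2 846)))))))))))))))))))))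
(cons (mv 1166 (cons (cons (mv 909 (cons (fin 973 7 909)
(mv 845 (cons (fin 910 7 845)
(mv 1229 (cons (fin 1165 5 973)
(mv 1230 (cons (fin 1293 5 1037)
(mv 1231 (cons (fin 1167 4 974)
(fin 1295 4 1038)))))))))))
(mv 1165 (cons (fin 1229 5 973)
(mv 1101 (cons (fin 910 5 909)
(mv 1167 (cons (fin 1231 4 974)
(mv 1100 (cons (fin 1168 3 1100)
(fin 1099 0 1099))))))))))
(cons (mv 973 (cons (fin 909 7 909)
(mv 1230 (cons (fin 1037 7 973)
(mv 1231 (cons (fin 1167 4 974)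
(fin 1295 4 1038)))))))
(mv 909 (cons (fin 973 7 909)
(mv 910 (cons (fin 845 7 845)
(mv 1165 (cons (fin 1101 5 909)
(fin 1229 5 973))))))))))
(mv 1166 (cons (fin 911 6 910)
(mv 909 (cons (fin 973 7 909)
(mv 1229 (cons (fin 1165 5 973)
(mv 1230 (cons (fin 1293 5 1037)
(mv 1231 (cons (fin 1167 4 974)
(fin 1295 4 1038))))))))))))))
(mv 911 (cons (cons (mv 847 (cons (fin 783 5 782)
(mv 1039 (cons (fin 1102 5 846)
(fin 1104 4 847)))))
(mv 1102 (cons (fin 1166 6 910)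
(mv 910 (cons (cons (mv 845 (cons (fin 909 7 845)
(mv 781 (cons (fin 846 7 781)
(mv 1101 (cons (fin 1165 5 909)
(mv 1039 (cons (fin 1041 1 1037)
(mv 1100 (cons (fin 1037 1 1036)
(fin 1099 2 1035)))))))))))
(mv 845 (cons (fin 909 7 845)
(mv 846 (cons (fin 781 7 781)
(mv 782 (cons (fin 718 4 718)
(fin 1039 4 782))))))))
(cons (mv 1101 (cons (fin 1165 5 909)
(mv 846 (cons (fin 1037 5 845)
(mv 782 (cons (fin 718 4 718)
(fin 1039 4 782)))))))
(cons (mv 845 (cons (fin 909 7 845)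
(mv 1101 (cons (fin 1165 5 909)
(mv 1039 (cons (fin 1041 1 1037)
(mv 1100 (cons (fin 1037 1 1036)
(fin 1099 2 1035)))))))))
(mv 845 (cons (fin 909 7 845)
(mv 846 (cons (fin 781 7 781)
(mv 1101 (cons (fin 1037 5 845)
(fin 1165 5 909))))))))))))))
(cons (mv 847 (cons (fin 783 5 782)
(mv 1039 (cons (fin 1104 4 847)
(mv 782 (cons (fin 846 7 782)
(mv 848 (cons (fin 784 6 783)
(mv 1041 (cons (fin 1042 3 974)
(mv 977 (cons (fin 978 2 974)
(mv 1105 (cons (fin 1106 0 1038)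
(mv 913 (cons (fin 912 7 848)
(mv 850 (cons (fin 914 6 849)
(mv 849 (cons (fin 910 1 846)
(fin 786 6 785)))))))))))))))))))))
(mv 847 (cons (fin 783 5 782)
(mv 1102 (cons (fin 910 6 846)
(fin 1166 6 910))))))))))
(cons (cons (mv 1039 (cons (mv 973 (cons (fin 1041 3 973)
(fin 972 0 972)))
(cons (mv 1041 (cons (fin 1042 3 974)
(mv 977 (cons (fin 978 2 974)
(mv 1105 (cons (fin 1106 0 1038)
(mv 1037 (cons (fin 1104 0 1037)
(mv 1036 (cons (fin 1035 2 971)
(mv 1100 (cons (fin 1099 1 1035)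
(fin 1101 1 1036)))))))))))))
(mv 1037 (cons (cons (mv 972 (cons (fin 973 3 972)
(mv 1036 (cons (fin 971 3 971)
(fin 1035 2 971)))))
(mv 1035 (cons (fin 1036 2 971)
(mv 1101 (cons (fin 1100 1 1036)
(mv 910 (cons (fin 846 5 845)
(mv 1165 (cons (fin 973 6 909)
(fin 1229 6 973))))))))))
(cons (mv 1036 (cons (fin 1035 2 971)
(mv 1100 (cons (fin 1099 1 1035)
(fin 1101 1 1036)))))
(mv 973 (cons (fin 972 3 972)
(mv 1101 (cons (fin 1100 1 1036)
(mv 910 (cons (fin 846 5 845)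
(fin 1165 6 909)))))))))))))
(mv 1102 (cons (cons (mv 911 (cons (fin 1166 6 910)
(mv 847 (cons (fin 783 5 782)
(fin 1039 5 846)))))
(mv 910 (cons (cons (mv 845 (cons (fin 909 7 845)
(mv 846 (cons (fin 781 7 781)
(mv 847 (cons (fin 783 6 782)
(fin 911 6 846)))))))
(cons (mv 845 (cons (fin 909 7 845)
(mv 846 (cons (fin 781 7 781)
(mv 782 (cons (fin 1039 4 782)
(mv 718 (cons (fin 911 4 718)
(mv 719 (cons (fin 655 6 654)
(fin 783 6 718)))))))))))
(mv 845 (cons (fin 909 7 845)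
(mv 846 (cons (fin 781 7 781)
(mv 782 (cons (fin 1039 4 782)
(mv 783 (cons (fin 719 6 718)
(fin 847 6 782)))))))))))
(cons (mv 847 (cons (fin 911 6 846)
(mv 846 (cons (fin 783 6 782)
(mv 781 (cons (fin 845 7 781)
(mv 782 (cons (fin 717 7 717)
(fin 1039 4 782)))))))))
(cons (mv 847 (cons (fin 911 6 846)
(mv 846 (cons (fin 783 6 782)
(mv 1039 (cons (fin 782 4 782)
(mv 973 (cons (fin 1041 3 973)
(fin 972 0 972)))))))))
(mv 909 (cons (fin 845 7 845)
(mv 908 (cons (fin 907 0 907)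
(mv 911 (cons (fin 847 6 846)
(mv 843 (cons (fin 844 3 843)
(mv 972 (cons (fin 971 1 907)
(mv 973 (cons (fin 912 1 908)
(fin 1039 0 972))))))))))))))))))
(cons (mv 1039 (cons (mv 973 (cons (fin 1041 3 973)
(fin 972 0 972)))
(cons (mv 972 (cons (fin 973 0 972)
(mv 1166 (cons (fin 1230 6 974)
(mv 1165 (cons (fin 1229 5 973)
(mv 910 (cons (fin 1101 5 909)
(mv 845 (cons (fin 909 7 845)
(mv 846 (cons (fin 781 7 781)
(fin 782 4 782)))))))))))))
(mv 1041 (cons (fin 1042 3 974)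
(fin 1101 1 1037))))))
(mv 911 (cons (fin 1166 6 910)
(mv 847 (cons (fin 783 5 782)
(fin 910 6 846)))))))))
(cons (mv 1039 (cons (mv 973 (cons (fin 1041 3 973)
(fin 972 0 972)))
(cons (mv 1037 (cons (cons (mv 972 (cons (fin 973 3 972)
(mv 1036 (cons (fin 971 3 971)
(fin 1035 2 971)))))
(mv 1035 (cons (fin 1036 2 971)
(mv 1101 (cons (fin 1100 1 1036)
(mv 1104 (cons (fin 1105 0 1037)
(mv 911 (cons (fin 847 4 847)
(mv 1165 (cons (fin 1229 6 973)
(mv 1166 (cons (fin 1102 6 910)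
(mv 1230 (cons (fin 973 4 973)
(mv 1232 (cons (fin 1168 7 975)
(mv 1231 (cons (fin 1233 3 1165)
(mv 1164 (cons (fin 1163 0 1163)
(fin 1167 0 1164))))))))))))))))))))))
(cons (mv 1036 (cons (fin 1035 2 971)
(mv 1100 (cons (fin 1099 1 1035)
(fin 1101 1 1036)))))
(mv 973 (cons (fin 972 3 972)
(mv 1101 (cons (fin 1100 1 1036)
(mv 1104 (cons (fin 1105 0 1037)
(mv 847 (cons (fin 911 4 847)
(mv 1165 (cons (fin 1229 6 973)
(mv 1164 (cons (fin 1228 5 972)
(mv 1166 (cons (fin 1230 4 973)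
(mv 909 (cons (fin 1102 7 909)
(mv 844 (cons (fin 908 7 844)
(mv 845 (cons (fin 780 7 780)
(fin 781 4 781))))))))))))))))))))))))
(mv 1041 (cons (fin 1042 3 974)
(mv 977 (cons (fin 978 2 974)
(mv 1101 (cons (fin 1102 1 1037)
(mv 1037 (cons (fin 1100 1 1036)
(mv 1105 (cons (fin 1104 0 1037)
(fin 1106 0 1038))))))))))))))
(mv 1102 (cons (cons (mv 911 (cons (fin 1166 6 910)
(mv 847 (cons (fin 783 5 782)
(fin 1039 5 846)))))
(mv 910 (cons (cons (mv 845 (cons (fin 909 7 845)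
(mv 846 (cons (fin 781 7 781)
(mv 847 (cons (fin 783 6 782)
(fin 911 6 846)))))))
(cons (mv 845 (cons (fin 909 7 845)
(mv 846 (cons (fin 781 7 781)
(mv 782 (cons (fin 1039 4 782)
(mv 718 (cons (fin 911 4 718)
(mv 719 (cons (fin 655 6 654)
(fin 783 6 718)))))))))))
(mv 845 (cons (fin 909 7 845)
(mv 846 (cons (fin 781 7 781)
(mv 782 (cons (fin 1039 4 782)
(mv 783 (cons (fin 719 6 718)
(fin 847 6 782)))))))))))
(cons (mv 847 (cons (fin 911 6 846)
(mv 846 (cons (fin 783 6 782)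
(mv 781 (cons (fin 845 7 781)
(mv 782 (cons (fin 717 7 717)
(fin 1039 4 782)))))))))
(cons (mv 847 (cons (fin 911 6 846)
(mv 846 (cons (fin 783 6 782)
(mv 782 (cons (fin 1039 4 782)
(mv 717 (cons (fin 781 7 717)
(mv 718 (cons (fin 653 7 653)
(mv 973 (cons (fin 909 5 717)
(fin 1037 5 781)))))))))))))
(mv 909 (cons (fin 845 7 845)
(mv 908 (cons (fin 907 0 907)
(mv 911 (cons (fin 847 6 846)
(mv 843 (cons (fin 844 3 843)
(mv 972 (cons (fin 971 1 907)
(mv 973 (cons (fin 912 1 908)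
(fin 1039 0 972))))))))))))))))))
(cons (mv 1039 (cons (mv 973 (cons (fin 1041 3 973)
(fin 972 0 972)))
(cons (mv 1041 (cons (fin 1042 3 974)
(mv 977 (cons (fin 978 2 974)
(mv 1105 (cons (fin 1106 0 1038)
(mv 1104 (cons (fin 1037 0 1037)
(mv 913 (cons (fin 849 5 848)
(fin 1168 5 912)))))))))))
(mv 973 (cons (fin 972 0 972)
(mv 1166 (cons (fin 909 7 909)
(fin 1230 6 974))))))))
(mv 911 (cons (fin 1166 6 910)
(mv 847 (cons (fin 783 5 782)
(fin 910 6 846))))))))))))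
(mv 973 (cons (cons (mv 972 (cons (fin 1039 0 972)
(mv 907 (cons (fin 908 3 907)
(mv 906 (cons (fin 971 3 906)
(mv 976 (cons (fin 1041 0 973)
(mv 1036 (cons (fin 1035 1 971)
(fin 1037 1 972)))))))))))
(cons (mv 972 (cons (fin 1039 0 972)
(mv 907 (cons (fin 908 3 907)
(mv 971 (cons (fin 906 3 906)
(mv 1035 (cons (fin 1034 1 970)
(fin 1036 1 971)))))))))
(mv 976 (cons (fin 1041 0 973)
(mv 908 (cons (fin 909 3 908)
(mv 907 (cons (fin 972 3 907)
(mv 913 (cons (fin 912 2 909)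
(mv 977 (cons (fin 914 2 910)
(mv 1037 (cons (fin 1036 1 972)
(fin 1038 1 973)))))))))))))))
(cons (mv 976 (cons (fin 1041 0 973)
(mv 908 (cons (fin 909 3 908)
(mv 913 (cons (fin 912 2 909)
(mv 977 (cons (fin 914 2 910)
(mv 1037 (cons (fin 1036 1 972)
(fin 1038 1 973)))))))))))
(cons (mv 972 (cons (fin 1039 0 972)
(mv 908 (cons (fin 907 3 907)
(mv 976 (cons (fin 909 3 908)
(fin 1041 0 973)))))))
(mv 972 (cons (fin 1039 0 972)
(mv 976 (cons (fin 1041 0 973)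
(mv 1036 (cons (fin 1035 1 971)
(fin 1037 1 972))))))))))))))
(cons (cons (mv 973 (cons (cons (mv 972 (cons (fin 1039 0 972)
(mv 907 (cons (fin 908 3 907)
(mv 906 (cons (fin 971 3 906)
(mv 911 (cons (fin 912 2 908)
(mv 976 (cons (fin 1041 0 973)
(mv 1036 (cons (fin 1035 1 971)
(fin 1037 1 972)))))))))))))
(mv 972 (cons (fin 1039 0 972)
(mv 907 (cons (fin 908 3 907)
(mv 911 (cons (fin 912 2 908)
(mv 971 (cons (fin 906 3 906)
(fin 910 2 907))))))))))
(cons (mv 976 (cons (fin 1041 0 973)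
(mv 909 (cons (fin 908 3 908)
(mv 910 (cons (fin 977 3 909)
(mv 912 (cons (fin 913 2 909)
(mv 1037 (cons (fin 1036 1 972)
(mv 846 (cons (fin 782 5 781)
(fin 1101 6 845)))))))))))))
(cons (mv 972 (cons (fin 1039 0 972)
(mv 907 (cons (fin 908 3 907)
(mv 906 (cons (fin 971 3 906)
(mv 976 (cons (fin 1041 0 973)
(mv 1036 (cons (fin 1035 1 971)
(fin 1037 1 972)))))))))))
(mv 972 (cons (fin 1039 0 972)
(mv 911 (cons (fin 912 2 908)
(mv 910 (cons (fin 971 2 907)
(mv 976 (cons (fin 1041 0 973)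
(mv 977 (cons (fin 909 3 909)
(fin 978 3 910)))))))))))))))
(cons (mv 973 (cons (cons (mv 972 (cons (fin 1039 0 972)
(mv 907 (cons (fin 908 3 907)
(mv 906 (cons (fin 971 3 906)
(mv 911 (cons (fin 912 2 908)
(mv 976 (cons (fin 1041 0 973)
(mv 1036 (cons (fin 1035 1 971)
(fin 1037 1 972)))))))))))))
(cons (mv 976 (cons (fin 1041 0 973)
(mv 908 (cons (fin 909 3 908)
(mv 912 (cons (fin 913 2 909)
(mv 1036 (cons (fin 1037 1 972)
(mv 1104 (cons (mv 911 (cons (fin 847 7 847)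
(fin 1168 7 911)))
(cons (mv 1169 (cons (fin 1105 4 912)
(mv 1168 (cons (fin 1233 4 976)
(mv 1231 (cons (fin 1167 5 975)
(mv 1232 (cons (fin 1039 7 975)
(fin 1295 5 1039)))))))))
(mv 847 (cons (fin 911 7 847)
(mv 848 (cons (fin 783 7 783)
(mv 784 (cons (fin 1039 5 783)
(mv 785 (cons (fin 721 6 720)
(fin 849 6 784))))))))))))))))))))
(mv 972 (cons (fin 1039 0 972)
(mv 907 (cons (fin 908 3 907)
(mv 911 (cons (fin 912 2 908)
(mv 971 (cons (fin 906 3 906)
(fin 910 2 907)))))))))))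
(cons (mv 976 (cons (fin 1041 0 973)
(mv 908 (cons (fin 909 3 908)
(mv 912 (cons (fin 913 2 909)
(mv 972 (cons (fin 907 3 907)
(fin 911 2 908)))))))))
(cons (mv 972 (cons (fin 1039 0 972)
(mv 907 (cons (fin 908 3 907)
(mv 906 (cons (fin 971 3 906)
(mv 976 (cons (fin 1041 0 973)
(mv 1036 (cons (fin 1035 1 971)
(fin 1037 1 972)))))))))))
(mv 972 (cons (fin 1039 0 972)
(mv 911 (cons (fin 912 2 908)
(mv 910 (cons (fin 971 2 907)
(mv 976 (cons (fin 1041 0 973)
(mv 1036 (cons (fin 1035 1 971)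
(fin 1037 1 972)))))))))))))))
(mv 973 (cons (cons (mv 972 (cons (fin 1039 0 972)
(mv 907 (cons (fin 908 3 907)
(mv 906 (cons (fin 971 3 906)
(mv 976 (cons (fin 1041 0 973)
(mv 1036 (cons (fin 1035 1 971)
(fin 1037 1 972)))))))))))
(cons (mv 972 (cons (fin 1039 0 972)
(mv 907 (cons (fin 908 3 907)
(mv 971 (cons (fin 906 3 906)
(mv 1035 (cons (fin 1034 1 970)
(fin 1036 1 971)))))))))
(mv 976 (cons (fin 1041 0 973)
(mv 908 (cons (fin 909 3 908)
(mv 972 (cons (fin 907 3 907)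
(mv 1036 (cons (fin 1035 1 971)
(fin 1037 1 972)))))))))))
(cons (mv 976 (cons (fin 1041 0 973)
(mv 908 (cons (fin 909 3 908)
(mv 1037 (cons (fin 1036 1 972)
(mv 977 (cons (fin 1038 1 973)
(mv 914 (cons (fin 913 2 910)
(mv 978 (cons (fin 915 2 911)
(mv 911 (cons (fin 910 3 910)
(mv 847 (cons (fin 783 4 783)
(mv 1039 (cons (fin 979 1 975)
(fin 1104 4 847)))))))))))))))))))
(cons (mv 972 (cons (fin 1039 0 972)
(mv 976 (cons (fin 1041 0 973)
(mv 1036 (cons (fin 1035 1 971)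
(fin 1037 1 972)))))))
(mv 972 (cons (fin 1039 0 972)
(mv 907 (cons (fin 908 3 907)
(mv 971 (cons (fin 906 3 906)
(mv 910 (cons (fin 911 2 907)
(mv 909 (cons (fin 970 2 906)
(mv 976 (cons (fin 977 3 909)
(fin 1041 0 973)))))))))))))))))))
(cons (cons (mv 973 (cons (cons (mv 972 (cons (fin 1039 0 972)
(mv 907 (cons (fin 908 3 907)
(mv 906 (cons (fin 971 3 906)
(mv 912 (cons (fin 911 2 908)
(mv 976 (cons (fin 913 2 909)
(fin 1041 0 973)))))))))))
(mv 976 (cons (fin 1041 0 973)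
(mv 909 (cons (fin 908 3 908)
(mv 913 (cons (fin 912 2 909)
(mv 977 (cons (fin 910 3 909)
(fin 914 2 910))))))))))
(cons (mv 972 (cons (fin 1039 0 972)
(mv 907 (cons (fin 908 3 907)
(mv 911 (cons (fin 912 2 908)
(mv 971 (cons (fin 906 3 906)
(fin 910 2 907)))))))))
(cons (mv 972 (cons (fin 1039 0 972)
(mv 907 (cons (fin 908 3 907)
(mv 971 (cons (fin 906 3 906)
(mv 1035 (cons (fin 1034 1 970)
(fin 1036 1 971)))))))))
(mv 972 (cons (fin 1039 0 972)
(mv 911 (cons (fin 912 2 908)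
(mv 910 (cons (fin 971 2 907)
(mv 976 (cons (fin 1041 0 973)
(mv 977 (cons (fin 909 3 909)
(fin 978 3 910)))))))))))))))
(mv 973 (cons (cons (mv 972 (cons (fin 1039 0 972)
(mv 907 (cons (fin 908 3 907)
(mv 906 (cons (fin 971 3 906)
(mv 911 (cons (fin 912 2 908)
(mv 976 (cons (fin 1041 0 973)
(mv 1036 (cons (fin 1035 1 971)
(fin 1037 1 972)))))))))))))
(mv 976 (cons (fin 1041 0 973)
(mv 913 (cons (fin 912 2 909)
(mv 977 (cons (fin 914 2 910)
(mv 1037 (cons (fin 1036 1 972)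
(fin 1038 1 973))))))))))
(cons (mv 972 (cons (fin 1039 0 972)
(mv 907 (cons (fin 908 3 907)
(mv 911 (cons (fin 912 2 908)
(mv 971 (cons (fin 906 3 906)
(fin 910 2 907)))))))))
(mv 972 (cons (fin 1039 0 972)
(mv 907 (cons (fin 908 3 907)
(mv 906 (cons (fin 971 3 906)
(mv 976 (cons (fin 1041 0 973)
(mv 1036 (cons (fin 1035 1 971)
(fin 1037 1 972)))))))))))))))
(cons (mv 973 (cons (cons (mv 972 (cons (fin 1039 0 972)
(mv 907 (cons (fin 908 3 907)
(mv 906 (cons (fin 971 3 906)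
(mv 911 (cons (fin 912 2 908)
(mv 976 (cons (fin 1041 0 973)
(mv 1036 (cons (fin 1035 1 971)
(fin 1037 1 972)))))))))))))
(mv 976 (cons (fin 1041 0 973)
(mv 909 (cons (fin 908 3 908)
(mv 910 (cons (fin 977 3 909)
(mv 1037 (cons (fin 1036 1 972)
(mv 846 (cons (fin 782 5 781)
(fin 1101 6 845))))))))))))
(cons (mv 972 (cons (fin 1039 0 972)
(mv 907 (cons (fin 908 3 907)
(mv 911 (cons (fin 912 2 908)
(mv 971 (cons (fin 906 3 906)
(fin 910 2 907)))))))))
(mv 972 (cons (fin 1039 0 972)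
(mv 911 (cons (fin 912 2 908)
(mv 910 (cons (fin 971 2 907)
(mv 976 (cons (fin 1041 0 973)
(mv 977 (cons (fin 909 3 909)
(fin 978 3 910))))))))))))))
(mv 973 (cons (cons (mv 972 (cons (fin 1039 0 972)
(mv 907 (cons (fin 908 3 907)
(mv 906 (cons (fin 971 3 906)
(mv 912 (cons (fin 911 2 908)
(mv 976 (cons (fin 913 2 909)
(fin 1041 0 973)))))))))))
(cons (mv 972 (cons (fin 1039 0 972)
(mv 907 (cons (fin 908 3 907)
(mv 911 (cons (fin 912 2 908)
(mv 971 (cons (fin 906 3 906)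
(fin 910 2 907)))))))))
(mv 976 (cons (fin 1041 0 973)
(mv 908 (cons (fin 909 3 908)
(mv 912 (cons (fin 913 2 909)
(mv 972 (cons (fin 907 3 907)
(fin 911 2 908)))))))))))
(cons (cons (mv 976 (cons (fin 1041 0 973)
(mv 909 (cons (fin 908 3 908)
(mv 912 (cons (fin 913 2 909)
(mv 977 (cons (fin 910 3 909)
(mv 1038 (cons (fin 1037 1 973)
(mv 781 (cons (fin 845 4 781)
(mv 978 (cons (fin 1039 1 974)
(mv 911 (cons (fin 979 3 911)
(mv 847 (cons (fin 1104 7 847)
(fin 783 5 782)))))))))))))))))))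
(mv 972 (cons (fin 1039 0 972)
(mv 907 (cons (fin 908 3 907)
(mv 971 (cons (fin 906 3 906)
(mv 910 (cons (fin 911 2 907)
(mv 909 (cons (fin 970 2 906)
(mv 976 (cons (fin 977 3 909)
(fin 1041 0 973))))))))))))))
(cons (mv 972 (cons (fin 1039 0 972)
(mv 911 (cons (fin 912 2 908)
(mv 910 (cons (fin 971 2 907)
(mv 976 (cons (fin 1041 0 973)
(mv 977 (cons (fin 909 3 909)
(fin 978 3 910)))))))))))
(mv 972 (cons (fin 1039 0 972)
(mv 908 (cons (fin 907 3 907)
(mv 976 (cons (fin 909 3 908)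
(fin 1041 0 973))))))))))))))))
def l44 : Lem := ⟨11781361728633673533054441723117730079171283746239247440356909899588005244909514899260159721150817405942924420470662491174673842036557007391209044253460063708080530407354770956693342717623350878333880262063391977041189311657559161319740834448813323445848447489700891174053752382374267171085078592036680673850818560, 852617805386907573378316086449361604396335112667595974181081864442451368582582831753898108063005411826320697569880865590810543583526428322605427325909385275101408166081575029677007108897759336626179121034462431353529166445953253527332985478197392457793861317000304625794351136075659009265328135862753835048773211395796593795396218724423636847724113429735908091644777295954894263441294360576, 852617805386907573378316086449361604396335112667595974181081864442451368582582831753898108063005411826320697569880865590810543583526428322605427325909385275101408166081575029677007108897759336626179121034462431353529166445953253527332985478197392457793861317000304625794351136075659009265328135862753835048773211395796593795396218724423636847724113429735908091644777295954894263441294360576,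 15, 33⟩
theorem l44_valid : l44.Valid :=
  Lem.valid_of_chk t44 t44_valid [974, 1040] c44 l44 (by decide +kernel)
end Crest.Agent.SnakyAux
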