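import Crest.Agent.S0047_aux.Checker

set_option autoImplicit false
set_option maxRecDepth 100000
namespace Crest.Agent.SnakyAux
open Cert
def t59 : Tbl := Tbl.nil
theorem t59_valid : t59.Valid := Tbl.valid_nil
def c59 : Cert :=
(mv 1041 (cons (cons (cons (mv 1038 (cons (cons (mv 977 (cons (fin 978 2 974)
(mv 976 (cons (fin 1037 2 973)
(mv 1102 (cons (fin 1101 1 1037)
(mv 1042 (cons (fin 1103 1 1038)
(mv 1043 (cons (fin 975 3 975)
(fin 1044 3 976)))))))))))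
(mv 1101 (cons (fin 1102 1 1037)
(mv 1037 (cons (fin 1100 1 1036)
(mv 972 (cons (fin 973 3 972)
(mv 1036 (cons (fin 971 3 971)
(mv 1104 (cons (fin 1103 0 1036)
(fin 1105 0 1037))))))))))))
(cons (mv 977 (cons (fin 978 2 974)
(mv 1037 (cons (fin 976 2 973)
(mv 972 (cons (fin 973 3 972)
(mv 1036 (cons (fin 971 3 971)
(mv 1100 (cons (fin 1099 1 1035)
(fin 1101 1 1036)))))))))))
(cons (mv 977 (cons (fin 978 2 974)
(mv 1037 (cons (fin 976 2 973)
(mv 972 (cons (fin 973 3 972)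
(mv 1036 (cons (fin 971 3 971)
(mv 1104 (cons (fin 1103 0 1036)
(fin 1105 0 1037)))))))))))
(mv 978 (cons (fin 977 2 974)
(mv 1042 (cons (fin 979 2 975)
(mv 1102 (cons (fin 1101 1 1037)
(fin 1103 1 1038)))))))))))
(cons (mv 1042 (cons (cons (mv 978 (cons (fin 979 2 975)
(mv 1103 (cons (fin 1102 1 1038)
(mv 1043 (cons (fin 1104 1 1039)
(mv 975 (cons (fin 976 3 975)
(mv 1108 (cons (fin 1107 0 1040)
(mv 1044 (cons (fin 1109 0 1041)
(mv 981 (cons (fin 980 2 977)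
(mv 1045 (cons (fin 977 3 977)
(fin 982 2 978)))))))))))))))))
(cons (mv 979 (cons (fin 978 2 975)
(mv 1043 (cons (fin 980 2 976)
(mv 976 (cons (fin 975 3 975)
(mv 1044 (cons (fin 977 3 976)
(mv 1108 (cons (fin 1107 0 1040)
(fin 1109 0 1041)))))))))))
(mv 1103 (cons (fin 1102 1 1038)
(mv 1043 (cons (fin 1104 1 1039)
(mv 976 (cons (fin 975 3 975)
(mv 848 (cons (fin 912 5 847)
(mv 1044 (cons (fin 977 3 976)
(mv 1108 (cons (fin 1107 0 1040)
(fin 1109 0 1041)))))))))))))))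
(cons (mv 978 (cons (fin 979 2 975)
(mv 1103 (cons (fin 1102 1 1038)
(mv 1105 (cons (cons (mv 914 (cons (fin 850 5 849)
(mv 1169 (cons (fin 977 6 913)
(fin 1233 6 977)))))
(mv 850 (cons (fin 914 5 849)
(mv 1167 (cons (cons (mv 976 (cons (fin 1231 6 975)
(mv 912 (cons (fin 848 5 847)
(fin 1104 5 911)))))
(mv 1231 (cons (cons (mv 1104 (cons (fin 1295 6 1039)
(mv 1230 (cons (fin 1294 5 1038)
(mv 975 (cons (fin 1166 5 974)
(mv 911 (cons (fin 847 4 847)
(fin 1168 4 911)))))))))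
(mv 1230 (cons (fin 1294 5 1038)
(mv 975 (cons (fin 1166 5 974)
(mv 1232 (cons (fin 1168 4 975)
(fin 1296 4 1039))))))))
(cons (mv 1104 (cons (fin 1295 6 1039)
(mv 1232 (cons (fin 1296 4 1039)
(mv 1168 (cons (fin 975 7 975)
(fin 977 6 976)))))))
(cons (mv 1104 (cons (fin 1295 6 1039)
(mv 1230 (cons (fin 1294 5 1038)
(mv 1232 (cons (fin 1296 4 1039)
(mv 1168 (cons (fin 977 6 976)
(mv 1165 (cons (fin 1166 2 1101)
(mv 1229 (cons (fin 1164 3 1164)
(fin 1228 2 1164)))))))))))))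
(mv 1104 (cons (fin 1295 6 1039)
(mv 1230 (cons (fin 1294 5 1038)
(mv 975 (cons (fin 1166 5 974)
(mv 911 (cons (fin 847 4 847)
(mv 910 (cons (fin 846 7 846)
(mv 912 (cons (fin 848 6 847)
(mv 913 (cons (fin 849 2 846)
(fin 977 0 910))))))))))))))))))))
(cons (mv 975 (cons (cons (mv 912 (cons (fin 976 6 911)
(mv 848 (cons (fin 911 6 847)
(mv 913 (cons (fin 977 7 848)
(mv 1166 (cons (fin 1230 5 974)
(mv 1168 (cons (fin 1232 4 975)
(mv 1165 (cons (fin 1104 2 1101)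
(mv 1100 (cons (fin 1101 3 1100)
(mv 1164 (cons (fin 1099 3 1099)
(mv 1228 (cons (fin 1227 1 1163)
(fin 1229 1 1164)))))))))))))))))))
(mv 1166 (cons (fin 1230 5 974)
(mv 1168 (cons (fin 1232 4 975)
(mv 1104 (cons (fin 1165 2 1101)
(fin 911 4 911))))))))
(cons (mv 912 (cons (fin 976 6 911)
(mv 911 (cons (fin 848 6 847)
(mv 846 (cons (fin 910 7 846)
(mv 847 (cons (fin 782 7 782)
(fin 1104 4 847)))))))))
(cons (mv 912 (cons (fin 976 6 911)
(mv 911 (cons (fin 848 6 847)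
(mv 910 (cons (fin 846 7 846)
(mv 913 (cons (fin 849 2 846)
(fin 977 0 910)))))))))
(mv 912 (cons (fin 976 6 911)
(mv 1166 (cons (fin 1230 5 974)
(mv 1168 (cons (fin 1232 4 975)
(mv 1165 (cons (fin 1104 2 1101)
(mv 1100 (cons (fin 1101 3 1100)
(mv 1164 (cons (fin 1099 3 1099)
(mv 1228 (cons (fin 1227 1 1163)
(fin 1229 1 1164)))))))))))))))))))
(cons (mv 1231 (cons (fin 976 6 975)
(mv 1104 (cons (fin 1295 6 1039)
(mv 1230 (cons (fin 1294 5 1038)
(mv 975 (cons (fin 1166 5 974)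
(mv 911 (cons (fin 847 4 847)
(fin 1168 4 911)))))))))))
(mv 976 (cons (fin 1231 6 975)
(mv 912 (cons (fin 848 5 847)
(fin 975 6 911))))))))))))
(cons (mv 1169 (cons (fin 1233 6 977)
(mv 1168 (cons (cons (mv 977 (cons (fin 1232 5 976)
(mv 912 (cons (fin 976 7 912)
(mv 913 (cons (fin 848 7 848)
(fin 1104 5 912)))))))
(mv 1104 (cons (cons (mv 911 (cons (fin 975 4 911)
(mv 912 (cons (fin 976 4 912)
(mv 977 (cons (fin 913 5 912)
(mv 1170 (cons (fin 1171 3 1103)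
(fin 1234 4 977)))))))))
(mv 911 (cons (fin 975 4 911)
(mv 977 (cons (fin 913 5 912)
(mv 1170 (cons (fin 1171 3 1103)
(fin 1234 4 977))))))))
(cons (mv 975 (cons (fin 911 4 911)
(mv 976 (cons (fin 912 4 912)
(mv 1167 (cons (fin 1231 5 975)
(mv 1166 (cons (fin 1165 2 1101)
(fin 1230 5 974)))))))))
(mv 912 (cons (fin 976 4 912)
(mv 977 (cons (fin 913 5 912)
(mv 1170 (cons (fin 1171 3 1103)
(fin 1234 4 977)))))))))))
(cons (mv 1104 (cons (mv 975 (cons (fin 1232 7 975)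
(fin 911 4 911)))
(cons (mv 975 (cons (fin 911 4 911)
(mv 976 (cons (fin 912 4 912)
(mv 1167 (cons (fin 1231 5 975)
(mv 1166 (cons (fin 1165 2 1101)
(fin 1230 5 974)))))))))
(mv 912 (cons (fin 976 4 912)
(mv 1170 (cons (fin 1171 3 1103)
(mv 1232 (cons (fin 1296 7 1039)
(mv 1231 (cons (fin 1295 5 1039)
(mv 1230 (cons (fin 1167 1 1166)
(fin 1229 2 1165))))))))))))))
(cons (mv 1232 (cons (fin 977 5 976)
(mv 1167 (cons (fin 975 4 975)
(mv 1231 (cons (fin 976 6 975)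
(fin 1296 4 1039)))))))
(mv 977 (cons (fin 1232 5 976)
(mv 913 (cons (fin 1104 5 912)
(mv 848 (cons (fin 912 7 848)
(mv 849 (cons (fin 784 7 784)
(fin 785 4 785)))))))))))))))
(mv 914 (cons (fin 850 5 849)
(mv 1169 (cons (fin 1233 6 977)
(mv 1167 (cons (cons (mv 976 (cons (fin 1231 6 975)
(mv 912 (cons (fin 848 5 847)
(fin 1104 5 911)))))
(mv 1231 (cons (cons (mv 1104 (cons (fin 1295 6 1039)
(mv 1230 (cons (fin 1294 5 1038)
(mv 975 (cons (fin 1166 5 974)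
(mv 911 (cons (fin 847 4 847)
(fin 1168 4 911)))))))))
(cons (mv 1232 (cons (fin 1296 4 1039)
(mv 1168 (cons (fin 975 4 975)
(mv 1170 (cons (fin 1171 1 1167)
(mv 1234 (cons (fin 1235 0 1167)
(mv 1295 (cons (fin 1104 5 1039)
(mv 1294 (cons (fin 1358 5 1102)
(mv 1359 (cons (fin 1423 6 1167)
(mv 1360 (cons (fin 1424 4 1167)
(mv 1362 (cons (fin 1361 3 1294)
(fin 1298 7 1105)))))))))))))))))))
(mv 1230 (cons (fin 1294 5 1038)
(mv 975 (cons (fin 1166 5 974)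
(mv 1168 (cons (fin 1170 1 1166)
(fin 1232 4 975)))))))))
(cons (mv 1104 (cons (fin 1295 6 1039)
(mv 1232 (cons (fin 1296 4 1039)
(mv 1168 (cons (fin 975 7 975)
(mv 1170 (cons (fin 1171 3 1103)
(fin 1230 1 1166)))))))))
(cons (mv 1230 (cons (fin 1294 5 1038)
(mv 975 (cons (fin 1166 5 974)
(mv 1295 (cons (fin 1104 6 1039)
(mv 1296 (cons (fin 1232 4 1039)
(fin 1360 4 1103)))))))))
(mv 1104 (cons (fin 1295 6 1039)
(mv 1230 (cons (fin 1294 5 1038)
(mv 1168 (cons (fin 1170 1 1166)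
(mv 1166 (cons (fin 1229 1 1165)
(fin 1165 2 1101))))))))))))))
(cons (mv 975 (cons (cons (mv 912 (cons (fin 976 6 911)
(mv 848 (cons (fin 911 6 847)
(mv 1166 (cons (fin 1230 5 974)
(mv 1168 (cons (fin 1232 4 975)
(mv 1165 (cons (fin 1104 2 1101)
(mv 1100 (cons (fin 1101 3 1100)
(mv 1164 (cons (fin 1099 3 1099)
(mv 1228 (cons (fin 1227 1 1163)
(fin 1229 1 1164)))))))))))))))))
(mv 1166 (cons (fin 1230 5 974)
(mv 1168 (cons (fin 1232 4 975)
(mv 1104 (cons (fin 1165 2 1101)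
(fin 911 4 911))))))))
(cons (mv 912 (cons (fin 976 6 911)
(mv 911 (cons (fin 848 6 847)
(mv 846 (cons (fin 910 7 846)
(mv 847 (cons (fin 913 3 846)
(fin 782 7 782)))))))))
(mv 912 (cons (fin 976 6 911)
(mv 1166 (cons (fin 1230 5 974)
(mv 1168 (cons (fin 1232 4 975)
(mv 1165 (cons (fin 1104 2 1101)
(mv 1100 (cons (fin 1101 3 1100)
(mv 1164 (cons (fin 1099 3 1099)
(mv 1228 (cons (fin 1227 1 1163)
(fin 1229 1 1164))))))))))))))))))
(mv 976 (cons (fin 1231 6 975)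
(mv 912 (cons (fin 848 5 847)
(fin 975 6 911)))))))))))))))))))
(cons (mv 978 (cons (fin 979 2 975)
(mv 1103 (cons (fin 1102 1 1038)
(mv 1043 (cons (fin 1104 1 1039)
(mv 1108 (cons (fin 1107 0 1040)
(mv 1044 (cons (fin 1109 0 1041)
(mv 981 (cons (fin 980 2 977)
(mv 1045 (cons (fin 977 3 977)
(fin 982 2 978)))))))))))))))
(mv 979 (cons (fin 978 2 975)
(mv 1043 (cons (fin 980 2 976)
(mv 1103 (cons (fin 1102 1 1038)
(fin 1104 1 1039)))))))))))
(mv 1038 (cons (cons (mv 977 (cons (fin 978 2 974)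
(mv 1037 (cons (fin 976 2 973)
(mv 1101 (cons (fin 1100 1 1036)
(fin 1102 1 1037)))))))
(mv 1101 (cons (fin 1102 1 1037)
(mv 1037 (cons (fin 1100 1 1036)
(mv 972 (cons (fin 973 3 972)
(mv 1036 (cons (fin 971 3 971)
(mv 1104 (cons (fin 1103 0 1036)
(fin 1105 0 1037))))))))))))
(cons (mv 977 (cons (fin 978 2 974)
(mv 1037 (cons (fin 976 2 973)
(mv 972 (cons (fin 973 3 972)
(mv 1036 (cons (fin 971 3 971)
(mv 1104 (cons (fin 1103 0 1036)
(fin 1105 0 1037)))))))))))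
(mv 977 (cons (fin 978 2 974)
(mv 1102 (cons (fin 1101 1 1037)
(mv 975 (cons (cons (mv 911 (cons (fin 847 5 846)
(mv 1166 (cons (fin 1103 5 910)
(fin 1230 6 974)))))
(mv 1166 (cons (fin 1230 6 974)
(mv 913 (cons (cons (mv 849 (cons (fin 1104 5 848)
(mv 784 (cons (fin 848 7 784)
(mv 785 (cons (fin 720 7 720)
(fin 976 5 784)))))))
(mv 849 (cons (cons (mv 784 (cons (fin 848 7 784)
(mv 785 (cons (fin 720 7 720)
(fin 976 5 784)))))
(mv 786 (cons (fin 850 6 785)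
(mv 848 (cons (fin 784 7 784)
(mv 912 (cons (fin 1105 7 848)
(mv 976 (cons (fin 1103 5 847)
(mv 847 (cons (fin 783 7 783)
(mv 846 (cons (fin 845 0 845)
(fin 914 0 846))))))))))))))
(cons (mv 785 (cons (fin 976 5 784)
(mv 786 (cons (fin 722 6 721)
(fin 850 6 785)))))
(mv 784 (cons (fin 848 7 784)
(mv 785 (cons (fin 720 7 720)
(mv 786 (cons (fin 722 6 721)
(fin 850 6 785)))))))))))
(cons (mv 1105 (cons (cons (mv 848 (cons (fin 912 7 848)
(mv 850 (cons (fin 914 6 849)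
(mv 1104 (cons (fin 1168 5 912)
(mv 1103 (cons (fin 1165 1 1101)
(mv 1169 (cons (fin 1170 0 1102)
(mv 1233 (cons (fin 976 7 976)
(fin 1297 7 1040)))))))))))))
(cons (mv 850 (cons (fin 914 6 849)
(mv 912 (cons (fin 848 7 848)
(mv 1169 (cons (fin 976 7 912)
(mv 1168 (cons (fin 1232 5 976)
(mv 1234 (cons (fin 1170 4 977)
(mv 1233 (cons (fin 1167 0 1166)
(fin 1298 4 1041)))))))))))))
(mv 850 (cons (fin 914 6 849)
(mv 912 (cons (fin 848 7 848)
(mv 1169 (cons (fin 976 7 912)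
(mv 1234 (cons (fin 1170 4 977)
(mv 1233 (cons (fin 1298 4 1041)
(mv 1296 (cons (fin 1232 5 1040)
(mv 1297 (cons (fin 1104 7 1040)
(fin 1360 5 1104)))))))))))))))))
(cons (cons (mv 850 (cons (fin 914 6 849)
(mv 1104 (cons (fin 1168 5 912)
(mv 1103 (cons (fin 1165 1 1101)
(mv 1169 (cons (fin 1170 0 1102)
(mv 1233 (cons (fin 976 7 976)
(fin 1297 7 1040)))))))))))
(mv 848 (cons (fin 912 7 848)
(mv 1104 (cons (fin 1168 5 912)
(mv 1103 (cons (fin 1165 1 1101)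
(mv 1169 (cons (fin 1170 0 1102)
(mv 1233 (cons (fin 976 7 976)
(fin 1297 7 1040))))))))))))
(cons (mv 848 (cons (fin 912 7 848)
(mv 850 (cons (fin 914 6 849)
(mv 1168 (cons (fin 1104 5 912)
(mv 1169 (cons (fin 1232 5 976)
(mv 1234 (cons (fin 1170 4 977)
(mv 1233 (cons (fin 1167 0 1166)
(fin 1298 4 1041)))))))))))))
(mv 912 (cons (fin 848 7 848)
(mv 914 (cons (fin 850 6 849)
(mv 915 (cons (fin 976 1 911)
(mv 852 (cons (fin 851 2 848)
(mv 916 (cons (fin 853 2 849)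
(mv 980 (cons (fin 979 0 912)
(fin 981 0 913)))))))))))))))))
(cons (mv 849 (cons (fin 1104 5 848)
(mv 784 (cons (fin 848 7 784)
(mv 785 (cons (fin 720 7 720)
(mv 786 (cons (fin 722 6 721)
(fin 850 6 785)))))))))
(mv 849 (cons (fin 1104 5 848)
(mv 785 (cons (fin 976 5 784)
(mv 786 (cons (fin 722 6 721)
(fin 850 6 785))))))))))))))
(cons (mv 911 (cons (fin 847 5 846)
(mv 912 (cons (cons (mv 848 (cons (fin 1103 6 847)
(mv 784 (cons (fin 720 5 719)
(fin 976 5 783)))))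
(mv 976 (cons (cons (mv 909 (cons (fin 910 0 909)
(mv 1103 (cons (fin 1167 6 911)
(mv 1104 (cons (fin 1168 7 911)
(mv 913 (cons (fin 849 5 848)
(mv 914 (cons (fin 915 1 911)
(mv 850 (cons (fin 851 2 847)
(fin 1105 6 849)))))))))))))
(mv 910 (cons (fin 909 0 909)
(mv 1103 (cons (fin 846 7 846)
(fin 1167 6 911))))))
(cons (mv 909 (cons (fin 910 0 909)
(mv 1104 (cons (fin 1168 7 911)
(mv 913 (cons (fin 849 5 848)
(mv 914 (cons (fin 915 1 911)
(mv 850 (cons (fin 851 2 847)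
(fin 1105 6 849)))))))))))
(mv 1103 (cons (fin 1167 6 911)
(mv 1104 (cons (fin 1168 7 911)
(mv 913 (cons (fin 849 5 848)
(mv 914 (cons (fin 915 1 911)
(mv 850 (cons (fin 851 2 847)
(fin 1105 6 849)))))))))))))))
(cons (mv 976 (cons (mv 848 (cons (fin 784 5 783)
(fin 1105 4 848)))
(cons (mv 909 (cons (fin 910 0 909)
(mv 1104 (cons (fin 1168 7 911)
(mv 913 (cons (fin 849 5 848)
(mv 914 (cons (fin 915 1 911)
(mv 850 (cons (fin 851 2 847)
(fin 1105 6 849)))))))))))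
(mv 848 (cons (fin 784 5 783)
(mv 849 (cons (fin 785 6 784)
(mv 1104 (cons (fin 1168 7 911)
(fin 913 5 848))))))))))
(mv 848 (cons (fin 1103 6 847)
(mv 720 (cons (fin 784 5 719)
(mv 913 (cons (fin 1105 7 848)
(mv 849 (cons (fin 1104 5 848)
(mv 850 (cons (fin 851 1 847)
(fin 910 2 846))))))))))))))))
(cons (mv 1166 (cons (fin 1230 6 974)
(mv 911 (cons (fin 1103 5 910)
(mv 913 (cons (cons (mv 849 (cons (fin 1104 5 848)
(mv 784 (cons (fin 848 7 784)
(mv 785 (cons (fin 720 7 720)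
(fin 976 5 784)))))))
(mv 849 (cons (mv 784 (cons (fin 848 7 784)
(mv 785 (cons (fin 720 7 720)
(fin 976 5 784)))))
(cons (mv 784 (cons (fin 848 7 784)
(mv 850 (cons (fin 786 6 785)
(mv 912 (cons (fin 910 2 846)
(mv 851 (cons (fin 852 1 848)
(fin 914 2 847)))))))))
(mv 785 (cons (fin 976 5 784)
(mv 786 (cons (fin 722 6 721)
(fin 850 6 785)))))))))
(cons (mv 1105 (cons (cons (mv 848 (cons (fin 912 7 848)
(mv 850 (cons (fin 914 6 849)
(mv 1168 (cons (fin 1104 5 912)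
(mv 1169 (cons (fin 1232 5 976)
(mv 1233 (cons (fin 976 7 976)
(mv 1234 (cons (fin 1167 0 1166)
(fin 1170 4 977)))))))))))))
(cons (mv 850 (cons (fin 914 6 849)
(mv 912 (cons (fin 848 7 848)
(mv 1169 (cons (fin 976 7 912)
(mv 1234 (cons (fin 1170 4 977)
(mv 1233 (cons (fin 1298 4 1041)
(mv 1296 (cons (fin 1232 5 1040)
(mv 1297 (cons (fin 1104 7 1040)
(fin 1360 5 1104)))))))))))))))
(mv 850 (cons (fin 914 6 849)
(mv 912 (cons (fin 848 7 848)
(mv 1169 (cons (fin 976 7 912)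
(mv 1168 (cons (fin 1232 5 976)
(mv 1234 (cons (fin 1170 4 977)
(mv 1233 (cons (fin 1167 0 1166)
(fin 1298 4 1041)))))))))))))))
(cons (cons (mv 850 (cons (fin 914 6 849)
(mv 1168 (cons (fin 1104 5 912)
(mv 1169 (cons (fin 1232 5 976)
(mv 1233 (cons (fin 976 7 976)
(mv 1234 (cons (fin 1167 0 1166)
(fin 1170 4 977)))))))))))
(mv 848 (cons (fin 912 7 848)
(mv 1168 (cons (fin 1104 5 912)
(mv 1169 (cons (fin 1232 5 976)
(mv 1233 (cons (fin 976 7 976)
(mv 1234 (cons (fin 1167 0 1166)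
(fin 1170 4 977))))))))))))
(cons (mv 848 (cons (fin 912 7 848)
(mv 850 (cons (fin 914 6 849)
(mv 1168 (cons (fin 1104 5 912)
(mv 1169 (cons (fin 1232 5 976)
(mv 1234 (cons (fin 1170 4 977)
(mv 1233 (cons (fin 1167 0 1166)
(fin 1298 4 1041)))))))))))))
(mv 912 (cons (fin 848 7 848)
(mv 914 (cons (fin 850 6 849)
(mv 915 (cons (fin 976 1 911)
(mv 852 (cons (fin 851 2 848)
(mv 916 (cons (fin 853 2 849)
(mv 980 (cons (fin 979 0 912)
(fin 981 0 913)))))))))))))))))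
(cons (mv 849 (cons (fin 1104 5 848)
(mv 784 (cons (fin 848 7 784)
(mv 720 (cons (fin 785 7 720)
(mv 850 (cons (fin 786 6 785)
(mv 912 (cons (fin 910 2 846)
(mv 851 (cons (fin 852 1 848)
(fin 914 2 847)))))))))))))
(mv 849 (cons (fin 1104 5 848)
(mv 785 (cons (fin 976 5 784)
(mv 786 (cons (fin 722 6 721)
(fin 850 6 785)))))))))))))))
(mv 911 (cons (fin 847 5 846)
(mv 1166 (cons (fin 1230 6 974)
(mv 913 (cons (cons (mv 849 (cons (fin 1104 5 848)
(mv 784 (cons (fin 848 7 784)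
(mv 785 (cons (fin 720 7 720)
(fin 976 5 784)))))))
(mv 849 (cons (mv 784 (cons (fin 848 7 784)
(mv 785 (cons (fin 720 7 720)
(fin 976 5 784)))))
(cons (mv 784 (cons (fin 848 7 784)
(mv 850 (cons (fin 786 6 785)
(mv 912 (cons (fin 910 2 846)
(mv 851 (cons (fin 852 1 848)
(fin 914 2 847)))))))))
(mv 785 (cons (fin 976 5 784)
(mv 786 (cons (fin 722 6 721)
(fin 850 6 785)))))))))
(cons (mv 1105 (cons (cons (mv 848 (cons (fin 912 7 848)
(mv 850 (cons (fin 914 6 849)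
(mv 1168 (cons (fin 1104 5 912)
(mv 1169 (cons (fin 1232 5 976)
(mv 1233 (cons (fin 976 7 976)
(mv 1234 (cons (fin 1167 0 1166)
(fin 1170 4 977)))))))))))))
(cons (mv 850 (cons (fin 914 6 849)
(mv 912 (cons (fin 848 7 848)
(mv 1169 (cons (fin 976 7 912)
(mv 1234 (cons (fin 1170 4 977)
(mv 1233 (cons (fin 1298 4 1041)
(mv 1296 (cons (fin 1232 5 1040)
(mv 1297 (cons (fin 1104 7 1040)
(fin 1360 5 1104)))))))))))))))
(mv 850 (cons (fin 914 6 849)
(mv 912 (cons (fin 848 7 848)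
(mv 1169 (cons (fin 976 7 912)
(mv 1168 (cons (fin 1232 5 976)
(mv 1234 (cons (fin 1170 4 977)
(mv 1233 (cons (fin 1167 0 1166)
(fin 1298 4 1041)))))))))))))))
(cons (cons (mv 850 (cons (fin 914 6 849)
(mv 1168 (cons (fin 1104 5 912)
(mv 1169 (cons (fin 1232 5 976)
(mv 1233 (cons (fin 976 7 976)
(mv 1234 (cons (fin 1167 0 1166)
(fin 1170 4 977)))))))))))
(mv 848 (cons (fin 912 7 848)
(mv 1168 (cons (fin 1104 5 912)
(mv 1169 (cons (fin 1232 5 976)
(mv 1233 (cons (fin 976 7 976)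
(mv 1234 (cons (fin 1167 0 1166)
(fin 1170 4 977))))))))))))
(cons (mv 848 (cons (fin 912 7 848)
(mv 850 (cons (fin 914 6 849)
(mv 1168 (cons (fin 1104 5 912)
(mv 1169 (cons (fin 1232 5 976)
(mv 1234 (cons (fin 1170 4 977)
(mv 1233 (cons (fin 1167 0 1166)
(fin 1298 4 1041)))))))))))))
(mv 912 (cons (fin 848 7 848)
(mv 914 (cons (fin 850 6 849)
(mv 915 (cons (fin 976 1 911)
(mv 852 (cons (fin 851 2 848)
(mv 916 (cons (fin 853 2 849)
(mv 980 (cons (fin 979 0 912)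
(fin 981 0 913)))))))))))))))))
(cons (mv 849 (cons (fin 1104 5 848)
(mv 784 (cons (fin 848 7 784)
(mv 720 (cons (fin 785 7 720)
(mv 850 (cons (fin 786 6 785)
(mv 912 (cons (fin 910 2 846)
(mv 851 (cons (fin 852 1 848)
(fin 914 2 847)))))))))))))
(mv 849 (cons (fin 1104 5 848)
(mv 785 (cons (fin 976 5 784)
(mv 786 (cons (fin 722 6 721)
(fin 850 6 785))))))))))))))))))))))))))))
(cons (mv 1038 (cons (cons (mv 1101 (cons (fin 1102 1 1037)
(mv 1037 (cons (fin 1100 1 1036)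
(mv 972 (cons (fin 973 3 972)
(mv 976 (cons (fin 977 2 973)
(mv 1036 (cons (fin 971 3 971)
(fin 975 2 972)))))))))))
(mv 1037 (cons (cons (mv 972 (cons (fin 973 3 972)
(mv 976 (cons (fin 977 2 973)
(mv 1036 (cons (fin 971 3 971)
(fin 975 2 972)))))))
(mv 972 (cons (fin 973 3 972)
(mv 1036 (cons (fin 971 3 971)
(mv 1100 (cons (fin 1099 1 1035)
(fin 1101 1 1036))))))))
(cons (mv 976 (cons (fin 977 2 973)
(mv 975 (cons (fin 1036 2 972)
(mv 1042 (cons (fin 1043 3 975)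
(mv 1100 (cons (fin 1101 1 1036)
(mv 1104 (cons (fin 1105 0 1037)
(mv 911 (cons (fin 1168 7 911)
(fin 847 4 847)))))))))))))
(mv 972 (cons (fin 973 3 972)
(mv 976 (cons (fin 977 2 973)
(mv 1100 (cons (fin 1101 1 1036)
(mv 1104 (cons (fin 1105 0 1037)
(mv 912 (cons (mv 1103 (cons (fin 848 5 847)
(fin 1167 5 911)))
(cons (mv 847 (cons (fin 911 7 847)
(mv 848 (cons (fin 783 7 783)
(mv 849 (cons (fin 785 6 784)
(fin 913 6 848)))))))
(mv 847 (cons (fin 911 7 847)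
(mv 849 (cons (fin 913 6 848)
(mv 1167 (cons (fin 1103 5 911)
(mv 1168 (cons (fin 1231 5 975)
(mv 1232 (cons (fin 975 7 975)
(mv 1233 (cons (fin 1169 4 976)
(fin 1297 4 1040))))))))))))))))))))))))))))
(cons (mv 1037 (cons (cons (mv 972 (cons (fin 973 3 972)
(mv 976 (cons (fin 977 2 973)
(mv 1036 (cons (fin 971 3 971)
(fin 975 2 972)))))))
(mv 972 (cons (fin 973 3 972)
(mv 1036 (cons (fin 971 3 971)
(mv 1104 (cons (fin 1103 0 1036)
(fin 1105 0 1037))))))))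
(cons (mv 976 (cons (fin 977 2 973)
(mv 975 (cons (fin 1036 2 972)
(mv 1042 (cons (fin 1043 3 975)
(mv 1102 (cons (fin 1103 1 1038)
(mv 911 (cons (fin 847 5 846)
(mv 1104 (cons (fin 1105 0 1037)
(fin 1168 7 911)))))))))))))
(mv 972 (cons (fin 973 3 972)
(mv 976 (cons (fin 977 2 973)
(mv 1104 (cons (fin 1105 0 1037)
(mv 1103 (cons (mv 912 (cons (fin 848 5 847)
(fin 1167 5 911)))
(mv 1042 (cons (fin 1102 1 1038)
(fin 1043 1 1039))))))))))))))
(cons (mv 1102 (cons (fin 1101 1 1037)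
(mv 1042 (cons (fin 1103 1 1038)
(mv 1043 (cons (cons (mv 975 (cons (fin 976 3 975)
(mv 847 (cons (fin 911 5 846)
(mv 980 (cons (fin 979 2 976)
(mv 1044 (cons (fin 981 2 977)
(mv 1108 (cons (fin 1107 0 1040)
(fin 1109 0 1041)))))))))))
(mv 980 (cons (fin 979 2 976)
(mv 1044 (cons (fin 981 2 977)
(mv 1108 (cons (fin 1107 0 1040)
(fin 1109 0 1041))))))))
(cons (mv 976 (cons (fin 975 3 975)
(mv 1044 (cons (fin 977 3 976)
(mv 1108 (cons (fin 1107 0 1040)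
(fin 1109 0 1041)))))))
(cons (mv 976 (cons (fin 975 3 975)
(mv 980 (cons (fin 979 2 976)
(mv 1044 (cons (fin 977 3 976)
(fin 981 2 977)))))))
(mv 979 (cons (fin 980 2 976)
(mv 1107 (cons (fin 1108 0 1040)
(mv 915 (cons (cons (mv 850 (cons (fin 914 7 850)
(mv 851 (cons (fin 786 7 786)
(mv 852 (cons (fin 788 6 787)
(fin 916 6 851)))))))
(cons (mv 852 (cons (fin 916 6 851)
(mv 851 (cons (fin 788 6 787)
(mv 976 (cons (fin 975 3 975)
(mv 912 (cons (mv 848 (cons (fin 1105 4 848)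
(mv 783 (cons (fin 847 7 783)
(mv 784 (cons (fin 719 7 719)
(fin 977 4 784)))))))
(cons (mv 913 (cons (fin 914 2 848)
(mv 849 (cons (fin 1104 6 848)
(mv 785 (cons (fin 721 5 720)
(fin 977 5 784)))))))
(mv 848 (cons (fin 1105 4 848)
(mv 783 (cons (fin 847 7 783)
(mv 719 (cons (fin 784 7 719)
(mv 849 (cons (fin 785 6 784)
(mv 913 (cons (fin 914 2 848)
(fin 1104 6 848))))))))))))))))))))
(mv 850 (cons (fin 914 7 850)
(mv 851 (cons (fin 786 7 786)
(mv 848 (cons (cons (mv 849 (cons (fin 916 0 848)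
(mv 783 (cons (fin 784 3 783)
(mv 782 (cons (fin 847 3 782)
(mv 787 (cons (fin 788 2 784)
(mv 912 (cons (fin 911 1 847)
(mv 976 (cons (fin 975 3 975)
(fin 785 6 784)))))))))))))
(cons (mv 976 (cons (fin 975 3 975)
(mv 912 (cons (fin 1105 4 848)
(mv 783 (cons (fin 847 7 783)
(mv 784 (cons (fin 719 7 719)
(fin 977 4 784)))))))))
(mv 849 (cons (fin 916 0 848)
(mv 783 (cons (fin 784 3 783)
(mv 782 (cons (fin 847 3 782)
(mv 787 (cons (fin 788 2 784)
(mv 912 (cons (fin 911 1 847)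
(mv 976 (cons (fin 785 6 784)
(fin 1105 4 848)))))))))))))))
(cons (cons (mv 849 (cons (fin 916 0 848)
(mv 783 (cons (fin 784 3 783)
(mv 787 (cons (fin 788 2 784)
(mv 847 (cons (fin 782 3 782)
(mv 911 (cons (fin 910 1 846)
(fin 912 1 847)))))))))))
(mv 849 (cons (fin 916 0 848)
(mv 783 (cons (fin 784 3 783)
(mv 787 (cons (fin 788 2 784)
(mv 847 (cons (fin 782 3 782)
(mv 911 (cons (fin 910 1 846)
(fin 975 5 846))))))))))))
(cons (mv 849 (cons (fin 916 0 848)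
(mv 783 (cons (fin 784 3 783)
(mv 787 (cons (fin 788 2 784)
(mv 912 (cons (fin 911 1 847)
(mv 976 (cons (fin 975 3 975)
(fin 785 6 784)))))))))))
(mv 849 (cons (fin 916 0 848)
(mv 787 (cons (fin 788 2 784)
(mv 911 (cons (fin 912 1 847)
(mv 847 (cons (fin 910 1 846)
(fin 975 5 846)))))))))))))))))))
(cons (mv 851 (cons (cons (mv 852 (cons (fin 788 6 787)
(fin 916 6 851)))
(mv 850 (cons (fin 786 7 786)
(mv 848 (cons (cons (mv 849 (cons (fin 916 0 848)
(mv 783 (cons (fin 784 3 783)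
(mv 782 (cons (fin 847 3 782)
(mv 787 (cons (fin 788 2 784)
(mv 912 (cons (fin 911 1 847)
(mv 976 (cons (fin 975 3 975)
(fin 785 6 784)))))))))))))
(cons (mv 976 (cons (fin 975 3 975)
(mv 912 (cons (fin 1105 4 848)
(mv 783 (cons (fin 847 7 783)
(mv 784 (cons (fin 719 7 719)
(fin 977 4 784)))))))))
(mv 849 (cons (fin 916 0 848)
(mv 783 (cons (fin 784 3 783)
(mv 782 (cons (fin 847 3 782)
(mv 787 (cons (fin 788 2 784)
(mv 912 (cons (fin 911 1 847)
(mv 976 (cons (fin 785 6 784)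
(fin 1105 4 848)))))))))))))))
(cons (cons (mv 849 (cons (fin 916 0 848)
(mv 783 (cons (fin 784 3 783)
(mv 787 (cons (fin 788 2 784)
(mv 847 (cons (fin 782 3 782)
(mv 911 (cons (fin 910 1 846)
(fin 912 1 847)))))))))))
(mv 849 (cons (fin 916 0 848)
(mv 783 (cons (fin 784 3 783)
(mv 787 (cons (fin 788 2 784)
(mv 847 (cons (fin 782 3 782)
(mv 911 (cons (fin 910 1 846)
(fin 975 5 846))))))))))))
(cons (mv 849 (cons (fin 916 0 848)
(mv 783 (cons (fin 784 3 783)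
(mv 787 (cons (fin 788 2 784)
(mv 912 (cons (fin 911 1 847)
(mv 976 (cons (fin 975 3 975)
(fin 785 6 784)))))))))))
(mv 849 (cons (fin 916 0 848)
(mv 787 (cons (fin 788 2 784)
(mv 911 (cons (fin 912 1 847)
(mv 847 (cons (fin 910 1 846)
(fin 975 5 846))))))))))))))))
(cons (mv 850 (cons (fin 786 7 786)
(mv 916 (cons (fin 852 6 851)
(mv 848 (cons (fin 849 0 848)
(mv 917 (cons (fin 918 3 850)
(mv 976 (cons (fin 975 3 975)
(mv 912 (cons (fin 1105 4 848)
(mv 783 (cons (fin 847 7 783)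
(mv 784 (cons (fin 719 7 719)
(fin 977 4 784)))))))))))))))))
(mv 786 (cons (fin 850 7 786)
(mv 787 (cons (fin 722 7 722)
(mv 788 (cons (fin 724 6 723)
(fin 852 6 787))))))))))
(cons (mv 850 (cons (fin 914 7 850)
(mv 851 (cons (fin 786 7 786)
(mv 788 (cons (fin 852 6 787)
(mv 787 (cons (fin 724 6 723)
(mv 789 (cons (fin 790 1 786)
(mv 848 (cons (fin 849 2 784)
(mv 976 (cons (fin 975 3 975)
(mv 912 (cons (fin 1105 4 848)
(mv 783 (cons (fin 847 7 783)
(mv 784 (cons (fin 719 7 719)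
(fin 977 4 784)))))))))))))))))))))
(mv 914 (cons (fin 850 7 850)
(mv 916 (cons (fin 852 6 851)
(mv 976 (cons (fin 975 3 975)
(mv 913 (cons (fin 977 1 912)
(mv 848 (cons (fin 849 3 848)
(mv 912 (cons (fin 847 3 847)
(fin 1105 4 848)))))))))))))))))))))))))))))
(mv 1101 (cons (fin 1102 1 1037)
(mv 1037 (cons (fin 1100 1 1036)
(mv 972 (cons (fin 973 3 972)
(mv 1036 (cons (fin 971 3 971)
(mv 1104 (cons (fin 1103 0 1036)
(fin 1105 0 1037)))))))))))))))
(cons (mv 978 (cons (cons (mv 977 (cons (fin 1038 2 974)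
(mv 979 (cons (fin 976 1 975)
(fin 980 1 976)))))
(mv 1042 (cons (fin 979 2 975)
(mv 1104 (cons (cons (mv 1043 (cons (fin 1103 1 1039)
(mv 975 (cons (fin 976 3 975)
(mv 847 (cons (fin 911 4 847)
(mv 1044 (cons (fin 1105 1 1040)
(mv 1108 (cons (fin 1107 0 1040)
(fin 1109 0 1041)))))))))))
(mv 1168 (cons (cons (mv 975 (cons (fin 1232 7 975)
(mv 911 (cons (fin 976 7 911)
(fin 847 4 847)))))
(mv 976 (cons (cons (mv 911 (cons (fin 975 7 911)
(mv 912 (cons (fin 847 7 847)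
(mv 848 (cons (fin 1103 5 847)
(fin 1105 4 848)))))))
(mv 1167 (cons (fin 1231 5 975)
(mv 912 (cons (fin 1103 5 911)
(mv 1105 (cons (fin 848 4 848)
(fin 1169 4 912))))))))
(cons (mv 975 (cons (fin 911 7 911)
(mv 1167 (cons (fin 1231 5 975)
(mv 1169 (cons (fin 1233 4 976)
(mv 1166 (cons (mv 1230 (cons (fin 1229 1 1165)
(fin 1103 5 974)))
(cons (mv 1165 (cons (fin 1105 2 1101)
(mv 1100 (cons (fin 1101 3 1100)
(mv 1164 (cons (fin 1099 3 1099)
(fin 1103 2 1100)))))))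
(mv 1165 (cons (fin 1105 2 1101)
(mv 1229 (cons (fin 1228 1 1164)
(fin 1230 1 1165))))))))))))))
(cons (mv 911 (cons (fin 975 7 911)
(mv 912 (cons (fin 847 7 847)
(mv 1103 (cons (fin 848 5 847)
(fin 1167 5 911)))))))
(mv 911 (cons (fin 975 7 911)
(mv 912 (cons (fin 847 7 847)
(mv 1105 (cons (fin 848 4 848)
(fin 1169 4 912))))))))))))
(cons (mv 1232 (cons (mv 1296 (cons (fin 1103 7 1039)
(fin 1105 6 1040)))
(mv 1231 (cons (fin 1295 5 1039)
(mv 976 (cons (fin 1167 5 975)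
(mv 1233 (cons (fin 1169 4 976)
(fin 1297 4 1040)))))))))
(mv 975 (cons (fin 1232 7 975)
(mv 911 (cons (fin 847 4 847)
(fin 1103 4 911)))))))))
(cons (mv 976 (cons (mv 975 (cons (fin 1043 3 975)
(mv 911 (cons (fin 1168 7 911)
(fin 847 4 847)))))
(cons (mv 1168 (cons (cons (mv 1167 (cons (fin 1231 5 975)
(mv 1169 (cons (fin 1233 4 976)
(mv 912 (cons (fin 1105 4 912)
(mv 847 (cons (fin 911 7 847)
(mv 848 (cons (fin 783 7 783)
(mv 849 (cons (fin 785 6 784)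
(fin 913 6 848)))))))))))))
(mv 1231 (cons (fin 1167 5 975)
(mv 1232 (cons (fin 1295 5 1039)
(mv 1296 (cons (fin 1105 6 1040)
(mv 1297 (cons (fin 1233 4 1040)
(fin 1361 4 1104))))))))))
(cons (mv 1231 (cons (fin 1167 5 975)
(mv 1232 (cons (fin 1295 5 1039)
(mv 1105 (cons (fin 1296 6 1040)
(mv 912 (cons (fin 848 4 848)
(fin 1169 4 912)))))))))
(cons (mv 1169 (cons (fin 1233 4 976)
(mv 912 (cons (fin 1105 4 912)
(mv 847 (cons (fin 911 7 847)
(mv 848 (cons (fin 783 7 783)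
(mv 849 (cons (fin 785 6 784)
(fin 913 6 848)))))))))))
(mv 1231 (cons (fin 1167 5 975)
(mv 1232 (cons (fin 1295 5 1039)
(mv 1233 (cons (fin 1169 4 976)
(fin 1297 4 1040)))))))))))
(mv 1043 (cons (fin 975 3 975)
(mv 1044 (cons (fin 1105 1 1040)
(mv 1108 (cons (fin 1107 0 1040)
(fin 1109 0 1041))))))))))
(cons (mv 975 (cons (mv 1043 (cons (fin 976 3 975)
(fin 1103 1 1039)))
(cons (mv 911 (cons (fin 847 4 847)
(mv 1168 (cons (fin 976 7 911)
(fin 1232 7 975)))))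
(mv 911 (cons (fin 847 4 847)
(mv 1103 (cons (fin 1043 1 1039)
(fin 1168 4 911))))))))
(mv 1043 (cons (fin 1103 1 1039)
(mv 1044 (cons (fin 1105 1 1040)
(mv 1108 (cons (fin 1107 0 1040)
(fin 1109 0 1041))))))))))))))
(cons (mv 977 (cons (fin 1038 2 974)
(mv 1104 (cons (cons (mv 913 (cons (fin 849 5 848)
(mv 1168 (cons (fin 1105 5 912)
(fin 976 6 912)))))
(mv 913 (cons (fin 849 5 848)
(mv 1105 (cons (mv 914 (cons (fin 850 6 849)
(fin 1169 6 913)))
(cons (mv 912 (cons (fin 848 7 848)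
(mv 910 (cons (fin 911 0 910)
(mv 1169 (cons (fin 976 7 912)
(mv 1233 (cons (fin 1297 7 1040)
(fin 1042 6 977)))))))))
(mv 850 (cons (fin 914 6 849)
(mv 912 (cons (fin 848 7 848)
(mv 911 (cons (fin 910 0 910)
(mv 847 (cons (fin 976 7 847)
(fin 975 4 847)))))))))))))))
(cons (mv 1168 (cons (fin 1232 6 976)
(mv 976 (cons (cons (mv 911 (cons (fin 975 7 911)
(mv 847 (cons (fin 912 7 847)
(mv 1167 (cons (fin 1231 5 975)
(mv 1169 (cons (fin 1233 4 976)
(mv 1105 (cons (fin 914 6 913)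
(mv 1165 (cons (fin 1166 2 1101)
(mv 1170 (cons (fin 1234 4 977)
(mv 1171 (cons (fin 1103 3 1103)
(fin 1172 3 1104)))))))))))))))))
(cons (mv 1167 (cons (fin 1231 5 975)
(mv 912 (cons (fin 1103 5 911)
(mv 848 (cons (fin 784 4 784)
(fin 1105 4 848)))))))
(mv 911 (cons (fin 975 7 911)
(mv 847 (cons (fin 912 7 847)
(mv 1169 (cons (fin 1233 4 976)
(mv 1105 (cons (fin 914 6 913)
(mv 1170 (cons (fin 1234 4 977)
(mv 1171 (cons (fin 1103 3 1103)
(fin 1172 3 1104)))))))))))))))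
(cons (mv 911 (cons (fin 975 7 911)
(mv 1167 (cons (fin 1231 5 975)
(mv 1169 (cons (fin 1233 4 976)
(mv 1105 (cons (fin 914 6 913)
(mv 1165 (cons (fin 1166 2 1101)
(mv 1170 (cons (fin 1234 4 977)
(mv 1171 (cons (fin 1103 3 1103)
(fin 1172 3 1104)))))))))))))))
(cons (mv 911 (cons (fin 975 7 911)
(mv 912 (cons (fin 847 7 847)
(mv 848 (cons (fin 1103 5 847)
(fin 784 4 784)))))))
(mv 911 (cons (fin 975 7 911)
(mv 912 (cons (fin 847 7 847)
(mv 848 (cons (fin 784 4 784)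
(fin 1105 4 848)))))))))))))
(cons (mv 913 (cons (fin 849 5 848)
(mv 1168 (cons (fin 976 6 912)
(fin 1232 6 976)))))
(mv 913 (cons (fin 849 5 848)
(mv 1168 (cons (fin 1105 5 912)
(fin 1232 6 976)))))))))))
(mv 977 (cons (fin 1038 2 974)
(mv 979 (cons (fin 980 1 976)
(fin 1042 2 975))))))))
(mv 1104 (cons (cons (mv 1103 (cons (mv 1042 (cons (fin 1102 1 1038)
(fin 1043 1 1039)))
(cons (mv 1042 (cons (fin 1043 1 1039)
(mv 978 (cons (fin 979 2 975)
(mv 976 (cons (mv 912 (cons (fin 848 5 847)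
(fin 1167 5 911)))
(cons (mv 1167 (cons (fin 1231 6 975)
(mv 1168 (cons (mv 975 (cons (fin 911 7 911)
(fin 1232 7 975)))
(cons (mv 1232 (cons (fin 1296 7 1039)
(mv 1233 (cons (fin 1169 4 976)
(fin 1297 4 1040)))))
(mv 975 (cons (fin 911 7 911)
(mv 1166 (cons (fin 1230 5 974)
(mv 1165 (cons (fin 1164 2 1100)
(fin 1105 2 1101))))))))))))
(mv 912 (cons (fin 848 5 847)
(mv 847 (cons (fin 911 7 847)
(mv 849 (cons (fin 913 6 848)
(mv 1169 (cons (fin 1105 4 912)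
(mv 1168 (cons (fin 1233 4 976)
(mv 1232 (cons (fin 975 7 975)
(fin 1296 7 1039))))))))))))))))))))
(mv 1101 (cons (fin 1102 2 1037)
(mv 976 (cons (mv 912 (cons (fin 848 5 847)
(fin 1167 5 911)))
(cons (mv 1167 (cons (fin 1231 6 975)
(mv 1168 (cons (mv 975 (cons (fin 911 7 911)
(fin 1232 7 975)))
(cons (mv 1232 (cons (fin 1296 7 1039)
(mv 1233 (cons (fin 1169 4 976)
(fin 1297 4 1040)))))
(mv 975 (cons (fin 911 7 911)
(mv 1166 (cons (fin 1230 5 974)
(mv 1165 (cons (fin 1100 3 1100)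
(fin 1164 2 1100))))))))))))
(mv 912 (cons (fin 848 5 847)
(mv 847 (cons (fin 911 7 847)
(mv 849 (cons (fin 913 6 848)
(mv 1169 (cons (fin 1105 4 912)
(mv 1168 (cons (fin 1233 4 976)
(mv 1232 (cons (fin 975 7 975)
(fin 1296 7 1039)))))))))))))))))))))
(cons (mv 1168 (cons (cons (mv 975 (cons (fin 1232 7 975)
(mv 911 (cons (fin 976 7 911)
(fin 847 4 847)))))
(mv 976 (cons (cons (mv 911 (cons (fin 975 7 911)
(mv 912 (cons (fin 847 7 847)
(mv 1105 (cons (fin 848 4 848)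
(fin 1169 4 912)))))))
(cons (mv 1167 (cons (fin 1231 5 975)
(mv 1169 (cons (fin 1233 4 976)
(mv 912 (cons (fin 1105 4 912)
(mv 847 (cons (fin 911 7 847)
(mv 848 (cons (fin 783 7 783)
(mv 849 (cons (fin 785 6 784)
(fin 913 6 848)))))))))))))
(mv 911 (cons (fin 975 7 911)
(mv 912 (cons (fin 847 7 847)
(mv 848 (cons (fin 1105 4 848)
(mv 849 (cons (fin 785 6 784)
(fin 913 6 848)))))))))))
(cons (mv 1167 (cons (fin 1231 5 975)
(mv 1169 (cons (fin 1233 4 976)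
(mv 912 (cons (fin 1105 4 912)
(mv 849 (cons (fin 913 6 848)
(mv 848 (cons (fin 785 6 784)
(mv 783 (cons (fin 847 7 783)
(mv 784 (cons (fin 719 7 719)
(fin 975 5 783)))))))))))))))
(cons (mv 975 (cons (fin 911 7 911)
(mv 1042 (cons (fin 1043 3 975)
(mv 978 (cons (fin 979 2 975)
(mv 1167 (cons (fin 1231 5 975)
(mv 1169 (cons (fin 1233 4 976)
(mv 1166 (cons (cons (mv 1101 (cons (fin 1102 3 1101)
(mv 1165 (cons (fin 1100 3 1100)
(fin 1105 2 1101)))))
(mv 1102 (cons (fin 1101 3 1101)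
(mv 1230 (cons (fin 1229 1 1165)
(fin 1038 6 974))))))
(cons (mv 1105 (cons (fin 1165 2 1101)
(mv 850 (cons (fin 914 5 849)
(mv 1038 (cons (fin 1037 0 1037)
(mv 1230 (cons (fin 1229 1 1165)
(fin 1102 6 974)))))))))
(mv 1165 (cons (fin 1105 2 1101)
(mv 1229 (cons (fin 1228 1 1164)
(fin 1230 1 1165))))))))))))))))))
(mv 1167 (cons (fin 1231 5 975)
(mv 1169 (cons (fin 1233 4 976)
(mv 912 (cons (cons (mv 911 (cons (fin 847 7 847)
(fin 975 7 911)))
(mv 849 (cons (fin 913 6 848)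
(mv 848 (cons (fin 785 6 784)
(mv 783 (cons (fin 847 7 783)
(mv 784 (cons (fin 719 7 719)
(fin 975 5 783))))))))))
(cons (mv 847 (cons (fin 911 7 847)
(mv 848 (cons (fin 783 7 783)
(mv 849 (cons (fin 785 6 784)
(fin 913 6 848)))))))
(mv 849 (cons (fin 913 6 848)
(mv 848 (cons (fin 785 6 784)
(mv 975 (cons (fin 911 7 911)
(fin 784 5 783)))))))))))))))))))
(cons (mv 1232 (cons (cons (mv 1105 (cons (fin 1296 6 1040)
(mv 1037 (cons (fin 1038 0 1037)
(mv 1231 (cons (fin 1295 5 1039)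
(mv 976 (cons (fin 1167 5 975)
(mv 912 (cons (fin 848 4 848)
(fin 1169 4 912)))))))))))
(mv 1231 (cons (fin 1295 5 1039)
(mv 976 (cons (fin 1167 5 975)
(mv 1233 (cons (fin 1169 4 976)
(fin 1297 4 1040))))))))
(cons (mv 1105 (cons (fin 1296 6 1040)
(mv 1037 (cons (fin 1038 0 1037)
(mv 1233 (cons (fin 1297 4 1040)
(mv 1169 (cons (fin 976 7 976)
(mv 978 (cons (fin 1042 6 977)
(mv 1234 (cons (fin 1298 4 1041)
(mv 1167 (cons (fin 1235 3 1167)
(fin 1166 0 1166)))))))))))))))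
(mv 1231 (cons (fin 1295 5 1039)
(mv 1296 (cons (fin 1105 6 1040)
(mv 1297 (cons (fin 1233 4 1040)
(fin 1361 4 1104))))))))))
(mv 1232 (cons (fin 975 7 975)
(mv 1231 (cons (fin 1295 5 1039)
(mv 1296 (cons (fin 1105 6 1040)
(mv 1297 (cons (fin 1233 4 1040)
(fin 1361 4 1104))))))))))))
(mv 1038 (cons (cons (mv 1037 (cons (fin 1105 0 1037)
(mv 1101 (cons (fin 1100 1 1036)
(fin 1102 1 1037)))))
(mv 1102 (cons (fin 1101 1 1037)
(mv 975 (cons (cons (mv 911 (cons (fin 847 5 846)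
(mv 1103 (cons (fin 1166 5 910)
(fin 1168 4 911)))))
(mv 1166 (cons (fin 1230 6 974)
(mv 1168 (cons (fin 1232 7 975)
(mv 1167 (cons (cons (mv 976 (cons (fin 1231 5 975)
(mv 912 (cons (fin 1103 5 911)
(mv 848 (cons (fin 784 5 783)
(fin 1105 4 848)))))))
(mv 1165 (cons (fin 1105 2 1101)
(mv 1103 (cons (fin 1164 2 1100)
(mv 976 (cons (fin 912 5 911)
(mv 1169 (cons (fin 1170 3 1102)
(fin 1233 4 976))))))))))
(cons (mv 1165 (cons (fin 1105 2 1101)
(mv 1164 (cons (fin 1103 2 1100)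
(mv 1228 (cons (fin 1227 1 1163)
(fin 1229 1 1164)))))))
(cons (mv 976 (cons (fin 1231 5 975)
(mv 912 (cons (fin 1103 5 911)
(mv 848 (cons (fin 784 5 783)
(mv 849 (cons (fin 785 6 784)
(fin 913 6 848)))))))))
(mv 976 (cons (fin 1231 5 975)
(mv 1105 (cons (fin 1165 2 1101)
(mv 912 (cons (fin 848 4 848)
(fin 1169 4 912))))))))))))))))
(cons (mv 911 (cons (fin 847 5 846)
(mv 1166 (cons (fin 1103 5 910)
(fin 1230 6 974)))))
(mv 911 (cons (fin 847 5 846)
(mv 1168 (cons (fin 976 7 911)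
(fin 1232 7 975)))))))))))
(cons (mv 1037 (cons (fin 1105 0 1037)
(mv 972 (cons (fin 973 3 972)
(mv 1036 (cons (fin 971 3 971)
(fin 1103 0 1036)))))))
(mv 1101 (cons (fin 1102 1 1037)
(mv 1037 (cons (fin 1100 1 1036)
(mv 972 (cons (fin 973 3 972)
(mv 1036 (cons (fin 971 3 971)
(fin 1103 0 1036))))))))))))))
(cons (cons (mv 1042 (cons (cons (mv 978 (cons (fin 979 2 975)
(mv 1043 (cons (fin 1103 1 1039)
(mv 975 (cons (fin 976 3 975)
(mv 847 (cons (fin 911 4 847)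
(mv 1044 (cons (fin 1105 1 1040)
(mv 1108 (cons (fin 1107 0 1040)
(fin 1109 0 1041)))))))))))))
(cons (mv 978 (cons (fin 979 2 975)
(mv 1168 (cons (cons (mv 975 (cons (fin 1232 7 975)
(mv 911 (cons (fin 976 7 911)
(fin 847 4 847)))))
(mv 976 (cons (cons (mv 911 (cons (fin 975 7 911)
(mv 912 (cons (fin 847 7 847)
(mv 848 (cons (fin 1103 5 847)
(fin 1105 4 848)))))))
(mv 1167 (cons (fin 1231 5 975)
(mv 912 (cons (fin 1103 5 911)
(mv 1105 (cons (fin 848 4 848)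
(fin 1169 4 912))))))))
(cons (mv 975 (cons (fin 911 7 911)
(mv 1167 (cons (fin 1231 5 975)
(mv 1169 (cons (fin 1233 4 976)
(mv 1166 (cons (mv 1230 (cons (fin 1229 1 1165)
(fin 1103 5 974)))
(cons (mv 1165 (cons (fin 1105 2 1101)
(mv 1100 (cons (fin 1101 3 1100)
(mv 1164 (cons (fin 1099 3 1099)
(fin 1103 2 1100)))))))
(mv 1165 (cons (fin 1105 2 1101)
(mv 1229 (cons (fin 1228 1 1164)
(fin 1230 1 1165))))))))))))))
(cons (mv 911 (cons (fin 975 7 911)
(mv 912 (cons (fin 847 7 847)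
(mv 1103 (cons (fin 848 5 847)
(fin 1167 5 911)))))))
(mv 911 (cons (fin 975 7 911)
(mv 912 (cons (fin 847 7 847)
(mv 1105 (cons (fin 848 4 848)
(fin 1169 4 912))))))))))))
(cons (mv 1232 (cons (mv 1296 (cons (fin 1103 7 1039)
(fin 1105 6 1040)))
(mv 1231 (cons (fin 1295 5 1039)
(mv 976 (cons (fin 1167 5 975)
(mv 1233 (cons (fin 1169 4 976)
(fin 1297 4 1040)))))))))
(mv 975 (cons (fin 1232 7 975)
(mv 911 (cons (fin 847 4 847)
(fin 1103 4 911))))))))))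
(mv 1043 (cons (fin 1103 1 1039)
(mv 975 (cons (fin 976 3 975)
(mv 847 (cons (fin 911 4 847)
(mv 1044 (cons (fin 1105 1 1040)
(mv 1108 (cons (fin 1107 0 1040)
(fin 1109 0 1041)))))))))))))
(cons (mv 978 (cons (fin 979 2 975)
(mv 976 (cons (mv 975 (cons (fin 1043 3 975)
(mv 911 (cons (fin 1168 7 911)
(fin 847 4 847)))))
(cons (mv 1168 (cons (cons (mv 1167 (cons (fin 1231 5 975)
(mv 1169 (cons (fin 1233 4 976)
(mv 912 (cons (fin 1105 4 912)
(mv 847 (cons (fin 911 7 847)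
(mv 848 (cons (fin 783 7 783)
(mv 849 (cons (fin 785 6 784)
(fin 913 6 848)))))))))))))
(mv 1231 (cons (fin 1167 5 975)
(mv 1232 (cons (fin 1295 5 1039)
(mv 1296 (cons (fin 1105 6 1040)
(mv 1297 (cons (fin 1233 4 1040)
(fin 1361 4 1104))))))))))
(cons (mv 1231 (cons (fin 1167 5 975)
(mv 1232 (cons (fin 1295 5 1039)
(mv 1105 (cons (fin 1296 6 1040)
(mv 912 (cons (fin 848 4 848)
(fin 1169 4 912)))))))))
(cons (mv 1169 (cons (fin 1233 4 976)
(mv 912 (cons (fin 1105 4 912)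
(mv 847 (cons (fin 911 7 847)
(mv 848 (cons (fin 783 7 783)
(mv 849 (cons (fin 785 6 784)
(fin 913 6 848)))))))))))
(mv 1231 (cons (fin 1167 5 975)
(mv 1232 (cons (fin 1295 5 1039)
(mv 1233 (cons (fin 1169 4 976)
(fin 1297 4 1040)))))))))))
(mv 1043 (cons (fin 975 3 975)
(mv 1044 (cons (fin 1105 1 1040)
(mv 1108 (cons (fin 1107 0 1040)
(fin 1109 0 1041))))))))))))
(cons (mv 978 (cons (fin 979 2 975)
(mv 1043 (cons (fin 1103 1 1039)
(mv 1044 (cons (fin 1105 1 1040)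
(mv 1108 (cons (fin 1107 0 1040)
(fin 1109 0 1041)))))))))
(mv 978 (cons (fin 979 2 975)
(mv 975 (cons (mv 1043 (cons (fin 976 3 975)
(fin 1103 1 1039)))
(cons (mv 911 (cons (fin 847 4 847)
(mv 1168 (cons (fin 976 7 911)
(fin 1232 7 975)))))
(mv 911 (cons (fin 847 4 847)
(mv 1103 (cons (fin 1043 1 1039)
(fin 1168 4 911))))))))))))))
(mv 1042 (cons (mv 1103 (cons (fin 1102 1 1038)
(fin 1043 1 1039)))
(cons (mv 979 (cons (fin 978 2 975)
(mv 1043 (cons (fin 980 2 976)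
(mv 1044 (cons (fin 1105 1 1040)
(mv 1108 (cons (fin 1107 0 1040)
(fin 1109 0 1041)))))))))
(mv 978 (cons (fin 979 2 975)
(mv 1038 (cons (mv 1102 (cons (fin 1101 1 1037)
(fin 1103 1 1038)))
(cons (mv 1037 (cons (fin 1105 0 1037)
(mv 972 (cons (fin 973 3 972)
(mv 1036 (cons (fin 971 3 971)
(fin 1103 0 1036)))))))
(mv 1037 (cons (fin 1105 0 1037)
(mv 1101 (cons (fin 1100 1 1036)
(fin 1102 1 1037))))))))))))))
(cons (mv 1042 (cons (mv 1103 (cons (fin 1102 1 1038)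
(fin 1043 1 1039)))
(cons (mv 979 (cons (fin 978 2 975)
(mv 1043 (cons (fin 980 2 976)
(mv 975 (cons (fin 976 3 975)
(mv 847 (cons (fin 911 4 847)
(mv 1044 (cons (fin 1105 1 1040)
(mv 1108 (cons (fin 1107 0 1040)
(fin 1109 0 1041)))))))))))))
(mv 978 (cons (fin 979 2 975)
(mv 1103 (cons (fin 1102 1 1038)
(mv 976 (cons (mv 912 (cons (fin 848 5 847)
(fin 1167 5 911)))
(cons (mv 1167 (cons (fin 1231 6 975)
(mv 1168 (cons (mv 975 (cons (fin 911 7 911)
(fin 1232 7 975)))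
(cons (mv 1232 (cons (fin 1296 7 1039)
(mv 1233 (cons (fin 1169 4 976)
(fin 1297 4 1040)))))
(mv 975 (cons (fin 911 7 911)
(mv 1166 (cons (fin 1230 5 974)
(mv 1165 (cons (fin 1164 2 1100)
(fin 1105 2 1101))))))))))))
(mv 912 (cons (fin 848 5 847)
(mv 847 (cons (fin 911 7 847)
(mv 849 (cons (fin 913 6 848)
(mv 1169 (cons (fin 1105 4 912)
(mv 1168 (cons (fin 1233 4 976)
(mv 1232 (cons (fin 975 7 975)
(fin 1296 7 1039)))))))))))))))))))))))
(mv 1168 (cons (cons (mv 975 (cons (fin 1232 7 975)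
(mv 911 (cons (fin 976 7 911)
(fin 847 4 847)))))
(mv 976 (cons (cons (mv 911 (cons (fin 975 7 911)
(mv 912 (cons (fin 847 7 847)
(mv 1103 (cons (fin 848 5 847)
(fin 1167 5 911)))))))
(cons (mv 1167 (cons (fin 1231 5 975)
(mv 912 (cons (fin 1103 5 911)
(mv 847 (cons (fin 911 7 847)
(mv 848 (cons (fin 783 7 783)
(mv 849 (cons (fin 785 6 784)
(fin 913 6 848)))))))))))
(mv 1167 (cons (fin 1231 5 975)
(mv 912 (cons (fin 1103 5 911)
(mv 849 (cons (fin 913 6 848)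
(mv 848 (cons (fin 785 6 784)
(mv 783 (cons (fin 847 7 783)
(mv 784 (cons (fin 719 7 719)
(fin 975 5 783)))))))))))))))
(cons (mv 911 (cons (fin 975 7 911)
(mv 912 (cons (fin 847 7 847)
(mv 848 (cons (fin 1103 5 847)
(mv 849 (cons (fin 785 6 784)
(fin 913 6 848)))))))))
(cons (mv 1167 (cons (fin 1231 5 975)
(mv 1169 (cons (fin 1233 4 976)
(mv 912 (cons (cons (mv 911 (cons (fin 847 7 847)
(fin 975 7 911)))
(mv 849 (cons (fin 913 6 848)
(mv 848 (cons (fin 785 6 784)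
(mv 783 (cons (fin 847 7 783)
(mv 784 (cons (fin 719 7 719)
(fin 975 5 783))))))))))
(cons (mv 847 (cons (fin 911 7 847)
(mv 848 (cons (fin 783 7 783)
(mv 849 (cons (fin 785 6 784)
(fin 913 6 848)))))))
(mv 849 (cons (fin 913 6 848)
(mv 848 (cons (fin 785 6 784)
(mv 975 (cons (fin 911 7 911)
(fin 784 5 783))))))))))))))
(mv 975 (cons (fin 911 7 911)
(mv 1042 (cons (fin 1043 3 975)
(mv 978 (cons (fin 979 2 975)
(mv 1102 (cons (fin 1103 1 1038)
(mv 1101 (cons (fin 1038 1 1037)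
(mv 1167 (cons (fin 1231 5 975)
(mv 1169 (cons (fin 1166 3 1101)
(fin 1233 4 976))))))))))))))))))))
(cons (mv 1103 (cons (mv 1042 (cons (fin 1102 1 1038)
(fin 1043 1 1039)))
(cons (mv 1042 (cons (fin 1043 1 1039)
(mv 978 (cons (fin 979 2 975)
(mv 1232 (cons (fin 1296 7 1039)
(mv 1231 (cons (fin 1295 5 1039)
(mv 976 (cons (fin 1167 5 975)
(mv 1233 (cons (fin 1169 4 976)
(fin 1297 4 1040)))))))))))))
(mv 1101 (cons (fin 1102 2 1037)
(mv 1232 (cons (fin 1296 7 1039)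
(mv 1231 (cons (fin 1295 5 1039)
(mv 976 (cons (fin 1167 5 975)
(mv 1233 (cons (fin 1169 4 976)
(fin 1297 4 1040))))))))))))))
(mv 975 (cons (fin 1232 7 975)
(mv 911 (cons (fin 847 4 847)
(fin 1103 4 911)))))))))))))))
(cons (cons (mv 976 (cons (cons (mv 977 (cons (mv 978 (cons (fin 979 1 975)
(fin 1038 2 974)))
(cons (mv 1038 (cons (fin 1037 2 973)
(mv 1101 (cons (fin 1102 1 1037)
(mv 1104 (cons (mv 913 (cons (fin 849 5 848)
(fin 1168 6 912)))
(cons (mv 913 (cons (fin 849 5 848)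
(mv 912 (cons (mv 848 (cons (fin 1105 7 848)
(fin 784 4 784)))
(cons (mv 847 (cons (fin 911 7 847)
(mv 848 (cons (fin 783 7 783)
(fin 784 4 784)))))
(mv 847 (cons (fin 911 7 847)
(mv 1105 (cons (fin 1169 7 912)
(mv 914 (cons (fin 850 6 849)
(mv 915 (cons (fin 975 1 911)
(fin 916 1 912))))))))))))))
(mv 1168 (cons (fin 1232 6 976)
(mv 911 (cons (fin 975 7 911)
(mv 912 (cons (fin 847 7 847)
(mv 848 (cons (fin 784 4 784)
(fin 1105 4 848))))))))))))))))
(mv 978 (cons (fin 979 1 975)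
(mv 1105 (cons (mv 912 (cons (fin 1169 7 912)
(fin 848 4 848)))
(cons (mv 848 (cons (fin 912 4 848)
(mv 913 (cons (mv 849 (cons (fin 784 7 784)
(fin 785 5 784)))
(mv 914 (cons (fin 850 6 849)
(mv 915 (cons (fin 916 1 912)
(fin 975 2 911)))))))))
(mv 1169 (cons (fin 1233 7 976)
(fin 914 6 913)))))))))))
(cons (mv 912 (cons (cons (mv 848 (cons (fin 1105 4 848)
(mv 783 (cons (fin 847 7 783)
(mv 784 (cons (fin 719 7 719)
(fin 975 5 783)))))))
(mv 1104 (cons (cons (mv 847 (cons (fin 911 7 847)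
(mv 849 (cons (fin 913 6 848)
(mv 1169 (cons (fin 1105 4 912)
(mv 1168 (cons (fin 1233 4 976)
(mv 1231 (cons (fin 1167 5 975)
(mv 1232 (cons (fin 975 7 975)
(fin 1295 5 1039)))))))))))))
(cons (mv 849 (cons (fin 913 6 848)
(mv 911 (cons (fin 847 7 847)
(mv 1168 (cons (fin 975 7 911)
(mv 1231 (cons (fin 1167 5 975)
(mv 1232 (cons (fin 1295 5 1039)
(mv 1233 (cons (fin 1169 4 976)
(fin 1297 4 1040)))))))))))))
(mv 849 (cons (fin 913 6 848)
(mv 1169 (cons (fin 1105 4 912)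
(mv 1168 (cons (fin 1233 4 976)
(mv 1231 (cons (fin 1167 5 975)
(mv 1232 (cons (fin 975 7 975)
(fin 1295 5 1039)))))))))))))
(cons (cons (mv 849 (cons (fin 913 6 848)
(mv 911 (cons (fin 847 7 847)
(mv 1168 (cons (fin 975 7 911)
(mv 1231 (cons (fin 1167 5 975)
(mv 1232 (cons (fin 1295 5 1039)
(mv 1296 (cons (fin 1105 6 1040)
(mv 1297 (cons (fin 1233 4 1040)
(fin 1361 4 1104)))))))))))))))
(mv 847 (cons (fin 911 7 847)
(mv 1169 (cons (fin 1105 4 912)
(mv 1168 (cons (fin 1233 4 976)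
(mv 1231 (cons (fin 1167 5 975)
(mv 1232 (cons (fin 975 7 975)
(fin 1295 5 1039))))))))))))
(cons (mv 911 (cons (fin 847 7 847)
(mv 913 (cons (fin 849 6 848)
(mv 1105 (cons (fin 1169 4 912)
(mv 1037 (cons (fin 1038 0 1037)
(mv 914 (cons (cons (mv 850 (cons (fin 851 2 847)
(mv 978 (cons (fin 979 0 911)
(fin 1042 5 849)))))
(mv 850 (cons (fin 851 2 847)
(mv 975 (cons (fin 915 1 911)
(mv 1042 (cons (fin 1043 3 975)
(fin 978 5 849))))))))
(cons (mv 851 (cons (fin 850 2 847)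
(mv 915 (cons (fin 975 1 911)
(fin 852 2 848)))))
(mv 915 (cons (fin 975 1 911)
(mv 979 (cons (fin 978 0 911)
(fin 980 0 912))))))))))))))))
(mv 847 (cons (fin 911 7 847)
(mv 849 (cons (fin 913 6 848)
(mv 1168 (cons (cons (mv 1169 (cons (fin 1105 4 912)
(fin 1233 4 976)))
(mv 1231 (cons (fin 1167 5 975)
(mv 1232 (cons (fin 1295 5 1039)
(mv 1296 (cons (fin 1105 6 1040)
(mv 1297 (cons (fin 1233 4 1040)
(fin 1361 4 1104))))))))))
(cons (mv 1231 (cons (fin 1167 5 975)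
(mv 1232 (cons (fin 1295 5 1039)
(mv 1233 (cons (fin 1169 4 976)
(fin 1297 4 1040)))))))
(mv 1105 (cons (fin 1169 4 912)
(mv 1037 (cons (fin 1038 0 1037)
(mv 1231 (cons (fin 1167 5 975)
(mv 1232 (cons (fin 1295 5 1039)
(fin 1296 6 1040)))))))))))))))))))))
(cons (mv 848 (cons (mv 783 (cons (fin 847 7 783)
(mv 784 (cons (fin 719 7 719)
(fin 975 5 783)))))
(cons (mv 847 (cons (fin 783 7 783)
(mv 849 (cons (fin 785 6 784)
(mv 1104 (cons (fin 911 7 847)
(fin 913 6 848)))))))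
(mv 784 (cons (fin 975 5 783)
(mv 785 (cons (fin 721 6 720)
(fin 849 6 784))))))))
(cons (mv 848 (cons (fin 1105 4 848)
(mv 783 (cons (fin 847 7 783)
(mv 784 (cons (fin 719 7 719)
(mv 785 (cons (fin 721 6 720)
(fin 849 6 784)))))))))
(mv 848 (cons (fin 1105 4 848)
(mv 784 (cons (fin 975 5 783)
(mv 785 (cons (fin 721 6 720)
(fin 849 6 784)))))))))))
(mv 1042 (cons (cons (mv 978 (cons (fin 979 2 975)
(mv 1043 (cons (fin 975 3 975)
(mv 977 (cons (fin 1044 3 976)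
(mv 1107 (cons (fin 1108 0 1040)
(mv 914 (cons (fin 850 4 850)
(mv 1105 (cons (fin 1169 6 913)
(mv 1171 (cons (fin 1235 7 978)
(mv 913 (cons (mv 849 (cons (fin 785 5 784)
(fin 1104 5 848)))
(cons (mv 912 (cons (fin 848 7 848)
(mv 911 (cons (fin 910 0 910)
(mv 847 (cons (fin 846 3 846)
(fin 1104 7 847)))))))
(mv 848 (cons (fin 912 7 848)
(mv 849 (cons (fin 784 7 784)
(fin 785 5 784))))))))))))))))))))))
(mv 978 (cons (fin 979 2 975)
(mv 1105 (cons (cons (mv 848 (cons (fin 912 4 848)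
(mv 914 (cons (fin 850 5 849)
(mv 1169 (cons (fin 1233 7 976)
(fin 977 6 913)))))))
(mv 850 (cons (fin 914 5 849)
(mv 912 (cons (fin 848 4 848)
(mv 1104 (cons (cons (mv 847 (cons (fin 911 7 847)
(mv 913 (cons (fin 849 6 848)
(mv 1168 (cons (fin 977 5 912)
(mv 1232 (cons (fin 975 7 975)
(fin 1296 6 1040)))))))))
(cons (mv 911 (cons (fin 847 7 847)
(mv 1168 (cons (fin 975 7 911)
(mv 1232 (cons (fin 977 6 976)
(fin 1296 6 1040)))))))
(mv 913 (cons (fin 849 6 848)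
(mv 1168 (cons (fin 977 5 912)
(mv 1232 (cons (fin 975 7 975)
(fin 1296 6 1040)))))))))
(cons (mv 911 (cons (fin 847 7 847)
(mv 913 (cons (fin 849 6 848)
(mv 910 (cons (fin 977 0 910)
(mv 845 (cons (fin 846 3 845)
(mv 909 (cons (fin 844 3 844)
(mv 908 (cons (fin 975 0 908)
(mv 972 (cons (fin 971 1 907)
(fin 973 1 908)))))))))))))))
(cons (mv 849 (cons (fin 913 6 848)
(mv 911 (cons (fin 847 7 847)
(mv 1168 (cons (fin 975 7 911)
(mv 1231 (cons (fin 1167 5 975)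
(mv 1232 (cons (fin 1295 5 1039)
(fin 1296 6 1040)))))))))))
(mv 847 (cons (fin 911 7 847)
(mv 913 (cons (fin 849 6 848)
(mv 1168 (cons (fin 977 5 912)
(mv 1231 (cons (fin 1167 5 975)
(mv 1232 (cons (fin 1295 5 1039)
(fin 1296 6 1040))))))))))))))))))))
(cons (mv 914 (cons (fin 850 5 849)
(mv 1169 (cons (fin 1233 7 976)
(fin 977 6 913)))))
(cons (mv 912 (cons (fin 848 4 848)
(mv 1169 (cons (fin 977 7 912)
(fin 1233 7 976)))))
(mv 850 (cons (fin 914 5 849)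
(mv 912 (cons (fin 848 4 848)
(mv 1169 (cons (fin 1233 7 976)
(fin 1104 4 912))))))))))))))
(cons (mv 1043 (cons (fin 975 3 975)
(mv 1044 (cons (fin 977 3 976)
(mv 1108 (cons (fin 1107 0 1040)
(fin 1109 0 1041)))))))
(cons (mv 979 (cons (fin 978 2 975)
(mv 1043 (cons (fin 980 2 976)
(mv 1044 (cons (fin 977 3 976)
(mv 1108 (cons (fin 1107 0 1040)
(fin 1109 0 1041)))))))))
(mv 979 (cons (fin 978 2 975)
(mv 1043 (cons (fin 975 3 975)
(fin 980 2 976)))))))))))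
(cons (cons (mv 912 (cons (cons (mv 848 (cons (fin 1105 4 848)
(mv 784 (cons (fin 975 5 783)
(fin 977 4 784)))))
(mv 1104 (cons (cons (cons (mv 847 (cons (fin 911 7 847)
(mv 849 (cons (fin 913 6 848)
(mv 1169 (cons (fin 1105 4 912)
(mv 1168 (cons (fin 1233 4 976)
(mv 1232 (cons (fin 975 7 975)
(fin 977 6 976)))))))))))
(mv 847 (cons (fin 911 7 847)
(mv 913 (cons (fin 849 6 848)
(mv 1168 (cons (fin 977 6 912)
(mv 1167 (cons (fin 1231 5 975)
(mv 1232 (cons (fin 975 7 975)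
(mv 1233 (cons (fin 1169 4 976)
(fin 1297 4 1040))))))))))))))
(cons (mv 847 (cons (fin 911 7 847)
(mv 913 (cons (fin 849 6 848)
(mv 1168 (cons (fin 977 6 912)
(mv 1167 (cons (fin 1231 5 975)
(mv 1232 (cons (fin 975 7 975)
(mv 1296 (cons (fin 1105 6 1040)
(mv 1297 (cons (fin 1233 4 1040)
(fin 1361 4 1104)))))))))))))))
(mv 847 (cons (fin 911 7 847)
(mv 1169 (cons (fin 1105 4 912)
(mv 1168 (cons (fin 1233 4 976)
(mv 1232 (cons (fin 975 7 975)
(fin 977 6 976)))))))))))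
(cons (cons (mv 849 (cons (fin 913 6 848)
(mv 1169 (cons (fin 1105 4 912)
(mv 1168 (cons (fin 1233 4 976)
(mv 1232 (cons (fin 975 7 975)
(fin 977 6 976)))))))))
(mv 911 (cons (fin 847 7 847)
(mv 913 (cons (fin 849 6 848)
(mv 1105 (cons (fin 1169 4 912)
(mv 1037 (cons (fin 1038 0 1037)
(mv 914 (cons (cons (mv 850 (cons (fin 851 2 847)
(fin 977 6 849)))
(mv 915 (cons (fin 975 1 911)
(mv 851 (cons (fin 852 2 848)
(mv 916 (cons (fin 977 1 912)
(mv 980 (cons (fin 979 0 912)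
(fin 981 0 913))))))))))
(cons (mv 851 (cons (fin 850 2 847)
(mv 915 (cons (fin 975 1 911)
(fin 852 2 848)))))
(mv 915 (cons (fin 975 1 911)
(mv 977 (cons (fin 916 1 912)
(fin 850 6 849)))))))))))))))))
(cons (mv 847 (cons (fin 911 7 847)
(mv 849 (cons (fin 913 6 848)
(mv 1169 (cons (fin 1105 4 912)
(mv 1168 (cons (fin 1233 4 976)
(mv 1231 (cons (fin 1167 5 975)
(mv 1232 (cons (fin 975 7 975)
(fin 1295 5 1039)))))))))))))
(mv 847 (cons (fin 911 7 847)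
(mv 849 (cons (fin 913 6 848)
(mv 1169 (cons (fin 1105 4 912)
(mv 1168 (cons (fin 1233 4 976)
(mv 1231 (cons (fin 1167 5 975)
(mv 1232 (cons (fin 1295 5 1039)
(fin 977 6 976))))))))))))))))))
(cons (mv 848 (cons (mv 784 (cons (fin 975 5 783)
(fin 977 4 784)))
(mv 847 (cons (fin 783 7 783)
(mv 849 (cons (fin 785 6 784)
(mv 1104 (cons (fin 911 7 847)
(fin 913 6 848)))))))))
(cons (mv 848 (cons (fin 1105 4 848)
(mv 783 (cons (fin 847 7 783)
(mv 784 (cons (fin 719 7 719)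
(fin 975 5 783)))))))
(mv 848 (cons (fin 1105 4 848)
(mv 783 (cons (fin 847 7 783)
(mv 784 (cons (fin 719 7 719)
(fin 977 4 784)))))))))))
(mv 1038 (cons (mv 977 (cons (fin 1037 2 973)
(fin 978 2 974)))
(cons (mv 1101 (cons (fin 1102 1 1037)
(mv 1037 (cons (fin 1100 1 1036)
(mv 972 (cons (fin 973 3 972)
(mv 1036 (cons (fin 971 3 971)
(fin 975 2 972)))))))))
(mv 1101 (cons (fin 1102 1 1037)
(mv 1042 (cons (cons (mv 978 (cons (fin 977 2 974)
(fin 979 2 975)))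
(mv 1043 (cons (fin 975 3 975)
(mv 979 (cons (fin 980 2 976)
(mv 1044 (cons (fin 977 3 976)
(mv 1108 (cons (fin 1107 0 1040)
(fin 1109 0 1041))))))))))
(cons (mv 979 (cons (fin 978 2 975)
(mv 1043 (cons (fin 975 3 975)
(fin 980 2 976)))))
(mv 977 (cons (fin 978 2 974)
(mv 1043 (cons (fin 975 3 975)
(fin 1044 3 976))))))))))))))
(cons (mv 1038 (cons (mv 977 (cons (fin 1037 2 973)
(fin 978 2 974)))
(cons (mv 1101 (cons (fin 1102 1 1037)
(mv 1037 (cons (fin 1100 1 1036)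
(mv 972 (cons (fin 973 3 972)
(mv 1036 (cons (fin 971 3 971)
(fin 975 2 972)))))))))
(mv 977 (cons (fin 978 2 974)
(mv 1101 (cons (fin 1102 1 1037)
(mv 1104 (cons (mv 913 (cons (fin 849 5 848)
(fin 1168 6 912)))
(cons (mv 913 (cons (fin 849 5 848)
(mv 912 (cons (mv 848 (cons (fin 1105 7 848)
(fin 784 4 784)))
(cons (mv 847 (cons (fin 911 7 847)
(mv 848 (cons (fin 783 7 783)
(fin 784 4 784)))))
(mv 847 (cons (fin 911 7 847)
(mv 1105 (cons (fin 1169 7 912)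
(mv 914 (cons (fin 850 6 849)
(mv 915 (cons (fin 975 1 911)
(fin 916 1 912))))))))))))))
(mv 1168 (cons (fin 1232 6 976)
(mv 911 (cons (fin 975 7 911)
(mv 912 (cons (fin 847 7 847)
(mv 848 (cons (fin 784 4 784)
(fin 1105 4 848)))))))))))))))))))
(mv 912 (cons (cons (mv 848 (cons (fin 1105 4 848)
(mv 783 (cons (fin 847 7 783)
(mv 784 (cons (fin 719 7 719)
(fin 977 4 784)))))))
(mv 1104 (cons (cons (mv 847 (cons (fin 911 7 847)
(mv 849 (cons (fin 913 6 848)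
(mv 1169 (cons (fin 1105 4 912)
(mv 1168 (cons (fin 1233 4 976)
(mv 977 (cons (fin 1232 6 976)
(mv 978 (cons (fin 979 1 975)
(fin 1038 2 974)))))))))))))
(cons (mv 847 (cons (fin 911 7 847)
(mv 913 (cons (fin 849 6 848)
(mv 977 (cons (fin 1168 6 912)
(mv 978 (cons (fin 979 1 975)
(fin 1038 2 974)))))))))
(mv 847 (cons (fin 911 7 847)
(mv 1169 (cons (fin 1105 4 912)
(mv 1168 (cons (fin 1233 4 976)
(mv 977 (cons (fin 1232 6 976)
(mv 978 (cons (fin 979 1 975)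
(fin 1038 2 974)))))))))))))
(cons (cons (mv 849 (cons (fin 913 6 848)
(mv 1169 (cons (fin 1105 4 912)
(mv 1168 (cons (fin 1233 4 976)
(mv 977 (cons (fin 1232 6 976)
(mv 978 (cons (fin 979 1 975)
(fin 1038 2 974)))))))))))
(mv 847 (cons (fin 911 7 847)
(mv 849 (cons (fin 913 6 848)
(mv 1168 (cons (cons (mv 1169 (cons (fin 1105 4 912)
(fin 1233 4 976)))
(mv 1231 (cons (fin 1167 5 975)
(mv 1232 (cons (fin 1295 5 1039)
(mv 1296 (cons (fin 1105 6 1040)
(mv 1297 (cons (fin 1233 4 1040)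
(fin 1361 4 1104))))))))))
(cons (mv 1231 (cons (fin 1167 5 975)
(mv 1232 (cons (fin 1295 5 1039)
(mv 1233 (cons (fin 1169 4 976)
(fin 1297 4 1040)))))))
(mv 1105 (cons (fin 1169 4 912)
(mv 1037 (cons (fin 1038 0 1037)
(mv 1231 (cons (fin 1167 5 975)
(mv 1232 (cons (fin 1295 5 1039)
(fin 1296 6 1040)))))))))))))))))
(cons (mv 911 (cons (fin 847 7 847)
(mv 913 (cons (fin 849 6 848)
(mv 1105 (cons (fin 1169 4 912)
(mv 1038 (cons (fin 1037 0 1037)
(mv 978 (cons (fin 977 2 974)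
(mv 979 (cons (fin 1042 2 975)
(fin 914 0 911)))))))))))))
(mv 847 (cons (fin 911 7 847)
(mv 849 (cons (fin 913 6 848)
(mv 1169 (cons (fin 1105 4 912)
(mv 1168 (cons (fin 1233 4 976)
(mv 1231 (cons (fin 1167 5 975)
(mv 1232 (cons (fin 1295 5 1039)
(fin 977 6 976))))))))))))))))))
(cons (mv 977 (cons (mv 978 (cons (fin 979 1 975)
(fin 1038 2 974)))
(mv 848 (cons (fin 784 4 784)
(mv 783 (cons (fin 847 7 783)
(mv 849 (cons (fin 785 6 784)
(mv 913 (cons (fin 1104 5 848)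
(mv 850 (cons (fin 786 6 785)
(mv 851 (cons (fin 911 1 847)
(fin 852 1 848)))))))))))))))
(cons (mv 848 (cons (fin 1105 4 848)
(mv 783 (cons (fin 847 7 783)
(mv 784 (cons (fin 719 7 719)
(mv 785 (cons (fin 721 6 720)
(fin 849 6 784)))))))))
(mv 848 (cons (fin 1105 4 848)
(mv 784 (cons (fin 977 4 784)
(mv 785 (cons (fin 721 6 720)
(fin 849 6 784)))))))))))))))
(cons (mv 1038 (cons (cons (mv 977 (cons (fin 978 2 974)
(mv 976 (cons (fin 1037 2 973)
(mv 1102 (cons (fin 1101 1 1037)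
(mv 1042 (cons (fin 1103 1 1038)
(mv 1043 (cons (fin 975 3 975)
(fin 1044 3 976)))))))))))
(mv 977 (cons (fin 978 2 974)
(mv 1037 (cons (fin 976 2 973)
(mv 972 (cons (fin 973 3 972)
(mv 1036 (cons (fin 971 3 971)
(mv 1100 (cons (fin 1099 1 1035)
(fin 1101 1 1036))))))))))))
(cons (mv 1101 (cons (fin 1102 1 1037)
(mv 1037 (cons (fin 1100 1 1036)
(mv 972 (cons (fin 973 3 972)
(mv 1036 (cons (fin 971 3 971)
(mv 1104 (cons (fin 1103 0 1036)
(fin 1105 0 1037)))))))))))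
(cons (mv 977 (cons (fin 978 2 974)
(mv 1037 (cons (fin 976 2 973)
(mv 972 (cons (fin 973 3 972)
(mv 1036 (cons (fin 971 3 971)
(mv 1104 (cons (fin 1103 0 1036)
(fin 1105 0 1037)))))))))))
(mv 977 (cons (fin 978 2 974)
(mv 1102 (cons (fin 1101 1 1037)
(mv 1103 (cons (fin 1042 1 1038)
(mv 975 (cons (mv 911 (cons (fin 847 5 846)
(fin 1166 5 910)))
(cons (mv 1166 (cons (fin 1230 6 974)
(mv 1104 (cons (cons (mv 849 (cons (fin 913 5 848)
(mv 1105 (cons (fin 1165 1 1101)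
(mv 1168 (cons (fin 1232 7 975)
(mv 1169 (cons (fin 1170 0 1102)
(mv 976 (cons (fin 912 7 912)
(fin 1233 7 976)))))))))))
(mv 849 (cons (fin 913 5 848)
(mv 1105 (cons (fin 1165 1 1101)
(mv 1169 (cons (fin 1170 0 1102)
(mv 976 (cons (fin 912 7 912)
(fin 1233 7 976))))))))))
(cons (mv 913 (cons (fin 849 5 848)
(mv 1168 (cons (fin 1232 7 975)
(fin 976 6 912)))))
(cons (mv 1105 (cons (fin 1165 1 1101)
(mv 1168 (cons (fin 1232 7 975)
(mv 1169 (cons (fin 1170 0 1102)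
(mv 976 (cons (fin 912 7 912)
(fin 1233 7 976)))))))))
(mv 849 (cons (fin 913 5 848)
(mv 1105 (cons (fin 1165 1 1101)
(mv 1168 (cons (fin 1232 7 975)
(mv 1169 (cons (fin 1170 0 1102)
(mv 1233 (cons (fin 1297 7 1040)
(mv 1234 (cons (fin 1167 0 1166)
(fin 1298 4 1041)))))))))))))))))))
(mv 911 (cons (fin 847 5 846)
(mv 846 (cons (fin 910 7 846)
(mv 848 (cons (fin 912 6 847)
(mv 1168 (cons (fin 1104 4 911)
(mv 1167 (cons (fin 1232 4 975)
(mv 1231 (cons (fin 1295 7 1038)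
(fin 976 6 975))))))))))))))))))))))))))
(mv 1042 (cons (cons (mv 978 (cons (fin 979 2 975)
(mv 977 (cons (fin 1038 2 974)
(mv 1103 (cons (fin 1102 1 1038)
(mv 1043 (cons (fin 1104 1 1039)
(mv 976 (cons (fin 975 3 975)
(fin 1044 3 976)))))))))))
(cons (mv 1103 (cons (fin 1102 1 1038)
(mv 1043 (cons (fin 1104 1 1039)
(mv 975 (cons (fin 976 3 975)
(mv 980 (cons (fin 979 2 976)
(mv 1044 (cons (fin 981 2 977)
(mv 1108 (cons (fin 1107 0 1040)
(fin 1109 0 1041)))))))))))))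
(mv 979 (cons (fin 978 2 975)
(mv 1043 (cons (fin 980 2 976)
(mv 976 (cons (fin 975 3 975)
(mv 1044 (cons (fin 977 3 976)
(mv 1108 (cons (fin 1107 0 1040)
(fin 1109 0 1041)))))))))))))
(cons (mv 1103 (cons (fin 1102 1 1038)
(mv 1043 (cons (fin 1104 1 1039)
(mv 976 (cons (fin 975 3 975)
(mv 848 (cons (fin 912 5 847)
(mv 977 (cons (fin 1044 3 976)
(mv 1038 (cons (fin 1037 2 973)
(fin 978 2 974)))))))))))))
(cons (mv 978 (cons (fin 979 2 975)
(mv 977 (cons (fin 1038 2 974)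
(mv 1102 (cons (fin 1103 1 1038)
(mv 1105 (cons (mv 914 (cons (fin 850 5 849)
(fin 1169 6 913)))
(cons (mv 850 (cons (fin 914 5 849)
(mv 913 (cons (mv 849 (cons (fin 1104 5 848)
(fin 786 6 785)))
(cons (mv 912 (cons (fin 848 7 848)
(mv 911 (cons (fin 910 0 910)
(mv 1104 (cons (fin 1168 5 912)
(mv 847 (cons (fin 976 7 847)
(fin 975 4 847)))))))))
(mv 849 (cons (fin 786 6 785)
(fin 785 4 785))))))))
(mv 1169 (cons (fin 1233 6 977)
(mv 912 (cons (fin 976 7 912)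
(mv 913 (cons (fin 848 7 848)
(mv 849 (cons (fin 1104 5 848)
(fin 785 4 785))))))))))))))))))
(mv 978 (cons (fin 979 2 975)
(mv 977 (cons (fin 1038 2 974)
(mv 1103 (cons (fin 1102 1 1038)
(mv 1043 (cons (fin 1104 1 1039)
(mv 1044 (cons (fin 1045 3 977)
(mv 1108 (cons (fin 1107 0 1040)
(fin 1109 0 1041)))))))))))))))))))
(cons (cons (mv 1042 (cons (cons (mv 978 (cons (fin 979 2 975)
(mv 977 (cons (fin 1038 2 974)
(mv 1103 (cons (fin 1102 1 1038)
(mv 1043 (cons (fin 1104 1 1039)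
(mv 1044 (cons (fin 1045 3 977)
(mv 1108 (cons (fin 1107 0 1040)
(fin 1109 0 1041)))))))))))))
(mv 1103 (cons (fin 1102 1 1038)
(mv 1043 (cons (fin 1104 1 1039)
(mv 980 (cons (fin 979 2 976)
(mv 1044 (cons (fin 981 2 977)
(mv 1108 (cons (fin 1107 0 1040)
(fin 1109 0 1041))))))))))))
(cons (mv 978 (cons (fin 979 2 975)
(mv 977 (cons (fin 1038 2 974)
(mv 1105 (cons (mv 914 (cons (fin 850 5 849)
(fin 1169 6 913)))
(cons (mv 1169 (cons (fin 1233 6 977)
(mv 1168 (cons (fin 1232 5 976)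
(mv 913 (cons (fin 1104 5 912)
(mv 848 (cons (fin 912 7 848)
(mv 849 (cons (fin 784 7 784)
(fin 785 4 785)))))))))))
(mv 914 (cons (fin 850 5 849)
(mv 913 (cons (mv 849 (cons (fin 1104 5 848)
(fin 785 4 785)))
(cons (mv 912 (cons (fin 848 7 848)
(mv 911 (cons (fin 910 0 910)
(mv 847 (cons (fin 846 3 846)
(mv 1104 (cons (fin 1168 5 912)
(fin 975 4 847)))))))))
(mv 848 (cons (fin 912 7 848)
(mv 849 (cons (fin 784 7 784)
(fin 785 4 785)))))))))))))))))
(cons (mv 1103 (cons (fin 1102 1 1038)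
(mv 1104 (cons (fin 1043 1 1039)
(mv 1167 (cons (cons (mv 1231 (cons (fin 1295 6 1039)
(mv 1230 (cons (fin 1294 5 1038)
(mv 975 (cons (fin 1166 5 974)
(mv 911 (cons (fin 847 4 847)
(fin 1168 4 911)))))))))
(mv 1168 (cons (mv 975 (cons (fin 1232 7 975)
(fin 911 4 911)))
(cons (mv 975 (cons (fin 911 4 911)
(mv 1166 (cons (fin 1230 5 974)
(mv 1165 (cons (fin 1164 2 1100)
(fin 1105 2 1101)))))))
(mv 1232 (cons (fin 1296 7 1039)
(fin 977 6 976)))))))
(cons (mv 1231 (cons (fin 1295 6 1039)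
(mv 1230 (cons (fin 1294 5 1038)
(mv 1166 (cons (fin 975 5 974)
(mv 1164 (cons (fin 1165 2 1100)
(mv 1232 (cons (fin 1296 4 1039)
(mv 1233 (cons (fin 1234 3 1166)
(mv 1169 (cons (fin 1170 2 1166)
(mv 1105 (cons (fin 1297 7 1040)
(fin 978 6 977)))))))))))))))))
(cons (mv 1231 (cons (fin 1295 6 1039)
(mv 1230 (cons (fin 1294 5 1038)
(mv 1232 (cons (fin 1296 4 1039)
(mv 977 (cons (fin 1168 6 976)
(mv 849 (cons (fin 913 5 848)
(mv 1038 (cons (fin 978 2 974)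
(mv 1037 (cons (fin 1036 0 1036)
(fin 1105 0 1037)))))))))))))))
(mv 1231 (cons (fin 1295 6 1039)
(mv 1232 (cons (fin 1296 4 1039)
(mv 1168 (cons (fin 975 7 975)
(fin 977 6 976)))))))))))))))
(mv 978 (cons (fin 979 2 975)
(mv 1038 (cons (fin 977 2 974)
(mv 1102 (cons (fin 1101 1 1037)
(fin 1103 1 1038)))))))))))
(mv 1038 (cons (cons (mv 977 (cons (fin 978 2 974)
(mv 976 (cons (fin 1037 2 973)
(mv 1102 (cons (fin 1101 1 1037)
(mv 1042 (cons (fin 1103 1 1038)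
(mv 1043 (cons (fin 975 3 975)
(fin 1044 3 976)))))))))))
(mv 977 (cons (fin 978 2 974)
(mv 1037 (cons (fin 976 2 973)
(mv 972 (cons (fin 973 3 972)
(mv 1036 (cons (fin 971 3 971)
(mv 1100 (cons (fin 1099 1 1035)
(fin 1101 1 1036))))))))))))
(cons (mv 1102 (cons (fin 1101 1 1037)
(mv 1103 (cons (fin 1042 1 1038)
(mv 975 (cons (mv 911 (cons (fin 847 5 846)
(fin 1166 5 910)))
(cons (mv 911 (cons (fin 847 5 846)
(mv 846 (cons (fin 910 7 846)
(mv 912 (cons (fin 848 6 847)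
(mv 1167 (cons (fin 976 6 911)
(mv 1231 (cons (fin 1295 7 1038)
(mv 1232 (cons (fin 1168 4 975)
(fin 1296 4 1039)))))))))))))
(mv 1166 (cons (fin 1230 6 974)
(mv 1167 (cons (mv 976 (cons (fin 912 6 911)
(fin 1231 6 975)))
(cons (mv 976 (cons (fin 912 6 911)
(mv 1036 (cons (fin 1037 2 972)
(mv 1168 (cons (fin 1232 4 975)
(mv 1169 (cons (fin 1170 3 1102)
(mv 1233 (cons (fin 1234 0 1166)
(fin 1105 7 976)))))))))))
(mv 1231 (cons (fin 1295 7 1038)
(mv 1232 (cons (fin 1168 4 975)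
(fin 1296 4 1039)))))))))))))))))
(cons (mv 977 (cons (fin 978 2 974)
(mv 976 (cons (fin 1037 2 973)
(mv 1042 (cons (mv 1043 (cons (fin 975 3 975)
(fin 1044 3 976)))
(cons (mv 1103 (cons (fin 1102 1 1038)
(mv 912 (cons (fin 848 5 847)
(mv 1167 (cons (fin 975 6 911)
(fin 1231 6 975)))))))
(mv 1043 (cons (fin 1044 3 976)
(mv 979 (cons (fin 980 2 976)
(mv 1103 (cons (fin 1102 1 1038)
(mv 848 (cons (fin 912 5 847)
(mv 1107 (cons (fin 1108 0 1040)
(mv 1167 (cons (fin 1231 6 975)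
(mv 915 (cons (cons (mv 850 (cons (fin 914 7 850)
(mv 786 (cons (fin 851 7 786)
(mv 849 (cons (fin 913 6 785)
(mv 787 (cons (fin 847 2 783)
(mv 788 (cons (fin 785 1 784)
(fin 789 1 785)))))))))))
(mv 916 (cons (fin 852 6 851)
(mv 913 (cons (fin 914 1 912)
(mv 849 (cons (fin 784 7 784)
(fin 785 5 784))))))))
(cons (mv 851 (cons (mv 852 (cons (fin 788 6 787)
(fin 916 6 851)))
(cons (mv 850 (cons (fin 786 7 786)
(mv 849 (cons (fin 916 0 848)
(mv 784 (cons (fin 783 3 783)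
(fin 913 7 784)))))))
(mv 786 (cons (fin 850 7 786)
(mv 787 (cons (fin 722 7 722)
(mv 788 (cons (fin 724 6 723)
(fin 852 6 787))))))))))
(mv 850 (cons (fin 914 7 850)
(mv 851 (cons (fin 786 7 786)
(mv 852 (cons (fin 788 6 787)
(fin 916 6 851)))))))))))))))))))))))))))))
(mv 978 (cons (fin 977 2 974)
(mv 1042 (cons (fin 979 2 975)
(mv 1102 (cons (fin 1101 1 1037)
(fin 1103 1 1038))))))))))))
(cons (mv 1038 (cons (cons (mv 977 (cons (fin 978 2 974)
(mv 976 (cons (fin 1037 2 973)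
(mv 1102 (cons (fin 1101 1 1037)
(mv 1103 (cons (fin 1042 1 1038)
(mv 912 (cons (fin 848 5 847)
(mv 1167 (cons (fin 1104 5 911)
(fin 1231 6 975)))))))))))))
(mv 1101 (cons (fin 1102 1 1037)
(mv 1037 (cons (fin 1100 1 1036)
(mv 972 (cons (fin 973 3 972)
(mv 1036 (cons (fin 971 3 971)
(mv 1104 (cons (fin 1103 0 1036)
(fin 1105 0 1037))))))))))))
(cons (mv 977 (cons (fin 978 2 974)
(mv 1037 (cons (fin 976 2 973)
(mv 972 (cons (fin 973 3 972)
(mv 1036 (cons (fin 971 3 971)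
(mv 1100 (cons (fin 1099 1 1035)
(fin 1101 1 1036)))))))))))
(cons (mv 977 (cons (fin 978 2 974)
(mv 1037 (cons (fin 976 2 973)
(mv 972 (cons (fin 973 3 972)
(mv 1036 (cons (fin 971 3 971)
(mv 1104 (cons (fin 1103 0 1036)
(fin 1105 0 1037)))))))))))
(mv 977 (cons (fin 978 2 974)
(mv 1102 (cons (fin 1101 1 1037)
(mv 1103 (cons (fin 1042 1 1038)
(mv 1104 (cons (cons (mv 913 (cons (fin 849 5 848)
(mv 1168 (cons (fin 1105 5 912)
(fin 976 6 912)))))
(mv 849 (cons (fin 913 5 848)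
(mv 1166 (cons (cons (mv 1105 (cons (fin 1165 1 1101)
(mv 1169 (cons (fin 1170 0 1102)
(mv 976 (cons (fin 912 7 912)
(fin 1233 7 976)))))))
(mv 1230 (cons (fin 1294 6 1038)
(mv 1229 (cons (fin 1293 5 1037)
(mv 1231 (cons (fin 1295 4 1038)
(mv 1167 (cons (fin 976 6 975)
(mv 1227 (cons (fin 1228 2 1163)
(mv 1232 (cons (fin 1296 4 1039)
(mv 1233 (cons (fin 1234 3 1166)
(mv 1169 (cons (fin 1170 2 1166)
(mv 1297 (cons (fin 1298 0 1230)
(fin 1105 7 1040))))))))))))))))))))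
(cons (mv 1230 (cons (fin 1294 6 1038)
(mv 1229 (cons (fin 1293 5 1037)
(mv 1231 (cons (fin 1295 4 1038)
(mv 1167 (cons (fin 976 6 975)
(mv 1164 (cons (fin 1165 2 1100)
(mv 1228 (cons (fin 1163 3 1163)
(fin 1227 2 1163)))))))))))))
(mv 1105 (cons (fin 1165 1 1101)
(mv 1169 (cons (fin 1170 0 1102)
(mv 1230 (cons (fin 1294 6 1038)
(mv 1229 (cons (fin 1293 5 1037)
(mv 1231 (cons (fin 1295 4 1038)
(mv 1233 (cons (fin 1297 7 1040)
(mv 1232 (cons (fin 1296 5 1040)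
(mv 1234 (cons (fin 1167 3 1166)
(fin 1298 4 1041)))))))))))))))))))))))
(cons (mv 1168 (cons (fin 1232 6 976)
(mv 1167 (cons (mv 976 (cons (fin 912 5 911)
(fin 1231 5 975)))
(cons (mv 976 (cons (fin 912 5 911)
(mv 1169 (cons (fin 1170 3 1102)
(fin 1233 4 976)))))
(mv 1169 (cons (fin 1170 3 1102)
(mv 1231 (cons (fin 1295 7 1038)
(mv 1230 (cons (fin 1294 5 1038)
(mv 1229 (cons (fin 1166 1 1165)
(fin 1228 2 1164))))))))))))))
(mv 913 (cons (fin 849 5 848)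
(mv 1168 (cons (fin 1105 5 912)
(fin 1232 6 976))))))))))))))))))
(mv 1042 (cons (cons (mv 978 (cons (fin 979 2 975)
(mv 977 (cons (fin 1038 2 974)
(mv 1103 (cons (fin 1102 1 1038)
(mv 1043 (cons (fin 1104 1 1039)
(mv 976 (cons (fin 975 3 975)
(fin 1044 3 976)))))))))))
(mv 979 (cons (fin 978 2 975)
(mv 1043 (cons (fin 980 2 976)
(mv 976 (cons (fin 975 3 975)
(mv 1044 (cons (fin 977 3 976)
(mv 1108 (cons (fin 1107 0 1040)
(fin 1109 0 1041))))))))))))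
(cons (mv 1103 (cons (fin 1102 1 1038)
(mv 1043 (cons (fin 1104 1 1039)
(mv 975 (cons (fin 976 3 975)
(mv 980 (cons (fin 979 2 976)
(mv 1044 (cons (fin 981 2 977)
(mv 1108 (cons (fin 1107 0 1040)
(fin 1109 0 1041)))))))))))))
(cons (mv 1102 (cons (fin 1103 1 1038)
(mv 1038 (cons (fin 1101 1 1037)
(mv 977 (cons (fin 978 2 974)
(mv 976 (cons (fin 1037 2 973)
(mv 1043 (cons (fin 975 3 975)
(fin 1044 3 976)))))))))))
(mv 978 (cons (fin 979 2 975)
(mv 1038 (cons (fin 977 2 974)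
(mv 1102 (cons (fin 1101 1 1037)
(fin 1103 1 1038))))))))))))))))
def l59 : Lem := ⟨17672042592950510299342161747532428741358160893794450532607270698129752962383966679797774154701950421020191674846877452631289669433532411657536873821582864322832094995237976664601613395680896036318715866521764407099865564676993471100411554418605480722106008602337571462179774064736310031630534868627379729584881664, 696313931750383166372497912856454689457181107267067692904056273236502954804960154342535136031815730706238658718214390695742990520686927000411258193561396440878116543876442415847148499965623158538311911269662193397831052870145739518612367999129202166216083319294380321888846253880183606806837701237979791459060303998335578682962706387349249576592274464061475712320187703550456833046301053260365521708204361019193058254580055277568, 696313931750383166372497912856454689457181107267067692904056273236502954804960154342535136031815730706238658718214390695742990520686927000411258193561396440878116543876442415847148499965623158538311911269662193397831052870145739518612367999129202166216083319294380321888846253880183606806837701237979791459060303998335578682962706387349249576592274464061475712320187703550456833046301053260365521708204361019193058254580055277568,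 19, 33⟩
theorem l59_valid : l59.Valid :=
  Lem.valid_of_chk t59 t59_valid [1039, 1040] c59 l59 (by decide +kernel)
end Crest.Agent.SnakyAux
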