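import Crest.Agent.S0047_aux.Checker

set_option autoImplicit false
set_option maxRecDepth 100000
namespace Crest.Agent.SnakyAux
open Cert
def t60 : Tbl := Tbl.nil
theorem t60_valid : t60.Valid := Tbl.valid_nil
def c60 : Cert :=
(mv 976 (cons (cons (cons (mv 1103 (cons (cons (mv 912 (cons (fin 848 5 847)
(mv 1167 (cons (fin 1104 5 911)
(fin 975 6 911)))))
(mv 1167 (cons (fin 1231 6 975)
(mv 975 (cons (mv 910 (cons (fin 974 7 910)
(mv 911 (cons (fin 846 7 846)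
(mv 847 (cons (fin 783 4 783)
(fin 1104 4 847)))))))
(cons (mv 1166 (cons (fin 1230 5 974)
(mv 911 (cons (fin 1102 5 910)
(mv 847 (cons (fin 783 4 783)
(fin 1104 4 847)))))))
(mv 974 (cons (fin 910 7 910)
(mv 973 (cons (fin 972 0 972)
(fin 1041 0 973)))))))))))
(cons (mv 912 (cons (fin 848 5 847)
(mv 1104 (cons (cons (mv 847 (cons (fin 911 7 847)
(mv 849 (cons (fin 913 6 848)
(mv 1169 (cons (fin 1105 4 912)
(mv 1168 (cons (fin 1233 4 976)
(mv 1232 (cons (fin 975 7 975)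
(fin 1296 7 1039)))))))))))
(cons (mv 849 (cons (fin 913 6 848)
(mv 1169 (cons (fin 1105 4 912)
(mv 1168 (cons (fin 1233 4 976)
(mv 1232 (cons (fin 975 7 975)
(fin 1296 7 1039)))))))))
(mv 847 (cons (fin 911 7 847)
(mv 913 (cons (fin 849 6 848)
(mv 1168 (cons (fin 977 6 912)
(mv 1232 (cons (fin 975 7 975)
(fin 1296 7 1039)))))))))))
(cons (mv 847 (cons (fin 911 7 847)
(mv 1169 (cons (fin 1105 4 912)
(mv 1168 (cons (fin 1233 4 976)
(mv 1232 (cons (fin 975 7 975)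
(fin 1296 7 1039)))))))))
(cons (mv 849 (cons (fin 913 6 848)
(mv 911 (cons (fin 847 7 847)
(mv 1105 (cons (fin 1169 4 912)
(mv 1102 (cons (mv 1041 (cons (fin 1042 1 1038)
(fin 1101 2 1037)))
(mv 1166 (cons (fin 1165 1 1101)
(fin 975 5 910)))))))))))
(mv 847 (cons (fin 911 7 847)
(mv 849 (cons (fin 913 6 848)
(mv 1169 (cons (fin 1105 4 912)
(mv 1168 (cons (fin 1233 4 976)
(mv 1102 (cons (fin 1101 0 1101)
(mv 1041 (cons (fin 1042 1 1038)
(mv 1232 (cons (fin 1296 7 1039)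
(fin 977 6 976)))))))))))))))))))))
(cons (mv 912 (cons (fin 848 5 847)
(mv 1167 (cons (fin 1104 5 911)
(fin 1231 6 975)))))
(mv 912 (cons (fin 848 5 847)
(mv 1167 (cons (fin 975 6 911)
(fin 1231 6 975)))))))))
(cons (mv 977 (cons (cons (cons (mv 978 (cons (fin 979 1 975)
(mv 975 (cons (cons (mv 910 (cons (fin 911 3 910)
(mv 914 (cons (fin 915 2 911)
(mv 974 (cons (fin 909 3 909)
(fin 913 2 910)))))))
(mv 914 (cons (fin 915 2 911)
(mv 913 (cons (fin 974 2 910)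
(mv 849 (cons (fin 785 5 784)
(mv 1104 (cons (fin 1041 5 848)
(fin 912 6 848))))))))))
(cons (mv 910 (cons (fin 911 3 910)
(mv 974 (cons (fin 909 3 909)
(mv 973 (cons (fin 972 0 972)
(fin 1041 0 973)))))))
(mv 911 (cons (fin 910 3 910)
(mv 847 (cons (fin 783 4 783)
(fin 1104 4 847))))))))))
(mv 1104 (cons (cons (mv 913 (cons (fin 1168 6 912)
(mv 849 (cons (fin 785 5 784)
(fin 1041 5 848)))))
(mv 912 (cons (cons (mv 847 (cons (fin 911 7 847)
(mv 848 (cons (fin 783 7 783)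
(mv 784 (cons (fin 975 5 783)
(fin 1041 4 784)))))))
(mv 849 (cons (fin 913 6 848)
(mv 848 (cons (fin 785 6 784)
(mv 784 (cons (fin 975 5 783)
(fin 1041 4 784))))))))
(cons (mv 911 (cons (fin 847 7 847)
(mv 910 (cons (fin 909 0 909)
(mv 913 (cons (fin 849 6 848)
(mv 845 (cons (fin 846 3 845)
(mv 974 (cons (fin 973 1 909)
(mv 914 (cons (fin 975 1 910)
(mv 850 (cons (fin 851 2 847)
(mv 1105 (cons (fin 1041 6 849)
(fin 1169 4 912)))))))))))))))))
(mv 847 (cons (fin 911 7 847)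
(mv 848 (cons (fin 783 7 783)
(mv 849 (cons (fin 785 6 784)
(fin 913 6 848)))))))))))
(cons (mv 1168 (cons (cons (mv 975 (cons (fin 911 7 911)
(fin 1232 7 975)))
(mv 911 (cons (fin 975 7 911)
(mv 912 (cons (fin 847 7 847)
(mv 1169 (cons (fin 1105 4 912)
(fin 1233 4 976))))))))
(cons (mv 1041 (cons (fin 1232 6 976)
(mv 1167 (cons (fin 1231 5 975)
(mv 1169 (cons (fin 1233 4 976)
(mv 912 (cons (fin 1105 7 912)
(mv 847 (cons (fin 911 7 847)
(mv 848 (cons (fin 783 7 783)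
(fin 784 4 784)))))))))))))
(mv 1232 (cons (fin 975 7 975)
(fin 1041 6 976))))))
(mv 913 (cons (fin 1168 6 912)
(mv 849 (cons (fin 785 5 784)
(fin 912 6 848)))))))))
(cons (mv 978 (cons (fin 979 1 975)
(mv 975 (cons (cons (mv 910 (cons (fin 911 3 910)
(mv 914 (cons (fin 915 2 911)
(mv 974 (cons (fin 909 3 909)
(mv 973 (cons (fin 972 0 972)
(fin 1041 0 973)))))))))
(mv 914 (cons (fin 915 2 911)
(mv 1042 (cons (fin 1043 0 975)
(mv 974 (cons (fin 1041 3 974)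
(mv 909 (cons (fin 910 3 909)
(mv 973 (cons (fin 908 3 908)
(fin 972 0 972))))))))))))
(cons (mv 914 (cons (fin 915 2 911)
(mv 1042 (cons (fin 1043 0 975)
(mv 1041 (cons (fin 974 3 974)
(mv 850 (cons (fin 786 5 785)
(fin 1105 5 849)))))))))
(cons (mv 910 (cons (fin 911 3 910)
(mv 974 (cons (fin 909 3 909)
(mv 973 (cons (fin 972 0 972)
(fin 1041 0 973)))))))
(mv 911 (cons (fin 910 3 910)
(mv 847 (cons (fin 783 4 783)
(fin 1104 4 847)))))))))))
(cons (mv 978 (cons (fin 979 1 975)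
(mv 975 (cons (cons (mv 910 (cons (fin 911 3 910)
(mv 914 (cons (fin 915 2 911)
(mv 974 (cons (fin 909 3 909)
(fin 913 2 910)))))))
(mv 910 (cons (fin 911 3 910)
(mv 974 (cons (fin 909 3 909)
(mv 973 (cons (fin 972 0 972)
(fin 1041 0 973))))))))
(cons (mv 914 (cons (fin 915 2 911)
(mv 974 (cons (fin 913 2 910)
(mv 973 (cons (fin 972 0 972)
(fin 1041 0 973)))))))
(mv 911 (cons (fin 910 3 910)
(mv 847 (cons (fin 783 4 783)
(mv 846 (cons (fin 782 7 782)
(mv 848 (cons (fin 784 6 783)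
(mv 914 (cons (fin 915 2 911)
(mv 913 (cons (fin 912 3 846)
(fin 849 0 846))))))))))))))))))
(mv 978 (cons (fin 979 1 975)
(mv 1104 (cons (cons (mv 913 (cons (fin 1168 6 912)
(mv 849 (cons (fin 785 5 784)
(fin 1041 5 848)))))
(mv 1168 (cons (cons (mv 1041 (cons (fin 1232 6 976)
(mv 1167 (cons (fin 1231 5 975)
(mv 1169 (cons (fin 1233 4 976)
(mv 1105 (cons (fin 912 7 912)
(fin 914 6 913)))))))))
(mv 1167 (cons (fin 1231 5 975)
(mv 1169 (cons (fin 1233 4 976)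
(mv 912 (cons (fin 1105 4 912)
(mv 847 (cons (fin 911 7 847)
(mv 848 (cons (fin 783 7 783)
(mv 784 (cons (fin 1041 4 784)
(mv 785 (cons (fin 721 6 720)
(fin 849 6 784))))))))))))))))
(cons (mv 1231 (cons (fin 1167 5 975)
(mv 1232 (cons (fin 1295 5 1039)
(fin 1041 6 976)))))
(cons (mv 1041 (cons (fin 1232 6 976)
(mv 1169 (cons (fin 1233 4 976)
(mv 1105 (cons (fin 912 7 912)
(fin 914 6 913)))))))
(mv 1231 (cons (fin 1167 5 975)
(mv 1232 (cons (fin 1295 5 1039)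
(mv 1233 (cons (fin 1169 4 976)
(fin 1297 4 1040))))))))))))
(cons (mv 912 (cons (cons (mv 847 (cons (fin 911 7 847)
(mv 848 (cons (fin 783 7 783)
(mv 849 (cons (fin 785 6 784)
(fin 913 6 848)))))))
(mv 847 (cons (fin 911 7 847)
(mv 848 (cons (fin 783 7 783)
(mv 1041 (cons (fin 784 4 784)
(fin 1105 4 848))))))))
(cons (mv 849 (cons (fin 913 6 848)
(mv 848 (cons (fin 785 6 784)
(mv 1041 (cons (fin 784 4 784)
(fin 1105 4 848)))))))
(mv 911 (cons (fin 847 7 847)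
(mv 910 (cons (fin 909 0 909)
(fin 913 0 910))))))))
(cons (mv 1168 (cons (fin 913 6 912)
(mv 1041 (cons (fin 1232 6 976)
(mv 1167 (cons (fin 1231 5 975)
(mv 1169 (cons (fin 1233 4 976)
(mv 1105 (cons (fin 912 7 912)
(fin 914 6 913)))))))))))
(mv 913 (cons (fin 1168 6 912)
(mv 849 (cons (fin 785 5 784)
(fin 912 6 848))))))))))))))
(cons (cons (mv 978 (cons (fin 979 1 975)
(mv 975 (cons (mv 910 (cons (fin 911 3 910)
(mv 914 (cons (fin 915 2 911)
(mv 974 (cons (fin 909 3 909)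
(fin 913 2 910)))))))
(cons (mv 914 (cons (fin 915 2 911)
(mv 913 (cons (fin 974 2 910)
(mv 849 (cons (fin 785 5 784)
(mv 1104 (cons (fin 912 6 848)
(fin 1168 6 912)))))))))
(mv 911 (cons (fin 910 3 910)
(mv 847 (cons (fin 783 4 783)
(fin 1104 4 847))))))))))
(cons (mv 978 (cons (fin 979 1 975)
(mv 975 (cons (cons (mv 914 (cons (fin 915 2 911)
(mv 913 (cons (fin 974 2 910)
(mv 849 (cons (fin 785 5 784)
(mv 1104 (cons (fin 1041 5 848)
(fin 912 6 848)))))))))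
(mv 1042 (cons (fin 1043 0 975)
(mv 974 (cons (fin 1041 3 974)
(mv 909 (cons (fin 910 3 909)
(mv 973 (cons (fin 908 3 908)
(fin 972 0 972))))))))))
(cons (mv 914 (cons (fin 915 2 911)
(mv 1042 (cons (fin 1043 0 975)
(mv 850 (cons (mv 1041 (cons (fin 786 5 785)
(fin 1105 5 849)))
(cons (mv 785 (cons (fin 849 7 785)
(mv 786 (cons (fin 721 7 721)
(mv 787 (cons (fin 723 6 722)
(fin 851 6 786)))))))
(mv 787 (cons (fin 851 6 786)
(mv 849 (cons (fin 785 7 785)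
(mv 1041 (cons (fin 1105 5 849)
(mv 913 (cons (fin 1104 5 848)
(mv 848 (cons (fin 784 7 784)
(mv 847 (cons (fin 846 0 846)
(mv 783 (cons (fin 782 3 782)
(fin 912 7 783))))))))))))))))))))))
(mv 914 (cons (fin 915 2 911)
(mv 913 (cons (fin 974 2 910)
(mv 849 (cons (fin 785 5 784)
(mv 1104 (cons (fin 912 6 848)
(fin 1168 6 912))))))))))))))
(mv 978 (cons (fin 979 1 975)
(mv 975 (cons (cons (mv 910 (cons (fin 911 3 910)
(mv 914 (cons (fin 915 2 911)
(mv 974 (cons (fin 909 3 909)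
(fin 913 2 910)))))))
(mv 910 (cons (fin 911 3 910)
(mv 974 (cons (fin 909 3 909)
(mv 973 (cons (fin 972 0 972)
(fin 1041 0 973))))))))
(cons (mv 914 (cons (fin 915 2 911)
(mv 913 (cons (fin 974 2 910)
(mv 849 (cons (fin 785 5 784)
(mv 1104 (cons (fin 1041 5 848)
(fin 912 6 848)))))))))
(mv 910 (cons (fin 911 3 910)
(mv 914 (cons (fin 915 2 911)
(mv 1042 (cons (fin 1043 0 975)
(mv 850 (cons (mv 1041 (cons (fin 786 5 785)
(fin 1105 5 849)))
(cons (mv 785 (cons (fin 849 7 785)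
(mv 786 (cons (fin 721 7 721)
(mv 787 (cons (fin 723 6 722)
(fin 851 6 786)))))))
(mv 849 (cons (fin 785 7 785)
(mv 851 (cons (fin 787 6 786)
(mv 1041 (cons (fin 1105 5 849)
(mv 913 (cons (fin 1104 5 848)
(mv 852 (cons (fin 912 1 848)
(fin 853 1 849)))))))))))))))))))))))))))
(cons (mv 978 (cons (fin 979 1 975)
(mv 975 (cons (cons (mv 910 (cons (fin 911 3 910)
(mv 974 (cons (fin 909 3 909)
(mv 973 (cons (fin 972 0 972)
(fin 1041 0 973)))))))
(mv 1042 (cons (fin 1043 0 975)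
(mv 974 (cons (fin 1041 3 974)
(mv 909 (cons (fin 910 3 909)
(mv 973 (cons (fin 908 3 908)
(fin 972 0 972))))))))))
(cons (mv 1042 (cons (fin 1043 0 975)
(mv 974 (cons (fin 1041 3 974)
(mv 973 (cons (fin 972 0 972)
(mv 908 (cons (fin 909 3 908)
(mv 912 (cons (fin 913 2 909)
(mv 848 (cons (fin 784 5 783)
(mv 785 (cons (fin 849 6 784)
(mv 847 (cons (fin 783 7 783)
(mv 1036 (cons (fin 1037 1 972)
(mv 1104 (cons (fin 911 7 847)
(mv 1168 (cons (fin 1232 7 975)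
(mv 1169 (cons (fin 1105 4 912)
(fin 1233 4 976)))))))))))))))))))))))))
(mv 911 (cons (fin 910 3 910)
(mv 847 (cons (fin 783 4 783)
(fin 1104 4 847))))))))))
(cons (mv 978 (cons (fin 979 1 975)
(mv 975 (cons (cons (mv 914 (cons (fin 915 2 911)
(mv 913 (cons (fin 974 2 910)
(mv 849 (cons (fin 785 5 784)
(mv 1104 (cons (fin 1041 5 848)
(fin 912 6 848)))))))))
(cons (mv 1042 (cons (fin 1043 0 975)
(mv 974 (cons (fin 1041 3 974)
(mv 973 (cons (fin 972 0 972)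
(mv 908 (cons (fin 909 3 908)
(mv 912 (cons (fin 913 2 909)
(mv 848 (cons (fin 784 5 783)
(mv 785 (cons (fin 849 6 784)
(mv 847 (cons (fin 783 7 783)
(mv 1036 (cons (fin 1037 1 972)
(mv 1104 (cons (fin 911 7 847)
(mv 1168 (cons (fin 1232 7 975)
(mv 1169 (cons (fin 1105 4 912)
(fin 1233 4 976)))))))))))))))))))))))))
(mv 914 (cons (fin 915 2 911)
(mv 1042 (cons (fin 1043 0 975)
(mv 850 (cons (mv 1041 (cons (fin 786 5 785)
(fin 1105 5 849)))
(cons (mv 785 (cons (fin 849 7 785)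
(mv 786 (cons (fin 721 7 721)
(mv 787 (cons (fin 723 6 722)
(fin 851 6 786)))))))
(mv 787 (cons (fin 851 6 786)
(mv 849 (cons (fin 785 7 785)
(mv 1041 (cons (fin 1105 5 849)
(mv 913 (cons (fin 1104 5 848)
(mv 848 (cons (fin 784 7 784)
(mv 847 (cons (fin 846 0 846)
(mv 783 (cons (fin 782 3 782)
(fin 912 7 783))))))))))))))))))))))))
(cons (mv 914 (cons (fin 915 2 911)
(mv 913 (cons (fin 974 2 910)
(mv 849 (cons (fin 785 5 784)
(mv 1104 (cons (fin 912 6 848)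
(fin 1168 6 912)))))))))
(cons (mv 914 (cons (fin 915 2 911)
(mv 974 (cons (fin 913 2 910)
(mv 973 (cons (fin 972 0 972)
(fin 1041 0 973)))))))
(mv 914 (cons (fin 915 2 911)
(mv 1042 (cons (fin 1043 0 975)
(mv 1041 (cons (fin 974 3 974)
(mv 850 (cons (fin 786 5 785)
(fin 1105 5 849)))))))))))))))
(mv 978 (cons (fin 979 1 975)
(mv 975 (cons (cons (mv 910 (cons (fin 911 3 910)
(mv 914 (cons (fin 915 2 911)
(mv 913 (cons (fin 974 2 910)
(mv 849 (cons (fin 785 5 784)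
(mv 1104 (cons (fin 1041 5 848)
(fin 912 6 848)))))))))))
(mv 914 (cons (fin 915 2 911)
(mv 913 (cons (fin 974 2 910)
(mv 849 (cons (fin 785 5 784)
(mv 1104 (cons (fin 1041 5 848)
(fin 912 6 848))))))))))
(cons (mv 911 (cons (fin 910 3 910)
(mv 847 (cons (fin 783 4 783)
(fin 1104 4 847)))))
(mv 910 (cons (fin 911 3 910)
(mv 914 (cons (fin 915 2 911)
(mv 974 (cons (fin 913 2 910)
(mv 973 (cons (fin 972 0 972)
(fin 1041 0 973)))))))))))))))))))
(mv 975 (cons (cons (cons (mv 911 (cons (mv 847 (cons (fin 783 4 783)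
(fin 1104 4 847)))
(cons (mv 847 (cons (fin 783 4 783)
(mv 784 (cons (fin 848 6 783)
(mv 846 (cons (fin 782 7 782)
(mv 910 (cons (fin 1103 7 846)
(mv 909 (cons (fin 908 0 908)
(mv 977 (cons (fin 974 3 909)
(fin 978 3 910)))))))))))))
(mv 1104 (cons (fin 1168 7 911)
(mv 1103 (cons (mv 846 (cons (fin 910 7 846)
(mv 1102 (cons (fin 1166 5 910)
(mv 1041 (cons (fin 1042 1 1038)
(fin 1101 2 1037)))))))
(cons (mv 910 (cons (fin 846 7 846)
(mv 1167 (cons (fin 974 7 910)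
(fin 1231 6 975)))))
(mv 1102 (cons (fin 1166 5 910)
(mv 1041 (cons (fin 1042 1 1038)
(fin 1101 2 1037)))))))))))))
(mv 974 (cons (mv 973 (cons (fin 972 0 972)
(fin 1041 0 973)))
(cons (mv 973 (cons (fin 972 0 972)
(mv 909 (cons (fin 908 3 908)
(mv 910 (cons (fin 977 3 909)
(mv 782 (cons (fin 846 4 782)
(mv 1037 (cons (fin 1036 1 972)
(mv 1101 (cons (fin 1165 6 909)
(mv 1100 (cons (fin 1164 5 908)
(mv 1102 (cons (fin 1103 2 1036)
(fin 1166 4 909)))))))))))))))))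
(mv 977 (cons (cons (mv 909 (cons (fin 910 3 909)
(mv 913 (cons (fin 914 2 910)
(mv 785 (cons (fin 849 5 784)
(mv 978 (cons (fin 979 1 975)
(mv 1042 (cons (fin 1041 3 974)
(fin 1043 0 975)))))))))))
(mv 909 (cons (fin 910 3 909)
(mv 913 (cons (fin 914 2 910)
(mv 849 (cons (fin 785 5 784)
(mv 1104 (cons (fin 1041 5 848)
(fin 1168 6 912))))))))))
(cons (mv 909 (cons (fin 910 3 909)
(mv 914 (cons (fin 913 2 910)
(mv 978 (cons (fin 979 1 975)
(fin 915 2 911)))))))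
(cons (mv 909 (cons (fin 910 3 909)
(mv 978 (cons (fin 979 1 975)
(mv 1042 (cons (fin 1041 3 974)
(fin 1043 0 975)))))))
(mv 913 (cons (fin 914 2 910)
(mv 785 (cons (fin 849 5 784)
(mv 978 (cons (fin 979 1 975)
(mv 1042 (cons (fin 1041 3 974)
(fin 1043 0 975)))))))))))))))))
(cons (mv 911 (cons (mv 847 (cons (fin 783 4 783)
(fin 1104 4 847)))
(cons (mv 847 (cons (fin 783 4 783)
(mv 784 (cons (fin 848 6 783)
(mv 846 (cons (fin 782 7 782)
(mv 1103 (cons (fin 910 7 846)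
(mv 1166 (cons (fin 1102 5 910)
(mv 1167 (cons (fin 1230 5 974)
(fin 1231 6 975)))))))))))))
(mv 1103 (cons (cons (mv 846 (cons (fin 910 7 846)
(mv 1102 (cons (fin 1166 5 910)
(mv 1041 (cons (fin 1042 1 1038)
(mv 1101 (cons (fin 1100 2 1036)
(fin 1104 2 1037)))))))))
(mv 846 (cons (fin 910 7 846)
(mv 1166 (cons (fin 1102 5 910)
(mv 1167 (cons (fin 1230 5 974)
(fin 1231 6 975))))))))
(cons (mv 846 (cons (fin 910 7 846)
(mv 1167 (cons (fin 1231 6 975)
(mv 1168 (cons (fin 1104 7 911)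
(fin 1232 4 975)))))))
(mv 1102 (cons (fin 1166 5 910)
(mv 1041 (cons (fin 1042 1 1038)
(mv 1101 (cons (fin 1100 2 1036)
(fin 1104 2 1037)))))))))))))
(mv 974 (cons (mv 973 (cons (fin 972 0 972)
(fin 1041 0 973)))
(cons (mv 973 (cons (fin 972 0 972)
(mv 909 (cons (fin 908 3 908)
(mv 910 (cons (fin 977 3 909)
(mv 782 (cons (fin 846 4 782)
(mv 1037 (cons (fin 1036 1 972)
(mv 1101 (cons (fin 1165 6 909)
(mv 1100 (cons (fin 1164 5 908)
(mv 1102 (cons (fin 1103 2 1036)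
(fin 1166 4 909)))))))))))))))))
(mv 1041 (cons (fin 1042 3 974)
(mv 977 (cons (cons (mv 909 (cons (fin 910 3 909)
(mv 914 (cons (fin 913 2 910)
(mv 978 (cons (fin 979 1 975)
(fin 915 2 911)))))))
(mv 910 (cons (fin 909 3 909)
(mv 782 (cons (fin 846 4 782)
(mv 913 (cons (fin 914 2 910)
(mv 849 (cons (fin 785 5 784)
(mv 848 (cons (fin 784 7 784)
(mv 850 (cons (fin 786 6 785)
(mv 847 (cons (fin 783 3 782)
(fin 911 1 846))))))))))))))))
(cons (mv 914 (cons (fin 913 2 910)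
(mv 978 (cons (fin 979 1 975)
(fin 915 2 911)))))
(mv 910 (cons (fin 909 3 909)
(mv 978 (cons (fin 911 3 910)
(fin 979 1 975)))))))))))))))
(cons (cons (mv 911 (cons (mv 847 (cons (fin 783 4 783)
(fin 1104 4 847)))
(cons (mv 847 (cons (fin 783 4 783)
(mv 784 (cons (fin 848 6 783)
(mv 846 (cons (fin 782 7 782)
(mv 910 (cons (fin 1103 7 846)
(mv 909 (cons (fin 908 0 908)
(mv 977 (cons (fin 974 3 909)
(fin 978 3 910)))))))))))))
(mv 1104 (cons (fin 1168 7 911)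
(mv 1103 (cons (cons (mv 846 (cons (fin 910 7 846)
(mv 1166 (cons (fin 1102 5 910)
(mv 1167 (cons (fin 1230 5 974)
(fin 1231 6 975)))))))
(mv 1166 (cons (fin 1102 5 910)
(mv 1167 (cons (fin 1230 5 974)
(fin 1231 6 975))))))
(cons (mv 910 (cons (fin 846 7 846)
(mv 908 (cons (fin 909 0 908)
(mv 977 (cons (fin 978 3 910)
(mv 1102 (cons (fin 1166 5 910)
(mv 1101 (cons (fin 1100 2 1036)
(mv 1037 (cons (fin 1036 3 1036)
(mv 1165 (cons (fin 1164 1 1100)
(mv 973 (cons (fin 972 7 908)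
(fin 974 6 909)))))))))))))))))
(mv 910 (cons (fin 846 7 846)
(mv 1167 (cons (fin 974 7 910)
(fin 1231 6 975)))))))))))))
(mv 974 (cons (mv 973 (cons (fin 972 0 972)
(fin 1041 0 973)))
(cons (mv 1041 (cons (fin 1042 3 974)
(mv 977 (cons (mv 909 (cons (fin 910 3 909)
(mv 913 (cons (fin 914 2 910)
(mv 849 (cons (fin 785 5 784)
(fin 1104 5 848)))))))
(cons (mv 910 (cons (fin 909 3 909)
(mv 978 (cons (fin 911 3 910)
(fin 979 1 975)))))
(mv 913 (cons (fin 914 2 910)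
(mv 849 (cons (fin 785 5 784)
(fin 1104 5 848))))))))))
(mv 973 (cons (fin 972 0 972)
(mv 909 (cons (fin 908 3 908)
(mv 910 (cons (fin 977 3 909)
(mv 846 (cons (fin 782 4 782)
(mv 1037 (cons (fin 1036 1 972)
(fin 1101 6 845)))))))))))))))
(cons (mv 1103 (cons (cons (mv 1167 (cons (fin 1231 6 975)
(mv 1166 (cons (fin 1230 5 974)
(mv 911 (cons (fin 1102 5 910)
(mv 847 (cons (fin 783 4 783)
(fin 1104 4 847)))))))))
(cons (mv 1104 (cons (mv 911 (cons (fin 1168 7 911)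
(fin 847 4 847)))
(cons (mv 911 (cons (fin 847 4 847)
(mv 1102 (cons (fin 1166 5 910)
(mv 1041 (cons (fin 1042 1 1038)
(fin 1101 2 1037)))))))
(mv 1168 (cons (fin 1232 7 975)
(mv 913 (cons (fin 977 6 912)
(mv 1169 (cons (fin 1233 4 976)
(mv 1102 (cons (fin 1101 0 1101)
(mv 1170 (cons (fin 1171 3 1103)
(fin 1105 0 1102))))))))))))))
(mv 1167 (cons (fin 1231 6 975)
(mv 1166 (cons (fin 1230 5 974)
(mv 1168 (cons (fin 1232 4 975)
(mv 1102 (cons (mv 1101 (cons (fin 1169 3 1101)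
(fin 1100 2 1036)))
(cons (mv 1041 (cons (fin 1042 1 1038)
(mv 973 (cons (fin 974 0 973)
(mv 1169 (cons (fin 1170 3 1102)
(mv 1233 (cons (fin 1234 0 1166)
(fin 1105 7 976)))))))))
(mv 1041 (cons (fin 1042 1 1038)
(mv 1101 (cons (fin 1100 2 1036)
(fin 1104 2 1037))))))))))))))))
(cons (mv 1167 (cons (fin 1231 6 975)
(mv 1166 (cons (fin 1230 5 974)
(mv 1102 (cons (fin 911 5 910)
(mv 1041 (cons (fin 1042 1 1038)
(mv 973 (cons (fin 974 0 973)
(mv 1100 (cons (fin 1101 2 1036)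
(mv 1168 (cons (fin 1232 4 975)
(mv 1169 (cons (fin 1170 3 1102)
(mv 1233 (cons (fin 1234 0 1166)
(fin 1105 7 976)))))))))))))))))))
(cons (mv 1167 (cons (fin 1231 6 975)
(mv 1166 (cons (fin 1230 5 974)
(mv 1168 (cons (fin 1232 4 975)
(mv 1104 (cons (fin 911 7 911)
(mv 1165 (cons (fin 1164 2 1100)
(fin 1105 2 1101)))))))))))
(mv 1167 (cons (fin 1231 6 975)
(mv 1168 (cons (fin 1232 4 975)
(mv 1104 (cons (fin 911 7 911)
(mv 913 (cons (fin 977 6 912)
(mv 1169 (cons (fin 1233 4 976)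
(mv 1102 (cons (fin 1170 3 1102)
(fin 1101 0 1101)))))))))))))))))
(mv 911 (cons (mv 847 (cons (fin 783 4 783)
(fin 1104 4 847)))
(cons (mv 847 (cons (fin 783 4 783)
(mv 784 (cons (fin 848 6 783)
(mv 846 (cons (fin 782 7 782)
(mv 910 (cons (fin 1103 7 846)
(mv 909 (cons (fin 908 0 908)
(mv 977 (cons (fin 974 3 909)
(fin 978 3 910)))))))))))))
(mv 1104 (cons (fin 1168 7 911)
(mv 1103 (cons (cons (mv 846 (cons (fin 910 7 846)
(mv 1166 (cons (fin 1102 5 910)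
(mv 1167 (cons (fin 1230 5 974)
(fin 1231 6 975)))))))
(mv 1166 (cons (fin 1102 5 910)
(mv 1167 (cons (fin 1230 5 974)
(fin 1231 6 975))))))
(cons (mv 910 (cons (fin 846 7 846)
(mv 908 (cons (fin 909 0 908)
(mv 977 (cons (fin 978 3 910)
(mv 1102 (cons (fin 1166 5 910)
(mv 1041 (cons (fin 1042 1 1038)
(mv 913 (cons (fin 849 5 848)
(mv 974 (cons (fin 914 2 910)
(fin 973 0 973)))))))))))))))
(mv 910 (cons (fin 846 7 846)
(mv 1167 (cons (fin 974 7 910)
(fin 1231 6 975)))))))))))))))))))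
(cons (cons (mv 975 (cons (cons (cons (mv 1104 (cons (mv 911 (cons (fin 1168 7 911)
(fin 847 4 847)))
(cons (mv 911 (cons (fin 847 4 847)
(mv 1103 (cons (mv 1167 (cons (fin 912 5 911)
(fin 1231 6 975)))
(mv 846 (cons (fin 910 7 846)
(mv 1102 (cons (fin 1166 5 910)
(mv 1041 (cons (fin 1042 1 1038)
(fin 1101 2 1037)))))))))))
(mv 1168 (cons (fin 1232 7 975)
(mv 913 (cons (fin 977 6 912)
(mv 912 (cons (fin 849 6 848)
(mv 1167 (cons (fin 1103 5 911)
(fin 1231 5 975))))))))))))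
(mv 974 (cons (mv 973 (cons (fin 972 0 972)
(fin 1041 0 973)))
(cons (mv 1041 (cons (fin 1042 3 974)
(mv 977 (cons (mv 909 (cons (fin 910 3 909)
(mv 914 (cons (fin 913 2 910)
(mv 978 (cons (fin 979 1 975)
(fin 915 2 911)))))))
(cons (mv 910 (cons (fin 909 3 909)
(mv 846 (cons (fin 782 4 782)
(mv 1103 (cons (fin 911 7 846)
(fin 1167 7 910)))))))
(mv 914 (cons (fin 913 2 910)
(mv 978 (cons (fin 979 1 975)
(fin 915 2 911))))))))))
(mv 973 (cons (fin 972 0 972)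
(mv 909 (cons (fin 908 3 908)
(mv 910 (cons (fin 977 3 909)
(mv 782 (cons (fin 846 4 782)
(mv 912 (cons (fin 913 2 909)
(mv 1037 (cons (fin 1036 1 972)
(mv 1101 (cons (fin 1165 6 909)
(mv 1100 (cons (fin 1164 5 908)
(mv 1102 (cons (fin 1103 2 1036)
(fin 1166 4 909)))))))))))))))))))))))
(cons (mv 974 (cons (mv 973 (cons (fin 972 0 972)
(fin 1041 0 973)))
(cons (mv 1042 (cons (fin 1041 3 974)
(mv 977 (cons (mv 978 (cons (fin 979 1 975)
(fin 1043 0 975)))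
(mv 909 (cons (fin 910 3 909)
(mv 913 (cons (fin 914 2 910)
(mv 849 (cons (fin 785 5 784)
(mv 1104 (cons (fin 912 6 848)
(fin 1168 6 912)))))))))))))
(mv 973 (cons (fin 972 0 972)
(mv 909 (cons (fin 908 3 908)
(mv 910 (cons (fin 977 3 909)
(mv 782 (cons (fin 846 4 782)
(mv 912 (cons (fin 913 2 909)
(mv 1037 (cons (fin 1036 1 972)
(mv 1101 (cons (fin 1165 6 909)
(mv 1100 (cons (fin 1164 5 908)
(mv 1102 (cons (fin 1103 2 1036)
(fin 1166 4 909))))))))))))))))))))))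
(mv 1104 (cons (mv 911 (cons (fin 1168 7 911)
(fin 847 4 847)))
(cons (mv 911 (cons (fin 847 4 847)
(mv 1103 (cons (mv 1167 (cons (fin 912 5 911)
(fin 1231 6 975)))
(mv 910 (cons (fin 846 7 846)
(mv 908 (cons (fin 909 0 908)
(mv 977 (cons (fin 978 3 910)
(mv 1102 (cons (fin 1166 5 910)
(mv 1101 (cons (fin 1100 2 1036)
(mv 1037 (cons (fin 1036 3 1036)
(mv 1165 (cons (fin 1164 1 1100)
(mv 973 (cons (fin 972 7 908)
(fin 974 6 909)))))))))))))))))))))
(mv 1168 (cons (fin 1232 7 975)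
(mv 913 (cons (fin 977 6 912)
(mv 912 (cons (fin 849 6 848)
(mv 1167 (cons (fin 1103 5 911)
(fin 1231 5 975))))))))))))))
(cons (cons (mv 974 (cons (mv 973 (cons (fin 972 0 972)
(fin 1041 0 973)))
(cons (mv 1041 (cons (fin 1042 3 974)
(mv 977 (cons (mv 909 (cons (fin 910 3 909)
(mv 913 (cons (fin 914 2 910)
(mv 849 (cons (fin 785 5 784)
(fin 1104 5 848)))))))
(cons (mv 910 (cons (fin 909 3 909)
(mv 978 (cons (fin 911 3 910)
(fin 979 1 975)))))
(mv 913 (cons (fin 914 2 910)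
(mv 849 (cons (fin 785 5 784)
(fin 1104 5 848))))))))))
(mv 973 (cons (fin 972 0 972)
(mv 908 (cons (fin 909 3 908)
(mv 913 (cons (fin 912 2 909)
(mv 977 (cons (fin 914 2 910)
(mv 785 (cons (fin 849 5 784)
(mv 978 (cons (fin 979 1 975)
(mv 911 (cons (fin 910 3 910)
(mv 847 (cons (fin 783 4 783)
(fin 1104 4 847))))))))))))))))))))
(mv 1104 (cons (mv 911 (cons (fin 1168 7 911)
(fin 847 4 847)))
(cons (mv 911 (cons (fin 847 4 847)
(mv 1103 (cons (mv 1167 (cons (fin 912 5 911)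
(fin 1231 6 975)))
(mv 846 (cons (fin 910 7 846)
(mv 1102 (cons (fin 1166 5 910)
(mv 1041 (cons (fin 1042 1 1038)
(fin 1101 2 1037)))))))))))
(mv 1168 (cons (fin 1232 7 975)
(mv 1167 (cons (fin 1231 5 975)
(mv 912 (cons (fin 1103 5 911)
(mv 1169 (cons (fin 1105 4 912)
(fin 1233 4 976)))))))))))))
(cons (mv 974 (cons (mv 973 (cons (fin 972 0 972)
(fin 1041 0 973)))
(cons (mv 973 (cons (fin 972 0 972)
(mv 909 (cons (fin 908 3 908)
(mv 910 (cons (fin 977 3 909)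
(mv 782 (cons (fin 846 4 782)
(mv 1037 (cons (fin 1036 1 972)
(mv 1101 (cons (fin 1165 6 909)
(mv 1100 (cons (fin 1164 5 908)
(mv 1102 (cons (fin 1103 2 1036)
(fin 1166 4 909)))))))))))))))))
(mv 1041 (cons (fin 1042 3 974)
(mv 977 (cons (mv 909 (cons (fin 910 3 909)
(mv 913 (cons (fin 914 2 910)
(mv 849 (cons (fin 785 5 784)
(fin 1104 5 848)))))))
(cons (mv 910 (cons (fin 909 3 909)
(mv 978 (cons (fin 911 3 910)
(fin 979 1 975)))))
(mv 913 (cons (fin 914 2 910)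
(mv 849 (cons (fin 785 5 784)
(fin 1104 5 848)))))))))))))
(mv 1104 (cons (mv 911 (cons (fin 1168 7 911)
(fin 847 4 847)))
(cons (mv 911 (cons (fin 847 4 847)
(mv 1103 (cons (mv 1167 (cons (fin 912 5 911)
(fin 1231 6 975)))
(mv 1102 (cons (fin 1166 5 910)
(mv 1041 (cons (fin 1042 1 1038)
(fin 1101 2 1037)))))))))
(mv 1168 (cons (fin 1232 7 975)
(mv 913 (cons (fin 977 6 912)
(mv 912 (cons (fin 849 6 848)
(mv 1167 (cons (fin 1103 5 911)
(fin 1231 5 975))))))))))))))))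
(mv 912 (cons (cons (mv 848 (cons (fin 1103 5 847)
(mv 783 (cons (fin 847 7 783)
(mv 784 (cons (fin 719 7 719)
(fin 975 5 783)))))))
(mv 1104 (cons (cons (mv 847 (cons (fin 911 7 847)
(mv 849 (cons (fin 913 6 848)
(mv 1169 (cons (fin 1105 4 912)
(mv 1168 (cons (fin 1233 4 976)
(mv 1232 (cons (fin 975 7 975)
(mv 977 (cons (fin 1041 6 976)
(mv 978 (cons (fin 979 1 975)
(mv 1295 (cons (fin 1231 5 1039)
(mv 1296 (cons (fin 1103 7 1039)
(fin 1359 5 1103)))))))))))))))))))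
(cons (mv 849 (cons (fin 913 6 848)
(mv 1169 (cons (fin 1105 4 912)
(mv 1168 (cons (fin 1233 4 976)
(mv 1232 (cons (fin 975 7 975)
(mv 977 (cons (fin 1041 6 976)
(mv 978 (cons (fin 979 1 975)
(mv 1295 (cons (fin 1231 5 1039)
(mv 1296 (cons (fin 1103 7 1039)
(fin 1359 5 1103)))))))))))))))))
(mv 847 (cons (fin 911 7 847)
(mv 1169 (cons (fin 1105 4 912)
(mv 1168 (cons (fin 1233 4 976)
(mv 1232 (cons (fin 975 7 975)
(mv 977 (cons (fin 1041 6 976)
(mv 978 (cons (fin 979 1 975)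
(mv 1295 (cons (fin 1231 5 1039)
(mv 1296 (cons (fin 1103 7 1039)
(fin 1359 5 1103)))))))))))))))))))
(cons (cons (mv 847 (cons (fin 911 7 847)
(mv 913 (cons (fin 849 6 848)
(mv 1168 (cons (fin 977 6 912)
(mv 1232 (cons (fin 975 7 975)
(mv 1231 (cons (fin 1295 5 1039)
(mv 1296 (cons (fin 1103 7 1039)
(mv 1297 (cons (fin 1233 4 1040)
(fin 1361 4 1104)))))))))))))))
(mv 911 (cons (fin 847 7 847)
(mv 913 (cons (fin 849 6 848)
(mv 1105 (cons (fin 1169 4 912)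
(mv 914 (cons (mv 975 (cons (fin 974 1 910)
(fin 915 1 911)))
(mv 850 (cons (fin 851 2 847)
(mv 977 (cons (fin 1041 6 849)
(mv 910 (cons (fin 909 0 909)
(fin 978 0 910))))))))))))))))
(cons (mv 847 (cons (fin 911 7 847)
(mv 913 (cons (fin 849 6 848)
(mv 1168 (cons (fin 977 6 912)
(mv 1169 (cons (fin 1105 4 912)
(fin 1233 4 976)))))))))
(mv 847 (cons (fin 911 7 847)
(mv 849 (cons (fin 913 6 848)
(mv 1169 (cons (fin 1105 4 912)
(mv 1168 (cons (fin 1233 4 976)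
(mv 1232 (cons (fin 975 7 975)
(mv 1295 (cons (fin 1231 5 1039)
(mv 1296 (cons (fin 1103 7 1039)
(fin 1359 5 1103))))))))))))))))))))
(cons (mv 848 (cons (mv 783 (cons (fin 847 7 783)
(mv 784 (cons (fin 719 7 719)
(fin 975 5 783)))))
(cons (mv 783 (cons (fin 847 7 783)
(mv 849 (cons (fin 785 6 784)
(mv 1104 (cons (fin 913 6 848)
(mv 1105 (cons (fin 1041 4 848)
(fin 1169 4 912)))))))))
(mv 784 (cons (fin 975 5 783)
(mv 785 (cons (fin 721 6 720)
(fin 849 6 784))))))))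
(cons (mv 848 (cons (fin 1103 5 847)
(mv 784 (cons (fin 975 5 783)
(mv 785 (cons (fin 721 6 720)
(fin 849 6 784)))))))
(mv 848 (cons (fin 1103 5 847)
(mv 783 (cons (fin 847 7 783)
(mv 719 (cons (fin 784 7 719)
(mv 849 (cons (fin 785 6 784)
(mv 1104 (cons (fin 913 6 848)
(mv 1105 (cons (fin 1041 4 848)
(fin 1169 4 912))))))))))))))))))
(cons (mv 912 (cons (cons (mv 848 (cons (fin 1103 5 847)
(mv 783 (cons (fin 847 7 783)
(mv 784 (cons (fin 719 7 719)
(fin 975 5 783)))))))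
(mv 1104 (cons (cons (cons (mv 847 (cons (fin 911 7 847)
(mv 849 (cons (fin 913 6 848)
(mv 1103 (cons (fin 1167 5 911)
(mv 1169 (cons (fin 1105 4 912)
(mv 1168 (cons (fin 1233 4 976)
(mv 1232 (cons (fin 975 7 975)
(fin 1296 7 1039)))))))))))))
(mv 847 (cons (fin 911 7 847)
(mv 849 (cons (fin 913 6 848)
(mv 1169 (cons (fin 1105 4 912)
(mv 1168 (cons (fin 1233 4 976)
(mv 1232 (cons (fin 975 7 975)
(mv 1295 (cons (fin 1231 5 1039)
(mv 1296 (cons (fin 1103 7 1039)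
(fin 1359 5 1103))))))))))))))))
(cons (mv 847 (cons (fin 911 7 847)
(mv 849 (cons (fin 913 6 848)
(mv 1169 (cons (fin 1105 4 912)
(mv 1168 (cons (fin 1233 4 976)
(mv 1231 (cons (fin 1167 5 975)
(mv 1232 (cons (fin 975 7 975)
(fin 1295 5 1039)))))))))))))
(mv 849 (cons (fin 913 6 848)
(mv 1103 (cons (fin 1167 5 911)
(mv 1169 (cons (fin 1105 4 912)
(mv 1168 (cons (fin 1233 4 976)
(mv 1232 (cons (fin 975 7 975)
(fin 1296 7 1039)))))))))))))
(cons (cons (mv 849 (cons (fin 913 6 848)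
(mv 911 (cons (fin 847 7 847)
(mv 975 (cons (fin 1168 7 911)
(mv 1103 (cons (fin 1167 5 911)
(mv 846 (cons (fin 910 7 846)
(mv 1102 (cons (fin 1166 5 910)
(mv 1041 (cons (fin 1042 1 1038)
(fin 1101 2 1037)))))))))))))))
(mv 847 (cons (fin 911 7 847)
(mv 1103 (cons (fin 1167 5 911)
(mv 1169 (cons (fin 1105 4 912)
(mv 1168 (cons (fin 1233 4 976)
(mv 1232 (cons (fin 975 7 975)
(fin 1296 7 1039))))))))))))
(cons (mv 847 (cons (fin 911 7 847)
(mv 849 (cons (fin 913 6 848)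
(mv 1167 (cons (fin 1103 5 911)
(mv 1168 (cons (fin 1231 5 975)
(mv 1169 (cons (fin 1105 4 912)
(fin 1233 4 976)))))))))))
(mv 849 (cons (fin 913 6 848)
(mv 911 (cons (fin 847 7 847)
(mv 1103 (cons (fin 1167 5 911)
(mv 1105 (cons (fin 1169 4 912)
(mv 1102 (cons (mv 1041 (cons (fin 1042 1 1038)
(fin 1101 2 1037)))
(mv 1166 (cons (fin 1165 1 1101)
(fin 975 5 910))))))))))))))))))
(cons (mv 848 (cons (mv 783 (cons (fin 847 7 783)
(mv 784 (cons (fin 719 7 719)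
(fin 975 5 783)))))
(cons (mv 783 (cons (fin 847 7 783)
(mv 849 (cons (fin 785 6 784)
(mv 1104 (cons (fin 913 6 848)
(mv 1105 (cons (fin 1041 4 848)
(fin 1169 4 912)))))))))
(mv 784 (cons (fin 975 5 783)
(mv 785 (cons (fin 721 6 720)
(fin 849 6 784))))))))
(cons (mv 848 (cons (fin 1103 5 847)
(mv 783 (cons (fin 847 7 783)
(mv 719 (cons (fin 784 7 719)
(mv 849 (cons (fin 785 6 784)
(mv 1104 (cons (fin 913 6 848)
(mv 1105 (cons (fin 1041 4 848)
(fin 1169 4 912)))))))))))))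
(mv 848 (cons (fin 1103 5 847)
(mv 784 (cons (fin 975 5 783)
(mv 785 (cons (fin 721 6 720)
(fin 849 6 784)))))))))))
(mv 912 (cons (cons (mv 848 (cons (fin 1103 5 847)
(mv 783 (cons (fin 847 7 783)
(mv 784 (cons (fin 719 7 719)
(fin 975 5 783)))))))
(mv 1104 (cons (cons (mv 847 (cons (fin 911 7 847)
(mv 849 (cons (fin 913 6 848)
(mv 1103 (cons (fin 1167 5 911)
(mv 1169 (cons (fin 1105 4 912)
(mv 1168 (cons (fin 1233 4 976)
(mv 1232 (cons (fin 975 7 975)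
(fin 1296 7 1039)))))))))))))
(cons (mv 849 (cons (fin 913 6 848)
(mv 1103 (cons (fin 1167 5 911)
(mv 1169 (cons (fin 1105 4 912)
(mv 1168 (cons (fin 1233 4 976)
(mv 1232 (cons (fin 975 7 975)
(fin 1296 7 1039)))))))))))
(mv 847 (cons (fin 911 7 847)
(mv 913 (cons (fin 849 6 848)
(mv 1105 (cons (fin 1169 4 912)
(mv 1168 (cons (fin 977 6 912)
(mv 1232 (cons (fin 975 7 975)
(mv 1296 (cons (fin 1041 6 1040)
(mv 1297 (cons (fin 1233 4 1040)
(fin 1361 4 1104)))))))))))))))))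
(cons (cons (mv 847 (cons (fin 911 7 847)
(mv 1103 (cons (fin 1167 5 911)
(mv 1169 (cons (fin 1105 4 912)
(mv 1168 (cons (fin 1233 4 976)
(mv 1232 (cons (fin 975 7 975)
(fin 1296 7 1039)))))))))))
(mv 847 (cons (fin 911 7 847)
(mv 913 (cons (fin 849 6 848)
(mv 1103 (cons (fin 1167 5 911)
(mv 1168 (cons (fin 977 6 912)
(mv 1232 (cons (fin 975 7 975)
(fin 1296 7 1039))))))))))))
(cons (mv 847 (cons (fin 911 7 847)
(mv 849 (cons (fin 913 6 848)
(mv 1103 (cons (fin 1167 5 911)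
(mv 1169 (cons (fin 1105 4 912)
(mv 1168 (cons (fin 1233 4 976)
(mv 1102 (cons (fin 1101 0 1101)
(mv 1041 (cons (fin 1042 1 1038)
(mv 1232 (cons (fin 1296 7 1039)
(fin 977 6 976)))))))))))))))))
(mv 849 (cons (fin 913 6 848)
(mv 911 (cons (fin 847 7 847)
(mv 1103 (cons (fin 1167 5 911)
(mv 1105 (cons (fin 1169 4 912)
(mv 1102 (cons (mv 1041 (cons (fin 1042 1 1038)
(fin 1101 2 1037)))
(mv 1166 (cons (fin 1165 1 1101)
(fin 975 5 910))))))))))))))))))
(cons (mv 848 (cons (mv 783 (cons (fin 847 7 783)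
(mv 784 (cons (fin 719 7 719)
(fin 975 5 783)))))
(cons (mv 783 (cons (fin 847 7 783)
(mv 849 (cons (fin 785 6 784)
(mv 1104 (cons (fin 913 6 848)
(mv 1105 (cons (fin 1041 4 848)
(fin 1169 4 912)))))))))
(mv 784 (cons (fin 975 5 783)
(mv 785 (cons (fin 721 6 720)
(fin 849 6 784))))))))
(cons (mv 848 (cons (fin 1103 5 847)
(mv 783 (cons (fin 847 7 783)
(mv 719 (cons (fin 784 7 719)
(mv 849 (cons (fin 785 6 784)
(mv 1104 (cons (fin 913 6 848)
(mv 1105 (cons (fin 1041 4 848)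
(fin 1169 4 912)))))))))))))
(mv 848 (cons (fin 1103 5 847)
(mv 784 (cons (fin 975 5 783)
(mv 785 (cons (fin 721 6 720)
(fin 849 6 784))))))))))))))
(cons (cons (mv 912 (cons (cons (mv 848 (cons (fin 1103 5 847)
(mv 783 (cons (fin 847 7 783)
(mv 719 (cons (fin 784 7 719)
(mv 849 (cons (fin 785 6 784)
(mv 1104 (cons (fin 913 6 848)
(mv 1105 (cons (fin 1041 4 848)
(fin 1169 4 912)))))))))))))
(cons (mv 1104 (cons (cons (mv 847 (cons (fin 911 7 847)
(mv 849 (cons (fin 913 6 848)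
(mv 1103 (cons (fin 1167 5 911)
(mv 1169 (cons (fin 1105 4 912)
(mv 1168 (cons (fin 1233 4 976)
(mv 1102 (cons (fin 1101 0 1101)
(mv 1041 (cons (fin 1042 1 1038)
(mv 1232 (cons (fin 1296 7 1039)
(fin 977 6 976)))))))))))))))))
(cons (mv 847 (cons (fin 911 7 847)
(mv 913 (cons (fin 849 6 848)
(mv 1168 (cons (fin 977 6 912)
(mv 1169 (cons (fin 1105 4 912)
(fin 1233 4 976)))))))))
(mv 847 (cons (fin 911 7 847)
(mv 1103 (cons (fin 1167 5 911)
(mv 1169 (cons (fin 1105 4 912)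
(mv 1168 (cons (fin 1233 4 976)
(mv 1102 (cons (fin 1101 0 1101)
(mv 1041 (cons (fin 1042 1 1038)
(mv 1232 (cons (fin 1296 7 1039)
(fin 977 6 976)))))))))))))))))
(cons (cons (mv 847 (cons (fin 911 7 847)
(mv 913 (cons (fin 849 6 848)
(mv 1167 (cons (fin 1103 5 911)
(mv 1168 (cons (fin 1231 5 975)
(fin 977 6 912)))))))))
(mv 849 (cons (fin 913 6 848)
(mv 1103 (cons (fin 1167 5 911)
(mv 1169 (cons (fin 1105 4 912)
(mv 1168 (cons (fin 1233 4 976)
(mv 1102 (cons (fin 1101 0 1101)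
(mv 1041 (cons (fin 1042 1 1038)
(mv 1232 (cons (fin 1296 7 1039)
(fin 977 6 976))))))))))))))))
(cons (mv 911 (cons (fin 847 7 847)
(mv 913 (cons (fin 849 6 848)
(mv 1103 (cons (fin 1167 5 911)
(mv 1105 (cons (fin 1169 4 912)
(mv 914 (cons (cons (mv 850 (cons (fin 851 2 847)
(mv 977 (cons (fin 1041 6 849)
(mv 910 (cons (fin 909 0 909)
(fin 978 0 910)))))))
(mv 850 (cons (fin 851 2 847)
(mv 1041 (cons (fin 977 6 849)
(mv 1042 (cons (fin 1102 1 1038)
(fin 1043 1 1039))))))))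
(cons (mv 978 (cons (fin 979 0 911)
(mv 910 (cons (fin 977 0 910)
(mv 845 (cons (fin 846 3 845)
(mv 909 (cons (fin 844 3 844)
(mv 973 (cons (fin 972 1 908)
(fin 974 1 909)))))))))))
(mv 851 (cons (fin 850 2 847)
(mv 915 (cons (fin 852 2 848)
(mv 979 (cons (fin 978 0 911)
(fin 980 0 912))))))))))))))))))
(mv 847 (cons (fin 911 7 847)
(mv 849 (cons (fin 913 6 848)
(mv 1167 (cons (fin 1103 5 911)
(mv 1168 (cons (fin 1231 5 975)
(mv 1169 (cons (fin 1105 4 912)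
(fin 1233 4 976)))))))))))))))
(mv 848 (cons (cons (mv 783 (cons (fin 847 7 783)
(mv 719 (cons (fin 784 7 719)
(mv 849 (cons (fin 785 6 784)
(mv 1104 (cons (fin 913 6 848)
(mv 1105 (cons (fin 1041 4 848)
(fin 1169 4 912)))))))))))
(mv 783 (cons (fin 847 7 783)
(mv 784 (cons (fin 719 7 719)
(mv 1041 (cons (fin 977 4 784)
(fin 1105 4 848))))))))
(cons (mv 785 (cons (fin 849 6 784)
(mv 784 (cons (fin 721 6 720)
(mv 1041 (cons (fin 977 4 784)
(fin 1105 4 848)))))))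
(cons (mv 783 (cons (fin 847 7 783)
(mv 784 (cons (fin 719 7 719)
(mv 785 (cons (fin 721 6 720)
(fin 849 6 784)))))))
(mv 783 (cons (fin 847 7 783)
(mv 849 (cons (fin 785 6 784)
(mv 1104 (cons (fin 913 6 848)
(mv 1105 (cons (fin 1041 4 848)
(fin 1169 4 912)))))))))))))))
(cons (mv 848 (cons (fin 1103 5 847)
(mv 783 (cons (fin 847 7 783)
(mv 784 (cons (fin 719 7 719)
(mv 785 (cons (fin 721 6 720)
(fin 849 6 784)))))))))
(cons (mv 848 (cons (fin 1103 5 847)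
(mv 783 (cons (fin 847 7 783)
(mv 784 (cons (fin 719 7 719)
(mv 1041 (cons (fin 977 4 784)
(fin 1105 4 848)))))))))
(mv 848 (cons (fin 1103 5 847)
(mv 785 (cons (fin 849 6 784)
(mv 784 (cons (fin 721 6 720)
(mv 1041 (cons (fin 977 4 784)
(fin 1105 4 848)))))))))))))
(cons (mv 975 (cons (cons (cons (mv 974 (cons (mv 973 (cons (fin 972 0 972)
(fin 1041 0 973)))
(cons (mv 1041 (cons (fin 1042 3 974)
(mv 977 (cons (mv 909 (cons (fin 910 3 909)
(mv 913 (cons (fin 914 2 910)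
(mv 849 (cons (fin 785 5 784)
(mv 786 (cons (fin 850 6 785)
(mv 848 (cons (fin 784 7 784)
(mv 912 (cons (fin 1105 7 848)
(fin 1103 5 847)))))))))))))
(cons (mv 913 (cons (fin 914 2 910)
(mv 849 (cons (fin 785 5 784)
(mv 786 (cons (fin 850 6 785)
(mv 848 (cons (fin 784 7 784)
(mv 912 (cons (fin 1105 7 848)
(fin 1103 5 847)))))))))))
(mv 910 (cons (fin 909 3 909)
(mv 978 (cons (fin 911 3 910)
(fin 979 1 975))))))))))
(mv 973 (cons (fin 972 0 972)
(mv 908 (cons (fin 909 3 908)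
(mv 912 (cons (fin 913 2 909)
(mv 848 (cons (fin 784 5 783)
(fin 1103 5 847))))))))))))
(mv 1103 (cons (mv 912 (cons (fin 848 5 847)
(fin 1167 6 911)))
(cons (mv 1167 (cons (fin 1231 6 975)
(mv 1166 (cons (fin 1230 5 974)
(mv 911 (cons (fin 1102 5 910)
(mv 846 (cons (fin 910 7 846)
(mv 847 (cons (fin 782 7 782)
(fin 783 4 783)))))))))))
(mv 911 (cons (cons (mv 783 (cons (fin 847 4 783)
(mv 910 (cons (fin 846 7 846)
(mv 909 (cons (fin 908 0 908)
(mv 912 (cons (fin 977 0 909)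
(fin 848 5 847)))))))))
(mv 783 (cons (fin 847 4 783)
(mv 910 (cons (fin 846 7 846)
(mv 909 (cons (fin 908 0 908)
(mv 977 (cons (fin 978 3 910)
(fin 912 0 909))))))))))
(cons (mv 846 (cons (fin 910 7 846)
(mv 847 (cons (fin 782 7 782)
(fin 783 4 783)))))
(cons (mv 910 (cons (fin 846 7 846)
(mv 909 (cons (fin 908 0 908)
(mv 912 (cons (fin 977 0 909)
(fin 848 5 847)))))))
(mv 847 (cons (fin 783 4 783)
(mv 848 (cons (fin 912 5 847)
(fin 784 6 783)))))))))))))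
(cons (mv 974 (cons (mv 973 (cons (fin 972 0 972)
(fin 1041 0 973)))
(cons (mv 1041 (cons (fin 1042 3 974)
(mv 977 (cons (cons (mv 909 (cons (fin 910 3 909)
(mv 913 (cons (fin 914 2 910)
(mv 849 (cons (fin 785 5 784)
(mv 786 (cons (fin 850 6 785)
(mv 848 (cons (fin 784 7 784)
(mv 912 (cons (fin 1105 7 848)
(mv 847 (cons (fin 783 7 783)
(mv 846 (cons (fin 845 0 845)
(mv 782 (cons (fin 781 3 781)
(fin 911 7 782)))))))))))))))))))
(mv 913 (cons (fin 914 2 910)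
(mv 849 (cons (fin 785 5 784)
(mv 786 (cons (fin 850 6 785)
(mv 848 (cons (fin 784 7 784)
(mv 912 (cons (fin 1105 7 848)
(mv 847 (cons (fin 783 7 783)
(mv 846 (cons (fin 845 0 845)
(mv 782 (cons (fin 781 3 781)
(fin 911 7 782))))))))))))))))))
(cons (mv 910 (cons (fin 909 3 909)
(mv 978 (cons (fin 911 3 910)
(fin 979 1 975)))))
(mv 909 (cons (fin 910 3 909)
(mv 914 (cons (fin 913 2 910)
(mv 978 (cons (fin 979 1 975)
(fin 915 2 911))))))))))))
(mv 973 (cons (fin 972 0 972)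
(mv 909 (cons (fin 908 3 908)
(mv 910 (cons (fin 977 3 909)
(mv 782 (cons (fin 846 4 782)
(mv 912 (cons (fin 913 2 909)
(mv 848 (cons (fin 784 5 783)
(mv 849 (cons (fin 911 2 845)
(fin 785 6 784))))))))))))))))))
(mv 974 (cons (mv 973 (cons (fin 972 0 972)
(fin 1041 0 973)))
(cons (mv 973 (cons (fin 972 0 972)
(mv 909 (cons (fin 908 3 908)
(mv 910 (cons (fin 977 3 909)
(mv 782 (cons (fin 846 4 782)
(mv 1037 (cons (fin 1036 1 972)
(mv 1101 (cons (fin 1165 6 909)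
(mv 1100 (cons (fin 1164 5 908)
(mv 1102 (cons (fin 1103 2 1036)
(fin 1166 4 909)))))))))))))))))
(mv 1041 (cons (fin 1042 3 974)
(mv 977 (cons (cons (mv 909 (cons (fin 910 3 909)
(mv 914 (cons (fin 913 2 910)
(mv 978 (cons (fin 979 1 975)
(fin 915 2 911)))))))
(mv 910 (cons (fin 909 3 909)
(mv 782 (cons (fin 846 4 782)
(mv 913 (cons (fin 914 2 910)
(mv 849 (cons (fin 785 5 784)
(mv 848 (cons (fin 784 7 784)
(mv 850 (cons (fin 786 6 785)
(mv 847 (cons (fin 783 3 782)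
(fin 911 1 846))))))))))))))))
(cons (mv 914 (cons (fin 913 2 910)
(mv 978 (cons (fin 979 1 975)
(fin 915 2 911)))))
(mv 910 (cons (fin 909 3 909)
(mv 978 (cons (fin 911 3 910)
(fin 979 1 975)))))))))))))))
(cons (cons (mv 974 (cons (mv 973 (cons (fin 972 0 972)
(fin 1041 0 973)))
(cons (mv 1041 (cons (fin 1042 3 974)
(mv 977 (cons (mv 909 (cons (fin 910 3 909)
(mv 914 (cons (fin 913 2 910)
(mv 978 (cons (fin 979 1 975)
(fin 915 2 911)))))))
(cons (mv 910 (cons (fin 909 3 909)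
(mv 846 (cons (fin 782 4 782)
(mv 1103 (cons (fin 911 7 846)
(fin 1167 7 910)))))))
(mv 914 (cons (fin 913 2 910)
(mv 978 (cons (fin 979 1 975)
(fin 915 2 911))))))))))
(mv 973 (cons (fin 972 0 972)
(mv 909 (cons (fin 908 3 908)
(mv 910 (cons (fin 977 3 909)
(mv 782 (cons (fin 846 4 782)
(mv 912 (cons (fin 913 2 909)
(mv 1037 (cons (fin 1036 1 972)
(mv 1101 (cons (fin 1165 6 909)
(mv 1100 (cons (fin 1164 5 908)
(mv 1102 (cons (fin 1103 2 1036)
(fin 1166 4 909))))))))))))))))))))))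
(mv 974 (cons (mv 973 (cons (fin 972 0 972)
(fin 1041 0 973)))
(cons (mv 977 (cons (cons (mv 909 (cons (fin 910 3 909)
(mv 913 (cons (fin 914 2 910)
(mv 785 (cons (fin 849 5 784)
(mv 978 (cons (fin 979 1 975)
(mv 1042 (cons (fin 1041 3 974)
(fin 1043 0 975)))))))))))
(mv 909 (cons (fin 910 3 909)
(mv 914 (cons (fin 913 2 910)
(mv 978 (cons (fin 979 1 975)
(fin 915 2 911))))))))
(cons (mv 909 (cons (fin 910 3 909)
(mv 913 (cons (fin 914 2 910)
(mv 849 (cons (fin 785 5 784)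
(mv 1041 (cons (fin 1042 3 974)
(mv 786 (cons (fin 850 6 785)
(mv 848 (cons (fin 784 7 784)
(mv 912 (cons (fin 1105 7 848)
(fin 1103 5 847)))))))))))))))
(cons (mv 913 (cons (fin 914 2 910)
(mv 785 (cons (fin 849 5 784)
(mv 978 (cons (fin 979 1 975)
(mv 1042 (cons (fin 1041 3 974)
(fin 1043 0 975)))))))))
(mv 909 (cons (fin 910 3 909)
(mv 978 (cons (fin 979 1 975)
(mv 1042 (cons (fin 1041 3 974)
(fin 1043 0 975)))))))))))
(mv 973 (cons (fin 972 0 972)
(mv 908 (cons (fin 909 3 908)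
(mv 912 (cons (fin 913 2 909)
(mv 848 (cons (fin 784 5 783)
(fin 1103 5 847)))))))))))))
(cons (mv 1103 (cons (mv 912 (cons (fin 848 5 847)
(fin 1167 6 911)))
(cons (mv 911 (cons (cons (mv 783 (cons (fin 847 4 783)
(mv 910 (cons (fin 846 7 846)
(mv 909 (cons (fin 908 0 908)
(mv 912 (cons (fin 848 5 847)
(mv 844 (cons (fin 845 3 844)
(mv 973 (cons (fin 972 1 908)
(mv 974 (cons (fin 913 1 909)
(fin 1041 0 973)))))))))))))))
(mv 783 (cons (fin 847 4 783)
(mv 910 (cons (fin 846 7 846)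
(mv 909 (cons (fin 908 0 908)
(mv 1102 (cons (fin 1166 5 910)
(mv 1041 (cons (fin 1042 1 1038)
(mv 973 (cons (fin 974 0 973)
(mv 972 (cons (fin 912 1 908)
(mv 970 (cons (fin 971 2 906)
(mv 1100 (cons (fin 1101 2 1036)
(mv 1036 (cons (fin 1164 6 908)
(mv 845 (cons (fin 781 5 780)
(fin 1037 5 844))))))))))))))))))))))))
(cons (mv 846 (cons (fin 910 7 846)
(mv 847 (cons (fin 782 7 782)
(fin 783 4 783)))))
(cons (mv 910 (cons (fin 846 7 846)
(mv 909 (cons (fin 908 0 908)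
(mv 912 (cons (fin 848 5 847)
(mv 844 (cons (fin 845 3 844)
(mv 973 (cons (fin 972 1 908)
(mv 974 (cons (fin 913 1 909)
(fin 1041 0 973)))))))))))))
(mv 847 (cons (fin 783 4 783)
(mv 848 (cons (fin 912 5 847)
(fin 784 6 783)))))))))
(mv 1167 (cons (fin 1231 6 975)
(mv 910 (cons (fin 974 7 910)
(mv 911 (cons (fin 846 7 846)
(mv 1166 (cons (fin 1102 5 910)
(fin 1230 5 974))))))))))))
(cons (mv 974 (cons (mv 973 (cons (fin 972 0 972)
(fin 1041 0 973)))
(cons (mv 977 (cons (cons (mv 913 (cons (fin 914 2 910)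
(mv 785 (cons (fin 849 5 784)
(mv 978 (cons (fin 979 1 975)
(mv 1042 (cons (fin 1041 3 974)
(fin 1043 0 975)))))))))
(mv 914 (cons (fin 913 2 910)
(mv 978 (cons (fin 979 1 975)
(fin 915 2 911))))))
(cons (mv 913 (cons (fin 914 2 910)
(mv 849 (cons (fin 785 5 784)
(mv 1041 (cons (fin 1042 3 974)
(mv 786 (cons (fin 850 6 785)
(mv 848 (cons (fin 784 7 784)
(mv 912 (cons (fin 1105 7 848)
(fin 1103 5 847)))))))))))))
(mv 978 (cons (fin 979 1 975)
(mv 1042 (cons (fin 1041 3 974)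
(fin 1043 0 975))))))))
(mv 973 (cons (fin 972 0 972)
(mv 908 (cons (fin 909 3 908)
(mv 912 (cons (fin 913 2 909)
(mv 848 (cons (fin 784 5 783)
(fin 1103 5 847))))))))))))
(mv 1103 (cons (mv 912 (cons (fin 848 5 847)
(fin 1167 6 911)))
(cons (mv 848 (cons (fin 912 5 847)
(mv 911 (cons (mv 847 (cons (fin 784 6 783)
(fin 783 4 783)))
(cons (mv 910 (cons (fin 846 7 846)
(mv 977 (cons (fin 978 3 910)
(mv 1102 (cons (fin 1166 5 910)
(mv 1041 (cons (fin 1042 1 1038)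
(mv 974 (cons (fin 973 0 973)
(mv 913 (cons (fin 914 2 910)
(mv 849 (cons (fin 784 7 784)
(fin 785 5 784)))))))))))))))
(mv 846 (cons (fin 910 7 846)
(mv 847 (cons (fin 782 7 782)
(fin 783 4 783))))))))))
(mv 1167 (cons (fin 1231 6 975)
(mv 910 (cons (fin 974 7 910)
(mv 911 (cons (fin 846 7 846)
(mv 1166 (cons (fin 1102 5 910)
(fin 1230 5 974)))))))))))))))))
(mv 1103 (cons (cons (mv 912 (cons (fin 848 5 847)
(mv 1167 (cons (fin 1104 5 911)
(fin 975 6 911)))))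
(mv 1167 (cons (fin 1231 6 975)
(mv 975 (cons (mv 910 (cons (fin 974 7 910)
(mv 911 (cons (fin 846 7 846)
(mv 847 (cons (fin 783 4 783)
(fin 1104 4 847)))))))
(cons (mv 1166 (cons (fin 1230 5 974)
(mv 911 (cons (fin 1102 5 910)
(mv 847 (cons (fin 783 4 783)
(fin 1104 4 847)))))))
(mv 974 (cons (fin 910 7 910)
(mv 973 (cons (fin 972 0 972)
(mv 909 (cons (fin 908 3 908)
(mv 1037 (cons (fin 1036 1 972)
(mv 1166 (cons (fin 1230 5 974)
(mv 1101 (cons (fin 1102 4 909)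
(mv 1100 (cons (fin 1164 5 908)
(mv 1168 (cons (fin 1165 3 1100)
(fin 1232 4 975)))))))))))))))))))))))
(cons (mv 912 (cons (fin 848 5 847)
(mv 1104 (cons (cons (mv 847 (cons (fin 911 7 847)
(mv 849 (cons (fin 913 6 848)
(mv 1169 (cons (fin 1105 4 912)
(mv 1168 (cons (fin 1233 4 976)
(mv 1232 (cons (fin 975 7 975)
(fin 1296 7 1039)))))))))))
(cons (mv 849 (cons (fin 913 6 848)
(mv 1169 (cons (fin 1105 4 912)
(mv 1168 (cons (fin 1233 4 976)
(mv 1232 (cons (fin 975 7 975)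
(fin 1296 7 1039)))))))))
(mv 847 (cons (fin 911 7 847)
(mv 1169 (cons (fin 1105 4 912)
(mv 1168 (cons (fin 1233 4 976)
(mv 1232 (cons (fin 975 7 975)
(fin 1296 7 1039)))))))))))
(cons (mv 847 (cons (fin 911 7 847)
(mv 913 (cons (fin 849 6 848)
(mv 1168 (cons (fin 977 6 912)
(mv 1232 (cons (fin 975 7 975)
(fin 1296 7 1039)))))))))
(cons (mv 911 (cons (fin 847 7 847)
(mv 913 (cons (fin 849 6 848)
(mv 1105 (cons (fin 1169 4 912)
(mv 975 (cons (mv 914 (cons (fin 974 1 910)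
(fin 915 1 911)))
(mv 910 (cons (fin 846 7 846)
(mv 909 (cons (fin 908 0 908)
(fin 977 0 909)))))))))))))
(mv 847 (cons (fin 911 7 847)
(mv 913 (cons (fin 849 6 848)
(mv 1168 (cons (fin 977 6 912)
(mv 1169 (cons (fin 1105 4 912)
(fin 1233 4 976)))))))))))))))
(cons (mv 912 (cons (fin 848 5 847)
(mv 1167 (cons (fin 1104 5 911)
(fin 1231 6 975)))))
(mv 912 (cons (fin 848 5 847)
(mv 1167 (cons (fin 975 6 911)
(fin 1231 6 975)))))))))))
(cons (cons (mv 1169 (cons (cons (cons (mv 912 (cons (cons (mv 848 (cons (fin 1103 5 847)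
(mv 1105 (cons (fin 1041 4 848)
(fin 1104 4 912)))))
(mv 1104 (cons (fin 1105 4 912)
(mv 849 (cons (fin 913 6 848)
(mv 1103 (cons (fin 1167 5 911)
(mv 1168 (cons (fin 1233 4 976)
(mv 1232 (cons (fin 975 7 975)
(fin 1296 7 1039))))))))))))
(cons (mv 848 (cons (fin 1103 5 847)
(mv 783 (cons (fin 847 7 783)
(mv 784 (cons (fin 719 7 719)
(fin 975 5 783)))))))
(mv 1104 (cons (fin 1105 4 912)
(mv 849 (cons (fin 913 6 848)
(mv 785 (cons (fin 848 6 784)
(mv 1168 (cons (fin 1233 4 976)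
(mv 1231 (cons (fin 1167 5 975)
(mv 1232 (cons (fin 975 7 975)
(fin 1295 5 1039))))))))))))))))
(mv 1233 (cons (cons (mv 1104 (cons (fin 1168 4 976)
(mv 1105 (cons (fin 1041 7 976)
(fin 1297 7 1040)))))
(mv 1041 (cons (fin 1105 7 976)
(mv 1042 (cons (mv 975 (cons (fin 974 3 974)
(fin 1043 3 975)))
(cons (mv 979 (cons (fin 978 2 975)
(mv 1043 (cons (fin 980 2 976)
(mv 1044 (cons (fin 977 3 976)
(mv 1108 (cons (fin 1107 0 1040)
(fin 1109 0 1041)))))))))
(mv 975 (cons (fin 974 3 974)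
(mv 978 (cons (fin 979 2 975)
(mv 1103 (cons (fin 1102 1 1038)
(mv 1167 (cons (fin 1231 6 975)
(mv 1166 (cons (fin 1230 5 974)
(mv 1168 (cons (fin 1234 0 1166)
(fin 1232 4 975)))))))))))))))))))
(cons (mv 1168 (cons (fin 1104 4 976)
(mv 1167 (cons (cons (mv 1103 (cons (fin 1231 6 975)
(mv 975 (cons (fin 1232 4 975)
(mv 1166 (cons (fin 1234 0 1166)
(fin 1230 5 974)))))))
(mv 1103 (cons (fin 1231 6 975)
(mv 975 (cons (fin 1232 4 975)
(mv 974 (cons (fin 910 7 910)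
(mv 973 (cons (fin 972 0 972)
(fin 1041 0 973))))))))))
(cons (mv 1166 (cons (fin 1234 0 1166)
(mv 1101 (cons (fin 1102 3 1101)
(mv 1165 (cons (fin 1100 3 1100)
(fin 1232 0 1165)))))))
(mv 1103 (cons (fin 1231 6 975)
(mv 1102 (cons (fin 1170 3 1102)
(mv 1101 (cons (fin 1166 3 1101)
(fin 1100 2 1036))))))))))))
(cons (mv 1168 (cons (fin 1104 4 976)
(mv 1167 (cons (cons (mv 1103 (cons (fin 1231 6 975)
(mv 975 (cons (fin 1232 4 975)
(mv 1166 (cons (fin 1234 0 1166)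
(fin 1230 5 974)))))))
(mv 1103 (cons (fin 1231 6 975)
(mv 1170 (cons (fin 1102 3 1102)
(mv 1232 (cons (fin 975 4 975)
(mv 1171 (cons (fin 1172 1 1168)
(mv 1235 (cons (fin 1234 3 1167)
(fin 1236 0 1168))))))))))))
(cons (mv 1103 (cons (fin 1231 6 975)
(mv 975 (cons (fin 1232 4 975)
(mv 910 (cons (fin 974 7 910)
(mv 1102 (cons (fin 1170 3 1102)
(mv 1101 (cons (fin 1166 3 1101)
(fin 1100 2 1036)))))))))))
(cons (mv 1166 (cons (fin 1234 0 1166)
(mv 1101 (cons (fin 1102 3 1101)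
(mv 1165 (cons (fin 1100 3 1100)
(fin 1232 0 1165)))))))
(mv 1103 (cons (fin 1231 6 975)
(mv 1102 (cons (fin 1170 3 1102)
(mv 1101 (cons (fin 1166 3 1101)
(fin 1100 2 1036)))))))))))))
(mv 1105 (cons (fin 1041 7 976)
(mv 1297 (cons (fin 1104 7 1040)
(mv 1360 (cons (fin 1296 5 1104)
(mv 1361 (cons (fin 1424 5 1168)
(mv 1362 (cons (fin 1298 4 1105)
(fin 1426 4 1169))))))))))))))))
(cons (mv 1103 (cons (cons (mv 912 (cons (fin 848 5 847)
(mv 1167 (cons (fin 975 6 911)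
(fin 1231 6 975)))))
(mv 912 (cons (fin 848 5 847)
(mv 1041 (cons (mv 1105 (cons (fin 977 7 912)
(fin 1233 7 976)))
(mv 1042 (cons (fin 1102 1 1038)
(mv 975 (cons (fin 974 3 974)
(fin 1043 3 975))))))))))
(cons (mv 1167 (cons (fin 1231 6 975)
(mv 975 (cons (mv 910 (cons (fin 974 7 910)
(mv 1166 (cons (fin 1230 5 974)
(mv 1168 (cons (fin 1232 4 975)
(mv 1102 (cons (fin 1101 3 1101)
(fin 1170 3 1102)))))))))
(cons (mv 1166 (cons (fin 1230 5 974)
(mv 1168 (cons (fin 1232 4 975)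
(mv 1102 (cons (fin 1101 3 1101)
(fin 1170 3 1102)))))))
(mv 974 (cons (fin 910 7 910)
(mv 973 (cons (fin 972 0 972)
(fin 1041 0 973))))))))))
(mv 912 (cons (fin 848 5 847)
(mv 1167 (cons (fin 1231 6 975)
(mv 1102 (cons (mv 1041 (cons (fin 1042 1 1038)
(mv 1105 (cons (fin 977 7 912)
(fin 1233 7 976)))))
(mv 1101 (cons (fin 1100 2 1036)
(mv 1168 (cons (fin 1166 3 1101)
(fin 1170 3 1102))))))))))))))
(mv 1104 (cons (cons (mv 912 (cons (fin 1105 4 912)
(mv 849 (cons (fin 913 6 848)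
(mv 785 (cons (fin 848 6 784)
(mv 1168 (cons (fin 1233 4 976)
(mv 1231 (cons (fin 1167 5 975)
(mv 1232 (cons (fin 975 7 975)
(fin 1295 5 1039)))))))))))))
(cons (mv 912 (cons (fin 1105 4 912)
(mv 849 (cons (fin 913 6 848)
(mv 848 (cons (fin 785 6 784)
(mv 783 (cons (fin 847 7 783)
(mv 784 (cons (fin 719 7 719)
(fin 975 5 783)))))))))))
(mv 1168 (cons (fin 1233 4 976)
(mv 913 (cons (fin 977 6 912)
(mv 849 (cons (fin 912 6 848)
(mv 1231 (cons (fin 1167 5 975)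
(mv 1232 (cons (fin 975 7 975)
(fin 1295 5 1039)))))))))))))
(cons (mv 1168 (cons (fin 1233 4 976)
(mv 913 (cons (fin 977 6 912)
(mv 1231 (cons (fin 1167 5 975)
(mv 1232 (cons (fin 975 7 975)
(fin 1295 5 1039)))))))))
(cons (mv 912 (cons (fin 1105 4 912)
(mv 1168 (cons (fin 1233 4 976)
(mv 1231 (cons (fin 1167 5 975)
(mv 1232 (cons (fin 975 7 975)
(fin 1295 5 1039)))))))))
(mv 912 (cons (fin 1105 4 912)
(mv 913 (cons (fin 849 6 848)
(mv 1168 (cons (fin 977 6 912)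
(fin 1233 4 976)))))))))))))
(cons (cons (mv 1168 (cons (cons (cons (mv 1104 (cons (fin 1233 4 976)
(mv 913 (cons (fin 977 6 912)
(mv 849 (cons (fin 912 6 848)
(mv 1167 (cons (fin 1231 5 975)
(mv 1232 (cons (fin 975 7 975)
(mv 1103 (cons (fin 1296 7 1039)
(mv 1102 (cons (fin 1170 3 1102)
(fin 1101 0 1101)))))))))))))))
(mv 1167 (cons (mv 1103 (cons (fin 1231 6 975)
(mv 912 (cons (fin 848 5 847)
(fin 975 6 911)))))
(cons (mv 1166 (cons (cons (mv 1101 (cons (fin 1102 3 1101)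
(mv 1100 (cons (fin 1165 3 1100)
(mv 1230 (cons (fin 1229 1 1165)
(mv 1170 (cons (fin 1231 1 1166)
(mv 1234 (cons (fin 1233 0 1166)
(fin 1235 0 1167)))))))))))
(mv 1101 (cons (fin 1102 3 1101)
(mv 1165 (cons (fin 1100 3 1100)
(mv 1233 (cons (fin 1232 0 1165)
(fin 1234 0 1166))))))))
(cons (mv 1101 (cons (fin 1102 3 1101)
(mv 1165 (cons (fin 1100 3 1100)
(mv 1229 (cons (fin 1228 1 1164)
(fin 1230 1 1165)))))))
(cons (mv 1229 (cons (fin 1230 1 1165)
(mv 1165 (cons (fin 1228 1 1164)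
(mv 1233 (cons (fin 1232 0 1165)
(fin 1234 0 1166)))))))
(mv 1101 (cons (fin 1102 3 1101)
(mv 1230 (cons (fin 1229 1 1165)
(mv 1170 (cons (fin 1231 1 1166)
(mv 1234 (cons (fin 1233 0 1166)
(fin 1235 0 1167)))))))))))))
(mv 1103 (cons (mv 912 (cons (fin 848 5 847)
(fin 975 6 911)))
(cons (mv 848 (cons (fin 912 5 847)
(mv 1102 (cons (fin 1170 3 1102)
(mv 1101 (cons (fin 1166 3 1101)
(fin 1100 2 1036)))))))
(mv 975 (cons (fin 1232 4 975)
(mv 910 (cons (fin 974 7 910)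
(mv 1102 (cons (fin 1170 3 1102)
(mv 1101 (cons (fin 1166 3 1101)
(fin 1100 2 1036))))))))))))))))
(cons (mv 1104 (cons (cons (mv 913 (cons (fin 977 6 912)
(mv 849 (cons (fin 912 6 848)
(mv 1167 (cons (fin 1231 5 975)
(mv 1232 (cons (fin 975 7 975)
(mv 1103 (cons (fin 1296 7 1039)
(mv 1102 (cons (fin 1170 3 1102)
(fin 1101 0 1101)))))))))))))
(cons (mv 913 (cons (fin 977 6 912)
(mv 912 (cons (fin 849 6 848)
(mv 1103 (cons (fin 848 5 847)
(fin 1167 5 911)))))))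
(mv 913 (cons (fin 977 6 912)
(mv 849 (cons (fin 912 6 848)
(mv 1232 (cons (fin 975 7 975)
(mv 1295 (cons (fin 1231 5 1039)
(mv 1296 (cons (fin 1103 7 1039)
(fin 1359 5 1103)))))))))))))
(cons (cons (mv 975 (cons (fin 1232 7 975)
(mv 1167 (cons (fin 1231 5 975)
(mv 912 (cons (fin 1103 5 911)
(mv 848 (cons (fin 784 5 783)
(mv 849 (cons (fin 785 6 784)
(fin 913 6 848)))))))))))
(mv 975 (cons (fin 1232 7 975)
(mv 1167 (cons (fin 1231 5 975)
(mv 1103 (cons (fin 912 5 911)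
(mv 1102 (cons (fin 1170 3 1102)
(fin 1101 0 1101))))))))))
(cons (mv 913 (cons (fin 977 6 912)
(mv 849 (cons (fin 912 6 848)
(mv 1231 (cons (fin 1167 5 975)
(mv 1232 (cons (fin 975 7 975)
(fin 1295 5 1039)))))))))
(mv 913 (cons (fin 977 6 912)
(mv 1167 (cons (fin 1231 5 975)
(mv 1232 (cons (fin 975 7 975)
(mv 1103 (cons (fin 1296 7 1039)
(mv 1102 (cons (fin 1170 3 1102)
(fin 1101 0 1101)))))))))))))))
(mv 1104 (cons (fin 1233 4 976)
(mv 913 (cons (fin 977 6 912)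
(mv 849 (cons (fin 912 6 848)
(mv 1232 (cons (fin 975 7 975)
(mv 1295 (cons (fin 1231 5 1039)
(mv 1296 (cons (fin 1103 7 1039)
(fin 1359 5 1103)))))))))))))))
(cons (cons (mv 1104 (cons (fin 1233 4 976)
(mv 913 (cons (fin 977 6 912)
(mv 849 (cons (fin 912 6 848)
(mv 1231 (cons (fin 1167 5 975)
(mv 1232 (cons (fin 975 7 975)
(fin 1295 5 1039)))))))))))
(mv 1104 (cons (fin 1233 4 976)
(mv 913 (cons (fin 977 6 912)
(mv 849 (cons (fin 912 6 848)
(mv 1232 (cons (fin 975 7 975)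
(mv 1103 (cons (fin 1296 7 1039)
(mv 1102 (cons (fin 1101 0 1101)
(mv 1170 (cons (fin 1167 3 1102)
(fin 1171 3 1103))))))))))))))))
(cons (mv 1104 (cons (fin 1233 4 976)
(mv 913 (cons (fin 977 6 912)
(mv 912 (cons (fin 849 6 848)
(mv 1103 (cons (fin 848 5 847)
(fin 1167 5 911)))))))))
(mv 1104 (cons (fin 1233 4 976)
(mv 913 (cons (fin 977 6 912)
(mv 1167 (cons (fin 1231 5 975)
(mv 1232 (cons (fin 975 7 975)
(mv 1103 (cons (fin 1296 7 1039)
(mv 1102 (cons (fin 1170 3 1102)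
(fin 1101 0 1101)))))))))))))))))
(mv 912 (cons (cons (mv 848 (cons (fin 1103 5 847)
(mv 1105 (cons (fin 1041 4 848)
(fin 1104 4 912)))))
(mv 1104 (cons (fin 1105 4 912)
(mv 913 (cons (fin 849 6 848)
(mv 1103 (cons (fin 1167 5 911)
(mv 1168 (cons (fin 977 6 912)
(mv 1232 (cons (fin 975 7 975)
(fin 1296 7 1039))))))))))))
(cons (mv 1104 (cons (fin 1105 4 912)
(mv 849 (cons (fin 913 6 848)
(mv 848 (cons (fin 785 6 784)
(mv 783 (cons (fin 847 7 783)
(mv 784 (cons (fin 719 7 719)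
(fin 975 5 783)))))))))))
(mv 848 (cons (fin 1103 5 847)
(mv 783 (cons (fin 847 7 783)
(mv 784 (cons (fin 719 7 719)
(fin 975 5 783)))))))))))
(cons (mv 912 (cons (mv 848 (cons (fin 1103 5 847)
(mv 1105 (cons (fin 1041 4 848)
(fin 1104 4 912)))))
(cons (mv 1105 (cons (fin 1104 4 912)
(mv 1041 (cons (fin 977 7 912)
(fin 1233 7 976)))))
(mv 848 (cons (fin 1103 5 847)
(mv 783 (cons (fin 847 7 783)
(mv 784 (cons (fin 719 7 719)
(fin 975 5 783))))))))))
(mv 912 (cons (cons (mv 848 (cons (fin 1103 5 847)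
(mv 1105 (cons (fin 1041 4 848)
(fin 1104 4 912)))))
(mv 848 (cons (fin 1103 5 847)
(mv 783 (cons (fin 847 7 783)
(mv 784 (cons (fin 719 7 719)
(mv 785 (cons (fin 721 6 720)
(fin 849 6 784))))))))))
(cons (mv 1104 (cons (fin 1105 4 912)
(mv 849 (cons (fin 913 6 848)
(mv 1103 (cons (fin 1167 5 911)
(mv 1168 (cons (fin 1233 4 976)
(mv 1102 (cons (fin 1101 0 1101)
(mv 1041 (cons (fin 1042 1 1038)
(mv 1232 (cons (fin 1296 7 1039)
(fin 977 6 976)))))))))))))))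
(mv 1104 (cons (fin 1105 4 912)
(mv 913 (cons (fin 849 6 848)
(mv 1168 (cons (fin 977 6 912)
(fin 1233 4 976))))))))))))))
(mv 1103 (cons (cons (mv 912 (cons (fin 848 5 847)
(mv 1167 (cons (fin 1104 5 911)
(fin 975 6 911)))))
(mv 912 (cons (fin 848 5 847)
(mv 1104 (cons (cons (mv 849 (cons (fin 913 6 848)
(mv 1169 (cons (fin 1105 4 912)
(mv 1168 (cons (fin 1233 4 976)
(mv 975 (cons (fin 911 7 911)
(fin 1232 7 975)))))))))
(mv 913 (cons (fin 849 6 848)
(mv 1168 (cons (fin 977 6 912)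
(mv 975 (cons (fin 911 7 911)
(fin 1232 7 975))))))))
(cons (mv 1169 (cons (fin 1105 4 912)
(mv 1168 (cons (fin 1233 4 976)
(mv 975 (cons (fin 911 7 911)
(fin 1232 7 975)))))))
(cons (mv 913 (cons (fin 849 6 848)
(mv 1105 (cons (fin 1169 4 912)
(mv 1102 (cons (mv 1041 (cons (fin 1042 1 1038)
(fin 1101 2 1037)))
(cons (mv 1100 (cons (fin 1101 2 1036)
(mv 1166 (cons (fin 1165 1 1101)
(mv 975 (cons (fin 911 5 910)
(mv 914 (cons (fin 915 1 911)
(mv 974 (cons (fin 973 2 909)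
(fin 977 2 910)))))))))))
(mv 1041 (cons (fin 1042 1 1038)
(mv 1166 (cons (fin 1165 1 1101)
(mv 975 (cons (fin 911 5 910)
(mv 914 (cons (fin 915 1 911)
(mv 974 (cons (fin 973 2 909)
(fin 977 2 910))))))))))))))))))
(mv 849 (cons (fin 913 6 848)
(mv 1169 (cons (fin 1105 4 912)
(mv 1168 (cons (fin 1233 4 976)
(mv 1102 (cons (fin 1101 0 1101)
(mv 1041 (cons (fin 1042 1 1038)
(mv 1232 (cons (fin 1296 7 1039)
(fin 977 6 976))))))))))))))))))))
(cons (mv 1167 (cons (fin 1231 6 975)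
(mv 975 (cons (cons (mv 910 (cons (fin 974 7 910)
(mv 911 (cons (fin 846 7 846)
(mv 1166 (cons (fin 1102 5 910)
(fin 1230 5 974)))))))
(mv 1166 (cons (fin 1230 5 974)
(mv 911 (cons (fin 1102 5 910)
(mv 1168 (cons (fin 1104 7 911)
(fin 1232 4 975))))))))
(cons (mv 910 (cons (fin 974 7 910)
(mv 911 (cons (fin 846 7 846)
(mv 1168 (cons (fin 1104 7 911)
(fin 1232 4 975)))))))
(mv 974 (cons (fin 910 7 910)
(mv 973 (cons (fin 972 0 972)
(fin 1041 0 973))))))))))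
(cons (mv 912 (cons (fin 848 5 847)
(mv 1167 (cons (fin 1104 5 911)
(fin 1231 6 975)))))
(mv 912 (cons (fin 848 5 847)
(mv 1167 (cons (fin 975 6 911)
(fin 1231 6 975))))))))))
(cons (mv 1103 (cons (cons (mv 912 (cons (fin 848 5 847)
(mv 1167 (cons (fin 1104 5 911)
(fin 975 6 911)))))
(mv 912 (cons (fin 848 5 847)
(mv 1104 (cons (cons (mv 847 (cons (fin 911 7 847)
(mv 1169 (cons (fin 1105 4 912)
(mv 1168 (cons (fin 1233 4 976)
(mv 1232 (cons (fin 975 7 975)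
(fin 1296 7 1039)))))))))
(mv 1169 (cons (fin 1105 4 912)
(mv 1168 (cons (fin 1233 4 976)
(mv 1232 (cons (fin 975 7 975)
(fin 1296 7 1039))))))))
(cons (mv 911 (cons (fin 847 7 847)
(mv 975 (cons (fin 1168 7 911)
(mv 846 (cons (fin 910 7 846)
(mv 1102 (cons (fin 1166 5 910)
(mv 1041 (cons (fin 1042 1 1038)
(fin 1101 2 1037)))))))))))
(cons (mv 911 (cons (fin 847 7 847)
(mv 1105 (cons (fin 1169 4 912)
(mv 1102 (cons (mv 1041 (cons (fin 1042 1 1038)
(fin 1101 2 1037)))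
(mv 1166 (cons (fin 1165 1 1101)
(fin 975 5 910)))))))))
(mv 847 (cons (fin 911 7 847)
(mv 1169 (cons (fin 1105 4 912)
(mv 1168 (cons (fin 1233 4 976)
(mv 1102 (cons (fin 1101 0 1101)
(mv 1041 (cons (fin 1042 1 1038)
(mv 1232 (cons (fin 1296 7 1039)
(fin 977 6 976))))))))))))))))))))
(cons (mv 1167 (cons (fin 1231 6 975)
(mv 975 (cons (mv 910 (cons (fin 974 7 910)
(mv 911 (cons (fin 846 7 846)
(mv 847 (cons (fin 783 4 783)
(fin 1104 4 847)))))))
(cons (mv 1166 (cons (fin 1230 5 974)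
(mv 911 (cons (fin 1102 5 910)
(mv 847 (cons (fin 783 4 783)
(fin 1104 4 847)))))))
(mv 974 (cons (fin 910 7 910)
(mv 973 (cons (fin 972 0 972)
(fin 1041 0 973))))))))))
(cons (mv 912 (cons (fin 848 5 847)
(mv 1167 (cons (fin 1104 5 911)
(fin 1231 6 975)))))
(mv 912 (cons (fin 848 5 847)
(mv 1167 (cons (fin 975 6 911)
(fin 1231 6 975)))))))))
(mv 1103 (cons (cons (mv 912 (cons (fin 848 5 847)
(mv 1167 (cons (fin 1104 5 911)
(fin 975 6 911)))))
(mv 848 (cons (fin 912 5 847)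
(mv 1102 (cons (cons (mv 1041 (cons (fin 1042 1 1038)
(mv 1101 (cons (fin 1100 2 1036)
(fin 1104 2 1037)))))
(mv 1101 (cons (fin 1100 2 1036)
(mv 1104 (cons (cons (mv 1036 (cons (fin 1037 3 1036)
(mv 1164 (cons (fin 1165 1 1100)
(mv 1168 (cons (fin 1169 0 1101)
(mv 975 (cons (fin 911 7 911)
(fin 1232 7 975)))))))))
(mv 1037 (cons (fin 1036 3 1036)
(mv 1165 (cons (fin 1164 1 1100)
(mv 973 (cons (mv 1166 (cons (fin 909 4 909)
(fin 1230 4 973)))
(cons (mv 908 (cons (fin 972 7 908)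
(mv 909 (cons (fin 844 7 844)
(mv 910 (cons (fin 846 6 845)
(fin 974 6 909)))))))
(mv 972 (cons (fin 908 7 908)
(mv 974 (cons (fin 975 0 972)
(fin 910 6 909)))))))))))))
(cons (mv 1164 (cons (fin 1165 1 1100)
(mv 1168 (cons (fin 1169 0 1101)
(mv 975 (cons (fin 911 7 911)
(fin 1232 7 975)))))))
(cons (mv 1036 (cons (fin 1037 3 1036)
(mv 1168 (cons (fin 1169 0 1101)
(mv 975 (cons (fin 911 7 911)
(fin 1232 7 975)))))))
(mv 1037 (cons (fin 1036 3 1036)
(mv 1165 (cons (fin 1164 1 1100)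
(mv 1168 (cons (fin 1169 0 1101)
(mv 913 (cons (fin 977 6 912)
(mv 1232 (cons (fin 1296 7 1039)
(mv 1231 (cons (fin 1295 5 1039)
(mv 1233 (cons (fin 1297 4 1040)
(mv 1230 (cons (fin 1166 3 1165)
(mv 1294 (cons (fin 1293 1 1229)
(fin 1229 4 1037))))))))))))))))))))))))))
(cons (mv 975 (cons (mv 911 (cons (fin 1166 5 910)
(mv 847 (cons (fin 784 6 783)
(fin 783 4 783)))))
(cons (mv 977 (cons (mv 978 (cons (fin 979 1 975)
(mv 1042 (cons (fin 1041 1 1038)
(fin 1043 0 975)))))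
(cons (mv 978 (cons (fin 979 1 975)
(mv 914 (cons (fin 915 2 911)
(mv 974 (cons (fin 913 2 910)
(mv 909 (cons (fin 910 3 909)
(mv 973 (cons (fin 908 3 908)
(fin 972 0 972)))))))))))
(mv 1041 (cons (fin 1042 1 1038)
(mv 974 (cons (fin 973 0 973)
(mv 909 (cons (fin 910 3 909)
(mv 913 (cons (fin 914 2 910)
(mv 849 (cons (fin 784 7 784)
(fin 785 5 784))))))))))))))
(mv 911 (cons (fin 1166 5 910)
(mv 847 (cons (fin 783 4 783)
(fin 1104 4 847))))))))
(mv 1100 (cons (fin 1101 2 1036)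
(mv 975 (cons (mv 911 (cons (fin 1166 5 910)
(mv 847 (cons (fin 784 6 783)
(fin 783 4 783)))))
(cons (mv 977 (cons (mv 978 (cons (fin 979 1 975)
(mv 1042 (cons (fin 1041 1 1038)
(fin 1043 0 975)))))
(cons (mv 978 (cons (fin 979 1 975)
(mv 914 (cons (fin 915 2 911)
(mv 974 (cons (fin 913 2 910)
(mv 909 (cons (fin 910 3 909)
(mv 973 (cons (fin 908 3 908)
(fin 972 0 972)))))))))))
(mv 1041 (cons (fin 1042 1 1038)
(mv 974 (cons (fin 973 0 973)
(mv 909 (cons (fin 910 3 909)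
(mv 913 (cons (fin 914 2 910)
(mv 849 (cons (fin 784 7 784)
(fin 785 5 784))))))))))))))
(mv 911 (cons (fin 1166 5 910)
(mv 783 (cons (fin 847 4 783)
(mv 910 (cons (fin 846 7 846)
(mv 909 (cons (fin 908 0 908)
(mv 977 (cons (fin 974 3 909)
(fin 978 3 910))))))))))))))))))))))
(cons (mv 1167 (cons (fin 1231 6 975)
(mv 975 (cons (mv 910 (cons (fin 974 7 910)
(mv 911 (cons (fin 846 7 846)
(mv 847 (cons (fin 783 4 783)
(fin 1104 4 847)))))))
(cons (mv 1166 (cons (fin 1230 5 974)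
(mv 911 (cons (fin 1102 5 910)
(mv 847 (cons (fin 783 4 783)
(fin 1104 4 847)))))))
(mv 974 (cons (fin 910 7 910)
(mv 973 (cons (fin 972 0 972)
(fin 1041 0 973))))))))))
(cons (mv 912 (cons (fin 848 5 847)
(mv 1167 (cons (fin 1104 5 911)
(fin 1231 6 975)))))
(mv 912 (cons (fin 848 5 847)
(mv 1167 (cons (fin 975 6 911)
(fin 1231 6 975))))))))))))))
def l60 : Lem := ⟨17672042592950510299342161747532428741358160893794450532607270698129752962383966679797774154701950421020191674846877452631289669433532411657536873821582864322832094995237976664601613395680896036318715866521764407099865564676993471100411554418605480722106008602337571462179774064736310031630534868627379729584881664, 2321046439167943887446971051027483653098533000746656034734789289481278133635170070867194604048239530224577820662948373454147377928044027723682139716196235423092183896208514693503030239816774171122153044851196861523190672025801636803769072230986625075597467500655407333583421713757671192417565878480678746322662655506867696031566054896380544455580243659054181479967444459580021724073791530280983992165448205325727108400373917810688,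 2321046439167943887446971051027483653098533000746656034734789289481278133635170070867194604048239530224577820662948373454147377928044027723682139716196235423092183896208514693503030239816774171122153044851196861523190672025801636803769072230986625075597467500655407333583421713757671192417565878480678746322662655506867696031566054896380544455580243659054181479967444459580021724073791530280983992165448205325727108400373917810688, 17, 33⟩
theorem l60_valid : l60.Valid :=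
  Lem.valid_of_chk t60 t60_valid [1039, 1040] c60 l60 (by decide +kernel)
end Crest.Agent.SnakyAux
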