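import Crest.Agent.S0047_aux.Checker

set_option autoImplicit false
set_option maxRecDepth 100000
namespace Crest.Agent.SnakyAux
open Cert
def t61 : Tbl := Tbl.nil
theorem t61_valid : t61.Valid := Tbl.valid_nil
def c61 : Cert :=
(mv 1038 (cons (cons (cons (mv 1037 (cons (cons (mv 972 (cons (fin 973 3 972)
(mv 977 (cons (fin 976 2 973)
(mv 1041 (cons (fin 978 2 974)
(mv 1101 (cons (fin 1100 1 1036)
(fin 1102 1 1037)))))))))
(mv 977 (cons (fin 976 2 973)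
(mv 1041 (cons (fin 978 2 974)
(mv 1101 (cons (fin 1100 1 1036)
(fin 1102 1 1037))))))))
(cons (mv 973 (cons (fin 972 3 972)
(mv 977 (cons (fin 976 2 973)
(mv 1041 (cons (fin 974 3 973)
(fin 978 2 974)))))))
(cons (mv 973 (cons (fin 972 3 972)
(mv 974 (cons (fin 1041 3 973)
(mv 1101 (cons (fin 1100 1 1036)
(mv 910 (cons (fin 846 5 845)
(fin 1165 6 909)))))))))
(mv 972 (cons (fin 973 3 972)
(mv 976 (cons (fin 977 2 973)
(mv 1100 (cons (fin 1101 1 1036)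
(mv 1104 (cons (fin 1105 0 1037)
(mv 912 (cons (mv 1103 (cons (fin 848 5 847)
(fin 1167 5 911)))
(cons (mv 847 (cons (fin 911 7 847)
(mv 848 (cons (fin 783 7 783)
(mv 849 (cons (fin 785 6 784)
(fin 913 6 848)))))))
(mv 847 (cons (fin 911 7 847)
(mv 849 (cons (fin 913 6 848)
(mv 1167 (cons (fin 1103 5 911)
(mv 1168 (cons (fin 1231 5 975)
(mv 1232 (cons (fin 975 7 975)
(mv 1233 (cons (fin 1169 4 976)
(fin 1297 4 1040))))))))))))))))))))))))))))
(mv 1041 (cons (cons (mv 973 (cons (fin 974 3 973)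
(mv 978 (cons (fin 977 2 974)
(mv 1042 (cons (fin 979 2 975)
(mv 1102 (cons (fin 1101 1 1037)
(fin 1103 1 1038)))))))))
(mv 978 (cons (fin 977 2 974)
(mv 1042 (cons (fin 979 2 975)
(mv 1102 (cons (fin 1101 1 1037)
(fin 1103 1 1038))))))))
(cons (mv 974 (cons (fin 973 3 973)
(mv 978 (cons (fin 977 2 974)
(mv 1042 (cons (fin 975 3 974)
(fin 979 2 975)))))))
(cons (mv 974 (cons (fin 973 3 973)
(mv 975 (cons (fin 1042 3 974)
(mv 1102 (cons (fin 1101 1 1037)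
(mv 911 (cons (fin 847 5 846)
(fin 1166 6 910)))))))))
(mv 973 (cons (fin 974 3 973)
(mv 977 (cons (fin 978 2 974)
(mv 1102 (cons (fin 1101 1 1037)
(mv 975 (cons (cons (mv 911 (cons (fin 847 5 846)
(mv 1166 (cons (fin 1103 5 910)
(fin 1230 6 974)))))
(mv 1166 (cons (fin 1230 6 974)
(mv 913 (cons (cons (mv 849 (cons (fin 1104 5 848)
(mv 784 (cons (fin 848 7 784)
(mv 785 (cons (fin 720 7 720)
(fin 976 5 784)))))))
(mv 849 (cons (cons (mv 784 (cons (fin 848 7 784)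
(mv 785 (cons (fin 720 7 720)
(fin 976 5 784)))))
(mv 786 (cons (fin 850 6 785)
(mv 848 (cons (fin 784 7 784)
(mv 912 (cons (fin 1105 7 848)
(mv 976 (cons (fin 1103 5 847)
(mv 847 (cons (fin 783 7 783)
(mv 846 (cons (fin 845 0 845)
(fin 914 0 846))))))))))))))
(cons (mv 785 (cons (fin 976 5 784)
(mv 786 (cons (fin 722 6 721)
(fin 850 6 785)))))
(mv 784 (cons (fin 848 7 784)
(mv 785 (cons (fin 720 7 720)
(mv 786 (cons (fin 722 6 721)
(fin 850 6 785)))))))))))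
(cons (mv 1105 (cons (cons (mv 848 (cons (fin 912 7 848)
(mv 850 (cons (fin 914 6 849)
(mv 1104 (cons (fin 1168 5 912)
(mv 1103 (cons (fin 1165 1 1101)
(mv 1169 (cons (fin 1170 0 1102)
(mv 1233 (cons (fin 976 7 976)
(fin 1297 7 1040)))))))))))))
(cons (mv 850 (cons (fin 914 6 849)
(mv 912 (cons (fin 848 7 848)
(mv 1169 (cons (fin 976 7 912)
(mv 1168 (cons (fin 1232 5 976)
(mv 1234 (cons (fin 1170 4 977)
(mv 1233 (cons (fin 1167 0 1166)
(fin 1298 4 1041)))))))))))))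
(mv 850 (cons (fin 914 6 849)
(mv 912 (cons (fin 848 7 848)
(mv 1169 (cons (fin 976 7 912)
(mv 1234 (cons (fin 1170 4 977)
(mv 1233 (cons (fin 1298 4 1041)
(mv 1296 (cons (fin 1232 5 1040)
(mv 1297 (cons (fin 1104 7 1040)
(fin 1360 5 1104)))))))))))))))))
(cons (cons (mv 850 (cons (fin 914 6 849)
(mv 1104 (cons (fin 1168 5 912)
(mv 1103 (cons (fin 1165 1 1101)
(mv 1169 (cons (fin 1170 0 1102)
(mv 1233 (cons (fin 976 7 976)
(fin 1297 7 1040)))))))))))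
(mv 848 (cons (fin 912 7 848)
(mv 1104 (cons (fin 1168 5 912)
(mv 1103 (cons (fin 1165 1 1101)
(mv 1169 (cons (fin 1170 0 1102)
(mv 1233 (cons (fin 976 7 976)
(fin 1297 7 1040))))))))))))
(cons (mv 848 (cons (fin 912 7 848)
(mv 850 (cons (fin 914 6 849)
(mv 1168 (cons (fin 1104 5 912)
(mv 1169 (cons (fin 1232 5 976)
(mv 1234 (cons (fin 1170 4 977)
(mv 1233 (cons (fin 1167 0 1166)
(fin 1298 4 1041)))))))))))))
(mv 912 (cons (fin 848 7 848)
(mv 914 (cons (fin 850 6 849)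
(mv 915 (cons (fin 976 1 911)
(mv 852 (cons (fin 851 2 848)
(mv 916 (cons (fin 853 2 849)
(mv 980 (cons (fin 979 0 912)
(fin 981 0 913)))))))))))))))))
(cons (mv 849 (cons (fin 1104 5 848)
(mv 784 (cons (fin 848 7 784)
(mv 785 (cons (fin 720 7 720)
(mv 786 (cons (fin 722 6 721)
(fin 850 6 785)))))))))
(mv 849 (cons (fin 1104 5 848)
(mv 785 (cons (fin 976 5 784)
(mv 786 (cons (fin 722 6 721)
(fin 850 6 785))))))))))))))
(cons (mv 911 (cons (fin 847 5 846)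
(mv 912 (cons (cons (mv 848 (cons (fin 1103 6 847)
(mv 784 (cons (fin 720 5 719)
(fin 976 5 783)))))
(mv 976 (cons (cons (mv 909 (cons (fin 910 0 909)
(mv 1103 (cons (fin 1167 6 911)
(mv 1104 (cons (fin 1168 7 911)
(mv 913 (cons (fin 849 5 848)
(mv 914 (cons (fin 915 1 911)
(mv 850 (cons (fin 851 2 847)
(fin 1105 6 849)))))))))))))
(mv 910 (cons (fin 909 0 909)
(mv 1103 (cons (fin 846 7 846)
(fin 1167 6 911))))))
(cons (mv 909 (cons (fin 910 0 909)
(mv 1104 (cons (fin 1168 7 911)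
(mv 913 (cons (fin 849 5 848)
(mv 914 (cons (fin 915 1 911)
(mv 850 (cons (fin 851 2 847)
(fin 1105 6 849)))))))))))
(mv 1103 (cons (fin 1167 6 911)
(mv 1104 (cons (fin 1168 7 911)
(mv 913 (cons (fin 849 5 848)
(mv 914 (cons (fin 915 1 911)
(mv 850 (cons (fin 851 2 847)
(fin 1105 6 849)))))))))))))))
(cons (mv 976 (cons (mv 848 (cons (fin 784 5 783)
(fin 1105 4 848)))
(cons (mv 909 (cons (fin 910 0 909)
(mv 1104 (cons (fin 1168 7 911)
(mv 913 (cons (fin 849 5 848)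
(mv 914 (cons (fin 915 1 911)
(mv 850 (cons (fin 851 2 847)
(fin 1105 6 849)))))))))))
(mv 848 (cons (fin 784 5 783)
(mv 849 (cons (fin 785 6 784)
(mv 1104 (cons (fin 1168 7 911)
(fin 913 5 848))))))))))
(mv 848 (cons (fin 1103 6 847)
(mv 720 (cons (fin 784 5 719)
(mv 913 (cons (fin 1105 7 848)
(mv 849 (cons (fin 1104 5 848)
(mv 850 (cons (fin 851 1 847)
(fin 910 2 846))))))))))))))))
(cons (mv 1166 (cons (fin 1230 6 974)
(mv 911 (cons (fin 1103 5 910)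
(mv 913 (cons (cons (mv 849 (cons (fin 1104 5 848)
(mv 784 (cons (fin 848 7 784)
(mv 785 (cons (fin 720 7 720)
(fin 976 5 784)))))))
(mv 849 (cons (mv 784 (cons (fin 848 7 784)
(mv 785 (cons (fin 720 7 720)
(fin 976 5 784)))))
(cons (mv 784 (cons (fin 848 7 784)
(mv 850 (cons (fin 786 6 785)
(mv 912 (cons (fin 910 2 846)
(mv 851 (cons (fin 852 1 848)
(fin 914 2 847)))))))))
(mv 785 (cons (fin 976 5 784)
(mv 786 (cons (fin 722 6 721)
(fin 850 6 785)))))))))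
(cons (mv 1105 (cons (cons (mv 848 (cons (fin 912 7 848)
(mv 850 (cons (fin 914 6 849)
(mv 1168 (cons (fin 1104 5 912)
(mv 1169 (cons (fin 1232 5 976)
(mv 1233 (cons (fin 976 7 976)
(mv 1234 (cons (fin 1167 0 1166)
(fin 1170 4 977)))))))))))))
(cons (mv 850 (cons (fin 914 6 849)
(mv 912 (cons (fin 848 7 848)
(mv 1169 (cons (fin 976 7 912)
(mv 1234 (cons (fin 1170 4 977)
(mv 1233 (cons (fin 1298 4 1041)
(mv 1296 (cons (fin 1232 5 1040)
(mv 1297 (cons (fin 1104 7 1040)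
(fin 1360 5 1104)))))))))))))))
(mv 850 (cons (fin 914 6 849)
(mv 912 (cons (fin 848 7 848)
(mv 1169 (cons (fin 976 7 912)
(mv 1168 (cons (fin 1232 5 976)
(mv 1234 (cons (fin 1170 4 977)
(mv 1233 (cons (fin 1167 0 1166)
(fin 1298 4 1041)))))))))))))))
(cons (cons (mv 850 (cons (fin 914 6 849)
(mv 1168 (cons (fin 1104 5 912)
(mv 1169 (cons (fin 1232 5 976)
(mv 1233 (cons (fin 976 7 976)
(mv 1234 (cons (fin 1167 0 1166)
(fin 1170 4 977)))))))))))
(mv 848 (cons (fin 912 7 848)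
(mv 1168 (cons (fin 1104 5 912)
(mv 1169 (cons (fin 1232 5 976)
(mv 1233 (cons (fin 976 7 976)
(mv 1234 (cons (fin 1167 0 1166)
(fin 1170 4 977))))))))))))
(cons (mv 848 (cons (fin 912 7 848)
(mv 850 (cons (fin 914 6 849)
(mv 1168 (cons (fin 1104 5 912)
(mv 1169 (cons (fin 1232 5 976)
(mv 1234 (cons (fin 1170 4 977)
(mv 1233 (cons (fin 1167 0 1166)
(fin 1298 4 1041)))))))))))))
(mv 912 (cons (fin 848 7 848)
(mv 914 (cons (fin 850 6 849)
(mv 915 (cons (fin 976 1 911)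
(mv 852 (cons (fin 851 2 848)
(mv 916 (cons (fin 853 2 849)
(mv 980 (cons (fin 979 0 912)
(fin 981 0 913)))))))))))))))))
(cons (mv 849 (cons (fin 1104 5 848)
(mv 784 (cons (fin 848 7 784)
(mv 720 (cons (fin 785 7 720)
(mv 850 (cons (fin 786 6 785)
(mv 912 (cons (fin 910 2 846)
(mv 851 (cons (fin 852 1 848)
(fin 914 2 847)))))))))))))
(mv 849 (cons (fin 1104 5 848)
(mv 785 (cons (fin 976 5 784)
(mv 786 (cons (fin 722 6 721)
(fin 850 6 785)))))))))))))))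
(mv 911 (cons (fin 847 5 846)
(mv 1166 (cons (fin 1230 6 974)
(mv 913 (cons (cons (mv 849 (cons (fin 1104 5 848)
(mv 784 (cons (fin 848 7 784)
(mv 785 (cons (fin 720 7 720)
(fin 976 5 784)))))))
(mv 849 (cons (mv 784 (cons (fin 848 7 784)
(mv 785 (cons (fin 720 7 720)
(fin 976 5 784)))))
(cons (mv 784 (cons (fin 848 7 784)
(mv 850 (cons (fin 786 6 785)
(mv 912 (cons (fin 910 2 846)
(mv 851 (cons (fin 852 1 848)
(fin 914 2 847)))))))))
(mv 785 (cons (fin 976 5 784)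
(mv 786 (cons (fin 722 6 721)
(fin 850 6 785)))))))))
(cons (mv 1105 (cons (cons (mv 848 (cons (fin 912 7 848)
(mv 850 (cons (fin 914 6 849)
(mv 1168 (cons (fin 1104 5 912)
(mv 1169 (cons (fin 1232 5 976)
(mv 1233 (cons (fin 976 7 976)
(mv 1234 (cons (fin 1167 0 1166)
(fin 1170 4 977)))))))))))))
(cons (mv 850 (cons (fin 914 6 849)
(mv 912 (cons (fin 848 7 848)
(mv 1169 (cons (fin 976 7 912)
(mv 1234 (cons (fin 1170 4 977)
(mv 1233 (cons (fin 1298 4 1041)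
(mv 1296 (cons (fin 1232 5 1040)
(mv 1297 (cons (fin 1104 7 1040)
(fin 1360 5 1104)))))))))))))))
(mv 850 (cons (fin 914 6 849)
(mv 912 (cons (fin 848 7 848)
(mv 1169 (cons (fin 976 7 912)
(mv 1168 (cons (fin 1232 5 976)
(mv 1234 (cons (fin 1170 4 977)
(mv 1233 (cons (fin 1167 0 1166)
(fin 1298 4 1041)))))))))))))))
(cons (cons (mv 850 (cons (fin 914 6 849)
(mv 1168 (cons (fin 1104 5 912)
(mv 1169 (cons (fin 1232 5 976)
(mv 1233 (cons (fin 976 7 976)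
(mv 1234 (cons (fin 1167 0 1166)
(fin 1170 4 977)))))))))))
(mv 848 (cons (fin 912 7 848)
(mv 1168 (cons (fin 1104 5 912)
(mv 1169 (cons (fin 1232 5 976)
(mv 1233 (cons (fin 976 7 976)
(mv 1234 (cons (fin 1167 0 1166)
(fin 1170 4 977))))))))))))
(cons (mv 848 (cons (fin 912 7 848)
(mv 850 (cons (fin 914 6 849)
(mv 1168 (cons (fin 1104 5 912)
(mv 1169 (cons (fin 1232 5 976)
(mv 1234 (cons (fin 1170 4 977)
(mv 1233 (cons (fin 1167 0 1166)
(fin 1298 4 1041)))))))))))))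
(mv 912 (cons (fin 848 7 848)
(mv 914 (cons (fin 850 6 849)
(mv 915 (cons (fin 976 1 911)
(mv 852 (cons (fin 851 2 848)
(mv 916 (cons (fin 853 2 849)
(mv 980 (cons (fin 979 0 912)
(fin 981 0 913)))))))))))))))))
(cons (mv 849 (cons (fin 1104 5 848)
(mv 784 (cons (fin 848 7 784)
(mv 720 (cons (fin 785 7 720)
(mv 850 (cons (fin 786 6 785)
(mv 912 (cons (fin 910 2 846)
(mv 851 (cons (fin 852 1 848)
(fin 914 2 847)))))))))))))
(mv 849 (cons (fin 1104 5 848)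
(mv 785 (cons (fin 976 5 784)
(mv 786 (cons (fin 722 6 721)
(fin 850 6 785))))))))))))))))))))))))))))))
(cons (mv 1037 (cons (cons (cons (mv 972 (cons (fin 973 3 972)
(mv 976 (cons (fin 977 2 973)
(mv 1100 (cons (fin 1101 1 1036)
(mv 1104 (cons (fin 1105 0 1037)
(mv 912 (cons (mv 1103 (cons (fin 848 5 847)
(fin 1167 5 911)))
(cons (mv 847 (cons (fin 911 7 847)
(mv 848 (cons (fin 783 7 783)
(mv 849 (cons (fin 785 6 784)
(fin 913 6 848)))))))
(mv 847 (cons (fin 911 7 847)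
(mv 849 (cons (fin 913 6 848)
(mv 1167 (cons (fin 1103 5 911)
(mv 1168 (cons (fin 1231 5 975)
(mv 1232 (cons (fin 975 7 975)
(mv 1233 (cons (fin 1169 4 976)
(fin 1297 4 1040))))))))))))))))))))))))
(mv 976 (cons (fin 977 2 973)
(mv 1100 (cons (fin 1101 1 1036)
(mv 1104 (cons (fin 1105 0 1037)
(mv 912 (cons (mv 1103 (cons (fin 848 5 847)
(fin 1167 5 911)))
(cons (mv 847 (cons (fin 911 7 847)
(mv 848 (cons (fin 783 7 783)
(mv 849 (cons (fin 785 6 784)
(fin 913 6 848)))))))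
(mv 847 (cons (fin 911 7 847)
(mv 849 (cons (fin 913 6 848)
(mv 1167 (cons (fin 1103 5 911)
(mv 1168 (cons (fin 1231 5 975)
(mv 1232 (cons (fin 975 7 975)
(mv 1233 (cons (fin 1169 4 976)
(fin 1297 4 1040)))))))))))))))))))))))
(cons (mv 972 (cons (fin 973 3 972)
(mv 1101 (cons (fin 1100 1 1036)
(mv 1104 (cons (fin 1105 0 1037)
(mv 1165 (cons (cons (mv 974 (cons (fin 1229 6 973)
(mv 910 (cons (fin 846 5 845)
(fin 1102 5 909)))))
(mv 1102 (cons (cons (mv 910 (cons (fin 974 5 909)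
(mv 1103 (cons (fin 1164 1 1100)
(mv 1168 (cons (fin 1169 0 1101)
(mv 975 (cons (fin 1232 7 975)
(fin 911 4 911)))))))))
(mv 974 (cons (fin 910 5 909)
(mv 1166 (cons (mv 975 (cons (fin 911 6 910)
(fin 1230 6 974)))
(cons (mv 1230 (cons (fin 1294 7 1037)
(mv 1231 (cons (fin 1167 4 974)
(fin 1295 4 1038)))))
(mv 975 (cons (fin 911 6 910)
(mv 1167 (cons (fin 1231 4 974)
(mv 1168 (cons (fin 1169 3 1101)
(fin 1232 7 975)))))))))))))
(cons (mv 1103 (cons (fin 1164 1 1100)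
(mv 1168 (cons (fin 1169 0 1101)
(mv 975 (cons (fin 1232 7 975)
(fin 911 4 911)))))))
(cons (mv 910 (cons (fin 974 5 909)
(mv 1103 (cons (fin 1164 1 1100)
(mv 1168 (cons (fin 1169 0 1101)
(mv 1232 (cons (fin 1296 7 1039)
(mv 1231 (cons (fin 1295 5 1039)
(mv 1233 (cons (fin 1297 4 1040)
(mv 1166 (cons (fin 1230 3 1165)
(fin 1167 0 1165)))))))))))))))
(mv 910 (cons (fin 974 5 909)
(mv 1164 (cons (fin 1103 1 1100)
(mv 1163 (cons (fin 1162 2 1098)
(mv 1166 (cons (mv 1230 (cons (fin 1231 0 1163)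
(fin 1294 7 1037)))
(mv 1099 (cons (fin 1098 3 1098)
(mv 1227 (cons (fin 1226 1 1162)
(mv 1228 (cons (fin 1167 1 1163)
(mv 1035 (cons (fin 971 4 971)
(fin 1292 4 1035))))))))))))))))))))))
(cons (mv 1229 (cons (cons (mv 1102 (cons (fin 1293 6 1037)
(mv 1103 (cons (fin 1164 1 1100)
(mv 1168 (cons (fin 1169 0 1101)
(mv 975 (cons (fin 1232 7 975)
(fin 911 4 911)))))))))
(mv 1228 (cons (fin 1292 5 1036)
(mv 1230 (cons (fin 1294 4 1037)
(mv 1231 (cons (mv 1164 (cons (fin 1163 3 1163)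
(fin 1232 3 1164)))
(mv 1167 (cons (fin 1168 2 1164)
(mv 1295 (cons (fin 1296 0 1228)
(fin 1103 6 1039))))))))))))
(cons (mv 1102 (cons (fin 1293 6 1037)
(mv 1103 (cons (fin 1164 1 1100)
(mv 1228 (cons (fin 1292 5 1036)
(mv 1230 (cons (fin 1294 4 1037)
(mv 1166 (cons (fin 975 6 974)
(mv 1227 (cons (fin 1226 2 1162)
(fin 1167 2 1163)))))))))))))
(cons (mv 1102 (cons (fin 1293 6 1037)
(mv 1228 (cons (fin 1292 5 1036)
(mv 1230 (cons (fin 1294 4 1037)
(mv 975 (cons (fin 1166 6 974)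
(mv 911 (cons (fin 847 5 846)
(mv 1168 (cons (fin 1232 7 975)
(fin 1103 4 911)))))))))))))
(mv 1102 (cons (fin 1293 6 1037)
(mv 1228 (cons (fin 1292 5 1036)
(mv 1230 (cons (fin 1294 4 1037)
(mv 975 (cons (fin 1166 6 974)
(mv 847 (cons (fin 911 5 846)
(mv 1232 (cons (fin 1168 7 975)
(mv 1231 (cons (fin 1164 3 1164)
(mv 1296 (cons (fin 1295 0 1228)
(fin 1297 0 1229)))))))))))))))))))))
(mv 1229 (cons (fin 974 6 973)
(mv 1230 (cons (fin 1294 4 1037)
(mv 1292 (cons (fin 1228 5 1036)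
(mv 1293 (cons (fin 1356 5 1100)
(mv 1232 (cons (fin 1231 1 1228)
(mv 1168 (cons (fin 975 7 975)
(mv 1233 (cons (fin 1297 4 1040)
(mv 1166 (cons (fin 1167 0 1165)
(mv 1296 (cons (fin 1103 7 1039)
(mv 1357 (cons (fin 1421 6 1165)
(mv 1358 (cons (fin 1422 4 1165)
(mv 1359 (cons (fin 1360 3 1292)
(fin 1295 5 1103))))))))))))))))))))))))))))))))))
(mv 972 (cons (fin 973 3 972)
(mv 976 (cons (fin 977 2 973)
(mv 1104 (cons (fin 1105 0 1037)
(mv 912 (cons (mv 1103 (cons (fin 848 5 847)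
(fin 1167 5 911)))
(cons (mv 847 (cons (fin 911 7 847)
(mv 848 (cons (fin 783 7 783)
(mv 849 (cons (fin 785 6 784)
(fin 913 6 848)))))))
(mv 847 (cons (fin 911 7 847)
(mv 849 (cons (fin 913 6 848)
(mv 1167 (cons (fin 1103 5 911)
(mv 1168 (cons (fin 1231 5 975)
(mv 1232 (cons (fin 975 7 975)
(mv 1233 (cons (fin 1169 4 976)
(fin 1297 4 1040))))))))))))))))))))))))
(cons (cons (mv 973 (cons (fin 972 3 972)
(mv 976 (cons (fin 977 2 973)
(mv 1100 (cons (fin 1101 1 1036)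
(mv 909 (cons (cons (mv 845 (cons (fin 1102 4 845)
(mv 780 (cons (fin 844 7 780)
(mv 781 (cons (fin 716 7 716)
(fin 974 4 781)))))))
(mv 974 (cons (cons (mv 975 (cons (fin 908 3 908)
(mv 912 (cons (fin 913 2 909)
(mv 848 (cons (fin 784 5 783)
(fin 1103 5 847)))))))
(mv 1102 (cons (fin 1166 7 909)
(mv 910 (cons (mv 846 (cons (fin 782 5 781)
(fin 1103 4 846)))
(cons (mv 846 (cons (fin 782 5 781)
(mv 847 (cons (fin 783 6 782)
(fin 911 6 846)))))
(mv 911 (cons (fin 847 6 846)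
(mv 912 (cons (fin 913 1 909)
(mv 848 (cons (fin 849 2 845)
(fin 1103 5 847)))))))))))))
(cons (mv 975 (cons (fin 908 3 908)
(mv 912 (cons (fin 913 2 909)
(mv 848 (cons (fin 784 5 783)
(mv 785 (cons (fin 849 6 784)
(mv 847 (cons (fin 783 7 783)
(mv 1102 (cons (fin 1166 7 909)
(fin 911 5 846)))))))))))))
(mv 908 (cons (fin 975 3 908)
(mv 907 (cons (fin 906 0 906)
(mv 1102 (cons (fin 1166 7 909)
(mv 910 (cons (mv 846 (cons (fin 847 2 843)
(fin 782 5 781)))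
(cons (mv 843 (cons (fin 842 3 842)
(mv 911 (cons (fin 844 3 843)
(fin 847 6 846)))))
(mv 846 (cons (fin 782 5 781)
(fin 1103 4 846))))))))))))))))
(cons (mv 845 (cons (mv 780 (cons (fin 844 7 780)
(mv 781 (cons (fin 716 7 716)
(fin 974 4 781)))))
(cons (mv 780 (cons (fin 844 7 780)
(mv 846 (cons (fin 782 6 781)
(mv 848 (cons (mv 847 (cons (fin 908 1 844)
(mv 912 (cons (fin 913 0 845)
(fin 783 7 783)))))
(cons (mv 912 (cons (fin 1103 5 847)
(mv 784 (cons (fin 975 5 783)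
(mv 785 (cons (fin 721 6 720)
(fin 849 6 784)))))))
(mv 847 (cons (fin 908 1 844)
(mv 784 (cons (fin 785 2 781)
(mv 849 (cons (fin 910 1 845)
(mv 911 (cons (fin 975 6 783)
(mv 914 (cons (fin 913 0 846)
(mv 850 (cons (fin 915 0 847)
(mv 787 (cons (fin 786 2 783)
(mv 851 (cons (fin 783 3 783)
(fin 788 2 784))))))))))))))))))))))))
(mv 781 (cons (fin 974 4 781)
(mv 782 (cons (fin 718 6 717)
(fin 846 6 781))))))))
(cons (mv 845 (cons (fin 1102 4 845)
(mv 780 (cons (fin 844 7 780)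
(mv 781 (cons (fin 716 7 716)
(mv 782 (cons (fin 718 6 717)
(fin 846 6 781)))))))))
(mv 845 (cons (fin 1102 4 845)
(mv 781 (cons (fin 974 4 781)
(mv 782 (cons (fin 718 6 717)
(fin 846 6 781)))))))))))))))))
(mv 972 (cons (fin 973 3 972)
(mv 976 (cons (fin 977 2 973)
(mv 1100 (cons (fin 1101 1 1036)
(mv 1104 (cons (fin 1105 0 1037)
(mv 912 (cons (mv 1103 (cons (fin 848 5 847)
(fin 1167 5 911)))
(cons (mv 847 (cons (fin 911 7 847)
(mv 848 (cons (fin 783 7 783)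
(mv 849 (cons (fin 785 6 784)
(fin 913 6 848)))))))
(mv 847 (cons (fin 911 7 847)
(mv 849 (cons (fin 913 6 848)
(mv 1168 (cons (cons (mv 1167 (cons (fin 1103 5 911)
(fin 1231 5 975)))
(mv 1233 (cons (fin 1169 4 976)
(mv 1232 (cons (fin 1297 4 1040)
(mv 1295 (cons (fin 1231 5 1039)
(mv 1296 (cons (fin 1103 7 1039)
(fin 1359 5 1103))))))))))
(cons (mv 1231 (cons (fin 1167 5 975)
(mv 1232 (cons (fin 1295 5 1039)
(mv 1233 (cons (fin 1169 4 976)
(fin 1297 4 1040)))))))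
(mv 1103 (cons (fin 1167 5 911)
(mv 1232 (cons (fin 1296 7 1039)
(mv 1233 (cons (fin 1169 4 976)
(fin 1297 4 1040))))))))))))))))))))))))))
(cons (mv 972 (cons (fin 973 3 972)
(mv 976 (cons (fin 977 2 973)
(mv 1100 (cons (fin 1101 1 1036)
(mv 1104 (cons (fin 1105 0 1037)
(mv 1168 (cons (mv 975 (cons (fin 911 7 911)
(fin 1232 7 975)))
(cons (mv 1231 (cons (fin 1167 5 975)
(mv 1232 (cons (fin 1295 5 1039)
(mv 1233 (cons (fin 1169 4 976)
(fin 1297 4 1040)))))))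
(mv 1167 (cons (fin 1231 5 975)
(mv 1169 (cons (fin 1233 4 976)
(mv 912 (cons (cons (mv 911 (cons (fin 847 7 847)
(fin 975 7 911)))
(mv 849 (cons (fin 913 6 848)
(mv 848 (cons (fin 785 6 784)
(mv 783 (cons (fin 847 7 783)
(mv 784 (cons (fin 719 7 719)
(fin 975 5 783))))))))))
(cons (mv 847 (cons (fin 911 7 847)
(mv 848 (cons (fin 783 7 783)
(mv 849 (cons (fin 785 6 784)
(fin 913 6 848)))))))
(mv 849 (cons (fin 913 6 848)
(mv 848 (cons (fin 785 6 784)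
(mv 975 (cons (fin 911 7 911)
(fin 784 5 783)))))))))))))))))))))))))
(cons (mv 972 (cons (fin 973 3 972)
(mv 976 (cons (fin 977 2 973)
(mv 1100 (cons (fin 1101 1 1036)
(mv 1104 (cons (fin 1105 0 1037)
(mv 912 (cons (mv 1103 (cons (fin 848 5 847)
(fin 1167 5 911)))
(cons (mv 849 (cons (fin 913 6 848)
(mv 848 (cons (fin 785 6 784)
(mv 783 (cons (fin 847 7 783)
(mv 784 (cons (fin 719 7 719)
(fin 975 5 783)))))))))
(mv 849 (cons (fin 913 6 848)
(mv 1167 (cons (fin 1103 5 911)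
(mv 1168 (cons (fin 1231 5 975)
(mv 1232 (cons (fin 975 7 975)
(mv 1233 (cons (fin 1169 4 976)
(fin 1297 4 1040))))))))))))))))))))))
(mv 972 (cons (fin 973 3 972)
(mv 976 (cons (fin 977 2 973)
(mv 1100 (cons (fin 1101 1 1036)
(mv 1104 (cons (fin 1105 0 1037)
(mv 1168 (cons (mv 975 (cons (fin 911 7 911)
(fin 1232 7 975)))
(mv 1167 (cons (fin 1231 5 975)
(mv 1103 (cons (fin 912 5 911)
(mv 1169 (cons (fin 1233 4 976)
(mv 1170 (cons (fin 1102 3 1102)
(fin 1171 3 1103))))))))))))))))))))))))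
(cons (mv 1037 (cons (cons (mv 973 (cons (fin 972 3 972)
(mv 974 (cons (fin 1041 3 973)
(mv 1101 (cons (fin 1100 1 1036)
(mv 910 (cons (fin 846 5 845)
(fin 1165 6 909)))))))))
(cons (mv 1101 (cons (fin 1100 1 1036)
(mv 1041 (cons (fin 1102 1 1037)
(mv 1104 (cons (fin 1105 0 1037)
(mv 975 (cons (cons (mv 847 (cons (fin 911 4 847)
(mv 974 (cons (fin 1042 3 974)
(mv 910 (cons (fin 846 5 845)
(mv 1167 (cons (fin 1103 7 910)
(mv 1168 (cons (fin 1232 7 975)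
(mv 1229 (cons (fin 1165 6 973)
(mv 1231 (cons (fin 976 5 975)
(mv 1230 (cons (fin 1228 2 1164)
(mv 1169 (cons (fin 1166 1 1165)
(fin 1170 1 1166)))))))))))))))))))
(mv 911 (cons (fin 847 4 847)
(mv 1168 (cons (fin 976 7 911)
(fin 1232 7 975))))))
(cons (mv 974 (cons (fin 1042 3 974)
(mv 910 (cons (fin 846 5 845)
(mv 1167 (cons (fin 1103 7 910)
(mv 1168 (cons (fin 1232 7 975)
(mv 1229 (cons (fin 1165 6 973)
(mv 1231 (cons (fin 976 5 975)
(mv 1230 (cons (fin 1228 2 1164)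
(mv 1169 (cons (fin 1166 1 1165)
(fin 1170 1 1166)))))))))))))))))
(cons (mv 847 (cons (fin 911 4 847)
(mv 1042 (cons (fin 974 3 974)
(mv 1043 (cons (fin 976 3 975)
(fin 1103 1 1039)))))))
(mv 847 (cons (fin 911 4 847)
(mv 1042 (cons (fin 974 3 974)
(mv 979 (cons (fin 978 2 975)
(mv 1043 (cons (fin 1103 1 1039)
(fin 980 2 976)))))))))))))))))))
(mv 973 (cons (fin 972 3 972)
(mv 974 (cons (fin 1041 3 973)
(mv 1104 (cons (fin 1105 0 1037)
(mv 1102 (cons (mv 909 (cons (fin 1166 7 909)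
(fin 845 4 845)))
(cons (mv 845 (cons (fin 909 4 845)
(mv 910 (cons (mv 846 (cons (fin 781 7 781)
(fin 782 5 781)))
(mv 911 (cons (fin 847 6 846)
(mv 912 (cons (fin 913 1 909)
(mv 1103 (cons (fin 1167 4 910)
(mv 848 (cons (fin 976 5 847)
(fin 975 6 847)))))))))))))
(mv 1166 (cons (fin 1230 7 973)
(mv 911 (cons (fin 975 6 910)
(mv 847 (cons (fin 910 6 846)
(mv 912 (cons (fin 976 7 847)
(mv 1165 (cons (fin 1229 5 973)
(mv 1167 (cons (fin 1231 4 974)
(mv 1164 (cons (fin 1103 2 1100)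
(mv 1099 (cons (fin 1100 3 1099)
(mv 1163 (cons (fin 1098 3 1098)
(mv 1227 (cons (fin 1226 1 1162)
(fin 1228 1 1163))))))))))))))))))))))))))))))))
(cons (cons (mv 973 (cons (fin 972 3 972)
(mv 1041 (cons (fin 974 3 973)
(mv 1101 (cons (fin 1102 1 1037)
(mv 1165 (cons (cons (mv 1104 (cons (fin 1105 0 1037)
(mv 1164 (cons (fin 1228 5 972)
(mv 1166 (cons (fin 1230 4 973)
(mv 1167 (cons (fin 1103 2 1100)
(mv 1232 (cons (fin 1231 0 1164)
(mv 1168 (cons (fin 1233 0 1165)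
(fin 975 7 975)))))))))))))
(cons (mv 1104 (cons (fin 1105 0 1037)
(mv 1228 (cons (fin 1164 5 972)
(mv 1229 (cons (fin 1292 5 1036)
(mv 1168 (cons (cons (mv 975 (cons (fin 1232 7 975)
(mv 911 (cons (fin 976 7 911)
(fin 847 4 847)))))
(mv 1167 (cons (fin 1166 1 1164)
(mv 976 (cons (fin 1231 5 975)
(mv 911 (cons (fin 975 7 911)
(mv 912 (cons (fin 847 7 847)
(fin 1103 5 911))))))))))
(cons (mv 1167 (cons (fin 1166 1 1164)
(mv 976 (cons (fin 1231 5 975)
(mv 912 (cons (fin 1103 5 911)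
(mv 847 (cons (fin 911 7 847)
(mv 848 (cons (fin 783 7 783)
(mv 849 (cons (fin 785 6 784)
(fin 913 6 848)))))))))))))
(cons (mv 975 (cons (fin 1232 7 975)
(mv 911 (cons (fin 847 4 847)
(fin 1103 4 911)))))
(mv 975 (cons (fin 1232 7 975)
(mv 1167 (cons (fin 1166 1 1164)
(mv 976 (cons (fin 1231 5 975)
(mv 912 (cons (fin 1103 5 911)
(mv 848 (cons (fin 784 5 783)
(mv 849 (cons (fin 785 6 784)
(fin 913 6 848)))))))))))))))))))))))
(mv 1230 (cons (fin 1166 4 973)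
(mv 1229 (cons (fin 1294 4 1037)
(mv 1232 (cons (cons (mv 1104 (cons (fin 1105 0 1037)
(mv 1164 (cons (fin 1231 3 1164)
(mv 1162 (cons (fin 1163 0 1162)
(mv 1168 (cons (fin 975 7 975)
(mv 1103 (cons (fin 1296 7 1039)
(mv 1042 (cons (fin 1043 1 1039)
(mv 1233 (cons (fin 1297 4 1040)
(mv 976 (cons (fin 1169 4 976)
(mv 912 (cons (fin 848 5 847)
(fin 1167 5 911)))))))))))))))))))
(cons (mv 1104 (cons (fin 1105 0 1037)
(mv 1168 (cons (fin 975 7 975)
(mv 1103 (cons (fin 1296 7 1039)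
(mv 1042 (cons (fin 1043 1 1039)
(mv 978 (cons (fin 979 2 975)
(mv 1233 (cons (fin 1297 4 1040)
(mv 976 (cons (fin 1169 4 976)
(mv 912 (cons (fin 848 5 847)
(fin 1167 5 911)))))))))))))))))
(mv 1231 (cons (fin 1164 3 1164)
(mv 1169 (cons (fin 1168 2 1165)
(mv 1233 (cons (fin 1170 2 1166)
(mv 1105 (cons (fin 976 7 976)
(fin 1296 5 1040)))))))))))
(cons (mv 1231 (cons (fin 1164 3 1164)
(mv 1168 (cons (fin 1169 2 1165)
(mv 1104 (cons (fin 975 7 975)
(fin 1295 5 1039)))))))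
(cons (mv 1105 (cons (fin 1104 0 1037)
(mv 1231 (cons (fin 1164 3 1164)
(mv 1292 (cons (fin 1293 1 1228)
(mv 1297 (cons (fin 1296 0 1229)
(mv 1233 (cons (fin 1298 0 1230)
(mv 1169 (cons (fin 1170 2 1166)
(fin 976 7 976)))))))))))))
(mv 1104 (cons (fin 1105 0 1037)
(mv 1164 (cons (fin 1231 3 1164)
(mv 1162 (cons (fin 1163 0 1162)
(mv 1168 (cons (fin 975 7 975)
(mv 1296 (cons (fin 1103 7 1039)
(mv 1297 (cons (fin 1233 4 1040)
(fin 1361 4 1104)))))))))))))))))))))))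
(cons (mv 1228 (cons (fin 1164 5 972)
(mv 1229 (cons (fin 1292 5 1036)
(mv 1230 (cons (fin 1166 4 973)
(fin 1294 4 1037)))))))
(cons (mv 1229 (cons (cons (mv 1228 (cons (fin 1164 5 972)
(fin 1292 5 1036)))
(mv 1230 (cons (fin 1294 4 1037)
(mv 1232 (cons (cons (mv 1104 (cons (fin 1105 0 1037)
(mv 1164 (cons (fin 1231 3 1164)
(mv 1162 (cons (fin 1163 0 1162)
(mv 1168 (cons (fin 975 7 975)
(mv 1103 (cons (fin 1296 7 1039)
(mv 1042 (cons (fin 1043 1 1039)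
(mv 1233 (cons (fin 1297 4 1040)
(mv 976 (cons (fin 1169 4 976)
(mv 912 (cons (fin 848 5 847)
(fin 1167 5 911)))))))))))))))))))
(cons (mv 1104 (cons (fin 1105 0 1037)
(mv 1168 (cons (fin 975 7 975)
(mv 1103 (cons (fin 1296 7 1039)
(mv 1042 (cons (fin 1043 1 1039)
(mv 978 (cons (fin 979 2 975)
(mv 1233 (cons (fin 1297 4 1040)
(mv 976 (cons (fin 1169 4 976)
(mv 912 (cons (fin 848 5 847)
(fin 1167 5 911)))))))))))))))))
(mv 1231 (cons (fin 1164 3 1164)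
(mv 1169 (cons (fin 1168 2 1165)
(mv 1233 (cons (fin 1170 2 1166)
(mv 1105 (cons (fin 976 7 976)
(fin 1296 5 1040)))))))))))
(cons (mv 1231 (cons (fin 1164 3 1164)
(mv 1168 (cons (fin 1169 2 1165)
(mv 1104 (cons (fin 975 7 975)
(fin 1295 5 1039)))))))
(cons (mv 1105 (cons (fin 1104 0 1037)
(mv 1231 (cons (fin 1164 3 1164)
(mv 1292 (cons (fin 1293 1 1228)
(mv 1297 (cons (fin 1296 0 1229)
(mv 1233 (cons (fin 1298 0 1230)
(mv 1169 (cons (fin 1170 2 1166)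
(fin 976 7 976)))))))))))))
(mv 1104 (cons (fin 1105 0 1037)
(mv 1164 (cons (fin 1231 3 1164)
(mv 1162 (cons (fin 1163 0 1162)
(mv 1168 (cons (fin 975 7 975)
(mv 1296 (cons (fin 1103 7 1039)
(mv 1297 (cons (fin 1233 4 1040)
(fin 1361 4 1104))))))))))))))))))))
(cons (mv 1104 (cons (fin 1105 0 1037)
(mv 1164 (cons (fin 1228 5 972)
(mv 1230 (cons (fin 1294 4 1037)
(mv 1162 (cons (fin 1163 0 1162)
(mv 1232 (cons (fin 1231 3 1164)
(mv 1168 (cons (fin 975 7 975)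
(mv 1103 (cons (fin 1296 7 1039)
(mv 1042 (cons (fin 1043 1 1039)
(mv 1233 (cons (fin 1297 4 1040)
(mv 976 (cons (fin 1169 4 976)
(mv 912 (cons (fin 848 5 847)
(fin 1167 5 911)))))))))))))))))))))))
(mv 1104 (cons (fin 1105 0 1037)
(mv 1230 (cons (fin 1294 4 1037)
(mv 1292 (cons (fin 1228 5 1036)
(mv 1293 (cons (fin 1356 5 1100)
(mv 1232 (cons (fin 1231 1 1228)
(mv 1168 (cons (fin 975 7 975)
(mv 1103 (cons (fin 1296 7 1039)
(mv 1042 (cons (fin 1043 1 1039)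
(mv 1233 (cons (fin 1297 4 1040)
(mv 976 (cons (fin 1169 4 976)
(mv 912 (cons (fin 848 5 847)
(fin 1167 5 911))))))))))))))))))))))))))
(mv 1104 (cons (fin 1105 0 1037)
(mv 1230 (cons (fin 1166 4 973)
(mv 1229 (cons (fin 1294 4 1037)
(mv 1292 (cons (fin 1228 5 1036)
(mv 1293 (cons (fin 1356 5 1100)
(mv 1232 (cons (fin 1231 1 1228)
(mv 1168 (cons (fin 975 7 975)
(mv 1103 (cons (fin 1296 7 1039)
(mv 1042 (cons (fin 1043 1 1039)
(mv 1233 (cons (fin 1297 4 1040)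
(mv 976 (cons (fin 1169 4 976)
(mv 912 (cons (fin 848 5 847)
(fin 1167 5 911)))))))))))))))))))))))))))))))))))
(mv 972 (cons (fin 973 3 972)
(mv 1101 (cons (fin 1100 1 1036)
(mv 1104 (cons (fin 1105 0 1037)
(mv 975 (cons (cons (mv 911 (cons (fin 847 4 847)
(mv 1168 (cons (fin 976 7 911)
(fin 1232 7 975)))))
(mv 1168 (cons (fin 1232 7 975)
(mv 1102 (cons (cons (mv 1103 (cons (fin 1169 0 1101)
(mv 1165 (cons (fin 1164 1 1100)
(mv 974 (cons (fin 910 5 909)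
(fin 1229 6 973)))))))
(mv 1166 (cons (fin 1230 6 974)
(mv 1165 (cons (mv 974 (cons (fin 910 5 909)
(fin 1229 5 973)))
(cons (mv 910 (cons (fin 974 5 909)
(mv 1164 (cons (fin 1103 1 1100)
(mv 1163 (cons (fin 1162 2 1098)
(mv 1099 (cons (fin 1098 3 1098)
(mv 1227 (cons (fin 1226 1 1162)
(mv 1228 (cons (fin 1167 1 1163)
(mv 1035 (cons (fin 971 4 971)
(fin 1292 4 1035)))))))))))))))
(mv 1103 (cons (fin 1164 1 1100)
(mv 1229 (cons (fin 1293 6 1037)
(mv 1228 (cons (fin 1167 1 1164)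
(fin 1292 5 1036)))))))))))))
(cons (mv 1166 (cons (fin 1230 6 974)
(mv 1167 (cons (fin 1169 3 1101)
(mv 1231 (cons (fin 976 5 975)
(fin 974 4 974)))))))
(mv 1103 (cons (fin 1169 0 1101)
(mv 1165 (cons (fin 1164 1 1100)
(mv 1166 (cons (fin 1230 6 974)
(mv 1229 (cons (fin 1293 6 1037)
(mv 1228 (cons (fin 1167 1 1164)
(fin 1292 5 1036)))))))))))))))))
(cons (mv 911 (cons (fin 847 4 847)
(mv 1103 (cons (cons (mv 846 (cons (fin 910 7 846)
(mv 848 (cons (fin 912 6 847)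
(mv 1102 (cons (fin 1166 5 910)
(mv 1165 (cons (fin 1164 1 1100)
(mv 1229 (cons (fin 974 6 973)
(fin 1293 6 1037)))))))))))
(mv 848 (cons (fin 912 6 847)
(mv 1102 (cons (fin 1166 5 910)
(mv 1165 (cons (fin 1164 1 1100)
(mv 1229 (cons (fin 974 6 973)
(fin 1293 6 1037))))))))))
(cons (mv 846 (cons (fin 910 7 846)
(mv 912 (cons (fin 848 6 847)
(mv 976 (cons (fin 1167 5 911)
(mv 913 (cons (fin 849 6 848)
(mv 914 (cons (fin 974 1 910)
(fin 915 1 911)))))))))))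
(cons (mv 846 (cons (fin 910 7 846)
(mv 1102 (cons (fin 1166 5 910)
(mv 1165 (cons (fin 1164 1 1100)
(mv 1229 (cons (fin 974 6 973)
(fin 1293 6 1037)))))))))
(mv 846 (cons (fin 910 7 846)
(mv 848 (cons (fin 912 6 847)
(mv 1166 (cons (fin 1102 5 910)
(mv 1167 (cons (fin 1230 5 974)
(mv 1231 (cons (fin 976 6 975)
(fin 1295 6 1039)))))))))))))))))
(mv 911 (cons (fin 847 4 847)
(mv 1168 (cons (fin 1232 7 975)
(fin 1103 4 911)))))))))))))))
(cons (mv 973 (cons (fin 972 3 972)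
(mv 1101 (cons (fin 1100 1 1036)
(mv 1041 (cons (fin 1102 1 1037)
(mv 1165 (cons (cons (mv 1104 (cons (fin 1105 0 1037)
(mv 1164 (cons (fin 1228 5 972)
(mv 1166 (cons (fin 1230 4 973)
(mv 1167 (cons (fin 1103 2 1100)
(mv 1232 (cons (fin 1231 0 1164)
(mv 1168 (cons (fin 1233 0 1165)
(fin 975 7 975)))))))))))))
(cons (mv 1104 (cons (fin 1105 0 1037)
(mv 1228 (cons (fin 1164 5 972)
(mv 1229 (cons (fin 1292 5 1036)
(mv 1168 (cons (cons (mv 975 (cons (fin 1232 7 975)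
(mv 911 (cons (fin 976 7 911)
(fin 847 4 847)))))
(mv 1167 (cons (fin 1166 1 1164)
(mv 976 (cons (fin 1231 5 975)
(mv 911 (cons (fin 975 7 911)
(mv 912 (cons (fin 847 7 847)
(fin 1103 5 911))))))))))
(cons (mv 1167 (cons (fin 1166 1 1164)
(mv 976 (cons (fin 1231 5 975)
(mv 912 (cons (fin 1103 5 911)
(mv 847 (cons (fin 911 7 847)
(mv 848 (cons (fin 783 7 783)
(mv 849 (cons (fin 785 6 784)
(fin 913 6 848)))))))))))))
(cons (mv 975 (cons (fin 1232 7 975)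
(mv 911 (cons (fin 847 4 847)
(fin 1103 4 911)))))
(mv 975 (cons (fin 1232 7 975)
(mv 1167 (cons (fin 1166 1 1164)
(mv 976 (cons (fin 1231 5 975)
(mv 912 (cons (fin 1103 5 911)
(mv 848 (cons (fin 784 5 783)
(mv 849 (cons (fin 785 6 784)
(fin 913 6 848)))))))))))))))))))))))
(mv 1230 (cons (fin 1166 4 973)
(mv 1229 (cons (fin 1294 4 1037)
(mv 1232 (cons (cons (mv 1104 (cons (fin 1105 0 1037)
(mv 1164 (cons (fin 1231 3 1164)
(mv 1162 (cons (fin 1163 0 1162)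
(mv 1168 (cons (fin 975 7 975)
(mv 1103 (cons (fin 1296 7 1039)
(mv 1042 (cons (fin 1043 1 1039)
(mv 1233 (cons (fin 1297 4 1040)
(mv 976 (cons (fin 1169 4 976)
(mv 912 (cons (fin 848 5 847)
(fin 1167 5 911)))))))))))))))))))
(cons (mv 1104 (cons (fin 1105 0 1037)
(mv 1168 (cons (fin 975 7 975)
(mv 1103 (cons (fin 1296 7 1039)
(mv 1042 (cons (fin 1043 1 1039)
(mv 978 (cons (fin 979 2 975)
(mv 1233 (cons (fin 1297 4 1040)
(mv 976 (cons (fin 1169 4 976)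
(mv 912 (cons (fin 848 5 847)
(fin 1167 5 911)))))))))))))))))
(mv 1231 (cons (fin 1164 3 1164)
(mv 1169 (cons (fin 1168 2 1165)
(mv 1233 (cons (fin 1170 2 1166)
(mv 1105 (cons (fin 976 7 976)
(fin 1296 5 1040)))))))))))
(cons (mv 1231 (cons (fin 1164 3 1164)
(mv 1168 (cons (fin 1169 2 1165)
(mv 1104 (cons (fin 975 7 975)
(fin 1295 5 1039)))))))
(cons (mv 1105 (cons (fin 1104 0 1037)
(mv 1231 (cons (fin 1164 3 1164)
(mv 1292 (cons (fin 1293 1 1228)
(mv 1297 (cons (fin 1296 0 1229)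
(mv 1233 (cons (fin 1298 0 1230)
(mv 1169 (cons (fin 1170 2 1166)
(fin 976 7 976)))))))))))))
(mv 1104 (cons (fin 1105 0 1037)
(mv 1164 (cons (fin 1231 3 1164)
(mv 1162 (cons (fin 1163 0 1162)
(mv 1168 (cons (fin 975 7 975)
(mv 1296 (cons (fin 1103 7 1039)
(mv 1297 (cons (fin 1233 4 1040)
(fin 1361 4 1104)))))))))))))))))))))))
(cons (mv 1228 (cons (fin 1164 5 972)
(mv 1229 (cons (fin 1292 5 1036)
(mv 1230 (cons (fin 1166 4 973)
(fin 1294 4 1037)))))))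
(cons (mv 1229 (cons (cons (mv 1228 (cons (fin 1164 5 972)
(fin 1292 5 1036)))
(mv 1230 (cons (fin 1294 4 1037)
(mv 1232 (cons (cons (mv 1104 (cons (fin 1105 0 1037)
(mv 1164 (cons (fin 1231 3 1164)
(mv 1162 (cons (fin 1163 0 1162)
(mv 1168 (cons (fin 975 7 975)
(mv 1103 (cons (fin 1296 7 1039)
(mv 1042 (cons (fin 1043 1 1039)
(mv 1233 (cons (fin 1297 4 1040)
(mv 976 (cons (fin 1169 4 976)
(mv 912 (cons (fin 848 5 847)
(fin 1167 5 911)))))))))))))))))))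
(cons (mv 1104 (cons (fin 1105 0 1037)
(mv 1168 (cons (fin 975 7 975)
(mv 1103 (cons (fin 1296 7 1039)
(mv 1042 (cons (fin 1043 1 1039)
(mv 978 (cons (fin 979 2 975)
(mv 1233 (cons (fin 1297 4 1040)
(mv 976 (cons (fin 1169 4 976)
(mv 912 (cons (fin 848 5 847)
(fin 1167 5 911)))))))))))))))))
(mv 1231 (cons (fin 1164 3 1164)
(mv 1169 (cons (fin 1168 2 1165)
(mv 1233 (cons (fin 1170 2 1166)
(mv 1105 (cons (fin 976 7 976)
(fin 1296 5 1040)))))))))))
(cons (mv 1231 (cons (fin 1164 3 1164)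
(mv 1168 (cons (fin 1169 2 1165)
(mv 1104 (cons (fin 975 7 975)
(fin 1295 5 1039)))))))
(cons (mv 1105 (cons (fin 1104 0 1037)
(mv 1231 (cons (fin 1164 3 1164)
(mv 1292 (cons (fin 1293 1 1228)
(mv 1297 (cons (fin 1296 0 1229)
(mv 1233 (cons (fin 1298 0 1230)
(mv 1169 (cons (fin 1170 2 1166)
(fin 976 7 976)))))))))))))
(mv 1104 (cons (fin 1105 0 1037)
(mv 1164 (cons (fin 1231 3 1164)
(mv 1162 (cons (fin 1163 0 1162)
(mv 1168 (cons (fin 975 7 975)
(mv 1296 (cons (fin 1103 7 1039)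
(mv 1297 (cons (fin 1233 4 1040)
(fin 1361 4 1104))))))))))))))))))))
(cons (mv 1104 (cons (fin 1105 0 1037)
(mv 1164 (cons (fin 1228 5 972)
(mv 1230 (cons (fin 1294 4 1037)
(mv 1162 (cons (fin 1163 0 1162)
(mv 1232 (cons (fin 1231 3 1164)
(mv 1168 (cons (fin 975 7 975)
(mv 1103 (cons (fin 1296 7 1039)
(mv 1042 (cons (fin 1043 1 1039)
(mv 1233 (cons (fin 1297 4 1040)
(mv 976 (cons (fin 1169 4 976)
(mv 912 (cons (fin 848 5 847)
(fin 1167 5 911)))))))))))))))))))))))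
(mv 1104 (cons (fin 1105 0 1037)
(mv 1230 (cons (fin 1294 4 1037)
(mv 1292 (cons (fin 1228 5 1036)
(mv 1293 (cons (fin 1356 5 1100)
(mv 1232 (cons (fin 1231 1 1228)
(mv 1168 (cons (fin 975 7 975)
(mv 1103 (cons (fin 1296 7 1039)
(mv 1042 (cons (fin 1043 1 1039)
(mv 1233 (cons (fin 1297 4 1040)
(mv 976 (cons (fin 1169 4 976)
(mv 912 (cons (fin 848 5 847)
(fin 1167 5 911))))))))))))))))))))))))))
(mv 1104 (cons (fin 1105 0 1037)
(mv 1230 (cons (fin 1166 4 973)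
(mv 1229 (cons (fin 1294 4 1037)
(mv 1292 (cons (fin 1228 5 1036)
(mv 1293 (cons (fin 1356 5 1100)
(mv 1232 (cons (fin 1231 1 1228)
(mv 1168 (cons (fin 975 7 975)
(mv 1103 (cons (fin 1296 7 1039)
(mv 1042 (cons (fin 1043 1 1039)
(mv 1233 (cons (fin 1297 4 1040)
(mv 976 (cons (fin 1169 4 976)
(mv 912 (cons (fin 848 5 847)
(fin 1167 5 911)))))))))))))))))))))))))))))))))))
(mv 973 (cons (fin 972 3 972)
(mv 1041 (cons (fin 974 3 973)
(mv 1101 (cons (fin 1100 1 1036)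
(fin 1102 1 1037)))))))))))
(mv 1037 (cons (cons (mv 977 (cons (fin 976 2 973)
(mv 1041 (cons (fin 978 2 974)
(mv 1101 (cons (fin 1100 1 1036)
(fin 1102 1 1037)))))))
(mv 976 (cons (fin 977 2 973)
(mv 1104 (cons (fin 1105 0 1037)
(mv 912 (cons (mv 1103 (cons (fin 848 5 847)
(fin 1167 5 911)))
(cons (mv 847 (cons (fin 911 7 847)
(mv 848 (cons (fin 783 7 783)
(mv 849 (cons (fin 785 6 784)
(fin 913 6 848)))))))
(mv 847 (cons (fin 911 7 847)
(mv 849 (cons (fin 913 6 848)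
(mv 1167 (cons (fin 1103 5 911)
(mv 1168 (cons (fin 1231 5 975)
(mv 1232 (cons (fin 975 7 975)
(mv 1233 (cons (fin 1169 4 976)
(fin 1297 4 1040)))))))))))))))))))))
(cons (mv 1101 (cons (fin 1100 1 1036)
(mv 1041 (cons (fin 1102 1 1037)
(mv 1104 (cons (fin 1105 0 1037)
(mv 975 (cons (cons (mv 847 (cons (fin 911 4 847)
(mv 974 (cons (fin 1042 3 974)
(mv 910 (cons (fin 846 5 845)
(mv 1167 (cons (fin 1103 7 910)
(mv 1168 (cons (fin 1232 7 975)
(mv 1229 (cons (fin 1165 6 973)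
(mv 1231 (cons (fin 976 5 975)
(mv 1230 (cons (fin 1228 2 1164)
(mv 1169 (cons (fin 1166 1 1165)
(fin 1170 1 1166)))))))))))))))))))
(mv 911 (cons (fin 847 4 847)
(mv 1168 (cons (fin 976 7 911)
(fin 1232 7 975))))))
(cons (mv 974 (cons (fin 1042 3 974)
(mv 910 (cons (fin 846 5 845)
(mv 1167 (cons (fin 1103 7 910)
(mv 1168 (cons (fin 1232 7 975)
(mv 1229 (cons (fin 1165 6 973)
(mv 1231 (cons (fin 976 5 975)
(mv 1230 (cons (fin 1228 2 1164)
(mv 1169 (cons (fin 1166 1 1165)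
(fin 1170 1 1166)))))))))))))))))
(cons (mv 847 (cons (fin 911 4 847)
(mv 1042 (cons (fin 974 3 974)
(mv 1043 (cons (fin 976 3 975)
(fin 1103 1 1039)))))))
(mv 847 (cons (fin 911 4 847)
(mv 1042 (cons (fin 974 3 974)
(mv 979 (cons (fin 978 2 975)
(mv 1043 (cons (fin 1103 1 1039)
(fin 980 2 976)))))))))))))))))))
(mv 1101 (cons (fin 1100 1 1036)
(mv 1041 (cons (fin 1102 1 1037)
(mv 978 (cons (fin 977 2 974)
(mv 1042 (cons (fin 979 2 975)
(mv 975 (cons (fin 974 3 974)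
(mv 1104 (cons (fin 1105 0 1037)
(mv 911 (cons (fin 847 4 847)
(mv 1103 (cons (fin 1043 1 1039)
(fin 1168 4 911)))))))))))))))))))))))
(cons (cons (mv 1037 (cons (cons (mv 973 (cons (fin 972 3 972)
(mv 977 (cons (fin 976 2 973)
(mv 1041 (cons (fin 974 3 973)
(fin 978 2 974)))))))
(mv 976 (cons (fin 977 2 973)
(mv 1104 (cons (fin 1105 0 1037)
(mv 912 (cons (mv 1103 (cons (fin 848 5 847)
(fin 1167 5 911)))
(cons (mv 847 (cons (fin 911 7 847)
(mv 848 (cons (fin 783 7 783)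
(mv 849 (cons (fin 785 6 784)
(fin 913 6 848)))))))
(mv 847 (cons (fin 911 7 847)
(mv 849 (cons (fin 913 6 848)
(mv 1167 (cons (fin 1103 5 911)
(mv 1168 (cons (fin 1231 5 975)
(mv 1232 (cons (fin 975 7 975)
(mv 1233 (cons (fin 1169 4 976)
(fin 1297 4 1040)))))))))))))))))))))
(cons (mv 973 (cons (fin 972 3 972)
(mv 974 (cons (fin 1041 3 973)
(mv 1104 (cons (fin 1105 0 1037)
(mv 1102 (cons (mv 909 (cons (fin 1166 7 909)
(fin 845 4 845)))
(cons (mv 845 (cons (fin 909 4 845)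
(mv 910 (cons (mv 846 (cons (fin 781 7 781)
(fin 782 5 781)))
(mv 911 (cons (fin 847 6 846)
(mv 912 (cons (fin 913 1 909)
(mv 1103 (cons (fin 1167 4 910)
(mv 848 (cons (fin 976 5 847)
(fin 975 6 847)))))))))))))
(mv 1166 (cons (fin 1230 7 973)
(mv 911 (cons (fin 975 6 910)
(mv 847 (cons (fin 910 6 846)
(mv 912 (cons (fin 976 7 847)
(mv 1165 (cons (fin 1229 5 973)
(mv 1167 (cons (fin 1231 4 974)
(mv 1164 (cons (fin 1103 2 1100)
(mv 1099 (cons (fin 1100 3 1099)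
(mv 1163 (cons (fin 1098 3 1098)
(mv 1227 (cons (fin 1226 1 1162)
(fin 1228 1 1163))))))))))))))))))))))))))))))
(mv 973 (cons (fin 972 3 972)
(mv 1041 (cons (fin 974 3 973)
(mv 978 (cons (fin 977 2 974)
(mv 1042 (cons (fin 979 2 975)
(mv 1103 (cons (fin 1102 1 1038)
(mv 1104 (cons (fin 1043 1 1039)
(fin 1105 0 1037))))))))))))))))
(cons (mv 1037 (cons (cons (mv 972 (cons (fin 973 3 972)
(mv 977 (cons (fin 976 2 973)
(mv 1041 (cons (fin 978 2 974)
(mv 1101 (cons (fin 1100 1 1036)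
(fin 1102 1 1037)))))))))
(mv 972 (cons (fin 973 3 972)
(mv 976 (cons (fin 977 2 973)
(mv 1104 (cons (fin 1105 0 1037)
(mv 912 (cons (mv 1103 (cons (fin 848 5 847)
(fin 1167 5 911)))
(cons (mv 847 (cons (fin 911 7 847)
(mv 848 (cons (fin 783 7 783)
(mv 849 (cons (fin 785 6 784)
(fin 913 6 848)))))))
(mv 847 (cons (fin 911 7 847)
(mv 849 (cons (fin 913 6 848)
(mv 1167 (cons (fin 1103 5 911)
(mv 1168 (cons (fin 1231 5 975)
(mv 1232 (cons (fin 975 7 975)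
(mv 1233 (cons (fin 1169 4 976)
(fin 1297 4 1040)))))))))))))))))))))))
(cons (mv 973 (cons (fin 972 3 972)
(mv 1101 (cons (fin 1100 1 1036)
(mv 1041 (cons (fin 1102 1 1037)
(mv 1165 (cons (cons (mv 1104 (cons (fin 1105 0 1037)
(mv 1164 (cons (fin 1228 5 972)
(mv 1166 (cons (fin 1230 4 973)
(mv 1167 (cons (fin 1103 2 1100)
(mv 1232 (cons (fin 1231 0 1164)
(mv 1168 (cons (fin 1233 0 1165)
(fin 975 7 975)))))))))))))
(cons (mv 1104 (cons (fin 1105 0 1037)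
(mv 1228 (cons (fin 1164 5 972)
(mv 1229 (cons (fin 1292 5 1036)
(mv 1168 (cons (cons (mv 975 (cons (fin 1232 7 975)
(mv 911 (cons (fin 976 7 911)
(fin 847 4 847)))))
(mv 1167 (cons (fin 1166 1 1164)
(mv 976 (cons (fin 1231 5 975)
(mv 911 (cons (fin 975 7 911)
(mv 912 (cons (fin 847 7 847)
(fin 1103 5 911))))))))))
(cons (mv 1167 (cons (fin 1166 1 1164)
(mv 976 (cons (fin 1231 5 975)
(mv 912 (cons (fin 1103 5 911)
(mv 847 (cons (fin 911 7 847)
(mv 848 (cons (fin 783 7 783)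
(mv 849 (cons (fin 785 6 784)
(fin 913 6 848)))))))))))))
(cons (mv 975 (cons (fin 1232 7 975)
(mv 911 (cons (fin 847 4 847)
(fin 1103 4 911)))))
(mv 975 (cons (fin 1232 7 975)
(mv 1167 (cons (fin 1166 1 1164)
(mv 976 (cons (fin 1231 5 975)
(mv 912 (cons (fin 1103 5 911)
(mv 848 (cons (fin 784 5 783)
(mv 849 (cons (fin 785 6 784)
(fin 913 6 848)))))))))))))))))))))))
(mv 1230 (cons (fin 1166 4 973)
(mv 1229 (cons (fin 1294 4 1037)
(mv 1232 (cons (cons (mv 1104 (cons (fin 1105 0 1037)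
(mv 1164 (cons (fin 1231 3 1164)
(mv 1162 (cons (fin 1163 0 1162)
(mv 1168 (cons (fin 975 7 975)
(mv 1103 (cons (fin 1296 7 1039)
(mv 1042 (cons (fin 1043 1 1039)
(mv 1233 (cons (fin 1297 4 1040)
(mv 976 (cons (fin 1169 4 976)
(mv 912 (cons (fin 848 5 847)
(fin 1167 5 911)))))))))))))))))))
(cons (mv 1104 (cons (fin 1105 0 1037)
(mv 1168 (cons (fin 975 7 975)
(mv 1103 (cons (fin 1296 7 1039)
(mv 1042 (cons (fin 1043 1 1039)
(mv 978 (cons (fin 979 2 975)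
(mv 1233 (cons (fin 1297 4 1040)
(mv 976 (cons (fin 1169 4 976)
(mv 912 (cons (fin 848 5 847)
(fin 1167 5 911)))))))))))))))))
(mv 1231 (cons (fin 1164 3 1164)
(mv 1169 (cons (fin 1168 2 1165)
(mv 1233 (cons (fin 1170 2 1166)
(mv 1105 (cons (fin 976 7 976)
(fin 1296 5 1040)))))))))))
(cons (mv 1231 (cons (fin 1164 3 1164)
(mv 1168 (cons (fin 1169 2 1165)
(mv 1104 (cons (fin 975 7 975)
(fin 1295 5 1039)))))))
(cons (mv 1105 (cons (fin 1104 0 1037)
(mv 1231 (cons (fin 1164 3 1164)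
(mv 1292 (cons (fin 1293 1 1228)
(mv 1297 (cons (fin 1296 0 1229)
(mv 1233 (cons (fin 1298 0 1230)
(mv 1169 (cons (fin 1170 2 1166)
(fin 976 7 976)))))))))))))
(mv 1104 (cons (fin 1105 0 1037)
(mv 1164 (cons (fin 1231 3 1164)
(mv 1162 (cons (fin 1163 0 1162)
(mv 1168 (cons (fin 975 7 975)
(mv 1296 (cons (fin 1103 7 1039)
(mv 1297 (cons (fin 1233 4 1040)
(fin 1361 4 1104)))))))))))))))))))))))
(cons (mv 1228 (cons (fin 1164 5 972)
(mv 1229 (cons (fin 1292 5 1036)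
(mv 1230 (cons (fin 1166 4 973)
(fin 1294 4 1037)))))))
(cons (mv 1229 (cons (cons (mv 1228 (cons (fin 1164 5 972)
(fin 1292 5 1036)))
(mv 1230 (cons (fin 1294 4 1037)
(mv 1232 (cons (cons (mv 1104 (cons (fin 1105 0 1037)
(mv 1164 (cons (fin 1231 3 1164)
(mv 1162 (cons (fin 1163 0 1162)
(mv 1168 (cons (fin 975 7 975)
(mv 1103 (cons (fin 1296 7 1039)
(mv 1042 (cons (fin 1043 1 1039)
(mv 1233 (cons (fin 1297 4 1040)
(mv 976 (cons (fin 1169 4 976)
(mv 912 (cons (fin 848 5 847)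
(fin 1167 5 911)))))))))))))))))))
(cons (mv 1104 (cons (fin 1105 0 1037)
(mv 1168 (cons (fin 975 7 975)
(mv 1103 (cons (fin 1296 7 1039)
(mv 1042 (cons (fin 1043 1 1039)
(mv 978 (cons (fin 979 2 975)
(mv 1233 (cons (fin 1297 4 1040)
(mv 976 (cons (fin 1169 4 976)
(mv 912 (cons (fin 848 5 847)
(fin 1167 5 911)))))))))))))))))
(mv 1231 (cons (fin 1164 3 1164)
(mv 1169 (cons (fin 1168 2 1165)
(mv 1233 (cons (fin 1170 2 1166)
(mv 1105 (cons (fin 976 7 976)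
(fin 1296 5 1040)))))))))))
(cons (mv 1231 (cons (fin 1164 3 1164)
(mv 1168 (cons (fin 1169 2 1165)
(mv 1104 (cons (fin 975 7 975)
(fin 1295 5 1039)))))))
(cons (mv 1105 (cons (fin 1104 0 1037)
(mv 1231 (cons (fin 1164 3 1164)
(mv 1292 (cons (fin 1293 1 1228)
(mv 1297 (cons (fin 1296 0 1229)
(mv 1233 (cons (fin 1298 0 1230)
(mv 1169 (cons (fin 1170 2 1166)
(fin 976 7 976)))))))))))))
(mv 1104 (cons (fin 1105 0 1037)
(mv 1164 (cons (fin 1231 3 1164)
(mv 1162 (cons (fin 1163 0 1162)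
(mv 1168 (cons (fin 975 7 975)
(mv 1296 (cons (fin 1103 7 1039)
(mv 1297 (cons (fin 1233 4 1040)
(fin 1361 4 1104))))))))))))))))))))
(cons (mv 1104 (cons (fin 1105 0 1037)
(mv 1164 (cons (fin 1228 5 972)
(mv 1230 (cons (fin 1294 4 1037)
(mv 1162 (cons (fin 1163 0 1162)
(mv 1232 (cons (fin 1231 3 1164)
(mv 1168 (cons (fin 975 7 975)
(mv 1103 (cons (fin 1296 7 1039)
(mv 1042 (cons (fin 1043 1 1039)
(mv 1233 (cons (fin 1297 4 1040)
(mv 976 (cons (fin 1169 4 976)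
(mv 912 (cons (fin 848 5 847)
(fin 1167 5 911)))))))))))))))))))))))
(mv 1104 (cons (fin 1105 0 1037)
(mv 1230 (cons (fin 1294 4 1037)
(mv 1292 (cons (fin 1228 5 1036)
(mv 1293 (cons (fin 1356 5 1100)
(mv 1232 (cons (fin 1231 1 1228)
(mv 1168 (cons (fin 975 7 975)
(mv 1103 (cons (fin 1296 7 1039)
(mv 1042 (cons (fin 1043 1 1039)
(mv 1233 (cons (fin 1297 4 1040)
(mv 976 (cons (fin 1169 4 976)
(mv 912 (cons (fin 848 5 847)
(fin 1167 5 911))))))))))))))))))))))))))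
(mv 1104 (cons (fin 1105 0 1037)
(mv 1230 (cons (fin 1166 4 973)
(mv 1229 (cons (fin 1294 4 1037)
(mv 1292 (cons (fin 1228 5 1036)
(mv 1293 (cons (fin 1356 5 1100)
(mv 1232 (cons (fin 1231 1 1228)
(mv 1168 (cons (fin 975 7 975)
(mv 1103 (cons (fin 1296 7 1039)
(mv 1042 (cons (fin 1043 1 1039)
(mv 1233 (cons (fin 1297 4 1040)
(mv 976 (cons (fin 1169 4 976)
(mv 912 (cons (fin 848 5 847)
(fin 1167 5 911)))))))))))))))))))))))))))))))))))
(cons (mv 973 (cons (fin 972 3 972)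
(mv 1101 (cons (fin 1100 1 1036)
(mv 1102 (cons (fin 1041 1 1037)
(mv 909 (cons (fin 845 4 845)
(fin 1166 4 909)))))))))
(mv 977 (cons (fin 976 2 973)
(mv 1041 (cons (fin 978 2 974)
(mv 1101 (cons (fin 1100 1 1036)
(fin 1102 1 1037)))))))))))
(mv 1037 (cons (cons (mv 973 (cons (fin 972 3 972)
(mv 974 (cons (fin 1041 3 973)
(mv 976 (cons (fin 977 2 973)
(mv 1101 (cons (fin 1100 1 1036)
(mv 910 (cons (fin 846 5 845)
(fin 1165 6 909)))))))))))
(mv 976 (cons (fin 977 2 973)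
(mv 1100 (cons (fin 1101 1 1036)
(mv 1104 (cons (fin 1105 0 1037)
(mv 912 (cons (mv 1103 (cons (fin 848 5 847)
(fin 1167 5 911)))
(cons (mv 847 (cons (fin 911 7 847)
(mv 848 (cons (fin 783 7 783)
(mv 849 (cons (fin 785 6 784)
(fin 913 6 848)))))))
(mv 847 (cons (fin 911 7 847)
(mv 849 (cons (fin 913 6 848)
(mv 1167 (cons (fin 1103 5 911)
(mv 1168 (cons (fin 1231 5 975)
(mv 1232 (cons (fin 975 7 975)
(mv 1233 (cons (fin 1169 4 976)
(fin 1297 4 1040)))))))))))))))))))))))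
(cons (mv 973 (cons (fin 972 3 972)
(mv 974 (cons (fin 1041 3 973)
(mv 1101 (cons (fin 1100 1 1036)
(mv 910 (cons (fin 846 5 845)
(fin 1165 6 909)))))))))
(mv 973 (cons (fin 972 3 972)
(mv 977 (cons (fin 976 2 973)
(mv 1041 (cons (fin 974 3 973)
(fin 978 2 974))))))))))))
(cons (mv 1041 (cons (cons (mv 973 (cons (fin 974 3 973)
(mv 972 (cons (fin 1037 3 972)
(mv 978 (cons (fin 977 2 974)
(mv 1042 (cons (fin 979 2 975)
(mv 1102 (cons (fin 1101 1 1037)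
(fin 1103 1 1038)))))))))))
(mv 974 (cons (fin 973 3 973)
(mv 978 (cons (fin 977 2 974)
(mv 1042 (cons (fin 975 3 974)
(fin 979 2 975))))))))
(cons (mv 978 (cons (fin 977 2 974)
(mv 1042 (cons (fin 979 2 975)
(mv 1102 (cons (fin 1101 1 1037)
(fin 1103 1 1038)))))))
(mv 973 (cons (fin 974 3 973)
(mv 1037 (cons (fin 972 3 972)
(mv 1101 (cons (fin 1100 1 1036)
(fin 1102 1 1037))))))))))
(cons (mv 1037 (cons (cons (mv 972 (cons (fin 973 3 972)
(mv 977 (cons (fin 976 2 973)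
(mv 1041 (cons (fin 978 2 974)
(mv 1101 (cons (fin 1100 1 1036)
(fin 1102 1 1037)))))))))
(mv 973 (cons (fin 972 3 972)
(mv 977 (cons (fin 976 2 973)
(mv 1041 (cons (fin 974 3 973)
(fin 978 2 974))))))))
(cons (mv 977 (cons (fin 976 2 973)
(mv 1041 (cons (fin 978 2 974)
(mv 1101 (cons (fin 1100 1 1036)
(fin 1102 1 1037)))))))
(cons (mv 973 (cons (fin 972 3 972)
(mv 974 (cons (fin 1041 3 973)
(mv 1101 (cons (fin 1100 1 1036)
(mv 910 (cons (fin 846 5 845)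
(fin 1165 6 909)))))))))
(mv 972 (cons (fin 973 3 972)
(mv 976 (cons (fin 977 2 973)
(mv 1100 (cons (fin 1101 1 1036)
(mv 1104 (cons (fin 1105 0 1037)
(mv 912 (cons (mv 1103 (cons (fin 848 5 847)
(fin 1167 5 911)))
(cons (mv 847 (cons (fin 911 7 847)
(mv 848 (cons (fin 783 7 783)
(mv 849 (cons (fin 785 6 784)
(fin 913 6 848)))))))
(mv 847 (cons (fin 911 7 847)
(mv 849 (cons (fin 913 6 848)
(mv 1168 (cons (cons (mv 1167 (cons (fin 1103 5 911)
(fin 1231 5 975)))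
(mv 1233 (cons (fin 1169 4 976)
(mv 1232 (cons (fin 1297 4 1040)
(mv 1295 (cons (fin 1231 5 1039)
(mv 1296 (cons (fin 1103 7 1039)
(fin 1359 5 1103))))))))))
(cons (mv 1231 (cons (fin 1167 5 975)
(mv 1232 (cons (fin 1295 5 1039)
(mv 1233 (cons (fin 1169 4 976)
(fin 1297 4 1040)))))))
(mv 1103 (cons (fin 1167 5 911)
(mv 1232 (cons (fin 1296 7 1039)
(mv 1233 (cons (fin 1169 4 976)
(fin 1297 4 1040)))))))))))))))))))))))))))))
(mv 1037 (cons (cons (mv 972 (cons (fin 973 3 972)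
(mv 977 (cons (fin 976 2 973)
(mv 1041 (cons (fin 978 2 974)
(mv 1101 (cons (fin 1100 1 1036)
(fin 1102 1 1037)))))))))
(mv 977 (cons (fin 976 2 973)
(mv 1041 (cons (fin 978 2 974)
(mv 1101 (cons (fin 1100 1 1036)
(fin 1102 1 1037))))))))
(cons (mv 973 (cons (fin 972 3 972)
(mv 977 (cons (fin 976 2 973)
(mv 1041 (cons (fin 974 3 973)
(fin 978 2 974)))))))
(cons (mv 973 (cons (fin 972 3 972)
(mv 974 (cons (fin 1041 3 973)
(mv 1101 (cons (fin 1100 1 1036)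
(mv 910 (cons (fin 846 5 845)
(fin 1165 6 909)))))))))
(mv 972 (cons (fin 973 3 972)
(mv 976 (cons (fin 977 2 973)
(mv 1100 (cons (fin 1101 1 1036)
(mv 1104 (cons (fin 1105 0 1037)
(mv 1168 (cons (mv 975 (cons (fin 911 7 911)
(fin 1232 7 975)))
(cons (mv 1231 (cons (fin 1167 5 975)
(mv 1232 (cons (fin 1295 5 1039)
(mv 1233 (cons (fin 1169 4 976)
(fin 1297 4 1040)))))))
(mv 1167 (cons (fin 1231 5 975)
(mv 1169 (cons (fin 1233 4 976)
(mv 912 (cons (cons (mv 911 (cons (fin 847 7 847)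
(fin 975 7 911)))
(mv 849 (cons (fin 913 6 848)
(mv 848 (cons (fin 785 6 784)
(mv 783 (cons (fin 847 7 783)
(mv 784 (cons (fin 719 7 719)
(fin 975 5 783))))))))))
(cons (mv 847 (cons (fin 911 7 847)
(mv 848 (cons (fin 783 7 783)
(mv 849 (cons (fin 785 6 784)
(fin 913 6 848)))))))
(mv 849 (cons (fin 913 6 848)
(mv 848 (cons (fin 785 6 784)
(mv 975 (cons (fin 911 7 911)
(fin 784 5 783))))))))))))))))))))))))))))))))))
def l61 : Lem := ⟨17672042592950510299342161747532428741358160893794450532607270698129752962383966679797774154701950421020191674846877452631289669433532411657536873821582864322832094995237976664601613395680896036318715866521764407099865564676993471100411554418605480722106008602337571462179774064736310031630534868627379729584881664, 174078482937595791643454150049826251834292728858051293343240078768015627167034284461978610189299704378535057435488048993022000162388517987835573619428155236926024042228637944858997673773159995438175578756565965623192704129475596688736083710079022650922308490882972421894881168239646511607425371933593145419791814574248105544502945622409820842850473557435564599531514455381568045873964050495495616885600022433995864243163428290560,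 174078482937595791643454150049826251834292728858051293343240078768015627167034284461978610189299704378535057435488048993022000162388517987835573619428155236926024042228637944858997673773159995438175578756565965623192704129475596688736083710079022650922308490882972421894881168239646511607425371933593145419791814574248105544502945622409820842850473557435564599531514455381568045873964050495495616885600022433995864243163428290560, 19, 33⟩
theorem l61_valid : l61.Valid :=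
  Lem.valid_of_chk t61 t61_valid [1039, 1040] c61 l61 (by decide +kernel)
end Crest.Agent.SnakyAux
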