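import Crest.Agent.S0047_aux.Checker

set_option autoImplicit false
set_option maxRecDepth 100000
namespace Crest.Agent.SnakyAux
open Cert
def t62 : Tbl := Tbl.nil
theorem t62_valid : t62.Valid := Tbl.valid_nil
def c62 : Cert :=
(mv 1041 (cons (cons (cons (mv 1042 (cons (cons (mv 974 (cons (fin 975 3 974)
(mv 973 (cons (fin 1038 3 973)
(mv 978 (cons (fin 979 2 975)
(mv 1103 (cons (fin 1102 1 1038)
(mv 1043 (cons (fin 1104 1 1039)
(mv 1108 (cons (fin 1107 0 1040)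
(mv 1044 (cons (fin 1109 0 1041)
(mv 977 (cons (fin 976 3 976)
(fin 1045 3 977)))))))))))))))))
(cons (mv 978 (cons (fin 979 2 975)
(mv 977 (cons (fin 1038 2 974)
(mv 1103 (cons (fin 1102 1 1038)
(mv 1043 (cons (fin 1104 1 1039)
(mv 1044 (cons (fin 976 3 976)
(fin 1045 3 977)))))))))))
(mv 974 (cons (fin 975 3 974)
(mv 978 (cons (fin 979 2 975)
(mv 1038 (cons (fin 973 3 973)
(fin 977 2 974)))))))))
(cons (mv 974 (cons (fin 975 3 974)
(mv 973 (cons (fin 1038 3 973)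
(mv 1103 (cons (fin 1102 1 1038)
(mv 1043 (cons (fin 1104 1 1039)
(mv 980 (cons (fin 979 2 976)
(mv 1044 (cons (fin 981 2 977)
(mv 1108 (cons (fin 1107 0 1040)
(fin 1109 0 1041)))))))))))))))
(cons (mv 974 (cons (fin 975 3 974)
(mv 973 (cons (fin 1038 3 973)
(mv 1103 (cons (fin 1102 1 1038)
(mv 1043 (cons (fin 1104 1 1039)
(mv 1108 (cons (fin 1107 0 1040)
(mv 1044 (cons (fin 1109 0 1041)
(mv 977 (cons (fin 976 3 976)
(mv 981 (cons (fin 980 2 977)
(mv 1045 (cons (fin 978 3 977)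
(fin 982 2 978)))))))))))))))))))
(mv 974 (cons (fin 975 3 974)
(mv 978 (cons (fin 979 2 975)
(mv 1103 (cons (fin 1102 1 1038)
(mv 1043 (cons (fin 1104 1 1039)
(mv 1108 (cons (fin 1107 0 1040)
(mv 1044 (cons (fin 1109 0 1041)
(mv 977 (cons (fin 976 3 976)
(fin 1045 3 977)))))))))))))))))))
(mv 1038 (cons (cons (mv 974 (cons (fin 973 3 973)
(mv 977 (cons (fin 978 2 974)
(mv 1102 (cons (fin 1101 1 1037)
(mv 910 (cons (cons (mv 1103 (cons (fin 846 4 846)
(fin 1167 4 910)))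
(mv 845 (cons (fin 909 7 845)
(mv 781 (cons (fin 846 7 781)
(mv 911 (cons (fin 847 6 846)
(mv 1166 (cons (fin 975 6 910)
(mv 1167 (cons (fin 1231 4 974)
(mv 1229 (cons (fin 1165 5 973)
(mv 1230 (cons (fin 1293 5 1037)
(mv 1168 (cons (fin 1169 1 1165)
(mv 1104 (cons (fin 1232 6 976)
(mv 913 (cons (fin 849 5 848)
(fin 1105 5 912))))))))))))))))))))))
(cons (mv 845 (cons (fin 909 7 845)
(mv 847 (cons (fin 911 6 846)
(mv 1167 (cons (fin 1103 4 910)
(mv 1166 (cons (fin 1231 4 974)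
(mv 1229 (cons (fin 1165 5 973)
(mv 1230 (cons (fin 1293 5 1037)
(fin 975 6 974)))))))))))))
(mv 845 (cons (fin 909 7 845)
(mv 846 (cons (fin 781 7 781)
(fin 1103 4 846))))))))))))))
(cons (mv 977 (cons (fin 978 2 974)
(mv 1102 (cons (fin 1101 1 1037)
(mv 975 (cons (cons (mv 911 (cons (fin 847 5 846)
(mv 1166 (cons (fin 1103 5 910)
(fin 1230 6 974)))))
(mv 1166 (cons (fin 1230 6 974)
(mv 913 (cons (cons (mv 849 (cons (fin 1104 5 848)
(mv 784 (cons (fin 848 7 784)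
(mv 785 (cons (fin 720 7 720)
(fin 976 5 784)))))))
(mv 849 (cons (cons (mv 784 (cons (fin 848 7 784)
(mv 785 (cons (fin 720 7 720)
(fin 976 5 784)))))
(mv 786 (cons (fin 850 6 785)
(mv 848 (cons (fin 784 7 784)
(mv 912 (cons (fin 1105 7 848)
(mv 976 (cons (fin 1103 5 847)
(mv 847 (cons (fin 783 7 783)
(mv 846 (cons (fin 845 0 845)
(fin 914 0 846))))))))))))))
(cons (mv 785 (cons (fin 976 5 784)
(mv 786 (cons (fin 722 6 721)
(fin 850 6 785)))))
(mv 784 (cons (fin 848 7 784)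
(mv 785 (cons (fin 720 7 720)
(mv 786 (cons (fin 722 6 721)
(fin 850 6 785)))))))))))
(cons (mv 1105 (cons (cons (mv 848 (cons (fin 912 7 848)
(mv 850 (cons (fin 914 6 849)
(mv 1104 (cons (fin 1168 5 912)
(mv 1103 (cons (fin 1165 1 1101)
(mv 1169 (cons (fin 1170 0 1102)
(mv 1233 (cons (fin 976 7 976)
(fin 1297 7 1040)))))))))))))
(cons (mv 850 (cons (fin 914 6 849)
(mv 912 (cons (fin 848 7 848)
(mv 1169 (cons (fin 976 7 912)
(mv 1168 (cons (fin 1232 5 976)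
(mv 1234 (cons (fin 1170 4 977)
(mv 1233 (cons (fin 1167 0 1166)
(fin 1298 4 1041)))))))))))))
(mv 850 (cons (fin 914 6 849)
(mv 912 (cons (fin 848 7 848)
(mv 1169 (cons (fin 976 7 912)
(mv 1234 (cons (fin 1170 4 977)
(mv 1233 (cons (fin 1298 4 1041)
(mv 1296 (cons (fin 1232 5 1040)
(mv 1297 (cons (fin 1104 7 1040)
(fin 1360 5 1104)))))))))))))))))
(cons (cons (mv 850 (cons (fin 914 6 849)
(mv 1104 (cons (fin 1168 5 912)
(mv 1103 (cons (fin 1165 1 1101)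
(mv 1169 (cons (fin 1170 0 1102)
(mv 1233 (cons (fin 976 7 976)
(fin 1297 7 1040)))))))))))
(mv 848 (cons (fin 912 7 848)
(mv 1104 (cons (fin 1168 5 912)
(mv 1103 (cons (fin 1165 1 1101)
(mv 1169 (cons (fin 1170 0 1102)
(mv 1233 (cons (fin 976 7 976)
(fin 1297 7 1040))))))))))))
(cons (mv 848 (cons (fin 912 7 848)
(mv 850 (cons (fin 914 6 849)
(mv 1168 (cons (fin 1104 5 912)
(mv 1169 (cons (fin 1232 5 976)
(mv 1234 (cons (fin 1170 4 977)
(mv 1233 (cons (fin 1167 0 1166)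
(fin 1298 4 1041)))))))))))))
(mv 912 (cons (fin 848 7 848)
(mv 914 (cons (fin 850 6 849)
(mv 915 (cons (fin 976 1 911)
(mv 852 (cons (fin 851 2 848)
(mv 916 (cons (fin 853 2 849)
(mv 980 (cons (fin 979 0 912)
(fin 981 0 913)))))))))))))))))
(cons (mv 849 (cons (fin 1104 5 848)
(mv 784 (cons (fin 848 7 784)
(mv 785 (cons (fin 720 7 720)
(mv 786 (cons (fin 722 6 721)
(fin 850 6 785)))))))))
(mv 849 (cons (fin 1104 5 848)
(mv 785 (cons (fin 976 5 784)
(mv 786 (cons (fin 722 6 721)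
(fin 850 6 785))))))))))))))
(cons (mv 911 (cons (fin 847 5 846)
(mv 912 (cons (cons (mv 848 (cons (fin 1103 6 847)
(mv 784 (cons (fin 720 5 719)
(fin 976 5 783)))))
(mv 976 (cons (cons (mv 909 (cons (fin 910 0 909)
(mv 1103 (cons (fin 1167 6 911)
(mv 1104 (cons (fin 1168 7 911)
(mv 913 (cons (fin 849 5 848)
(mv 914 (cons (fin 915 1 911)
(mv 850 (cons (fin 851 2 847)
(fin 1105 6 849)))))))))))))
(mv 910 (cons (fin 909 0 909)
(mv 1103 (cons (fin 846 7 846)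
(fin 1167 6 911))))))
(cons (mv 909 (cons (fin 910 0 909)
(mv 1104 (cons (fin 1168 7 911)
(mv 913 (cons (fin 849 5 848)
(mv 914 (cons (fin 915 1 911)
(mv 850 (cons (fin 851 2 847)
(fin 1105 6 849)))))))))))
(mv 1103 (cons (fin 1167 6 911)
(mv 1104 (cons (fin 1168 7 911)
(mv 913 (cons (fin 849 5 848)
(mv 914 (cons (fin 915 1 911)
(mv 850 (cons (fin 851 2 847)
(fin 1105 6 849)))))))))))))))
(cons (mv 976 (cons (mv 848 (cons (fin 784 5 783)
(fin 1105 4 848)))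
(cons (mv 909 (cons (fin 910 0 909)
(mv 1104 (cons (fin 1168 7 911)
(mv 913 (cons (fin 849 5 848)
(mv 914 (cons (fin 915 1 911)
(mv 850 (cons (fin 851 2 847)
(fin 1105 6 849)))))))))))
(mv 848 (cons (fin 784 5 783)
(mv 849 (cons (fin 785 6 784)
(mv 1104 (cons (fin 1168 7 911)
(fin 913 5 848))))))))))
(mv 848 (cons (fin 1103 6 847)
(mv 720 (cons (fin 784 5 719)
(mv 913 (cons (fin 1105 7 848)
(mv 849 (cons (fin 1104 5 848)
(mv 850 (cons (fin 851 1 847)
(fin 910 2 846))))))))))))))))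
(cons (mv 1166 (cons (fin 1230 6 974)
(mv 911 (cons (fin 1103 5 910)
(mv 913 (cons (cons (mv 849 (cons (fin 1104 5 848)
(mv 784 (cons (fin 848 7 784)
(mv 785 (cons (fin 720 7 720)
(fin 976 5 784)))))))
(mv 849 (cons (mv 784 (cons (fin 848 7 784)
(mv 785 (cons (fin 720 7 720)
(fin 976 5 784)))))
(cons (mv 784 (cons (fin 848 7 784)
(mv 850 (cons (fin 786 6 785)
(mv 912 (cons (fin 910 2 846)
(mv 851 (cons (fin 852 1 848)
(fin 914 2 847)))))))))
(mv 785 (cons (fin 976 5 784)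
(mv 786 (cons (fin 722 6 721)
(fin 850 6 785)))))))))
(cons (mv 1105 (cons (cons (mv 848 (cons (fin 912 7 848)
(mv 850 (cons (fin 914 6 849)
(mv 1168 (cons (fin 1104 5 912)
(mv 1169 (cons (fin 1232 5 976)
(mv 1233 (cons (fin 976 7 976)
(mv 1234 (cons (fin 1167 0 1166)
(fin 1170 4 977)))))))))))))
(cons (mv 850 (cons (fin 914 6 849)
(mv 912 (cons (fin 848 7 848)
(mv 1169 (cons (fin 976 7 912)
(mv 1234 (cons (fin 1170 4 977)
(mv 1233 (cons (fin 1298 4 1041)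
(mv 1296 (cons (fin 1232 5 1040)
(mv 1297 (cons (fin 1104 7 1040)
(fin 1360 5 1104)))))))))))))))
(mv 850 (cons (fin 914 6 849)
(mv 912 (cons (fin 848 7 848)
(mv 1169 (cons (fin 976 7 912)
(mv 1168 (cons (fin 1232 5 976)
(mv 1234 (cons (fin 1170 4 977)
(mv 1233 (cons (fin 1167 0 1166)
(fin 1298 4 1041)))))))))))))))
(cons (cons (mv 850 (cons (fin 914 6 849)
(mv 1168 (cons (fin 1104 5 912)
(mv 1169 (cons (fin 1232 5 976)
(mv 1233 (cons (fin 976 7 976)
(mv 1234 (cons (fin 1167 0 1166)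
(fin 1170 4 977)))))))))))
(mv 848 (cons (fin 912 7 848)
(mv 1168 (cons (fin 1104 5 912)
(mv 1169 (cons (fin 1232 5 976)
(mv 1233 (cons (fin 976 7 976)
(mv 1234 (cons (fin 1167 0 1166)
(fin 1170 4 977))))))))))))
(cons (mv 848 (cons (fin 912 7 848)
(mv 850 (cons (fin 914 6 849)
(mv 1168 (cons (fin 1104 5 912)
(mv 1169 (cons (fin 1232 5 976)
(mv 1234 (cons (fin 1170 4 977)
(mv 1233 (cons (fin 1167 0 1166)
(fin 1298 4 1041)))))))))))))
(mv 912 (cons (fin 848 7 848)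
(mv 914 (cons (fin 850 6 849)
(mv 915 (cons (fin 976 1 911)
(mv 852 (cons (fin 851 2 848)
(mv 916 (cons (fin 853 2 849)
(mv 980 (cons (fin 979 0 912)
(fin 981 0 913)))))))))))))))))
(cons (mv 849 (cons (fin 1104 5 848)
(mv 784 (cons (fin 848 7 784)
(mv 720 (cons (fin 785 7 720)
(mv 850 (cons (fin 786 6 785)
(mv 912 (cons (fin 910 2 846)
(mv 851 (cons (fin 852 1 848)
(fin 914 2 847)))))))))))))
(mv 849 (cons (fin 1104 5 848)
(mv 785 (cons (fin 976 5 784)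
(mv 786 (cons (fin 722 6 721)
(fin 850 6 785)))))))))))))))
(mv 911 (cons (fin 847 5 846)
(mv 1166 (cons (fin 1230 6 974)
(mv 913 (cons (cons (mv 849 (cons (fin 1104 5 848)
(mv 784 (cons (fin 848 7 784)
(mv 785 (cons (fin 720 7 720)
(fin 976 5 784)))))))
(mv 849 (cons (mv 784 (cons (fin 848 7 784)
(mv 785 (cons (fin 720 7 720)
(fin 976 5 784)))))
(cons (mv 784 (cons (fin 848 7 784)
(mv 850 (cons (fin 786 6 785)
(mv 912 (cons (fin 910 2 846)
(mv 851 (cons (fin 852 1 848)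
(fin 914 2 847)))))))))
(mv 785 (cons (fin 976 5 784)
(mv 786 (cons (fin 722 6 721)
(fin 850 6 785)))))))))
(cons (mv 1105 (cons (cons (mv 848 (cons (fin 912 7 848)
(mv 850 (cons (fin 914 6 849)
(mv 1168 (cons (fin 1104 5 912)
(mv 1169 (cons (fin 1232 5 976)
(mv 1233 (cons (fin 976 7 976)
(mv 1234 (cons (fin 1167 0 1166)
(fin 1170 4 977)))))))))))))
(cons (mv 850 (cons (fin 914 6 849)
(mv 912 (cons (fin 848 7 848)
(mv 1169 (cons (fin 976 7 912)
(mv 1234 (cons (fin 1170 4 977)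
(mv 1233 (cons (fin 1298 4 1041)
(mv 1296 (cons (fin 1232 5 1040)
(mv 1297 (cons (fin 1104 7 1040)
(fin 1360 5 1104)))))))))))))))
(mv 850 (cons (fin 914 6 849)
(mv 912 (cons (fin 848 7 848)
(mv 1169 (cons (fin 976 7 912)
(mv 1168 (cons (fin 1232 5 976)
(mv 1234 (cons (fin 1170 4 977)
(mv 1233 (cons (fin 1167 0 1166)
(fin 1298 4 1041)))))))))))))))
(cons (cons (mv 850 (cons (fin 914 6 849)
(mv 1168 (cons (fin 1104 5 912)
(mv 1169 (cons (fin 1232 5 976)
(mv 1233 (cons (fin 976 7 976)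
(mv 1234 (cons (fin 1167 0 1166)
(fin 1170 4 977)))))))))))
(mv 848 (cons (fin 912 7 848)
(mv 1168 (cons (fin 1104 5 912)
(mv 1169 (cons (fin 1232 5 976)
(mv 1233 (cons (fin 976 7 976)
(mv 1234 (cons (fin 1167 0 1166)
(fin 1170 4 977))))))))))))
(cons (mv 848 (cons (fin 912 7 848)
(mv 850 (cons (fin 914 6 849)
(mv 1168 (cons (fin 1104 5 912)
(mv 1169 (cons (fin 1232 5 976)
(mv 1234 (cons (fin 1170 4 977)
(mv 1233 (cons (fin 1167 0 1166)
(fin 1298 4 1041)))))))))))))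
(mv 912 (cons (fin 848 7 848)
(mv 914 (cons (fin 850 6 849)
(mv 915 (cons (fin 976 1 911)
(mv 852 (cons (fin 851 2 848)
(mv 916 (cons (fin 853 2 849)
(mv 980 (cons (fin 979 0 912)
(fin 981 0 913)))))))))))))))))
(cons (mv 849 (cons (fin 1104 5 848)
(mv 784 (cons (fin 848 7 784)
(mv 720 (cons (fin 785 7 720)
(mv 850 (cons (fin 786 6 785)
(mv 912 (cons (fin 910 2 846)
(mv 851 (cons (fin 852 1 848)
(fin 914 2 847)))))))))))))
(mv 849 (cons (fin 1104 5 848)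
(mv 785 (cons (fin 976 5 784)
(mv 786 (cons (fin 722 6 721)
(fin 850 6 785)))))))))))))))))))))))
(mv 974 (cons (fin 973 3 973)
(mv 977 (cons (fin 978 2 974)
(mv 1104 (cons (cons (mv 913 (cons (fin 849 5 848)
(mv 1168 (cons (fin 1105 5 912)
(fin 976 6 912)))))
(mv 913 (cons (fin 849 5 848)
(mv 975 (cons (cons (mv 847 (cons (fin 911 4 847)
(mv 976 (cons (fin 914 2 910)
(mv 910 (cons (fin 909 3 909)
(mv 846 (cons (fin 783 6 782)
(fin 782 4 782)))))))))
(mv 976 (cons (fin 914 2 910)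
(mv 910 (cons (fin 909 3 909)
(mv 846 (cons (fin 782 4 782)
(fin 1103 4 846))))))))
(cons (mv 911 (cons (fin 847 4 847)
(mv 910 (cons (mv 846 (cons (fin 1103 7 846)
(fin 782 4 782)))
(mv 909 (cons (fin 976 3 909)
(mv 908 (cons (fin 907 0 907)
(mv 844 (cons (fin 843 3 843)
(mv 845 (cons (fin 912 3 844)
(mv 781 (cons (fin 717 4 717)
(mv 972 (cons (fin 971 1 907)
(fin 1036 6 780)))))))))))))))))
(mv 911 (cons (fin 847 4 847)
(mv 912 (cons (fin 914 1 910)
(mv 848 (cons (fin 1105 7 848)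
(fin 1103 6 847)))))))))))))
(cons (mv 1168 (cons (fin 1232 6 976)
(mv 976 (cons (cons (mv 911 (cons (fin 975 7 911)
(mv 912 (cons (fin 847 7 847)
(mv 848 (cons (fin 1103 5 847)
(fin 784 4 784)))))))
(mv 1167 (cons (fin 1231 5 975)
(mv 912 (cons (fin 1103 5 911)
(mv 848 (cons (fin 784 4 784)
(fin 1105 4 848))))))))
(cons (mv 975 (cons (fin 911 7 911)
(mv 910 (cons (fin 909 3 909)
(mv 846 (cons (fin 782 4 782)
(fin 1103 4 846)))))))
(mv 911 (cons (fin 975 7 911)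
(mv 912 (cons (fin 847 7 847)
(mv 848 (cons (fin 784 4 784)
(fin 1105 4 848))))))))))))
(cons (mv 913 (cons (fin 849 5 848)
(mv 1168 (cons (fin 1105 5 912)
(fin 1232 6 976)))))
(mv 913 (cons (fin 849 5 848)
(mv 1168 (cons (fin 976 6 912)
(fin 1232 6 976)))))))))))))))
(cons (cons (mv 974 (cons (fin 973 3 973)
(mv 1102 (cons (fin 1101 1 1037)
(mv 1166 (cons (mv 975 (cons (fin 911 6 910)
(fin 1230 6 974)))
(cons (mv 1165 (cons (fin 1229 5 973)
(mv 1167 (cons (fin 1231 4 974)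
(mv 910 (cons (fin 1103 4 910)
(mv 845 (cons (fin 909 7 845)
(mv 846 (cons (fin 781 7 781)
(mv 847 (cons (fin 783 6 782)
(fin 911 6 846)))))))))))))
(mv 975 (cons (fin 1230 6 974)
(mv 1165 (cons (fin 1229 5 973)
(mv 1167 (cons (fin 1231 4 974)
(mv 910 (cons (fin 1103 7 910)
(mv 845 (cons (fin 909 7 845)
(mv 846 (cons (fin 781 7 781)
(fin 782 4 782))))))))))))))))))))
(mv 974 (cons (fin 973 3 973)
(mv 977 (cons (fin 978 2 974)
(mv 1102 (cons (fin 1101 1 1037)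
(mv 910 (cons (mv 1103 (cons (fin 846 4 846)
(fin 1167 4 910)))
(cons (mv 845 (cons (fin 909 7 845)
(mv 846 (cons (fin 781 7 781)
(mv 847 (cons (fin 783 6 782)
(fin 911 6 846)))))))
(mv 845 (cons (fin 909 7 845)
(mv 847 (cons (fin 911 6 846)
(mv 1167 (cons (fin 1103 4 910)
(mv 1166 (cons (fin 1231 4 974)
(mv 1229 (cons (fin 1165 5 973)
(mv 1230 (cons (fin 1293 5 1037)
(mv 1168 (cons (fin 1169 1 1165)
(mv 1104 (cons (fin 1232 6 976)
(mv 913 (cons (fin 849 5 848)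
(fin 1105 5 912)))))))))))))))))))))))))))))
(cons (mv 974 (cons (fin 973 3 973)
(mv 977 (cons (fin 978 2 974)
(mv 1101 (cons (fin 1102 1 1037)
(mv 913 (cons (cons (mv 849 (cons (fin 1104 5 848)
(mv 784 (cons (fin 848 7 784)
(mv 785 (cons (fin 720 7 720)
(fin 976 5 784)))))))
(mv 1105 (cons (cons (mv 848 (cons (fin 912 7 848)
(mv 850 (cons (fin 914 6 849)
(mv 1168 (cons (fin 1104 5 912)
(mv 1169 (cons (fin 1232 5 976)
(mv 1233 (cons (fin 976 7 976)
(mv 1234 (cons (fin 1170 4 977)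
(fin 1298 4 1041)))))))))))))
(cons (mv 850 (cons (fin 914 6 849)
(mv 912 (cons (fin 848 7 848)
(mv 1169 (cons (fin 976 7 912)
(mv 1234 (cons (fin 1170 4 977)
(mv 1233 (cons (fin 1298 4 1041)
(mv 1296 (cons (fin 1232 5 1040)
(mv 1297 (cons (fin 1104 7 1040)
(fin 1360 5 1104)))))))))))))))
(mv 850 (cons (fin 914 6 849)
(mv 912 (cons (fin 848 7 848)
(mv 1169 (cons (fin 976 7 912)
(mv 1232 (cons (fin 1168 5 976)
(mv 1233 (cons (fin 1296 5 1040)
(mv 1234 (cons (fin 1170 4 977)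
(fin 1298 4 1041)))))))))))))))
(cons (cons (mv 850 (cons (fin 914 6 849)
(mv 1168 (cons (fin 1104 5 912)
(mv 1169 (cons (fin 1232 5 976)
(mv 1233 (cons (fin 976 7 976)
(mv 1234 (cons (fin 1170 4 977)
(fin 1298 4 1041)))))))))))
(mv 848 (cons (fin 912 7 848)
(mv 1168 (cons (fin 1104 5 912)
(mv 1169 (cons (fin 1232 5 976)
(mv 1233 (cons (fin 976 7 976)
(mv 1234 (cons (fin 1170 4 977)
(fin 1298 4 1041))))))))))))
(cons (mv 848 (cons (fin 912 7 848)
(mv 850 (cons (fin 914 6 849)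
(mv 1169 (cons (cons (mv 1168 (cons (fin 1104 5 912)
(fin 1232 5 976)))
(mv 1234 (cons (fin 1170 4 977)
(mv 1233 (cons (fin 1298 4 1041)
(mv 1296 (cons (fin 1232 5 1040)
(mv 1297 (cons (fin 1104 7 1040)
(fin 1360 5 1104))))))))))
(cons (mv 1232 (cons (fin 1168 5 976)
(mv 1233 (cons (fin 1296 5 1040)
(mv 1234 (cons (fin 1170 4 977)
(fin 1298 4 1041)))))))
(mv 1104 (cons (fin 1168 5 912)
(mv 1233 (cons (fin 1297 7 1040)
(mv 1234 (cons (fin 1170 4 977)
(fin 1298 4 1041))))))))))))))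
(mv 912 (cons (fin 848 7 848)
(mv 914 (cons (fin 850 6 849)
(mv 975 (cons (fin 911 1 910)
(fin 976 2 910))))))))))))
(cons (mv 849 (cons (mv 784 (cons (fin 848 7 784)
(mv 785 (cons (fin 720 7 720)
(fin 976 5 784)))))
(cons (mv 848 (cons (fin 784 7 784)
(mv 850 (cons (fin 786 6 785)
(mv 1105 (cons (fin 912 7 848)
(fin 914 6 849)))))))
(mv 785 (cons (fin 976 5 784)
(mv 786 (cons (fin 722 6 721)
(fin 850 6 785))))))))
(cons (mv 849 (cons (fin 1104 5 848)
(mv 784 (cons (fin 848 7 784)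
(mv 785 (cons (fin 720 7 720)
(mv 786 (cons (fin 722 6 721)
(fin 850 6 785)))))))))
(mv 849 (cons (fin 1104 5 848)
(mv 785 (cons (fin 976 5 784)
(mv 786 (cons (fin 722 6 721)
(fin 850 6 785)))))))))))))))))
(mv 973 (cons (fin 974 3 973)
(mv 977 (cons (fin 978 2 974)
(mv 1102 (cons (fin 1101 1 1037)
(mv 1166 (cons (cons (cons (mv 1230 (cons (fin 975 6 974)
(mv 1103 (cons (fin 1294 6 1038)
(mv 1229 (cons (fin 1293 5 1037)
(mv 1231 (cons (fin 1295 4 1038)
(mv 976 (cons (fin 1167 6 975)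
(mv 912 (cons (fin 848 5 847)
(mv 1105 (cons (fin 1169 7 912)
(mv 1104 (cons (fin 1165 1 1101)
(mv 913 (cons (fin 849 5 848)
(fin 1168 5 912)))))))))))))))))))
(mv 913 (cons (cons (mv 849 (cons (fin 1104 5 848)
(mv 784 (cons (fin 848 7 784)
(mv 785 (cons (fin 720 7 720)
(fin 976 5 784)))))))
(mv 849 (cons (cons (mv 784 (cons (fin 848 7 784)
(mv 785 (cons (fin 720 7 720)
(fin 976 5 784)))))
(mv 786 (cons (fin 850 6 785)
(mv 848 (cons (fin 784 7 784)
(mv 912 (cons (fin 1105 7 848)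
(mv 976 (cons (fin 1103 5 847)
(mv 847 (cons (fin 783 7 783)
(mv 846 (cons (fin 845 0 845)
(fin 914 0 846))))))))))))))
(cons (mv 785 (cons (fin 976 5 784)
(mv 786 (cons (fin 722 6 721)
(fin 850 6 785)))))
(mv 784 (cons (fin 848 7 784)
(mv 785 (cons (fin 720 7 720)
(mv 786 (cons (fin 722 6 721)
(fin 850 6 785)))))))))))
(cons (mv 1105 (cons (cons (mv 848 (cons (fin 912 7 848)
(mv 850 (cons (fin 914 6 849)
(mv 1104 (cons (fin 1168 5 912)
(mv 1103 (cons (fin 1165 1 1101)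
(mv 1169 (cons (fin 1170 0 1102)
(mv 1233 (cons (fin 976 7 976)
(fin 1297 7 1040)))))))))))))
(cons (mv 850 (cons (fin 914 6 849)
(mv 912 (cons (fin 848 7 848)
(mv 1169 (cons (fin 976 7 912)
(mv 1168 (cons (fin 1232 5 976)
(mv 1234 (cons (fin 1170 4 977)
(mv 1233 (cons (fin 1167 0 1166)
(fin 1298 4 1041)))))))))))))
(mv 850 (cons (fin 914 6 849)
(mv 912 (cons (fin 848 7 848)
(mv 1169 (cons (fin 976 7 912)
(mv 1234 (cons (fin 1170 4 977)
(mv 1233 (cons (fin 1298 4 1041)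
(mv 1296 (cons (fin 1232 5 1040)
(mv 1297 (cons (fin 1104 7 1040)
(fin 1360 5 1104)))))))))))))))))
(cons (cons (mv 850 (cons (fin 914 6 849)
(mv 1104 (cons (fin 1168 5 912)
(mv 1103 (cons (fin 1165 1 1101)
(mv 1169 (cons (fin 1170 0 1102)
(mv 1233 (cons (fin 976 7 976)
(fin 1297 7 1040)))))))))))
(mv 848 (cons (fin 912 7 848)
(mv 1104 (cons (fin 1168 5 912)
(mv 1103 (cons (fin 1165 1 1101)
(mv 1169 (cons (fin 1170 0 1102)
(mv 1233 (cons (fin 976 7 976)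
(fin 1297 7 1040))))))))))))
(cons (mv 912 (cons (fin 848 7 848)
(mv 914 (cons (fin 850 6 849)
(mv 1104 (cons (fin 1168 5 912)
(mv 1103 (cons (fin 1165 1 1101)
(mv 976 (cons (fin 1167 5 911)
(mv 915 (cons (fin 975 1 911)
(fin 916 1 912)))))))))))))
(mv 848 (cons (fin 912 7 848)
(mv 850 (cons (fin 914 6 849)
(mv 1168 (cons (fin 1104 5 912)
(mv 1169 (cons (fin 1232 5 976)
(mv 1234 (cons (fin 1170 4 977)
(mv 1233 (cons (fin 1167 0 1166)
(fin 1298 4 1041)))))))))))))))))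
(cons (mv 849 (cons (fin 1104 5 848)
(mv 784 (cons (fin 848 7 784)
(mv 785 (cons (fin 720 7 720)
(mv 786 (cons (fin 722 6 721)
(fin 850 6 785)))))))))
(mv 849 (cons (fin 1104 5 848)
(mv 785 (cons (fin 976 5 784)
(mv 786 (cons (fin 722 6 721)
(fin 850 6 785))))))))))))
(cons (mv 1230 (cons (cons (mv 1103 (cons (fin 1294 6 1038)
(mv 1229 (cons (fin 1293 5 1037)
(mv 1231 (cons (fin 1295 4 1038)
(mv 976 (cons (fin 1167 6 975)
(mv 912 (cons (fin 848 5 847)
(mv 1105 (cons (fin 1169 7 912)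
(mv 1104 (cons (fin 1165 1 1101)
(mv 913 (cons (fin 849 5 848)
(fin 1168 5 912)))))))))))))))))
(mv 1229 (cons (fin 1293 5 1037)
(mv 1231 (cons (fin 1295 4 1038)
(mv 1232 (cons (mv 1165 (cons (fin 1164 3 1164)
(fin 1233 3 1165)))
(mv 1168 (cons (fin 1169 2 1165)
(fin 1104 6 976))))))))))
(cons (mv 1293 (cons (fin 1229 5 1037)
(mv 1294 (cons (fin 1357 5 1101)
(fin 1103 6 1038)))))
(mv 1103 (cons (fin 1294 6 1038)
(mv 1231 (cons (fin 1295 4 1038)
(mv 976 (cons (fin 1167 6 975)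
(mv 912 (cons (fin 848 5 847)
(mv 1105 (cons (fin 1169 7 912)
(mv 1104 (cons (fin 1165 1 1101)
(mv 913 (cons (fin 849 5 848)
(fin 1168 5 912))))))))))))))))))
(mv 1230 (cons (fin 975 6 974)
(mv 1103 (cons (fin 1294 6 1038)
(mv 1229 (cons (fin 1293 5 1037)
(mv 1231 (cons (fin 1295 4 1038)
(mv 976 (cons (fin 1167 6 975)
(mv 912 (cons (fin 848 5 847)
(mv 1169 (cons (fin 1105 7 912)
(mv 1232 (cons (fin 1168 2 1165)
(mv 1165 (cons (fin 1164 3 1164)
(fin 1233 3 1165)))))))))))))))))))))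
(cons (cons (mv 1230 (cons (fin 975 6 974)
(mv 1231 (cons (fin 1295 4 1038)
(mv 1293 (cons (fin 1229 5 1037)
(mv 1294 (cons (fin 1357 5 1101)
(mv 1232 (cons (fin 1233 1 1229)
(mv 1168 (cons (fin 1104 6 976)
(mv 1169 (cons (fin 1105 5 976)
(mv 1170 (cons (fin 1167 1 1166)
(fin 1171 1 1167)))))))))))))))))
(mv 1230 (cons (fin 975 6 974)
(mv 1103 (cons (fin 1294 6 1038)
(mv 1229 (cons (fin 1293 5 1037)
(mv 1231 (cons (fin 1295 4 1038)
(mv 976 (cons (fin 1167 6 975)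
(mv 912 (cons (fin 848 5 847)
(mv 1105 (cons (fin 1169 7 912)
(mv 1165 (cons (fin 1104 1 1101)
(mv 1164 (cons (fin 1232 3 1164)
(fin 1163 2 1099))))))))))))))))))))
(cons (mv 1230 (cons (fin 975 6 974)
(mv 1103 (cons (fin 1294 6 1038)
(mv 1229 (cons (fin 1293 5 1037)
(mv 1231 (cons (fin 1295 4 1038)
(mv 1167 (cons (fin 976 6 975)
(mv 1168 (cons (fin 1169 1 1165)
(fin 1228 2 1164)))))))))))))
(mv 1230 (cons (fin 975 6 974)
(mv 1229 (cons (fin 1293 5 1037)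
(mv 1294 (cons (fin 1103 6 1038)
(mv 1295 (cons (fin 1231 4 1038)
(fin 1359 4 1102))))))))))))))))))))))))
(cons (mv 1042 (cons (cons (mv 974 (cons (fin 975 3 974)
(mv 978 (cons (fin 979 2 975)
(mv 1103 (cons (fin 1102 1 1038)
(mv 1043 (cons (fin 1104 1 1039)
(mv 1108 (cons (fin 1107 0 1040)
(mv 1044 (cons (fin 1109 0 1041)
(mv 977 (cons (fin 976 3 976)
(fin 1045 3 977)))))))))))))))
(cons (mv 978 (cons (fin 979 2 975)
(mv 1103 (cons (fin 1102 1 1038)
(mv 1043 (cons (fin 1104 1 1039)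
(mv 1108 (cons (fin 1107 0 1040)
(mv 1044 (cons (fin 1109 0 1041)
(mv 977 (cons (fin 976 3 976)
(fin 1045 3 977)))))))))))))
(mv 975 (cons (fin 974 3 974)
(mv 978 (cons (fin 979 2 975)
(mv 1043 (cons (fin 976 3 975)
(mv 1108 (cons (fin 1107 0 1040)
(mv 1044 (cons (fin 1109 0 1041)
(mv 977 (cons (fin 1045 3 977)
(mv 980 (cons (fin 981 2 977)
(mv 1105 (cons (fin 1104 1 1040)
(mv 914 (cons (fin 850 5 849)
(fin 1169 6 913)))))))))))))))))))))
(cons (cons (mv 974 (cons (fin 975 3 974)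
(mv 1103 (cons (fin 1102 1 1038)
(mv 1043 (cons (fin 1104 1 1039)
(mv 1108 (cons (fin 1107 0 1040)
(mv 1044 (cons (fin 1109 0 1041)
(mv 977 (cons (fin 976 3 976)
(mv 981 (cons (fin 980 2 977)
(mv 1045 (cons (fin 978 3 977)
(fin 982 2 978)))))))))))))))))
(mv 974 (cons (fin 975 3 974)
(mv 1103 (cons (fin 1102 1 1038)
(mv 1043 (cons (fin 1104 1 1039)
(mv 980 (cons (fin 979 2 976)
(mv 1044 (cons (fin 981 2 977)
(mv 1108 (cons (fin 1107 0 1040)
(fin 1109 0 1041))))))))))))))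
(cons (mv 975 (cons (fin 974 3 974)
(mv 978 (cons (fin 979 2 975)
(mv 1102 (cons (fin 1103 1 1038)
(mv 911 (cons (cons (mv 847 (cons (fin 1104 4 847)
(mv 782 (cons (fin 846 7 782)
(mv 783 (cons (fin 718 7 718)
(fin 976 4 783)))))))
(mv 976 (cons (cons (mv 977 (cons (fin 910 3 910)
(mv 914 (cons (fin 915 2 911)
(mv 850 (cons (fin 786 5 785)
(fin 1105 5 849)))))))
(mv 1104 (cons (fin 1168 7 911)
(mv 912 (cons (mv 848 (cons (fin 784 5 783)
(fin 1105 4 848)))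
(cons (mv 848 (cons (fin 784 5 783)
(mv 849 (cons (fin 785 6 784)
(fin 913 6 848)))))
(mv 913 (cons (fin 849 6 848)
(mv 914 (cons (fin 915 1 911)
(mv 850 (cons (fin 851 2 847)
(fin 1105 5 849)))))))))))))
(cons (mv 977 (cons (fin 910 3 910)
(mv 914 (cons (fin 915 2 911)
(mv 850 (cons (fin 786 5 785)
(mv 787 (cons (fin 851 6 786)
(mv 849 (cons (fin 785 7 785)
(mv 1104 (cons (fin 1168 7 911)
(fin 913 5 848)))))))))))))
(mv 910 (cons (fin 977 3 910)
(mv 909 (cons (fin 908 0 908)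
(mv 1104 (cons (fin 1168 7 911)
(mv 912 (cons (mv 848 (cons (fin 849 2 845)
(fin 784 5 783)))
(cons (mv 845 (cons (fin 844 3 844)
(mv 913 (cons (fin 846 3 845)
(fin 849 6 848)))))
(mv 848 (cons (fin 784 5 783)
(fin 1105 4 848))))))))))))))))
(cons (mv 847 (cons (mv 782 (cons (fin 846 7 782)
(mv 783 (cons (fin 718 7 718)
(fin 976 4 783)))))
(cons (mv 782 (cons (fin 846 7 782)
(mv 848 (cons (fin 784 6 783)
(mv 850 (cons (mv 849 (cons (fin 910 1 846)
(mv 914 (cons (fin 915 0 847)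
(fin 785 7 785)))))
(cons (mv 914 (cons (fin 1105 5 849)
(mv 786 (cons (fin 977 5 785)
(mv 787 (cons (fin 723 6 722)
(fin 851 6 786)))))))
(mv 849 (cons (fin 910 1 846)
(mv 786 (cons (fin 787 2 783)
(mv 851 (cons (fin 912 1 847)
(mv 913 (cons (fin 977 6 785)
(mv 916 (cons (fin 915 0 848)
(mv 852 (cons (fin 917 0 849)
(mv 789 (cons (fin 788 2 785)
(mv 853 (cons (fin 785 3 785)
(fin 790 2 786))))))))))))))))))))))))
(mv 783 (cons (fin 976 4 783)
(mv 784 (cons (fin 720 6 719)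
(fin 848 6 783))))))))
(cons (mv 847 (cons (fin 1104 4 847)
(mv 782 (cons (fin 846 7 782)
(mv 783 (cons (fin 718 7 718)
(mv 784 (cons (fin 720 6 719)
(fin 848 6 783)))))))))
(mv 847 (cons (fin 1104 4 847)
(mv 783 (cons (fin 976 4 783)
(mv 784 (cons (fin 720 6 719)
(fin 848 6 783)))))))))))))))))
(mv 975 (cons (fin 974 3 974)
(mv 976 (cons (fin 1043 3 975)
(mv 978 (cons (fin 979 2 975)
(mv 1103 (cons (fin 1102 1 1038)
(mv 912 (cons (fin 848 5 847)
(fin 1167 6 911)))))))))))))))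
(cons (mv 1042 (cons (cons (mv 978 (cons (fin 979 2 975)
(mv 977 (cons (fin 1038 2 974)
(mv 1103 (cons (fin 1102 1 1038)
(mv 1043 (cons (fin 1104 1 1039)
(mv 976 (cons (fin 975 3 975)
(fin 1044 3 976)))))))))))
(mv 979 (cons (fin 978 2 975)
(mv 1043 (cons (fin 980 2 976)
(mv 976 (cons (fin 975 3 975)
(mv 1044 (cons (fin 977 3 976)
(mv 1108 (cons (fin 1107 0 1040)
(fin 1109 0 1041))))))))))))
(cons (mv 1103 (cons (fin 1102 1 1038)
(mv 1043 (cons (fin 1104 1 1039)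
(mv 975 (cons (fin 976 3 975)
(mv 980 (cons (fin 979 2 976)
(mv 1044 (cons (fin 981 2 977)
(mv 1108 (cons (fin 1107 0 1040)
(fin 1109 0 1041)))))))))))))
(cons (mv 1103 (cons (fin 1102 1 1038)
(mv 1043 (cons (fin 1104 1 1039)
(mv 976 (cons (fin 975 3 975)
(mv 848 (cons (fin 912 5 847)
(mv 1044 (cons (fin 977 3 976)
(mv 1108 (cons (fin 1107 0 1040)
(fin 1109 0 1041)))))))))))))
(mv 978 (cons (fin 979 2 975)
(mv 1038 (cons (fin 977 2 974)
(mv 1102 (cons (fin 1101 1 1037)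
(fin 1103 1 1038)))))))))))
(mv 1042 (cons (cons (mv 974 (cons (fin 975 3 974)
(mv 973 (cons (fin 1038 3 973)
(mv 1103 (cons (fin 1102 1 1038)
(mv 1043 (cons (fin 1104 1 1039)
(mv 980 (cons (fin 979 2 976)
(mv 1044 (cons (fin 981 2 977)
(mv 1108 (cons (fin 1107 0 1040)
(fin 1109 0 1041)))))))))))))))
(mv 1103 (cons (fin 1102 1 1038)
(mv 1043 (cons (fin 1104 1 1039)
(mv 980 (cons (fin 979 2 976)
(mv 1044 (cons (fin 981 2 977)
(mv 1108 (cons (fin 1107 0 1040)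
(fin 1109 0 1041))))))))))))
(cons (mv 975 (cons (fin 974 3 974)
(mv 1043 (cons (fin 976 3 975)
(mv 980 (cons (fin 979 2 976)
(mv 1044 (cons (fin 981 2 977)
(mv 1108 (cons (fin 1107 0 1040)
(fin 1109 0 1041)))))))))))
(mv 974 (cons (fin 975 3 974)
(mv 1038 (cons (fin 973 3 973)
(mv 1102 (cons (fin 1101 1 1037)
(fin 1103 1 1038)))))))))))))
(cons (cons (mv 1042 (cons (cons (mv 974 (cons (fin 975 3 974)
(mv 973 (cons (fin 1038 3 973)
(mv 979 (cons (fin 978 2 975)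
(mv 1043 (cons (fin 980 2 976)
(mv 1104 (cons (fin 1103 1 1039)
(mv 1044 (cons (fin 1105 1 1040)
(mv 1108 (cons (fin 1107 0 1040)
(fin 1109 0 1041)))))))))))))))
(mv 979 (cons (fin 978 2 975)
(mv 1043 (cons (fin 980 2 976)
(mv 1104 (cons (fin 1103 1 1039)
(mv 1044 (cons (fin 1105 1 1040)
(mv 1108 (cons (fin 1107 0 1040)
(fin 1109 0 1041))))))))))))
(cons (mv 975 (cons (fin 974 3 974)
(mv 1043 (cons (fin 976 3 975)
(mv 979 (cons (fin 980 2 976)
(mv 1104 (cons (fin 1103 1 1039)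
(mv 847 (cons (fin 911 4 847)
(mv 1044 (cons (fin 1105 1 1040)
(mv 1108 (cons (fin 1107 0 1040)
(fin 1109 0 1041)))))))))))))))
(cons (mv 975 (cons (fin 974 3 974)
(mv 1043 (cons (fin 976 3 975)
(mv 1104 (cons (fin 1103 1 1039)
(mv 847 (cons (fin 911 4 847)
(mv 1044 (cons (fin 1105 1 1040)
(mv 1108 (cons (fin 1107 0 1040)
(fin 1109 0 1041)))))))))))))
(mv 974 (cons (fin 975 3 974)
(mv 978 (cons (fin 979 2 975)
(mv 1038 (cons (fin 973 3 973)
(fin 977 2 974)))))))))))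
(cons (mv 1042 (cons (cons (mv 978 (cons (fin 979 2 975)
(mv 977 (cons (fin 1038 2 974)
(mv 1103 (cons (fin 1102 1 1038)
(mv 1043 (cons (fin 1104 1 1039)
(mv 1044 (cons (fin 976 3 976)
(fin 1045 3 977)))))))))))
(mv 1103 (cons (fin 1102 1 1038)
(mv 1043 (cons (fin 1104 1 1039)
(mv 980 (cons (fin 979 2 976)
(mv 1044 (cons (fin 981 2 977)
(mv 1108 (cons (fin 1107 0 1040)
(fin 1109 0 1041))))))))))))
(cons (mv 978 (cons (fin 979 2 975)
(mv 977 (cons (fin 1038 2 974)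
(mv 1105 (cons (mv 914 (cons (fin 850 5 849)
(fin 1169 6 913)))
(cons (mv 914 (cons (fin 850 5 849)
(mv 913 (cons (mv 849 (cons (fin 1104 5 848)
(fin 785 4 785)))
(cons (mv 912 (cons (fin 848 7 848)
(mv 911 (cons (fin 910 0 910)
(mv 847 (cons (fin 846 3 846)
(mv 1104 (cons (fin 976 7 847)
(fin 1168 5 912)))))))))
(mv 848 (cons (fin 912 7 848)
(mv 849 (cons (fin 784 7 784)
(fin 785 4 785))))))))))
(mv 1169 (cons (fin 1233 6 977)
(mv 912 (cons (fin 976 7 912)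
(mv 913 (cons (fin 848 7 848)
(mv 849 (cons (fin 1104 5 848)
(fin 785 4 785))))))))))))))))
(cons (mv 1103 (cons (fin 1102 1 1038)
(mv 1043 (cons (fin 1104 1 1039)
(mv 1108 (cons (fin 1107 0 1040)
(mv 1044 (cons (fin 1109 0 1041)
(mv 977 (cons (fin 976 3 976)
(mv 978 (cons (fin 1045 3 977)
(fin 1038 2 974)))))))))))))
(mv 978 (cons (fin 979 2 975)
(mv 1038 (cons (fin 977 2 974)
(mv 1102 (cons (fin 1101 1 1037)
(fin 1103 1 1038)))))))))))
(mv 1042 (cons (cons (mv 974 (cons (fin 975 3 974)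
(mv 978 (cons (fin 979 2 975)
(mv 1038 (cons (fin 973 3 973)
(fin 977 2 974)))))))
(mv 975 (cons (fin 974 3 974)
(mv 1043 (cons (fin 976 3 975)
(mv 980 (cons (fin 979 2 976)
(mv 1044 (cons (fin 981 2 977)
(mv 1108 (cons (fin 1107 0 1040)
(fin 1109 0 1041))))))))))))
(cons (mv 978 (cons (fin 979 2 975)
(mv 977 (cons (fin 1038 2 974)
(mv 1105 (cons (mv 914 (cons (fin 850 5 849)
(fin 1169 6 913)))
(cons (mv 914 (cons (fin 850 5 849)
(mv 913 (cons (mv 849 (cons (fin 1104 5 848)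
(fin 785 4 785)))
(cons (mv 912 (cons (fin 848 7 848)
(mv 911 (cons (fin 910 0 910)
(mv 847 (cons (fin 846 3 846)
(mv 1104 (cons (fin 976 7 847)
(fin 1168 5 912)))))))))
(mv 848 (cons (fin 912 7 848)
(mv 849 (cons (fin 784 7 784)
(fin 785 4 785))))))))))
(mv 1169 (cons (fin 1233 6 977)
(mv 912 (cons (fin 976 7 912)
(mv 913 (cons (fin 848 7 848)
(mv 849 (cons (fin 1104 5 848)
(fin 785 4 785))))))))))))))))
(mv 974 (cons (fin 975 3 974)
(mv 1038 (cons (fin 973 3 973)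
(mv 1102 (cons (fin 1101 1 1037)
(mv 910 (cons (cons (mv 845 (cons (fin 909 7 845)
(mv 846 (cons (fin 781 7 781)
(mv 847 (cons (fin 783 6 782)
(fin 911 6 846)))))))
(cons (mv 845 (cons (fin 909 7 845)
(mv 846 (cons (fin 781 7 781)
(mv 977 (cons (fin 978 2 974)
(mv 913 (cons (cons (mv 849 (cons (fin 1104 5 848)
(mv 784 (cons (fin 848 7 784)
(mv 785 (cons (fin 720 7 720)
(fin 976 5 784)))))))
(mv 912 (cons (fin 911 3 845)
(mv 848 (cons (fin 1105 7 848)
(mv 784 (cons (fin 720 4 720)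
(fin 976 4 784))))))))
(cons (mv 849 (cons (fin 1104 5 848)
(mv 784 (cons (fin 848 7 784)
(mv 785 (cons (fin 720 7 720)
(mv 786 (cons (fin 722 6 721)
(fin 850 6 785)))))))))
(mv 849 (cons (fin 1104 5 848)
(mv 785 (cons (fin 976 5 784)
(mv 786 (cons (fin 722 6 721)
(fin 850 6 785))))))))))))))))
(mv 847 (cons (fin 911 6 846)
(mv 846 (cons (fin 783 6 782)
(mv 1166 (cons (cons (mv 977 (cons (fin 978 2 974)
(mv 1167 (cons (fin 1231 4 974)
(mv 1229 (cons (fin 1165 5 973)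
(mv 1230 (cons (fin 1293 5 1037)
(mv 1168 (cons (fin 1169 1 1165)
(mv 1104 (cons (fin 1232 6 976)
(mv 913 (cons (fin 849 5 848)
(fin 1105 5 912)))))))))))))))
(mv 1165 (cons (fin 1229 5 973)
(mv 849 (cons (cons (mv 848 (cons (fin 909 1 845)
(mv 781 (cons (fin 782 3 781)
(mv 785 (cons (fin 786 2 782)
(mv 912 (cons (fin 976 6 784)
(mv 657 (cons (fin 721 5 656)
(mv 913 (cons (fin 914 0 846)
(mv 977 (cons (fin 978 2 974)
(fin 784 7 784)))))))))))))))
(cons (mv 977 (cons (fin 978 2 974)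
(mv 913 (cons (fin 1104 5 848)
(mv 785 (cons (fin 976 5 784)
(mv 786 (cons (fin 722 6 721)
(fin 850 6 785)))))))))
(mv 848 (cons (fin 909 1 845)
(mv 781 (cons (fin 782 3 781)
(mv 785 (cons (fin 786 2 782)
(mv 912 (cons (fin 976 6 784)
(mv 657 (cons (fin 721 5 656)
(mv 914 (cons (fin 913 0 846)
(mv 850 (cons (fin 915 0 847)
(fin 978 7 785)))))))))))))))))
(cons (mv 848 (cons (fin 909 1 845)
(mv 781 (cons (fin 782 3 781)
(mv 785 (cons (fin 786 2 782)
(mv 912 (cons (fin 976 6 784)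
(mv 657 (cons (fin 721 5 656)
(mv 913 (cons (fin 914 0 846)
(mv 977 (cons (fin 784 7 784)
(fin 1105 7 848)))))))))))))))
(cons (mv 848 (cons (fin 909 1 845)
(mv 781 (cons (fin 782 3 781)
(mv 786 (cons (fin 785 2 782)
(mv 850 (cons (fin 787 2 783)
(mv 914 (cons (fin 915 0 847)
(mv 978 (cons (fin 977 2 974)
(fin 1105 5 849)))))))))))))
(mv 848 (cons (fin 909 1 845)
(mv 781 (cons (fin 782 3 781)
(mv 913 (cons (fin 914 0 846)
(mv 977 (cons (fin 978 2 974)
(fin 784 7 784))))))))))))))))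
(cons (mv 1167 (cons (fin 1231 4 974)
(mv 849 (cons (cons (mv 848 (cons (fin 909 1 845)
(mv 781 (cons (fin 782 3 781)
(mv 785 (cons (fin 786 2 782)
(mv 912 (cons (fin 976 6 784)
(mv 657 (cons (fin 721 5 656)
(mv 913 (cons (fin 914 0 846)
(mv 977 (cons (fin 978 2 974)
(fin 784 7 784)))))))))))))))
(cons (mv 977 (cons (fin 978 2 974)
(mv 913 (cons (fin 1104 5 848)
(mv 785 (cons (fin 976 5 784)
(mv 786 (cons (fin 722 6 721)
(fin 850 6 785)))))))))
(mv 848 (cons (fin 909 1 845)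
(mv 781 (cons (fin 782 3 781)
(mv 785 (cons (fin 786 2 782)
(mv 912 (cons (fin 976 6 784)
(mv 657 (cons (fin 721 5 656)
(mv 914 (cons (fin 913 0 846)
(mv 850 (cons (fin 915 0 847)
(fin 978 7 785)))))))))))))))))
(cons (mv 848 (cons (fin 909 1 845)
(mv 781 (cons (fin 782 3 781)
(mv 785 (cons (fin 786 2 782)
(mv 912 (cons (fin 976 6 784)
(mv 657 (cons (fin 721 5 656)
(mv 913 (cons (fin 914 0 846)
(mv 977 (cons (fin 784 7 784)
(fin 1105 7 848)))))))))))))))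
(cons (mv 848 (cons (fin 909 1 845)
(mv 781 (cons (fin 782 3 781)
(mv 786 (cons (fin 785 2 782)
(mv 850 (cons (fin 787 2 783)
(mv 914 (cons (fin 915 0 847)
(mv 978 (cons (fin 977 2 974)
(fin 1105 5 849)))))))))))))
(mv 848 (cons (fin 909 1 845)
(mv 781 (cons (fin 782 3 781)
(mv 913 (cons (fin 914 0 846)
(mv 977 (cons (fin 978 2 974)
(fin 784 7 784)))))))))))))))
(mv 1229 (cons (fin 1165 5 973)
(mv 1230 (cons (fin 1293 5 1037)
(mv 1231 (cons (fin 1167 4 974)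
(fin 1295 4 1038))))))))))))))))
(cons (mv 977 (cons (fin 978 2 974)
(mv 1104 (cons (cons (mv 845 (cons (fin 909 7 845)
(mv 781 (cons (fin 846 7 781)
(mv 913 (cons (fin 849 5 848)
(mv 1168 (cons (fin 1105 5 912)
(fin 976 6 912)))))))))
(mv 849 (cons (fin 913 5 848)
(mv 846 (cons (mv 845 (cons (fin 781 7 781)
(fin 909 7 845)))
(cons (mv 783 (cons (fin 847 6 782)
(mv 782 (cons (fin 719 6 718)
(mv 781 (cons (fin 717 7 717)
(mv 784 (cons (fin 848 0 781)
(mv 721 (cons (fin 720 2 717)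
(mv 785 (cons (fin 722 2 718)
(fin 850 0 782)))))))))))))
(mv 847 (cons (fin 783 6 782)
(mv 909 (cons (fin 848 1 845)
(fin 845 7 845)))))))))))
(cons (mv 845 (cons (fin 909 7 845)
(mv 846 (cons (fin 781 7 781)
(mv 1166 (cons (cons (mv 783 (cons (fin 847 6 782)
(mv 719 (cons (fin 782 6 718)
(mv 1165 (cons (fin 1229 5 973)
(mv 1167 (cons (fin 1231 4 974)
(mv 1168 (cons (fin 1105 2 1101)
(fin 1232 6 976)))))))))))
(cons (mv 1165 (cons (fin 1229 5 973)
(mv 1167 (cons (fin 1231 4 974)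
(mv 1168 (cons (fin 1105 2 1101)
(fin 1232 6 976)))))))
(mv 783 (cons (fin 847 6 782)
(mv 1168 (cons (fin 1232 6 976)
(mv 1229 (cons (fin 1165 5 973)
(mv 1230 (cons (fin 1293 5 1037)
(mv 1169 (cons (fin 1167 1 1165)
(mv 1233 (cons (fin 976 4 976)
(mv 1297 (cons (fin 1105 7 1040)
(fin 1361 7 1104)))))))))))))))))
(cons (cons (mv 783 (cons (fin 847 6 782)
(mv 1231 (cons (fin 1167 4 974)
(mv 1230 (cons (fin 1295 4 1038)
(mv 1232 (cons (fin 1168 6 976)
(mv 1233 (cons (fin 1165 3 1165)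
(mv 1169 (cons (fin 1170 2 1166)
(mv 1105 (cons (fin 976 7 976)
(fin 1297 7 1040)))))))))))))))
(mv 783 (cons (fin 847 6 782)
(mv 719 (cons (fin 782 6 718)
(mv 1229 (cons (fin 1165 5 973)
(mv 1230 (cons (fin 1293 5 1037)
(mv 1231 (cons (fin 1167 4 974)
(fin 1295 4 1038))))))))))))
(cons (mv 1229 (cons (fin 1165 5 973)
(mv 1230 (cons (fin 1293 5 1037)
(mv 1231 (cons (fin 1295 4 1038)
(mv 1232 (cons (fin 1168 6 976)
(mv 1297 (cons (fin 1296 0 1229)
(mv 1233 (cons (fin 1298 0 1230)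
(mv 1169 (cons (fin 1170 2 1166)
(fin 1105 7 1040)))))))))))))))
(mv 783 (cons (fin 847 6 782)
(mv 719 (cons (fin 782 6 718)
(mv 1231 (cons (fin 1167 4 974)
(mv 1230 (cons (fin 1295 4 1038)
(mv 1232 (cons (fin 1168 6 976)
(mv 1293 (cons (fin 1229 5 1037)
(mv 1294 (cons (fin 1233 1 1229)
(fin 1357 5 1101)))))))))))))))))))))))
(mv 913 (cons (fin 849 5 848)
(mv 1168 (cons (fin 1105 5 912)
(fin 976 6 912))))))))))
(cons (mv 847 (cons (fin 911 6 846)
(mv 846 (cons (fin 783 6 782)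
(mv 781 (cons (fin 845 7 781)
(mv 782 (cons (fin 717 7 717)
(mv 779 (cons (fin 780 0 779)
(mv 849 (cons (fin 848 3 781)
(mv 977 (cons (fin 978 2 974)
(mv 913 (cons (fin 1104 5 848)
(mv 785 (cons (fin 976 5 784)
(mv 786 (cons (fin 722 6 721)
(fin 850 6 785)))))))))))))))))))))
(mv 909 (cons (fin 845 7 845)
(mv 911 (cons (fin 847 6 846)
(mv 977 (cons (fin 978 2 974)
(mv 912 (cons (fin 976 0 909)
(mv 849 (cons (fin 848 2 845)
(mv 913 (cons (fin 850 2 846)
(fin 1104 5 848))))))))))))))))))))))))))))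
(cons (mv 1038 (cons (cons (mv 974 (cons (fin 973 3 973)
(mv 975 (cons (fin 1042 3 974)
(mv 977 (cons (fin 978 2 974)
(mv 1102 (cons (fin 1101 1 1037)
(mv 911 (cons (fin 847 5 846)
(fin 1166 6 910)))))))))))
(cons (mv 977 (cons (fin 978 2 974)
(mv 1102 (cons (fin 1101 1 1037)
(mv 1103 (cons (fin 1042 1 1038)
(mv 975 (cons (mv 911 (cons (fin 847 5 846)
(fin 1166 5 910)))
(cons (mv 1166 (cons (fin 1230 6 974)
(mv 1104 (cons (cons (mv 849 (cons (fin 913 5 848)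
(mv 1105 (cons (fin 1165 1 1101)
(mv 1168 (cons (fin 1232 7 975)
(mv 1169 (cons (fin 1170 0 1102)
(mv 976 (cons (fin 912 7 912)
(fin 1233 7 976)))))))))))
(mv 849 (cons (fin 913 5 848)
(mv 1105 (cons (fin 1165 1 1101)
(mv 1169 (cons (fin 1170 0 1102)
(mv 976 (cons (fin 912 7 912)
(fin 1233 7 976))))))))))
(cons (mv 913 (cons (fin 849 5 848)
(mv 1168 (cons (fin 1232 7 975)
(fin 976 6 912)))))
(cons (mv 1105 (cons (fin 1165 1 1101)
(mv 1168 (cons (fin 1232 7 975)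
(mv 1169 (cons (fin 1170 0 1102)
(mv 976 (cons (fin 912 7 912)
(fin 1233 7 976)))))))))
(mv 849 (cons (fin 913 5 848)
(mv 1105 (cons (fin 1165 1 1101)
(mv 1168 (cons (fin 1232 7 975)
(mv 1169 (cons (fin 1170 0 1102)
(mv 1233 (cons (fin 1297 7 1040)
(mv 1234 (cons (fin 1167 0 1166)
(fin 1298 4 1041)))))))))))))))))))
(mv 911 (cons (fin 847 5 846)
(mv 846 (cons (fin 910 7 846)
(mv 848 (cons (fin 912 6 847)
(mv 1168 (cons (fin 1104 4 911)
(mv 1167 (cons (fin 1232 4 975)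
(mv 1231 (cons (fin 1295 7 1038)
(fin 976 6 975))))))))))))))))))))))
(mv 974 (cons (fin 973 3 973)
(mv 975 (cons (fin 1042 3 974)
(mv 977 (cons (fin 978 2 974)
(mv 1104 (cons (cons (mv 847 (cons (fin 911 4 847)
(mv 913 (cons (fin 849 5 848)
(mv 976 (cons (fin 914 2 910)
(fin 1168 6 912)))))))
(mv 847 (cons (fin 911 4 847)
(mv 913 (cons (fin 849 5 848)
(mv 976 (cons (fin 914 2 910)
(mv 910 (cons (fin 909 3 909)
(mv 846 (cons (fin 783 6 782)
(fin 782 4 782))))))))))))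
(cons (mv 913 (cons (fin 849 5 848)
(mv 976 (cons (fin 914 2 910)
(fin 1168 6 912)))))
(cons (mv 911 (cons (fin 847 4 847)
(mv 1168 (cons (fin 976 7 911)
(fin 1232 7 975)))))
(mv 847 (cons (fin 911 4 847)
(mv 913 (cons (fin 849 5 848)
(mv 1168 (cons (fin 1232 7 975)
(fin 1105 5 912)))))))))))))))))))
(cons (mv 974 (cons (fin 973 3 973)
(mv 975 (cons (fin 1042 3 974)
(mv 1102 (cons (fin 1101 1 1037)
(mv 911 (cons (fin 847 5 846)
(fin 1166 6 910)))))))))
(cons (mv 973 (cons (fin 974 3 973)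
(mv 977 (cons (fin 978 2 974)
(mv 1102 (cons (fin 1101 1 1037)
(mv 1166 (cons (cons (mv 975 (cons (fin 1230 6 974)
(mv 911 (cons (fin 847 5 846)
(fin 1103 5 910)))))
(mv 913 (cons (cons (mv 849 (cons (fin 1104 5 848)
(mv 784 (cons (fin 848 7 784)
(mv 785 (cons (fin 720 7 720)
(fin 976 5 784)))))))
(mv 849 (cons (cons (mv 784 (cons (fin 848 7 784)
(mv 785 (cons (fin 720 7 720)
(fin 976 5 784)))))
(mv 786 (cons (fin 850 6 785)
(mv 848 (cons (fin 784 7 784)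
(mv 912 (cons (fin 1105 7 848)
(mv 976 (cons (fin 1103 5 847)
(mv 847 (cons (fin 783 7 783)
(mv 846 (cons (fin 845 0 845)
(fin 914 0 846))))))))))))))
(cons (mv 785 (cons (fin 976 5 784)
(mv 786 (cons (fin 722 6 721)
(fin 850 6 785)))))
(mv 784 (cons (fin 848 7 784)
(mv 785 (cons (fin 720 7 720)
(mv 786 (cons (fin 722 6 721)
(fin 850 6 785)))))))))))
(cons (mv 1105 (cons (cons (mv 848 (cons (fin 912 7 848)
(mv 850 (cons (fin 914 6 849)
(mv 1104 (cons (fin 1168 5 912)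
(mv 1103 (cons (fin 1165 1 1101)
(mv 911 (cons (fin 975 5 910)
(mv 1169 (cons (fin 1170 0 1102)
(mv 1233 (cons (fin 976 7 976)
(fin 1297 7 1040)))))))))))))))
(cons (mv 850 (cons (fin 914 6 849)
(mv 912 (cons (fin 848 7 848)
(mv 1169 (cons (fin 976 7 912)
(mv 1168 (cons (fin 1232 5 976)
(mv 1234 (cons (fin 1170 4 977)
(mv 1233 (cons (fin 1167 0 1166)
(fin 1298 4 1041)))))))))))))
(mv 850 (cons (fin 914 6 849)
(mv 912 (cons (fin 848 7 848)
(mv 1169 (cons (fin 976 7 912)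
(mv 1234 (cons (fin 1170 4 977)
(mv 1233 (cons (fin 1298 4 1041)
(mv 1296 (cons (fin 1232 5 1040)
(mv 1297 (cons (fin 1104 7 1040)
(fin 1360 5 1104)))))))))))))))))
(cons (cons (mv 850 (cons (fin 914 6 849)
(mv 1104 (cons (fin 1168 5 912)
(mv 1103 (cons (fin 1165 1 1101)
(mv 911 (cons (fin 975 5 910)
(mv 1169 (cons (fin 1170 0 1102)
(mv 1233 (cons (fin 976 7 976)
(fin 1297 7 1040)))))))))))))
(mv 848 (cons (fin 912 7 848)
(mv 1104 (cons (fin 1168 5 912)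
(mv 1103 (cons (fin 1165 1 1101)
(mv 911 (cons (fin 975 5 910)
(mv 1169 (cons (fin 1170 0 1102)
(mv 1233 (cons (fin 976 7 976)
(fin 1297 7 1040))))))))))))))
(cons (mv 848 (cons (fin 912 7 848)
(mv 850 (cons (fin 914 6 849)
(mv 1168 (cons (fin 1104 5 912)
(mv 1169 (cons (fin 1232 5 976)
(mv 1234 (cons (fin 1170 4 977)
(mv 1233 (cons (fin 1167 0 1166)
(fin 1298 4 1041)))))))))))))
(mv 850 (cons (fin 914 6 849)
(mv 912 (cons (fin 848 7 848)
(mv 1104 (cons (fin 1168 5 912)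
(mv 1103 (cons (fin 1165 1 1101)
(mv 911 (cons (fin 975 5 910)
(mv 976 (cons (fin 847 7 847)
(fin 1167 5 911)))))))))))))))))
(cons (mv 849 (cons (fin 1104 5 848)
(mv 784 (cons (fin 848 7 784)
(mv 785 (cons (fin 720 7 720)
(mv 786 (cons (fin 722 6 721)
(fin 850 6 785)))))))))
(mv 849 (cons (fin 1104 5 848)
(mv 785 (cons (fin 976 5 784)
(mv 786 (cons (fin 722 6 721)
(fin 850 6 785))))))))))))
(cons (mv 1230 (cons (cons (mv 1103 (cons (fin 1294 6 1038)
(mv 1229 (cons (fin 1293 5 1037)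
(mv 1231 (cons (fin 1295 4 1038)
(mv 976 (cons (fin 1167 6 975)
(mv 912 (cons (fin 848 5 847)
(mv 1105 (cons (fin 1169 7 912)
(mv 1104 (cons (fin 1165 1 1101)
(mv 913 (cons (fin 849 5 848)
(fin 1168 5 912)))))))))))))))))
(mv 1229 (cons (fin 1293 5 1037)
(mv 1231 (cons (fin 1295 4 1038)
(mv 1232 (cons (mv 1165 (cons (fin 1164 3 1164)
(fin 1233 3 1165)))
(mv 1168 (cons (fin 1169 2 1165)
(fin 1104 6 976))))))))))
(cons (mv 1293 (cons (fin 1229 5 1037)
(mv 1294 (cons (fin 1357 5 1101)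
(fin 1103 6 1038)))))
(mv 1103 (cons (fin 1294 6 1038)
(mv 1231 (cons (fin 1295 4 1038)
(mv 976 (cons (fin 1167 6 975)
(mv 912 (cons (fin 848 5 847)
(mv 1105 (cons (fin 1169 7 912)
(mv 1104 (cons (fin 1165 1 1101)
(mv 913 (cons (fin 849 5 848)
(fin 1168 5 912))))))))))))))))))
(mv 1230 (cons (fin 975 6 974)
(mv 1231 (cons (fin 1295 4 1038)
(mv 1293 (cons (fin 1229 5 1037)
(mv 1294 (cons (fin 1357 5 1101)
(mv 1232 (cons (fin 1233 1 1229)
(mv 1168 (cons (fin 1104 6 976)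
(mv 1169 (cons (fin 1105 5 976)
(mv 1170 (cons (fin 1167 1 1166)
(fin 1171 1 1167))))))))))))))))))))))))))
(mv 974 (cons (fin 973 3 973)
(mv 977 (cons (fin 978 2 974)
(mv 1102 (cons (fin 1101 1 1037)
(mv 1103 (cons (fin 1042 1 1038)
(mv 910 (cons (fin 846 4 846)
(fin 1167 4 910)))))))))))))))
(cons (mv 1042 (cons (cons (mv 974 (cons (fin 975 3 974)
(mv 973 (cons (fin 1038 3 973)
(mv 978 (cons (fin 979 2 975)
(mv 1103 (cons (fin 1102 1 1038)
(mv 1043 (cons (fin 1104 1 1039)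
(mv 1108 (cons (fin 1107 0 1040)
(mv 1044 (cons (fin 1109 0 1041)
(mv 981 (cons (fin 980 2 977)
(mv 1045 (cons (fin 977 3 977)
(fin 982 2 978)))))))))))))))))))
(cons (mv 974 (cons (fin 975 3 974)
(mv 973 (cons (fin 1038 3 973)
(mv 1103 (cons (fin 1102 1 1038)
(mv 1043 (cons (fin 1104 1 1039)
(mv 980 (cons (fin 979 2 976)
(mv 1044 (cons (fin 981 2 977)
(mv 1108 (cons (fin 1107 0 1040)
(fin 1109 0 1041)))))))))))))))
(mv 974 (cons (fin 975 3 974)
(mv 978 (cons (fin 979 2 975)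
(mv 1038 (cons (fin 973 3 973)
(fin 977 2 974)))))))))
(cons (mv 974 (cons (fin 975 3 974)
(mv 1038 (cons (fin 973 3 973)
(mv 1102 (cons (fin 1101 1 1037)
(fin 1103 1 1038)))))))
(cons (mv 978 (cons (fin 979 2 975)
(mv 977 (cons (fin 1038 2 974)
(mv 1103 (cons (fin 1102 1 1038)
(mv 1043 (cons (fin 1104 1 1039)
(mv 1044 (cons (fin 1045 3 977)
(mv 1108 (cons (fin 1107 0 1040)
(fin 1109 0 1041)))))))))))))
(mv 974 (cons (fin 975 3 974)
(mv 978 (cons (fin 979 2 975)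
(mv 1103 (cons (fin 1102 1 1038)
(mv 1043 (cons (fin 1104 1 1039)
(mv 1108 (cons (fin 1107 0 1040)
(mv 1044 (cons (fin 1109 0 1041)
(mv 981 (cons (fin 980 2 977)
(mv 1045 (cons (fin 977 3 977)
(fin 982 2 978)))))))))))))))))))))
(mv 1042 (cons (cons (mv 974 (cons (fin 975 3 974)
(mv 978 (cons (fin 979 2 975)
(mv 1038 (cons (fin 973 3 973)
(fin 977 2 974)))))))
(mv 974 (cons (fin 975 3 974)
(mv 1038 (cons (fin 973 3 973)
(mv 1102 (cons (fin 1101 1 1037)
(fin 1103 1 1038))))))))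
(cons (mv 978 (cons (fin 979 2 975)
(mv 1038 (cons (fin 977 2 974)
(mv 1102 (cons (fin 1101 1 1037)
(fin 1103 1 1038)))))))
(mv 975 (cons (fin 974 3 974)
(mv 976 (cons (fin 1043 3 975)
(mv 978 (cons (fin 979 2 975)
(mv 1103 (cons (fin 1102 1 1038)
(mv 912 (cons (fin 848 5 847)
(fin 1167 6 911)))))))))))))))))))
def l62 : Lem := ⟨17672042592950510299342161747532428741358160893794450532607270698129752962383966679797774154701950421020191674846877452631289669433532411657536873821582864322832094995237976664601613395680896036318715866521764407099865564676993471100411554418605480722106008602337571462179774064736310031630534868627379729584881664, 91222530202229050285355084847583952986909931377883233138414976807409581960840541055016008915897962680127714926996973028161376443886522703260069642052539516363684597782348855561197186807441627582381077044867623289447872513922473786224094133463977243050128688958839377410996607818960089669506190347213655893260328926048727916274381278163402248721311109893424302405105356738720031706319872367227141153638120947712,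 91222530202229050285355084847583952986909931377883233138414976807409581960840541055016008915897962680127714926996973028161376443886522703260069642052539516363684597782348855561197186807441627582381077044867623289447872513922473786224094133463977243050128688958839377410996607818960089669506190347213655893260328926048727916274381278163402248721311109893424302405105356738720031706319872367227141153638120947712, 19, 33⟩
theorem l62_valid : l62.Valid :=
  Lem.valid_of_chk t62 t62_valid [1039, 1040] c62 l62 (by decide +kernel)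
end Crest.Agent.SnakyAux
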