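import Crest.Agent.S0047_aux.Checker
import Crest.Agent.S0047_aux.L58
import Crest.Agent.S0047_aux.L59
import Crest.Agent.S0047_aux.L60
import Crest.Agent.S0047_aux.L61
import Crest.Agent.S0047_aux.L62
set_option autoImplicit false
set_option maxRecDepth 100000
namespace Crest.Agent.SnakyAux
open Cert
def t63 : Tbl := (Tbl.node (Tbl.node (Tbl.node (Tbl.leaf l58) (Tbl.leaf l62)) (Tbl.leaf l60)) (Tbl.node (Tbl.leaf l59) (Tbl.leaf l61)))
theorem t63_valid : t63.Valid := (Tbl.valid_node (Tbl.valid_node (Tbl.valid_node (Tbl.valid_leaf l58_valid) (Tbl.valid_leaf l62_valid)) (Tbl.valid_leaf l60_valid)) (Tbl.valid_node (Tbl.valid_leaf l59_valid) (Tbl.valid_leaf l61_valid)))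
def c63 : Cert :=
(mv 1039 (cons (cons (cons (cons (mv 1038 (cons (cons (mv 1037 (cons (cons (mv 972 (cons (fin 973 3 972)
(mv 971 (cons (fin 1036 3 971)
(mv 977 (cons (fin 976 2 973)
(mv 1041 (cons (fin 978 2 974)
(mv 1101 (cons (fin 1100 1 1036)
(fin 1102 1 1037)))))))))))
(cons (mv 976 (cons (fin 977 2 973)
(mv 975 (cons (fin 1036 2 972)
(mv 1100 (cons (fin 1101 1 1036)
(mv 1104 (cons (fin 1105 0 1037)
(mv 911 (cons (fin 1168 7 911)
(fin 847 4 847)))))))))))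
(mv 972 (cons (fin 973 3 972)
(mv 971 (cons (fin 1036 3 971)
(mv 1101 (cons (fin 1100 1 1036)
(mv 1041 (cons (fin 1102 1 1037)
(mv 978 (cons (fin 977 2 974)
(mv 1042 (cons (fin 979 2 975)
(mv 975 (cons (fin 974 3 974)
(mv 1104 (cons (fin 1105 0 1037)
(mv 911 (cons (fin 847 4 847)
(mv 1103 (cons (fin 1043 1 1039)
(fin 1168 4 911)))))))))))))))))))))))
(cons (mv 972 (cons (fin 973 3 972)
(mv 976 (cons (fin 977 2 973)
(mv 1036 (cons (fin 971 3 971)
(fin 975 2 972)))))))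
(cons (mv 972 (cons (fin 973 3 972)
(mv 1036 (cons (fin 971 3 971)
(mv 1100 (cons (fin 1099 1 1035)
(fin 1101 1 1036)))))))
(mv 972 (cons (fin 973 3 972)
(mv 977 (cons (fin 976 2 973)
(mv 1041 (cons (fin 978 2 974)
(mv 1101 (cons (fin 1100 1 1036)
(fin 1102 1 1037)))))))))))))
(cons (mv 1041 (cons (cons (mv 973 (cons (fin 974 3 973)
(mv 978 (cons (fin 977 2 974)
(mv 1042 (cons (fin 979 2 975)
(mv 1102 (cons (fin 1101 1 1037)
(fin 1103 1 1038)))))))))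
(mv 978 (cons (fin 977 2 974)
(mv 1042 (cons (fin 979 2 975)
(mv 1102 (cons (fin 1101 1 1037)
(fin 1103 1 1038))))))))
(cons (mv 974 (cons (fin 973 3 973)
(mv 978 (cons (fin 977 2 974)
(mv 1042 (cons (fin 975 3 974)
(fin 979 2 975)))))))
(cons (mv 974 (cons (fin 973 3 973)
(mv 975 (cons (fin 1042 3 974)
(mv 1102 (cons (fin 1101 1 1037)
(mv 911 (cons (fin 847 5 846)
(fin 1166 6 910)))))))))
(mv 974 (cons (fin 973 3 973)
(mv 977 (cons (fin 978 2 974)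
(mv 1102 (cons (fin 1101 1 1037)
(mv 910 (cons (cons (mv 1103 (cons (fin 846 4 846)
(fin 1167 4 910)))
(mv 845 (cons (fin 909 7 845)
(mv 781 (cons (fin 846 7 781)
(mv 911 (cons (fin 847 6 846)
(mv 1166 (cons (fin 975 6 910)
(mv 1167 (cons (fin 1231 4 974)
(mv 1229 (cons (fin 1165 5 973)
(mv 1230 (cons (fin 1293 5 1037)
(mv 1168 (cons (fin 1169 1 1165)
(mv 1104 (cons (fin 1232 6 976)
(mv 913 (cons (fin 849 5 848)
(fin 1105 5 912))))))))))))))))))))))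
(cons (mv 845 (cons (fin 909 7 845)
(mv 847 (cons (fin 911 6 846)
(mv 1167 (cons (fin 1103 4 910)
(mv 1166 (cons (fin 1231 4 974)
(mv 1229 (cons (fin 1165 5 973)
(mv 1230 (cons (fin 1293 5 1037)
(fin 975 6 974)))))))))))))
(mv 845 (cons (fin 909 7 845)
(mv 846 (cons (fin 781 7 781)
(fin 1103 4 846))))))))))))))))))
(mv 1037 (cons (cons (mv 972 (cons (fin 973 3 972)
(mv 976 (cons (fin 977 2 973)
(mv 1036 (cons (fin 971 3 971)
(fin 975 2 972)))))))
(mv 972 (cons (fin 973 3 972)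
(mv 1036 (cons (fin 971 3 971)
(mv 1100 (cons (fin 1099 1 1035)
(fin 1101 1 1036))))))))
(cons (mv 976 (cons (fin 977 2 973)
(mv 975 (cons (fin 1036 2 972)
(mv 1100 (cons (fin 1101 1 1036)
(mv 1104 (cons (fin 1105 0 1037)
(mv 911 (cons (fin 1168 7 911)
(fin 847 4 847)))))))))))
(mv 972 (cons (fin 973 3 972)
(mv 976 (cons (fin 977 2 973)
(mv 1100 (cons (fin 1101 1 1036)
(mv 1104 (cons (fin 1105 0 1037)
(mv 912 (cons (mv 1103 (cons (fin 848 5 847)
(fin 1167 5 911)))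
(cons (mv 847 (cons (fin 911 7 847)
(mv 848 (cons (fin 783 7 783)
(mv 849 (cons (fin 785 6 784)
(fin 913 6 848)))))))
(mv 847 (cons (fin 911 7 847)
(mv 849 (cons (fin 913 6 848)
(mv 1167 (cons (fin 1103 5 911)
(mv 1168 (cons (fin 1231 5 975)
(mv 1232 (cons (fin 975 7 975)
(mv 1233 (cons (fin 1169 4 976)
(fin 1297 4 1040)))))))))))))))))))))))))))))
(cons (cons (mv 1037 (cons (cons (mv 976 (cons (fin 977 2 973)
(mv 975 (cons (fin 1036 2 972)
(mv 1100 (cons (fin 1101 1 1036)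
(mv 1104 (cons (fin 1105 0 1037)
(mv 911 (cons (fin 1168 7 911)
(fin 847 4 847)))))))))))
(mv 1100 (cons (fin 1101 1 1036)
(mv 1036 (cons (fin 1099 1 1035)
(mv 1104 (cons (fin 1103 0 1036)
(fin 1105 0 1037))))))))
(cons (mv 976 (cons (fin 977 2 973)
(mv 975 (cons (fin 1036 2 972)
(mv 1104 (cons (fin 1105 0 1037)
(mv 911 (cons (fin 1168 7 911)
(fin 847 4 847)))))))))
(cons (mv 976 (cons (fin 977 2 973)
(mv 975 (cons (fin 1036 2 972)
(mv 1101 (cons (fin 1100 1 1036)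
(mv 1041 (cons (fin 1102 1 1037)
(mv 1042 (cons (fin 974 3 974)
(fin 1043 3 975)))))))))))
(mv 977 (cons (fin 976 2 973)
(mv 1041 (cons (fin 978 2 974)
(mv 1101 (cons (fin 1100 1 1036)
(fin 1102 1 1037)))))))))))
(mv 1037 (cons (cons (mv 972 (cons (fin 973 3 972)
(mv 976 (cons (fin 977 2 973)
(mv 1036 (cons (fin 971 3 971)
(fin 975 2 972)))))))
(mv 972 (cons (fin 973 3 972)
(mv 1036 (cons (fin 971 3 971)
(mv 1104 (cons (fin 1103 0 1036)
(fin 1105 0 1037))))))))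
(cons (mv 976 (cons (fin 977 2 973)
(mv 975 (cons (fin 1036 2 972)
(mv 1104 (cons (fin 1105 0 1037)
(mv 911 (cons (fin 1168 7 911)
(fin 847 4 847)))))))))
(mv 973 (cons (fin 972 3 972)
(mv 977 (cons (fin 976 2 973)
(mv 1041 (cons (fin 974 3 973)
(fin 978 2 974)))))))))))
(cons (mv 1037 (cons (cons (mv 972 (cons (fin 973 3 972)
(mv 1036 (cons (fin 971 3 971)
(mv 1100 (cons (fin 1099 1 1035)
(fin 1101 1 1036)))))))
(mv 1100 (cons (fin 1101 1 1036)
(mv 1036 (cons (fin 1099 1 1035)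
(mv 1104 (cons (fin 1103 0 1036)
(fin 1105 0 1037))))))))
(cons (mv 972 (cons (fin 973 3 972)
(mv 1036 (cons (fin 971 3 971)
(mv 1104 (cons (fin 1103 0 1036)
(fin 1105 0 1037)))))))
(mv 973 (cons (fin 972 3 972)
(mv 974 (cons (fin 1041 3 973)
(mv 1101 (cons (fin 1100 1 1036)
(mv 910 (cons (fin 846 5 845)
(fin 1165 6 909))))))))))))
(mv 1037 (cons (cons (mv 972 (cons (fin 973 3 972)
(mv 971 (cons (fin 1036 3 971)
(mv 977 (cons (fin 976 2 973)
(mv 1041 (cons (fin 978 2 974)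
(mv 1101 (cons (fin 1100 1 1036)
(fin 1102 1 1037)))))))))))
(mv 976 (cons (fin 977 2 973)
(mv 975 (cons (fin 1036 2 972)
(mv 1101 (cons (fin 1100 1 1036)
(mv 1041 (cons (fin 1102 1 1037)
(mv 1042 (cons (fin 974 3 974)
(fin 1043 3 975))))))))))))
(cons (mv 972 (cons (fin 973 3 972)
(mv 976 (cons (fin 977 2 973)
(mv 1036 (cons (fin 971 3 971)
(fin 975 2 972)))))))
(cons (mv 972 (cons (fin 973 3 972)
(mv 1036 (cons (fin 971 3 971)
(mv 1100 (cons (fin 1099 1 1035)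
(fin 1101 1 1036)))))))
(mv 972 (cons (fin 973 3 972)
(mv 977 (cons (fin 976 2 973)
(mv 1041 (cons (fin 978 2 974)
(mv 1101 (cons (fin 1100 1 1036)
(fin 1102 1 1037)))))))))))))))))
(cons (ref 2 0)
(ref 0 0)))
(cons (cons (mv 1038 (cons (cons (cons (mv 1037 (cons (cons (mv 972 (cons (fin 973 3 972)
(mv 971 (cons (fin 1036 3 971)
(mv 977 (cons (fin 976 2 973)
(mv 1041 (cons (fin 978 2 974)
(mv 1101 (cons (fin 1100 1 1036)
(fin 1102 1 1037)))))))))))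
(mv 972 (cons (fin 973 3 972)
(mv 976 (cons (fin 977 2 973)
(mv 1036 (cons (fin 971 3 971)
(mv 1104 (cons (fin 1103 0 1036)
(fin 1105 0 1037))))))))))
(cons (mv 976 (cons (fin 977 2 973)
(mv 1100 (cons (fin 1101 1 1036)
(mv 1036 (cons (fin 1099 1 1035)
(mv 1104 (cons (fin 1103 0 1036)
(fin 1105 0 1037)))))))))
(cons (mv 972 (cons (fin 973 3 972)
(mv 1036 (cons (fin 971 3 971)
(mv 1100 (cons (fin 1099 1 1035)
(fin 1101 1 1036)))))))
(mv 972 (cons (fin 973 3 972)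
(mv 977 (cons (fin 976 2 973)
(mv 1041 (cons (fin 978 2 974)
(mv 1101 (cons (fin 1100 1 1036)
(fin 1102 1 1037)))))))))))))
(mv 1102 (cons (cons (mv 1041 (cons (fin 1101 1 1037)
(mv 973 (cons (fin 974 3 973)
(mv 978 (cons (fin 977 2 974)
(mv 1042 (cons (fin 1103 1 1038)
(fin 979 2 975)))))))))
(mv 1166 (cons (cons (cons (mv 974 (cons (cons (mv 909 (cons (fin 973 7 909)
(mv 845 (cons (fin 910 7 845)
(mv 1165 (cons (fin 1229 5 973)
(mv 1231 (cons (fin 1167 4 974)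
(mv 1230 (cons (fin 1295 4 1038)
(mv 1103 (cons (fin 1294 6 1038)
(mv 1101 (cons (fin 1100 2 1036)
(mv 1104 (cons (fin 1164 1 1100)
(fin 1105 1 1101)))))))))))))))))
(cons (mv 909 (cons (fin 973 7 909)
(mv 845 (cons (fin 910 7 845)
(mv 1229 (cons (fin 1165 5 973)
(mv 1230 (cons (fin 1293 5 1037)
(mv 1294 (cons (fin 1103 6 1038)
(mv 1295 (cons (fin 1231 4 1038)
(fin 1359 4 1102)))))))))))))
(mv 909 (cons (fin 973 7 909)
(mv 910 (cons (fin 845 7 845)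
(mv 1103 (cons (fin 846 4 846)
(fin 1167 4 910)))))))))
(cons (mv 1165 (cons (fin 1229 5 973)
(mv 910 (cons (fin 1101 5 909)
(mv 1103 (cons (fin 846 4 846)
(fin 1167 4 910)))))))
(cons (mv 909 (cons (fin 973 7 909)
(mv 845 (cons (fin 910 7 845)
(mv 1229 (cons (fin 1165 5 973)
(mv 1230 (cons (fin 1293 5 1037)
(mv 1231 (cons (fin 1167 4 974)
(fin 1295 4 1038)))))))))))
(mv 909 (cons (fin 973 7 909)
(mv 1165 (cons (fin 1229 5 973)
(mv 1231 (cons (fin 1167 4 974)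
(mv 1230 (cons (fin 1295 4 1038)
(mv 1103 (cons (fin 1294 6 1038)
(mv 1101 (cons (fin 1100 2 1036)
(mv 1104 (cons (fin 1164 1 1100)
(fin 1105 1 1101)))))))))))))))))))
(mv 1230 (cons (cons (mv 1103 (cons (fin 1294 6 1038)
(mv 1100 (cons (fin 1101 2 1036)
(mv 1229 (cons (fin 1293 5 1037)
(mv 1231 (cons (fin 1295 4 1038)
(mv 1167 (cons (fin 976 6 975)
(mv 1168 (cons (fin 1169 1 1165)
(fin 1228 2 1164)))))))))))))
(mv 1229 (cons (fin 1293 5 1037)
(mv 1231 (cons (fin 1295 4 1038)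
(mv 1167 (cons (mv 1168 (cons (fin 1169 1 1165)
(fin 1228 2 1164)))
(cons (mv 976 (cons (fin 1103 6 975)
(mv 1228 (cons (fin 1227 2 1163)
(mv 1164 (cons (fin 1163 3 1163)
(mv 1165 (cons (fin 1232 3 1164)
(mv 1099 (cons (fin 1100 3 1099)
(mv 1292 (cons (fin 1291 1 1227)
(mv 1356 (cons (fin 1101 6 1100)
(fin 1420 6 1164)))))))))))))))
(mv 976 (cons (fin 1103 6 975)
(mv 1168 (cons (fin 1169 1 1165)
(fin 1104 5 975)))))))))))))
(cons (mv 1293 (cons (fin 1229 5 1037)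
(mv 1294 (cons (fin 1357 5 1101)
(mv 1295 (cons (fin 1231 4 1038)
(fin 1359 4 1102)))))))
(cons (mv 1293 (cons (fin 1229 5 1037)
(mv 1294 (cons (fin 1357 5 1101)
(fin 1103 6 1038)))))
(mv 1103 (cons (fin 1294 6 1038)
(mv 1100 (cons (fin 1101 2 1036)
(mv 1231 (cons (fin 1295 4 1038)
(mv 1167 (cons (fin 976 6 975)
(mv 1232 (cons (fin 1296 4 1039)
(mv 1165 (cons (fin 1233 3 1165)
(fin 1164 0 1164))))))))))))))))))
(cons (mv 974 (cons (cons (mv 909 (cons (fin 973 7 909)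
(mv 910 (cons (fin 845 7 845)
(mv 1103 (cons (fin 846 4 846)
(fin 1167 4 910)))))))
(mv 909 (cons (fin 973 7 909)
(mv 910 (cons (fin 845 7 845)
(mv 1165 (cons (fin 1101 5 909)
(fin 1229 5 973))))))))
(cons (mv 1165 (cons (fin 1229 5 973)
(mv 910 (cons (fin 1101 5 909)
(mv 1103 (cons (fin 846 4 846)
(fin 1167 4 910)))))))
(mv 909 (cons (fin 973 7 909)
(mv 1165 (cons (fin 1229 5 973)
(mv 1167 (cons (fin 1231 4 974)
(mv 1101 (cons (mv 1100 (cons (fin 1168 3 1100)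
(fin 1099 2 1035)))
(cons (mv 1168 (cons (fin 1169 3 1101)
(mv 1104 (cons (fin 1105 2 1101)
(mv 1103 (cons (fin 1164 1 1100)
(mv 1232 (cons (fin 1233 0 1165)
(fin 1296 7 1039)))))))))
(mv 1100 (cons (fin 1099 2 1035)
(fin 1103 2 1036)))))))))))))))
(mv 1230 (cons (cons (mv 1229 (cons (fin 1293 5 1037)
(mv 974 (cons (fin 1165 5 973)
(mv 1231 (cons (fin 1167 4 974)
(fin 1295 4 1038)))))))
(mv 1231 (cons (fin 1295 4 1038)
(mv 1167 (cons (fin 974 4 974)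
(mv 1168 (cons (mv 1169 (cons (fin 1101 3 1101)
(fin 1170 1 1166)))
(mv 1104 (cons (fin 976 5 975)
(mv 1165 (cons (fin 1105 2 1101)
(mv 1164 (cons (fin 1163 0 1163)
(fin 1232 0 1164))))))))))))))
(cons (mv 1294 (cons (mv 1293 (cons (fin 1229 5 1037)
(fin 1357 5 1101)))
(cons (mv 1359 (cons (fin 1295 4 1102)
(mv 1358 (cons (fin 1423 4 1166)
(mv 1165 (cons (fin 1101 7 1101)
(mv 1229 (cons (fin 1422 7 1165)
(fin 974 5 973)))))))))
(mv 1357 (cons (fin 1293 5 1101)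
(mv 1358 (cons (fin 1421 5 1165)
(mv 1359 (cons (fin 1295 4 1102)
(fin 1423 4 1166))))))))))
(cons (mv 1229 (cons (fin 1293 5 1037)
(mv 1167 (cons (mv 974 (cons (fin 1165 5 973)
(fin 1231 4 974)))
(cons (mv 1168 (cons (fin 1169 1 1165)
(mv 1228 (cons (fin 1165 1 1164)
(fin 1227 2 1163)))))
(mv 1168 (cons (fin 1169 1 1165)
(mv 1228 (cons (fin 1227 2 1163)
(fin 1231 2 1164))))))))))
(mv 1293 (cons (fin 1229 5 1037)
(mv 1294 (cons (fin 1357 5 1101)
(mv 1295 (cons (fin 1231 4 1038)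
(fin 1359 4 1102)))))))))))))
(cons (cons (mv 974 (cons (cons (mv 909 (cons (fin 973 7 909)
(mv 845 (cons (fin 910 7 845)
(mv 1229 (cons (fin 1165 5 973)
(mv 1230 (cons (fin 1293 5 1037)
(mv 1231 (cons (fin 1167 4 974)
(fin 1295 4 1038)))))))))))
(cons (mv 909 (cons (fin 973 7 909)
(mv 845 (cons (fin 910 7 845)
(mv 1229 (cons (fin 1165 5 973)
(mv 1230 (cons (fin 1293 5 1037)
(mv 1294 (cons (fin 1103 6 1038)
(mv 1295 (cons (fin 1231 4 1038)
(fin 1359 4 1102)))))))))))))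
(mv 909 (cons (fin 973 7 909)
(mv 910 (cons (fin 845 7 845)
(mv 1103 (cons (fin 846 4 846)
(fin 1167 4 910)))))))))
(cons (mv 1165 (cons (fin 1229 5 973)
(mv 1167 (cons (fin 1231 4 974)
(mv 910 (cons (fin 1103 4 910)
(mv 845 (cons (fin 909 7 845)
(mv 846 (cons (fin 781 7 781)
(mv 847 (cons (fin 783 6 782)
(fin 911 6 846)))))))))))))
(cons (mv 1165 (cons (fin 1229 5 973)
(mv 1167 (cons (fin 1231 4 974)
(mv 1103 (cons (fin 910 4 910)
(mv 1104 (cons (fin 1105 1 1101)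
(fin 1164 2 1100)))))))))
(mv 909 (cons (fin 973 7 909)
(mv 1229 (cons (fin 1165 5 973)
(mv 1230 (cons (fin 1293 5 1037)
(mv 1231 (cons (fin 1167 4 974)
(fin 1295 4 1038)))))))))))))
(mv 974 (cons (cons (mv 909 (cons (fin 973 7 909)
(mv 910 (cons (fin 845 7 845)
(mv 1103 (cons (fin 846 4 846)
(fin 1167 4 910)))))))
(mv 1165 (cons (fin 1229 5 973)
(mv 910 (cons (fin 1101 5 909)
(mv 1103 (cons (fin 846 4 846)
(fin 1167 4 910))))))))
(cons (mv 909 (cons (fin 973 7 909)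
(mv 1230 (cons (mv 1229 (cons (fin 1165 5 973)
(fin 1293 5 1037)))
(cons (mv 1294 (cons (fin 1103 6 1038)
(mv 1357 (cons (fin 1293 5 1101)
(mv 1358 (cons (fin 1421 5 1165)
(mv 1359 (cons (fin 1295 4 1102)
(fin 1423 4 1166)))))))))
(mv 1103 (cons (fin 1294 6 1038)
(mv 1100 (cons (fin 1101 2 1036)
(mv 1165 (cons (fin 1229 5 973)
(mv 1104 (cons (fin 1105 1 1101)
(mv 1164 (cons (fin 1163 2 1099)
(fin 1167 2 1100))))))))))))))))
(mv 909 (cons (fin 973 7 909)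
(mv 910 (cons (fin 845 7 845)
(mv 1165 (cons (fin 1101 5 909)
(fin 1229 5 973)))))))))))
(cons (mv 1101 (cons (mv 1100 (cons (fin 1099 2 1035)
(fin 1103 2 1036)))
(cons (mv 974 (cons (cons (mv 909 (cons (fin 973 7 909)
(mv 910 (cons (fin 845 7 845)
(fin 1165 5 909)))))
(mv 909 (cons (fin 973 7 909)
(mv 1231 (cons (fin 1167 4 974)
(mv 1230 (cons (fin 1295 4 1038)
(mv 1294 (cons (fin 1103 6 1038)
(mv 1357 (cons (fin 1293 5 1101)
(mv 1358 (cons (fin 1165 7 1101)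
(fin 1421 5 1165))))))))))))))
(cons (mv 910 (cons (fin 1165 5 909)
(mv 1103 (cons (fin 846 4 846)
(fin 1167 4 910)))))
(mv 909 (cons (fin 973 7 909)
(mv 910 (cons (fin 845 7 845)
(mv 1103 (cons (fin 846 4 846)
(fin 1167 4 910))))))))))
(mv 1100 (cons (fin 1099 2 1035)
(mv 1167 (cons (mv 1168 (cons (fin 1165 3 1100)
(fin 1169 3 1101)))
(cons (mv 974 (cons (fin 1231 4 974)
(mv 909 (cons (fin 973 7 909)
(mv 910 (cons (fin 845 7 845)
(fin 1165 5 909)))))))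
(mv 1168 (cons (fin 1169 3 1101)
(mv 1231 (cons (fin 974 4 974)
(mv 1295 (cons (fin 1359 7 1102)
(fin 1230 4 1038)))))))))))))))
(cons (mv 1230 (cons (cons (mv 1103 (cons (fin 1294 6 1038)
(mv 1100 (cons (fin 1101 2 1036)
(mv 1229 (cons (fin 1293 5 1037)
(mv 974 (cons (fin 1165 5 973)
(mv 909 (cons (fin 973 7 909)
(mv 910 (cons (fin 845 7 845)
(fin 846 4 846)))))))))))))
(mv 1229 (cons (fin 1293 5 1037)
(mv 974 (cons (fin 1165 5 973)
(mv 909 (cons (fin 973 7 909)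
(mv 910 (cons (fin 845 7 845)
(mv 846 (cons (fin 1103 4 846)
(mv 847 (cons (fin 783 6 782)
(fin 911 6 846))))))))))))))
(cons (mv 1229 (cons (fin 1293 5 1037)
(mv 1165 (cons (fin 974 5 973)
(mv 1231 (cons (fin 1295 4 1038)
(mv 1164 (cons (fin 1232 3 1164)
(fin 1163 0 1163)))))))))
(mv 1294 (cons (fin 1103 6 1038)
(mv 1295 (cons (fin 1231 4 1038)
(fin 1359 4 1102))))))))
(mv 1230 (cons (cons (mv 1103 (cons (fin 1294 6 1038)
(mv 1100 (cons (fin 1101 2 1036)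
(mv 1229 (cons (fin 1293 5 1037)
(mv 1231 (cons (fin 1295 4 1038)
(mv 1167 (cons (fin 974 7 974)
(fin 976 6 975)))))))))))
(mv 1229 (cons (fin 1293 5 1037)
(mv 1231 (cons (fin 1295 4 1038)
(mv 974 (cons (fin 1167 4 974)
(mv 909 (cons (fin 973 7 909)
(mv 910 (cons (fin 845 7 845)
(mv 846 (cons (fin 1103 4 846)
(mv 847 (cons (fin 783 6 782)
(fin 911 6 846))))))))))))))))
(cons (mv 1229 (cons (fin 1293 5 1037)
(mv 1231 (cons (fin 1295 4 1038)
(mv 1167 (cons (fin 974 4 974)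
(mv 1168 (cons (fin 1169 1 1165)
(fin 1228 2 1164)))))))))
(cons (mv 1293 (cons (fin 1229 5 1037)
(mv 1294 (cons (fin 1357 5 1101)
(fin 1103 6 1038)))))
(mv 1103 (cons (fin 1294 6 1038)
(mv 1100 (cons (fin 1101 2 1036)
(mv 1231 (cons (fin 1295 4 1038)
(mv 1167 (cons (fin 974 7 974)
(fin 976 6 975)))))))))))))))))))
(cons (mv 1041 (cons (cons (mv 973 (cons (fin 974 3 973)
(mv 978 (cons (fin 977 2 974)
(mv 1042 (cons (fin 1103 1 1038)
(fin 979 2 975)))))))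
(mv 974 (cons (fin 973 3 973)
(mv 977 (cons (fin 978 2 974)
(mv 910 (cons (mv 1103 (cons (fin 846 4 846)
(fin 1167 4 910)))
(cons (mv 845 (cons (fin 909 7 845)
(mv 846 (cons (fin 781 7 781)
(mv 847 (cons (fin 783 6 782)
(fin 911 6 846)))))))
(mv 845 (cons (fin 909 7 845)
(mv 847 (cons (fin 911 6 846)
(mv 1167 (cons (fin 1103 4 910)
(mv 1166 (cons (fin 1231 4 974)
(mv 1229 (cons (fin 1165 5 973)
(mv 1230 (cons (fin 1293 5 1037)
(mv 1168 (cons (fin 1169 1 1165)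
(mv 1104 (cons (fin 1232 6 976)
(mv 913 (cons (fin 849 5 848)
(fin 1105 5 912)))))))))))))))))))))))))))
(cons (mv 974 (cons (fin 973 3 973)
(mv 1103 (cons (fin 1042 1 1038)
(mv 910 (cons (fin 846 4 846)
(fin 1167 4 910)))))))
(cons (mv 974 (cons (fin 973 3 973)
(mv 910 (cons (cons (mv 845 (cons (fin 909 7 845)
(mv 846 (cons (fin 781 7 781)
(mv 847 (cons (fin 783 6 782)
(fin 911 6 846)))))))
(cons (mv 845 (cons (fin 909 7 845)
(mv 846 (cons (fin 781 7 781)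
(mv 977 (cons (fin 978 2 974)
(mv 913 (cons (cons (mv 849 (cons (fin 1104 5 848)
(mv 784 (cons (fin 848 7 784)
(mv 785 (cons (fin 720 7 720)
(fin 976 5 784)))))))
(mv 912 (cons (fin 911 3 845)
(mv 848 (cons (fin 1105 7 848)
(mv 784 (cons (fin 720 4 720)
(fin 976 4 784))))))))
(cons (mv 849 (cons (fin 1104 5 848)
(mv 784 (cons (fin 848 7 784)
(mv 785 (cons (fin 720 7 720)
(mv 786 (cons (fin 722 6 721)
(fin 850 6 785)))))))))
(mv 849 (cons (fin 1104 5 848)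
(mv 785 (cons (fin 976 5 784)
(mv 786 (cons (fin 722 6 721)
(fin 850 6 785))))))))))))))))
(mv 847 (cons (fin 911 6 846)
(mv 846 (cons (fin 783 6 782)
(mv 849 (cons (cons (mv 848 (cons (fin 909 1 845)
(mv 781 (cons (fin 782 3 781)
(mv 785 (cons (fin 786 2 782)
(mv 912 (cons (fin 976 6 784)
(mv 657 (cons (fin 721 5 656)
(mv 913 (cons (fin 914 0 846)
(mv 977 (cons (fin 978 2 974)
(fin 784 7 784)))))))))))))))
(mv 977 (cons (fin 978 2 974)
(mv 913 (cons (fin 1104 5 848)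
(mv 785 (cons (fin 976 5 784)
(mv 786 (cons (fin 722 6 721)
(fin 850 6 785))))))))))
(cons (mv 848 (cons (fin 909 1 845)
(mv 781 (cons (fin 782 3 781)
(mv 786 (cons (fin 785 2 782)
(mv 850 (cons (fin 787 2 783)
(mv 914 (cons (fin 913 0 846)
(fin 915 0 847)))))))))))
(cons (mv 848 (cons (fin 909 1 845)
(mv 781 (cons (fin 782 3 781)
(mv 786 (cons (fin 785 2 782)
(mv 850 (cons (fin 787 2 783)
(mv 914 (cons (fin 915 0 847)
(mv 978 (cons (fin 977 2 974)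
(mv 979 (cons (fin 1042 2 975)
(fin 1043 4 786)))))))))))))))
(mv 848 (cons (fin 909 1 845)
(mv 781 (cons (fin 782 3 781)
(mv 913 (cons (fin 914 0 846)
(mv 977 (cons (fin 978 2 974)
(fin 784 7 784)))))))))))))))))))
(cons (mv 846 (cons (cons (mv 845 (cons (fin 781 7 781)
(fin 909 7 845)))
(mv 847 (cons (fin 783 6 782)
(mv 849 (cons (cons (mv 848 (cons (fin 909 1 845)
(mv 781 (cons (fin 782 3 781)
(mv 785 (cons (fin 786 2 782)
(mv 912 (cons (fin 976 6 784)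
(mv 657 (cons (fin 721 5 656)
(mv 913 (cons (fin 914 0 846)
(mv 977 (cons (fin 978 2 974)
(fin 784 7 784)))))))))))))))
(mv 977 (cons (fin 978 2 974)
(mv 913 (cons (fin 1104 5 848)
(mv 785 (cons (fin 976 5 784)
(mv 786 (cons (fin 722 6 721)
(fin 850 6 785))))))))))
(cons (mv 848 (cons (fin 909 1 845)
(mv 781 (cons (fin 782 3 781)
(mv 786 (cons (fin 785 2 782)
(mv 850 (cons (fin 787 2 783)
(mv 914 (cons (fin 913 0 846)
(fin 915 0 847)))))))))))
(cons (mv 848 (cons (fin 909 1 845)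
(mv 781 (cons (fin 782 3 781)
(mv 786 (cons (fin 785 2 782)
(mv 850 (cons (fin 787 2 783)
(mv 914 (cons (fin 915 0 847)
(mv 978 (cons (fin 977 2 974)
(mv 979 (cons (fin 1042 2 975)
(fin 1043 4 786)))))))))))))))
(mv 848 (cons (fin 909 1 845)
(mv 781 (cons (fin 782 3 781)
(mv 913 (cons (fin 914 0 846)
(mv 977 (cons (fin 978 2 974)
(fin 784 7 784))))))))))))))))
(cons (mv 847 (cons (fin 783 6 782)
(mv 909 (cons (fin 845 7 845)
(mv 849 (cons (fin 848 1 845)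
(mv 907 (cons (fin 908 2 843)
(mv 977 (cons (fin 978 2 974)
(mv 913 (cons (fin 1104 5 848)
(mv 785 (cons (fin 976 5 784)
(mv 786 (cons (fin 722 6 721)
(fin 850 6 785)))))))))))))))))
(mv 781 (cons (fin 845 7 781)
(mv 782 (cons (fin 717 7 717)
(mv 783 (cons (fin 719 6 718)
(fin 847 6 782))))))))))
(cons (mv 847 (cons (fin 911 6 846)
(mv 846 (cons (fin 783 6 782)
(mv 781 (cons (fin 845 7 781)
(mv 782 (cons (fin 717 7 717)
(mv 779 (cons (fin 780 0 779)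
(mv 849 (cons (fin 848 3 781)
(mv 977 (cons (fin 978 2 974)
(mv 913 (cons (fin 1104 5 848)
(mv 785 (cons (fin 976 5 784)
(mv 786 (cons (fin 722 6 721)
(fin 850 6 785)))))))))))))))))))))
(mv 909 (cons (fin 845 7 845)
(mv 911 (cons (fin 847 6 846)
(mv 977 (cons (fin 978 2 974)
(mv 912 (cons (fin 976 0 909)
(mv 849 (cons (fin 848 2 845)
(mv 913 (cons (fin 850 2 846)
(fin 1104 5 848)))))))))))))))))))
(mv 978 (cons (fin 977 2 974)
(mv 1042 (cons (fin 1103 1 1038)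
(fin 979 2 975)))))))))
(cons (mv 1041 (cons (fin 1101 1 1037)
(mv 974 (cons (fin 973 3 973)
(mv 910 (cons (cons (mv 845 (cons (fin 909 7 845)
(mv 846 (cons (fin 781 7 781)
(mv 847 (cons (fin 783 6 782)
(fin 911 6 846)))))))
(cons (mv 845 (cons (fin 909 7 845)
(mv 846 (cons (fin 781 7 781)
(mv 977 (cons (fin 978 2 974)
(mv 913 (cons (cons (mv 849 (cons (fin 1104 5 848)
(mv 784 (cons (fin 848 7 784)
(mv 785 (cons (fin 720 7 720)
(fin 976 5 784)))))))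
(mv 912 (cons (fin 911 3 845)
(mv 848 (cons (fin 1105 7 848)
(mv 784 (cons (fin 720 4 720)
(fin 976 4 784))))))))
(cons (mv 849 (cons (fin 1104 5 848)
(mv 784 (cons (fin 848 7 784)
(mv 785 (cons (fin 720 7 720)
(mv 786 (cons (fin 722 6 721)
(fin 850 6 785)))))))))
(mv 849 (cons (fin 1104 5 848)
(mv 785 (cons (fin 976 5 784)
(mv 786 (cons (fin 722 6 721)
(fin 850 6 785))))))))))))))))
(mv 847 (cons (fin 911 6 846)
(mv 846 (cons (fin 783 6 782)
(mv 849 (cons (cons (mv 848 (cons (fin 909 1 845)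
(mv 781 (cons (fin 782 3 781)
(mv 785 (cons (fin 786 2 782)
(mv 912 (cons (fin 976 6 784)
(mv 657 (cons (fin 721 5 656)
(mv 913 (cons (fin 914 0 846)
(mv 977 (cons (fin 978 2 974)
(fin 784 7 784)))))))))))))))
(mv 977 (cons (fin 978 2 974)
(mv 913 (cons (fin 1104 5 848)
(mv 785 (cons (fin 976 5 784)
(mv 786 (cons (fin 722 6 721)
(fin 850 6 785))))))))))
(cons (mv 848 (cons (fin 909 1 845)
(mv 781 (cons (fin 782 3 781)
(mv 786 (cons (fin 785 2 782)
(mv 850 (cons (fin 787 2 783)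
(mv 914 (cons (fin 913 0 846)
(fin 915 0 847)))))))))))
(cons (mv 848 (cons (fin 909 1 845)
(mv 781 (cons (fin 782 3 781)
(mv 786 (cons (fin 785 2 782)
(mv 850 (cons (fin 787 2 783)
(mv 914 (cons (fin 915 0 847)
(mv 978 (cons (fin 977 2 974)
(mv 979 (cons (fin 1042 2 975)
(fin 1043 4 786)))))))))))))))
(mv 848 (cons (fin 909 1 845)
(mv 781 (cons (fin 782 3 781)
(mv 913 (cons (fin 914 0 846)
(mv 977 (cons (fin 978 2 974)
(fin 784 7 784)))))))))))))))))))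
(cons (mv 846 (cons (cons (mv 845 (cons (fin 781 7 781)
(fin 909 7 845)))
(mv 847 (cons (fin 783 6 782)
(mv 849 (cons (cons (mv 848 (cons (fin 909 1 845)
(mv 781 (cons (fin 782 3 781)
(mv 785 (cons (fin 786 2 782)
(mv 912 (cons (fin 976 6 784)
(mv 657 (cons (fin 721 5 656)
(mv 913 (cons (fin 914 0 846)
(mv 977 (cons (fin 978 2 974)
(fin 784 7 784)))))))))))))))
(mv 977 (cons (fin 978 2 974)
(mv 913 (cons (fin 1104 5 848)
(mv 785 (cons (fin 976 5 784)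
(mv 786 (cons (fin 722 6 721)
(fin 850 6 785))))))))))
(cons (mv 848 (cons (fin 909 1 845)
(mv 781 (cons (fin 782 3 781)
(mv 786 (cons (fin 785 2 782)
(mv 850 (cons (fin 787 2 783)
(mv 914 (cons (fin 913 0 846)
(fin 915 0 847)))))))))))
(cons (mv 848 (cons (fin 909 1 845)
(mv 781 (cons (fin 782 3 781)
(mv 786 (cons (fin 785 2 782)
(mv 850 (cons (fin 787 2 783)
(mv 914 (cons (fin 915 0 847)
(mv 978 (cons (fin 977 2 974)
(mv 979 (cons (fin 1042 2 975)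
(fin 1043 4 786)))))))))))))))
(mv 848 (cons (fin 909 1 845)
(mv 781 (cons (fin 782 3 781)
(mv 913 (cons (fin 914 0 846)
(mv 977 (cons (fin 978 2 974)
(fin 784 7 784))))))))))))))))
(cons (mv 847 (cons (fin 783 6 782)
(mv 909 (cons (fin 845 7 845)
(mv 849 (cons (fin 848 1 845)
(mv 907 (cons (fin 908 2 843)
(mv 977 (cons (fin 978 2 974)
(mv 913 (cons (fin 1104 5 848)
(mv 785 (cons (fin 976 5 784)
(mv 786 (cons (fin 722 6 721)
(fin 850 6 785)))))))))))))))))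
(mv 781 (cons (fin 845 7 781)
(mv 782 (cons (fin 717 7 717)
(mv 783 (cons (fin 719 6 718)
(fin 847 6 782))))))))))
(cons (mv 847 (cons (fin 911 6 846)
(mv 846 (cons (fin 783 6 782)
(mv 781 (cons (fin 845 7 781)
(mv 782 (cons (fin 717 7 717)
(mv 779 (cons (fin 780 0 779)
(mv 849 (cons (fin 848 3 781)
(mv 977 (cons (fin 978 2 974)
(mv 913 (cons (fin 1104 5 848)
(mv 785 (cons (fin 976 5 784)
(mv 786 (cons (fin 722 6 721)
(fin 850 6 785)))))))))))))))))))))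
(mv 909 (cons (fin 845 7 845)
(mv 911 (cons (fin 847 6 846)
(mv 977 (cons (fin 978 2 974)
(mv 912 (cons (fin 976 0 909)
(mv 849 (cons (fin 848 2 845)
(mv 913 (cons (fin 850 2 846)
(fin 1104 5 848)))))))))))))))))))))
(mv 1041 (cons (fin 1101 1 1037)
(mv 978 (cons (fin 977 2 974)
(mv 1042 (cons (fin 1103 1 1038)
(fin 979 2 975))))))))))))
(cons (mv 1037 (cons (cons (mv 972 (cons (fin 973 3 972)
(mv 976 (cons (fin 977 2 973)
(mv 1036 (cons (fin 971 3 971)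
(mv 1100 (cons (fin 1099 1 1035)
(fin 1101 1 1036)))))))))
(mv 972 (cons (fin 973 3 972)
(mv 976 (cons (fin 977 2 973)
(mv 1036 (cons (fin 971 3 971)
(mv 1104 (cons (fin 1103 0 1036)
(fin 1105 0 1037))))))))))
(cons (mv 976 (cons (fin 977 2 973)
(mv 1100 (cons (fin 1101 1 1036)
(mv 1036 (cons (fin 1099 1 1035)
(mv 1104 (cons (fin 1103 0 1036)
(fin 1105 0 1037)))))))))
(cons (mv 972 (cons (fin 973 3 972)
(mv 1036 (cons (fin 971 3 971)
(mv 1100 (cons (fin 1099 1 1035)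
(fin 1101 1 1036)))))))
(mv 972 (cons (fin 973 3 972)
(mv 976 (cons (fin 977 2 973)
(mv 1100 (cons (fin 1101 1 1036)
(mv 1104 (cons (fin 1105 0 1037)
(mv 912 (cons (mv 1103 (cons (fin 848 5 847)
(fin 1167 5 911)))
(cons (mv 847 (cons (fin 911 7 847)
(mv 848 (cons (fin 783 7 783)
(mv 849 (cons (fin 785 6 784)
(fin 913 6 848)))))))
(mv 847 (cons (fin 911 7 847)
(mv 849 (cons (fin 913 6 848)
(mv 1168 (cons (cons (mv 1167 (cons (fin 1103 5 911)
(fin 1231 5 975)))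
(mv 1233 (cons (fin 1169 4 976)
(mv 1232 (cons (fin 1297 4 1040)
(mv 1295 (cons (fin 1231 5 1039)
(mv 1296 (cons (fin 1103 7 1039)
(fin 1359 5 1103))))))))))
(cons (mv 1231 (cons (fin 1167 5 975)
(mv 1232 (cons (fin 1295 5 1039)
(mv 1233 (cons (fin 1169 4 976)
(fin 1297 4 1040)))))))
(mv 1103 (cons (fin 1167 5 911)
(mv 1232 (cons (fin 1296 7 1039)
(mv 1233 (cons (fin 1169 4 976)
(fin 1297 4 1040)))))))))))))))))))))))))))))
(mv 1037 (cons (cons (mv 972 (cons (fin 973 3 972)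
(mv 976 (cons (fin 977 2 973)
(mv 1036 (cons (fin 971 3 971)
(mv 1104 (cons (fin 1103 0 1036)
(fin 1105 0 1037)))))))))
(mv 976 (cons (fin 977 2 973)
(mv 1104 (cons (fin 1105 0 1037)
(mv 1036 (cons (fin 1103 0 1036)
(mv 971 (cons (fin 972 3 971)
(mv 1035 (cons (fin 970 3 970)
(mv 1099 (cons (fin 1098 1 1034)
(fin 1100 1 1035))))))))))))))
(cons (mv 976 (cons (fin 977 2 973)
(mv 1104 (cons (fin 1105 0 1037)
(mv 1103 (cons (fin 1036 0 1036)
(mv 912 (cons (fin 848 5 847)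
(fin 1167 5 911)))))))))
(cons (mv 973 (cons (fin 972 3 972)
(mv 977 (cons (fin 976 2 973)
(mv 1041 (cons (fin 974 3 973)
(fin 978 2 974)))))))
(mv 972 (cons (fin 973 3 972)
(mv 1036 (cons (fin 971 3 971)
(mv 1104 (cons (fin 1103 0 1036)
(fin 1105 0 1037)))))))))))))
(cons (cons (mv 1037 (cons (cons (mv 976 (cons (fin 977 2 973)
(mv 1100 (cons (fin 1101 1 1036)
(mv 1036 (cons (fin 1099 1 1035)
(mv 1104 (cons (fin 1103 0 1036)
(fin 1105 0 1037)))))))))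
(mv 976 (cons (fin 977 2 973)
(mv 1104 (cons (fin 1105 0 1037)
(mv 1036 (cons (fin 1103 0 1036)
(mv 971 (cons (fin 972 3 971)
(mv 1035 (cons (fin 970 3 970)
(mv 1099 (cons (fin 1098 1 1034)
(fin 1100 1 1035))))))))))))))
(cons (mv 976 (cons (fin 977 2 973)
(mv 1104 (cons (fin 1105 0 1037)
(mv 1103 (cons (fin 1036 0 1036)
(mv 912 (cons (fin 848 5 847)
(fin 1167 5 911)))))))))
(cons (mv 977 (cons (fin 976 2 973)
(mv 1041 (cons (fin 978 2 974)
(mv 1101 (cons (fin 1100 1 1036)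
(fin 1102 1 1037)))))))
(mv 1100 (cons (fin 1101 1 1036)
(mv 1036 (cons (fin 1099 1 1035)
(mv 1104 (cons (fin 1103 0 1036)
(fin 1105 0 1037)))))))))))
(mv 1037 (cons (cons (mv 972 (cons (fin 973 3 972)
(mv 1036 (cons (fin 971 3 971)
(mv 1100 (cons (fin 1099 1 1035)
(fin 1101 1 1036)))))))
(mv 972 (cons (fin 973 3 972)
(mv 1036 (cons (fin 971 3 971)
(mv 1104 (cons (fin 1103 0 1036)
(fin 1105 0 1037))))))))
(cons (mv 1100 (cons (fin 1101 1 1036)
(mv 1036 (cons (fin 1099 1 1035)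
(mv 1104 (cons (fin 1103 0 1036)
(fin 1105 0 1037)))))))
(mv 973 (cons (fin 972 3 972)
(mv 974 (cons (fin 1041 3 973)
(mv 1101 (cons (fin 1100 1 1036)
(mv 910 (cons (fin 846 5 845)
(fin 1165 6 909)))))))))))))
(cons (mv 1037 (cons (cons (mv 972 (cons (fin 973 3 972)
(mv 976 (cons (fin 977 2 973)
(mv 1036 (cons (fin 971 3 971)
(mv 1104 (cons (fin 1103 0 1036)
(fin 1105 0 1037)))))))))
(cons (mv 976 (cons (fin 977 2 973)
(mv 1104 (cons (fin 1105 0 1037)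
(mv 1103 (cons (fin 1036 0 1036)
(mv 912 (cons (fin 848 5 847)
(fin 1167 5 911)))))))))
(mv 972 (cons (fin 973 3 972)
(mv 977 (cons (fin 976 2 973)
(mv 1036 (cons (fin 971 3 971)
(mv 1041 (cons (fin 978 2 974)
(mv 1102 (cons (fin 1101 1 1037)
(mv 1103 (cons (fin 1042 1 1038)
(fin 1035 0 1035)))))))))))))))
(cons (mv 972 (cons (fin 973 3 972)
(mv 1036 (cons (fin 971 3 971)
(mv 1104 (cons (fin 1103 0 1036)
(fin 1105 0 1037)))))))
(cons (mv 973 (cons (fin 972 3 972)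
(mv 976 (cons (fin 977 2 973)
(mv 1041 (cons (fin 974 3 973)
(mv 1102 (cons (fin 1101 1 1037)
(mv 845 (cons (fin 909 4 845)
(mv 1103 (cons (fin 1042 1 1038)
(mv 912 (cons (fin 848 5 847)
(mv 1104 (cons (fin 1105 3 1037)
(fin 1167 5 911)))))))))))))))))
(mv 973 (cons (fin 972 3 972)
(mv 977 (cons (fin 976 2 973)
(mv 1041 (cons (fin 974 3 973)
(fin 978 2 974)))))))))))
(mv 1037 (cons (cons (mv 972 (cons (fin 973 3 972)
(mv 971 (cons (fin 1036 3 971)
(mv 977 (cons (fin 976 2 973)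
(mv 1041 (cons (fin 978 2 974)
(mv 1101 (cons (fin 1100 1 1036)
(fin 1102 1 1037)))))))))))
(mv 973 (cons (fin 972 3 972)
(mv 977 (cons (fin 976 2 973)
(mv 1041 (cons (fin 974 3 973)
(fin 978 2 974))))))))
(cons (mv 977 (cons (fin 976 2 973)
(mv 1041 (cons (fin 978 2 974)
(mv 1101 (cons (fin 1100 1 1036)
(fin 1102 1 1037)))))))
(mv 972 (cons (fin 973 3 972)
(mv 1036 (cons (fin 971 3 971)
(mv 1100 (cons (fin 1099 1 1035)
(fin 1101 1 1036))))))))))))))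
(mv 1038 (cons (cons (cons (mv 1037 (cons (cons (mv 972 (cons (fin 973 3 972)
(mv 971 (cons (fin 1036 3 971)
(mv 1101 (cons (fin 1100 1 1036)
(mv 1041 (cons (fin 1102 1 1037)
(mv 978 (cons (fin 977 2 974)
(mv 1042 (cons (fin 979 2 975)
(mv 975 (cons (fin 974 3 974)
(mv 1104 (cons (fin 1105 0 1037)
(mv 911 (cons (fin 847 4 847)
(mv 1103 (cons (fin 1043 1 1039)
(fin 1168 4 911)))))))))))))))))))))
(mv 972 (cons (fin 973 3 972)
(mv 1036 (cons (fin 971 3 971)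
(mv 1104 (cons (fin 1103 0 1036)
(fin 1105 0 1037))))))))
(cons (mv 1100 (cons (fin 1101 1 1036)
(mv 1036 (cons (fin 1099 1 1035)
(mv 1104 (cons (fin 1103 0 1036)
(fin 1105 0 1037)))))))
(cons (mv 972 (cons (fin 973 3 972)
(mv 1036 (cons (fin 971 3 971)
(mv 1100 (cons (fin 1099 1 1035)
(fin 1101 1 1036)))))))
(mv 972 (cons (fin 973 3 972)
(mv 1101 (cons (fin 1100 1 1036)
(mv 1041 (cons (fin 1102 1 1037)
(mv 978 (cons (fin 977 2 974)
(mv 1042 (cons (fin 979 2 975)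
(mv 975 (cons (fin 974 3 974)
(mv 1104 (cons (fin 1105 0 1037)
(mv 911 (cons (fin 847 4 847)
(mv 1103 (cons (fin 1043 1 1039)
(fin 1168 4 911)))))))))))))))))))))))
(mv 1041 (cons (cons (mv 973 (cons (fin 974 3 973)
(mv 978 (cons (fin 977 2 974)
(mv 1042 (cons (fin 979 2 975)
(mv 1102 (cons (fin 1101 1 1037)
(fin 1103 1 1038)))))))))
(mv 974 (cons (fin 973 3 973)
(mv 978 (cons (fin 977 2 974)
(mv 1042 (cons (fin 975 3 974)
(fin 979 2 975))))))))
(cons (mv 978 (cons (fin 977 2 974)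
(mv 1042 (cons (fin 979 2 975)
(mv 1102 (cons (fin 1101 1 1037)
(fin 1103 1 1038)))))))
(cons (mv 974 (cons (fin 973 3 973)
(mv 975 (cons (fin 1042 3 974)
(mv 1102 (cons (fin 1101 1 1037)
(mv 911 (cons (fin 847 5 846)
(fin 1166 6 910)))))))))
(mv 974 (cons (fin 973 3 973)
(mv 977 (cons (fin 978 2 974)
(mv 1101 (cons (fin 1102 1 1037)
(mv 913 (cons (cons (mv 849 (cons (fin 1104 5 848)
(mv 784 (cons (fin 848 7 784)
(mv 785 (cons (fin 720 7 720)
(mv 786 (cons (fin 722 6 721)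
(fin 850 6 785)))))))))
(mv 1105 (cons (cons (mv 848 (cons (fin 912 7 848)
(mv 850 (cons (fin 914 6 849)
(mv 1168 (cons (fin 1104 5 912)
(mv 1169 (cons (fin 1232 5 976)
(mv 1234 (cons (fin 1170 4 977)
(mv 1233 (cons (fin 1298 4 1041)
(mv 1167 (cons (fin 1166 0 1166)
(mv 1103 (cons (fin 1231 7 974)
(mv 910 (cons (fin 975 7 910)
(fin 846 4 846)))))))))))))))))))
(mv 912 (cons (fin 848 7 848)
(mv 914 (cons (fin 850 6 849)
(mv 911 (cons (fin 975 1 910)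
(mv 846 (cons (fin 847 3 846)
(mv 910 (cons (fin 845 3 845)
(fin 1103 4 846))))))))))))
(cons (mv 848 (cons (fin 912 7 848)
(mv 1168 (cons (fin 1104 5 912)
(mv 1169 (cons (fin 1232 5 976)
(mv 1234 (cons (fin 1170 4 977)
(mv 1233 (cons (fin 1298 4 1041)
(mv 1167 (cons (fin 1166 0 1166)
(mv 1103 (cons (fin 1231 7 974)
(mv 910 (cons (fin 975 7 910)
(fin 846 4 846)))))))))))))))))
(cons (mv 850 (cons (fin 914 6 849)
(mv 1168 (cons (fin 1104 5 912)
(mv 1169 (cons (fin 1232 5 976)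
(mv 1234 (cons (fin 1170 4 977)
(mv 1233 (cons (fin 1298 4 1041)
(mv 1167 (cons (fin 1166 0 1166)
(mv 1103 (cons (fin 1231 7 974)
(mv 910 (cons (fin 975 7 910)
(fin 846 4 846)))))))))))))))))
(mv 848 (cons (fin 912 7 848)
(mv 850 (cons (fin 914 6 849)
(mv 1169 (cons (cons (mv 1168 (cons (fin 1104 5 912)
(fin 1232 5 976)))
(mv 1234 (cons (fin 1170 4 977)
(mv 1233 (cons (fin 1298 4 1041)
(mv 1296 (cons (fin 1232 5 1040)
(mv 1297 (cons (fin 1104 7 1040)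
(fin 1360 5 1104))))))))))
(cons (mv 1232 (cons (fin 1168 5 976)
(mv 1233 (cons (fin 1296 5 1040)
(mv 1234 (cons (fin 1170 4 977)
(fin 1298 4 1041)))))))
(mv 1104 (cons (fin 1168 5 912)
(mv 1233 (cons (fin 1297 7 1040)
(mv 1234 (cons (fin 1170 4 977)
(fin 1298 4 1041)))))))))))))))))))
(cons (mv 848 (cons (cons (mv 784 (cons (fin 849 7 784)
(mv 912 (cons (fin 1105 7 848)
(fin 720 4 720)))))
(mv 912 (cons (fin 1105 7 848)
(mv 720 (cons (fin 784 4 720)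
(mv 846 (cons (cons (mv 845 (cons (fin 847 0 845)
(mv 910 (cons (fin 911 3 845)
(fin 781 7 781)))))
(mv 847 (cons (fin 845 0 845)
(mv 914 (cons (fin 911 3 846)
(fin 915 3 847))))))
(cons (mv 910 (cons (fin 1103 4 846)
(mv 845 (cons (fin 911 3 845)
(fin 781 7 781)))))
(mv 910 (cons (fin 1103 4 846)
(mv 782 (cons (fin 975 4 782)
(mv 783 (cons (fin 719 6 718)
(fin 847 6 782)))))))))))))))
(cons (mv 849 (cons (fin 784 7 784)
(mv 786 (cons (fin 850 6 785)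
(mv 785 (cons (fin 722 6 721)
(mv 787 (cons (fin 788 1 784)
(mv 846 (cons (fin 847 2 782)
(mv 910 (cons (fin 1103 4 846)
(mv 781 (cons (fin 845 7 781)
(mv 782 (cons (fin 717 7 717)
(fin 975 4 782)))))))))))))))))
(mv 912 (cons (fin 1105 7 848)
(mv 914 (cons (mv 847 (cons (fin 915 3 847)
(mv 846 (cons (fin 911 3 846)
(fin 845 0 845)))))
(cons (mv 847 (cons (fin 915 3 847)
(mv 846 (cons (fin 845 0 845)
(fin 849 0 846)))))
(mv 911 (cons (fin 975 1 910)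
(mv 850 (cons (fin 851 2 847)
(mv 786 (cons (fin 722 5 721)
(fin 849 6 785)))))))))))))))
(mv 1104 (cons (fin 849 5 848)
(mv 1168 (cons (fin 1105 5 912)
(fin 1232 6 976)))))))))))))))))))
(cons (mv 1037 (cons (cons (mv 972 (cons (fin 973 3 972)
(mv 1036 (cons (fin 971 3 971)
(mv 1100 (cons (fin 1099 1 1035)
(fin 1101 1 1036)))))))
(mv 1100 (cons (fin 1101 1 1036)
(mv 1036 (cons (fin 1099 1 1035)
(mv 1104 (cons (fin 1103 0 1036)
(fin 1105 0 1037))))))))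
(cons (mv 972 (cons (fin 973 3 972)
(mv 1036 (cons (fin 971 3 971)
(mv 1104 (cons (fin 1103 0 1036)
(fin 1105 0 1037)))))))
(mv 972 (cons (fin 973 3 972)
(mv 1101 (cons (fin 1100 1 1036)
(mv 1104 (cons (fin 1105 0 1037)
(mv 1165 (cons (cons (mv 974 (cons (fin 1229 6 973)
(mv 910 (cons (fin 846 5 845)
(fin 1102 5 909)))))
(mv 1102 (cons (cons (mv 910 (cons (fin 974 5 909)
(mv 1103 (cons (fin 1164 1 1100)
(mv 1168 (cons (fin 1169 0 1101)
(mv 975 (cons (fin 1232 7 975)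
(fin 911 4 911)))))))))
(mv 974 (cons (fin 910 5 909)
(mv 1166 (cons (mv 975 (cons (fin 911 6 910)
(fin 1230 6 974)))
(cons (mv 1230 (cons (fin 1294 7 1037)
(mv 1231 (cons (fin 1167 4 974)
(fin 1295 4 1038)))))
(mv 975 (cons (fin 911 6 910)
(mv 1167 (cons (fin 1231 4 974)
(mv 1168 (cons (fin 1169 3 1101)
(fin 1232 7 975)))))))))))))
(cons (mv 1103 (cons (fin 1164 1 1100)
(mv 1168 (cons (fin 1169 0 1101)
(mv 975 (cons (fin 1232 7 975)
(fin 911 4 911)))))))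
(cons (mv 910 (cons (fin 974 5 909)
(mv 1103 (cons (fin 1164 1 1100)
(mv 1168 (cons (fin 1169 0 1101)
(mv 1232 (cons (fin 1296 7 1039)
(mv 1231 (cons (fin 1295 5 1039)
(mv 1233 (cons (fin 1297 4 1040)
(mv 1166 (cons (fin 1230 3 1165)
(fin 1167 0 1165)))))))))))))))
(mv 910 (cons (fin 974 5 909)
(mv 1164 (cons (fin 1103 1 1100)
(mv 1163 (cons (fin 1162 2 1098)
(mv 1166 (cons (mv 1230 (cons (fin 1231 0 1163)
(fin 1294 7 1037)))
(mv 1099 (cons (fin 1098 3 1098)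
(mv 1227 (cons (fin 1226 1 1162)
(mv 1228 (cons (fin 1167 1 1163)
(mv 1035 (cons (fin 971 4 971)
(fin 1292 4 1035))))))))))))))))))))))
(cons (mv 1229 (cons (cons (mv 1102 (cons (fin 1293 6 1037)
(mv 1103 (cons (fin 1164 1 1100)
(mv 1168 (cons (fin 1169 0 1101)
(mv 975 (cons (fin 1232 7 975)
(fin 911 4 911)))))))))
(mv 1228 (cons (fin 1292 5 1036)
(mv 1230 (cons (fin 1294 4 1037)
(mv 1231 (cons (mv 1164 (cons (fin 1163 3 1163)
(fin 1232 3 1164)))
(mv 1167 (cons (fin 1168 2 1164)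
(mv 1295 (cons (fin 1296 0 1228)
(fin 1103 6 1039))))))))))))
(cons (mv 1102 (cons (fin 1293 6 1037)
(mv 1103 (cons (fin 1164 1 1100)
(mv 1228 (cons (fin 1292 5 1036)
(mv 1230 (cons (fin 1294 4 1037)
(mv 1166 (cons (fin 975 6 974)
(mv 1227 (cons (fin 1226 2 1162)
(fin 1167 2 1163)))))))))))))
(cons (mv 1102 (cons (fin 1293 6 1037)
(mv 1228 (cons (fin 1292 5 1036)
(mv 1230 (cons (fin 1294 4 1037)
(mv 975 (cons (fin 1166 6 974)
(mv 911 (cons (fin 847 5 846)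
(mv 1168 (cons (fin 1232 7 975)
(fin 1103 4 911)))))))))))))
(mv 1102 (cons (fin 1293 6 1037)
(mv 1228 (cons (fin 1292 5 1036)
(mv 1230 (cons (fin 1294 4 1037)
(mv 975 (cons (fin 1166 6 974)
(mv 847 (cons (fin 911 5 846)
(mv 1232 (cons (fin 1168 7 975)
(mv 1231 (cons (fin 1164 3 1164)
(mv 1296 (cons (fin 1295 0 1228)
(fin 1297 0 1229)))))))))))))))))))))
(mv 1229 (cons (fin 974 6 973)
(mv 1230 (cons (fin 1294 4 1037)
(mv 1292 (cons (fin 1228 5 1036)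
(mv 1293 (cons (fin 1356 5 1100)
(mv 1232 (cons (fin 1231 1 1228)
(mv 1168 (cons (fin 975 7 975)
(mv 1233 (cons (fin 1297 4 1040)
(mv 1166 (cons (fin 1167 0 1165)
(mv 1296 (cons (fin 1103 7 1039)
(mv 1357 (cons (fin 1421 6 1165)
(mv 1358 (cons (fin 1422 4 1165)
(mv 1359 (cons (fin 1360 3 1292)
(fin 1295 5 1103)))))))))))))))))))))))))))))))))))))
(mv 1037 (cons (cons (mv 972 (cons (fin 973 3 972)
(mv 1036 (cons (fin 971 3 971)
(mv 1104 (cons (fin 1103 0 1036)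
(fin 1105 0 1037)))))))
(mv 1104 (cons (fin 1105 0 1037)
(mv 1036 (cons (fin 1103 0 1036)
(mv 971 (cons (fin 972 3 971)
(mv 1035 (cons (fin 970 3 970)
(mv 1099 (cons (fin 1098 1 1034)
(fin 1100 1 1035))))))))))))
(cons (mv 973 (cons (fin 972 3 972)
(mv 974 (cons (fin 1041 3 973)
(mv 1102 (cons (mv 909 (cons (fin 1166 7 909)
(fin 845 4 845)))
(cons (mv 909 (cons (fin 845 4 845)
(mv 910 (cons (mv 846 (cons (fin 782 5 781)
(fin 1103 4 846)))
(cons (mv 911 (cons (fin 847 6 846)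
(mv 912 (cons (fin 913 1 909)
(mv 848 (cons (fin 849 2 845)
(mv 1103 (cons (fin 975 6 847)
(fin 1167 4 910)))))))))
(mv 846 (cons (fin 782 5 781)
(mv 847 (cons (fin 783 6 782)
(fin 911 6 846))))))))))
(mv 1166 (cons (fin 1230 7 973)
(mv 911 (cons (fin 975 6 910)
(mv 910 (cons (fin 847 6 846)
(mv 846 (cons (fin 782 5 781)
(fin 1103 4 846))))))))))))))))
(cons (mv 1104 (cons (fin 1105 0 1037)
(mv 1036 (cons (fin 1103 0 1036)
(mv 1099 (cons (fin 1100 1 1035)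
(mv 1035 (cons (fin 1098 1 1034)
(mv 970 (cons (fin 971 3 970)
(mv 974 (cons (fin 975 2 971)
(mv 973 (cons (fin 1041 3 973)
(fin 1034 2 970)))))))))))))))
(mv 1104 (cons (fin 1105 0 1037)
(mv 1036 (cons (cons (mv 972 (cons (fin 971 3 971)
(fin 973 3 972)))
(mv 1099 (cons (fin 1100 1 1035)
(mv 1035 (cons (fin 1098 1 1034)
(mv 970 (cons (fin 971 3 970)
(mv 974 (cons (fin 975 2 971)
(mv 973 (cons (fin 1041 3 973)
(fin 1034 2 970))))))))))))
(cons (mv 971 (cons (fin 972 3 971)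
(mv 1035 (cons (fin 970 3 970)
(mv 1099 (cons (fin 1098 1 1034)
(fin 1100 1 1035)))))))
(mv 973 (cons (fin 972 3 972)
(mv 974 (cons (fin 1041 3 973)
(mv 1035 (cons (fin 1034 2 970)
(fin 975 2 971))))))))))))))))))
(cons (cons (mv 1037 (cons (cons (mv 1100 (cons (fin 1101 1 1036)
(mv 1036 (cons (fin 1099 1 1035)
(mv 1104 (cons (fin 1103 0 1036)
(fin 1105 0 1037)))))))
(cons (mv 1104 (cons (fin 1105 0 1037)
(mv 1036 (cons (fin 1103 0 1036)
(mv 971 (cons (fin 972 3 971)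
(mv 1035 (cons (fin 970 3 970)
(mv 1099 (cons (fin 1098 1 1034)
(fin 1100 1 1035)))))))))))
(mv 1101 (cons (fin 1100 1 1036)
(mv 1102 (cons (fin 1041 1 1037)
(mv 974 (cons (mv 910 (cons (fin 846 5 845)
(fin 1165 5 909)))
(cons (mv 1165 (cons (fin 1229 6 973)
(mv 1166 (cons (mv 975 (cons (fin 911 6 910)
(fin 1230 6 974)))
(cons (mv 975 (cons (fin 911 6 910)
(mv 1035 (cons (fin 1036 2 971)
(mv 1167 (cons (fin 1231 4 974)
(mv 1168 (cons (fin 1169 3 1101)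
(mv 1232 (cons (fin 1233 0 1165)
(fin 1103 4 975)))))))))))
(mv 1230 (cons (fin 1294 7 1037)
(mv 1231 (cons (fin 1167 4 974)
(fin 1295 4 1038))))))))))
(mv 910 (cons (fin 846 5 845)
(mv 845 (cons (fin 909 7 845)
(mv 847 (cons (fin 911 6 846)
(mv 1167 (cons (fin 1103 4 910)
(mv 1166 (cons (fin 1231 4 974)
(mv 1230 (cons (fin 1294 7 1037)
(fin 975 6 974))))))))))))))))))))))
(cons (mv 1104 (cons (fin 1105 0 1037)
(mv 1103 (cons (fin 1036 0 1036)
(mv 1041 (cons (mv 1042 (cons (fin 1102 1 1038)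
(fin 1043 1 1039)))
(cons (mv 977 (cons (fin 978 2 974)
(mv 849 (cons (fin 913 5 848)
(mv 1042 (cons (fin 1043 1 1039)
(mv 975 (cons (fin 974 3 974)
(mv 911 (cons (fin 847 4 847)
(fin 1168 4 911)))))))))))
(mv 977 (cons (fin 978 2 974)
(mv 849 (cons (fin 913 5 848)
(mv 1101 (cons (fin 1102 1 1037)
(mv 1168 (cons (fin 1232 6 976)
(mv 975 (cons (fin 911 4 911)
(mv 1167 (cons (mv 974 (cons (fin 910 7 910)
(fin 1231 7 974)))
(cons (mv 1230 (cons (fin 1166 5 974)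
(mv 1231 (cons (fin 1294 5 1038)
(fin 1295 6 1039)))))
(mv 974 (cons (fin 910 7 910)
(mv 1165 (cons (fin 1229 6 973)
(mv 1166 (cons (fin 1164 2 1100)
(fin 1230 5 974)))))))))))))))))))))))))))
(cons (mv 1101 (cons (fin 1100 1 1036)
(mv 1041 (cons (fin 1102 1 1037)
(mv 978 (cons (fin 977 2 974)
(mv 1042 (cons (fin 979 2 975)
(mv 975 (cons (fin 974 3 974)
(mv 1104 (cons (fin 1105 0 1037)
(mv 911 (cons (fin 847 4 847)
(mv 1103 (cons (fin 1043 1 1039)
(fin 1168 4 911)))))))))))))))))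
(mv 1101 (cons (fin 1100 1 1036)
(mv 1102 (cons (fin 1041 1 1037)
(mv 1104 (cons (fin 1105 0 1037)
(mv 974 (cons (mv 910 (cons (fin 846 5 845)
(fin 1165 5 909)))
(cons (mv 910 (cons (fin 846 5 845)
(mv 845 (cons (fin 909 7 845)
(mv 911 (cons (fin 847 6 846)
(mv 1166 (cons (fin 975 6 910)
(mv 1230 (cons (fin 1294 7 1037)
(mv 1231 (cons (fin 1167 4 974)
(fin 1295 4 1038)))))))))))))
(mv 1165 (cons (fin 1229 6 973)
(mv 1166 (cons (mv 975 (cons (fin 911 6 910)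
(fin 1230 6 974)))
(cons (mv 1230 (cons (fin 1294 7 1037)
(mv 1231 (cons (fin 1167 4 974)
(fin 1295 4 1038)))))
(mv 975 (cons (fin 911 6 910)
(mv 1035 (cons (fin 1036 2 971)
(mv 1167 (cons (fin 1231 4 974)
(mv 1168 (cons (fin 1169 3 1101)
(fin 1232 7 975)))))))))))))))))))))))))))
(mv 1037 (cons (cons (mv 972 (cons (fin 973 3 972)
(mv 1036 (cons (fin 971 3 971)
(mv 1100 (cons (fin 1099 1 1035)
(fin 1101 1 1036)))))))
(mv 1100 (cons (fin 1101 1 1036)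
(mv 1036 (cons (fin 1099 1 1035)
(mv 1104 (cons (fin 1103 0 1036)
(fin 1105 0 1037))))))))
(cons (mv 972 (cons (fin 973 3 972)
(mv 1036 (cons (fin 971 3 971)
(mv 1104 (cons (fin 1103 0 1036)
(fin 1105 0 1037)))))))
(mv 973 (cons (fin 972 3 972)
(mv 974 (cons (fin 1041 3 973)
(mv 1101 (cons (fin 1100 1 1036)
(mv 910 (cons (fin 846 5 845)
(fin 1165 6 909)))))))))))))
(cons (mv 1037 (cons (cons (mv 972 (cons (fin 973 3 972)
(mv 1036 (cons (fin 971 3 971)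
(mv 1100 (cons (fin 1099 1 1035)
(fin 1101 1 1036)))))))
(mv 972 (cons (fin 973 3 972)
(mv 1036 (cons (fin 971 3 971)
(mv 1104 (cons (fin 1103 0 1036)
(fin 1105 0 1037))))))))
(cons (mv 1100 (cons (fin 1101 1 1036)
(mv 1036 (cons (fin 1099 1 1035)
(mv 1104 (cons (fin 1103 0 1036)
(fin 1105 0 1037)))))))
(mv 973 (cons (fin 972 3 972)
(mv 1101 (cons (fin 1100 1 1036)
(mv 1102 (cons (fin 1041 1 1037)
(mv 909 (cons (fin 845 4 845)
(fin 1166 4 909))))))))))))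
(cons (mv 1041 (cons (cons (mv 973 (cons (fin 974 3 973)
(mv 972 (cons (fin 1037 3 972)
(mv 978 (cons (fin 977 2 974)
(mv 1042 (cons (fin 979 2 975)
(mv 1102 (cons (fin 1101 1 1037)
(fin 1103 1 1038)))))))))))
(mv 978 (cons (fin 977 2 974)
(mv 1042 (cons (fin 979 2 975)
(mv 1102 (cons (fin 1101 1 1037)
(fin 1103 1 1038))))))))
(cons (mv 974 (cons (fin 973 3 973)
(mv 978 (cons (fin 977 2 974)
(mv 1042 (cons (fin 975 3 974)
(fin 979 2 975)))))))
(mv 973 (cons (fin 974 3 973)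
(mv 1037 (cons (fin 972 3 972)
(mv 1101 (cons (fin 1100 1 1036)
(fin 1102 1 1037))))))))))
(mv 1037 (cons (cons (mv 972 (cons (fin 973 3 972)
(mv 1036 (cons (fin 971 3 971)
(mv 1100 (cons (fin 1099 1 1035)
(fin 1101 1 1036)))))))
(mv 1101 (cons (fin 1100 1 1036)
(mv 1102 (cons (fin 1041 1 1037)
(mv 1104 (cons (fin 1105 0 1037)
(mv 974 (cons (mv 910 (cons (fin 846 5 845)
(fin 1165 5 909)))
(cons (mv 910 (cons (fin 846 5 845)
(mv 845 (cons (fin 909 7 845)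
(mv 911 (cons (fin 847 6 846)
(mv 1166 (cons (fin 975 6 910)
(mv 1230 (cons (fin 1294 7 1037)
(mv 1231 (cons (fin 1167 4 974)
(fin 1295 4 1038)))))))))))))
(mv 1165 (cons (fin 1229 6 973)
(mv 1166 (cons (mv 975 (cons (fin 911 6 910)
(fin 1230 6 974)))
(cons (mv 1230 (cons (fin 1294 7 1037)
(mv 1231 (cons (fin 1167 4 974)
(fin 1295 4 1038)))))
(mv 975 (cons (fin 911 6 910)
(mv 1035 (cons (fin 1036 2 971)
(mv 1167 (cons (fin 1231 4 974)
(mv 1168 (cons (fin 1169 3 1101)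
(fin 1232 7 975))))))))))))))))))))))))
(cons (mv 1104 (cons (fin 1105 0 1037)
(mv 1036 (cons (cons (mv 972 (cons (fin 971 3 971)
(fin 973 3 972)))
(mv 1099 (cons (fin 1100 1 1035)
(mv 1035 (cons (fin 1098 1 1034)
(mv 970 (cons (fin 971 3 970)
(mv 974 (cons (fin 975 2 971)
(mv 973 (cons (fin 1041 3 973)
(fin 1034 2 970))))))))))))
(cons (mv 971 (cons (fin 972 3 971)
(mv 1035 (cons (fin 970 3 970)
(mv 1099 (cons (fin 1098 1 1034)
(fin 1100 1 1035)))))))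
(mv 973 (cons (fin 972 3 972)
(mv 974 (cons (fin 1041 3 973)
(mv 1035 (cons (fin 1034 2 970)
(fin 975 2 971))))))))))))
(mv 973 (cons (fin 972 3 972)
(mv 974 (cons (fin 1041 3 973)
(mv 1104 (cons (fin 1105 0 1037)
(mv 1102 (cons (mv 909 (cons (fin 1166 7 909)
(fin 845 4 845)))
(cons (mv 909 (cons (fin 845 4 845)
(mv 910 (cons (mv 846 (cons (fin 782 5 781)
(fin 1101 5 845)))
(cons (mv 846 (cons (fin 782 5 781)
(mv 847 (cons (fin 783 6 782)
(fin 911 6 846)))))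
(mv 847 (cons (fin 911 6 846)
(mv 1101 (cons (fin 1165 5 909)
(mv 908 (cons (fin 844 7 844)
(mv 907 (cons (fin 906 0 906)
(fin 975 0 907))))))))))))))
(mv 1166 (cons (fin 1230 7 973)
(mv 911 (cons (fin 975 6 910)
(mv 910 (cons (fin 847 6 846)
(mv 846 (cons (fin 782 5 781)
(fin 1101 5 845)))))))))))))))))))))))))))
(cons (mv 1038 (cons (cons (cons (mv 1037 (cons (cons (mv 972 (cons (fin 973 3 972)
(mv 971 (cons (fin 1036 3 971)
(mv 977 (cons (fin 976 2 973)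
(mv 1041 (cons (fin 978 2 974)
(mv 1101 (cons (fin 1100 1 1036)
(fin 1102 1 1037)))))))))))
(mv 976 (cons (fin 977 2 973)
(mv 975 (cons (fin 1036 2 972)
(mv 1100 (cons (fin 1101 1 1036)
(mv 1104 (cons (fin 1105 0 1037)
(mv 911 (cons (fin 1168 7 911)
(fin 847 4 847))))))))))))
(cons (mv 972 (cons (fin 973 3 972)
(mv 976 (cons (fin 977 2 973)
(mv 1036 (cons (fin 971 3 971)
(fin 975 2 972)))))))
(cons (mv 972 (cons (fin 973 3 972)
(mv 1036 (cons (fin 971 3 971)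
(mv 1100 (cons (fin 1099 1 1035)
(fin 1101 1 1036)))))))
(mv 972 (cons (fin 973 3 972)
(mv 977 (cons (fin 976 2 973)
(mv 1041 (cons (fin 978 2 974)
(mv 1101 (cons (fin 1100 1 1036)
(fin 1102 1 1037)))))))))))))
(mv 974 (cons (cons (mv 973 (cons (fin 1041 3 973)
(mv 972 (cons (fin 971 0 971)
(fin 975 0 972)))))
(mv 910 (cons (cons (cons (mv 1102 (cons (cons (mv 845 (cons (fin 909 7 845)
(mv 781 (cons (fin 846 7 781)
(mv 847 (cons (fin 911 6 846)
(mv 1165 (cons (fin 1101 5 909)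
(mv 1166 (cons (fin 1229 5 973)
(mv 1230 (cons (fin 975 6 974)
(mv 1231 (cons (fin 1167 4 974)
(fin 1295 4 1038)))))))))))))))
(cons (mv 845 (cons (fin 909 7 845)
(mv 781 (cons (fin 846 7 781)
(mv 1165 (cons (fin 1101 5 909)
(mv 1166 (cons (fin 1229 5 973)
(mv 1230 (cons (fin 975 6 974)
(mv 1231 (cons (fin 1167 4 974)
(fin 1295 4 1038)))))))))))))
(mv 847 (cons (fin 911 6 846)
(mv 783 (cons (fin 846 6 782)
(mv 1165 (cons (fin 1101 5 909)
(mv 1166 (cons (fin 1229 5 973)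
(mv 1230 (cons (fin 975 6 974)
(mv 1231 (cons (fin 1167 4 974)
(fin 1295 4 1038)))))))))))))))
(cons (mv 845 (cons (fin 909 7 845)
(mv 781 (cons (fin 846 7 781)
(mv 911 (cons (fin 847 6 846)
(mv 1166 (cons (fin 975 6 910)
(mv 1229 (cons (fin 1165 5 973)
(mv 1230 (cons (fin 1293 5 1037)
(mv 1231 (cons (fin 1167 4 974)
(fin 1295 4 1038)))))))))))))))
(cons (mv 845 (cons (fin 909 7 845)
(mv 846 (cons (fin 781 7 781)
(mv 847 (cons (fin 783 6 782)
(fin 911 6 846)))))))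
(mv 845 (cons (fin 909 7 845)
(mv 847 (cons (fin 911 6 846)
(mv 1165 (cons (fin 1101 5 909)
(mv 1166 (cons (fin 1229 5 973)
(mv 1230 (cons (fin 975 6 974)
(mv 1231 (cons (fin 1167 4 974)
(fin 1295 4 1038)))))))))))))))))
(mv 846 (cons (cons (mv 781 (cons (fin 845 7 781)
(mv 782 (cons (fin 717 7 717)
(fin 975 4 782)))))
(mv 845 (cons (fin 781 7 781)
(mv 847 (cons (fin 783 6 782)
(mv 911 (cons (mv 844 (cons (fin 843 0 843)
(fin 912 0 844)))
(cons (mv 843 (cons (fin 844 0 843)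
(mv 975 (cons (fin 1104 4 847)
(mv 848 (cons (fin 784 6 783)
(mv 849 (cons (fin 909 1 845)
(fin 850 1 846)))))))))
(mv 912 (cons (fin 913 3 845)
(mv 1104 (cons (fin 976 7 847)
(fin 975 4 847)))))))))))))
(cons (mv 781 (cons (fin 845 7 781)
(mv 782 (cons (fin 717 7 717)
(mv 783 (cons (fin 719 6 718)
(fin 847 6 782)))))))
(mv 782 (cons (fin 975 4 782)
(mv 783 (cons (fin 719 6 718)
(fin 847 6 782)))))))))
(cons (mv 1102 (cons (cons (mv 845 (cons (fin 909 7 845)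
(mv 847 (cons (fin 911 6 846)
(mv 1165 (cons (fin 1101 5 909)
(mv 1166 (cons (fin 1229 5 973)
(mv 1230 (cons (fin 975 6 974)
(mv 1231 (cons (fin 1167 4 974)
(fin 1295 4 1038)))))))))))))
(cons (mv 845 (cons (fin 909 7 845)
(mv 1165 (cons (fin 1101 5 909)
(mv 1166 (cons (fin 1229 5 973)
(mv 1230 (cons (fin 975 6 974)
(mv 1231 (cons (fin 1167 4 974)
(fin 1295 4 1038)))))))))))
(mv 847 (cons (fin 911 6 846)
(mv 1165 (cons (fin 1101 5 909)
(mv 1166 (cons (fin 1229 5 973)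
(mv 1230 (cons (fin 975 6 974)
(mv 1231 (cons (fin 1167 4 974)
(fin 1295 4 1038)))))))))))))
(cons (cons (mv 845 (cons (fin 909 7 845)
(mv 911 (cons (fin 847 6 846)
(mv 1166 (cons (fin 975 6 910)
(mv 1229 (cons (fin 1165 5 973)
(mv 1230 (cons (fin 1293 5 1037)
(mv 1231 (cons (fin 1167 4 974)
(fin 1295 4 1038)))))))))))))
(mv 847 (cons (fin 911 6 846)
(mv 909 (cons (fin 845 7 845)
(mv 973 (cons (fin 1166 7 909)
(mv 972 (cons (fin 971 0 971)
(fin 975 0 972))))))))))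
(cons (mv 909 (cons (fin 845 7 845)
(mv 911 (cons (fin 847 6 846)
(mv 1101 (cons (fin 1165 5 909)
(mv 1099 (cons (fin 1100 2 1035)
(mv 973 (cons (mv 912 (cons (fin 972 1 908)
(fin 913 1 909)))
(cons (mv 912 (cons (fin 913 1 909)
(mv 848 (cons (fin 849 2 845)
(mv 976 (cons (fin 977 0 909)
(mv 975 (cons (fin 908 3 908)
(fin 784 5 783)))))))))
(mv 972 (cons (fin 971 2 907)
(fin 975 0 972))))))))))))))
(mv 847 (cons (fin 911 6 846)
(mv 909 (cons (fin 845 7 845)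
(mv 1165 (cons (fin 1101 5 909)
(mv 1166 (cons (fin 973 7 909)
(fin 1229 5 973)))))))))))))
(mv 846 (cons (cons (mv 781 (cons (fin 845 7 781)
(mv 782 (cons (fin 717 7 717)
(mv 783 (cons (fin 719 6 718)
(fin 847 6 782)))))))
(mv 847 (cons (fin 783 6 782)
(mv 911 (cons (fin 1102 6 846)
(mv 912 (cons (mv 913 (cons (fin 914 3 846)
(fin 973 1 909)))
(mv 976 (cons (fin 1104 7 847)
(mv 909 (cons (fin 977 0 909)
(mv 848 (cons (fin 849 1 845)
(fin 908 2 844))))))))))))))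
(cons (mv 782 (cons (cons (mv 781 (cons (fin 717 7 717)
(fin 845 7 781)))
(mv 719 (cons (fin 783 6 718)
(mv 718 (cons (fin 655 6 654)
(mv 653 (cons (fin 717 7 653)
(mv 654 (cons (fin 589 7 589)
(mv 909 (cons (fin 845 5 653)
(fin 973 5 717))))))))))))
(cons (mv 717 (cons (fin 781 7 717)
(mv 718 (cons (fin 653 7 653)
(mv 719 (cons (fin 655 6 654)
(fin 783 6 718)))))))
(mv 719 (cons (fin 783 6 718)
(mv 718 (cons (fin 655 6 654)
(mv 845 (cons (fin 781 7 781)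
(mv 909 (cons (fin 1102 7 845)
(fin 654 5 653))))))))))))
(mv 845 (cons (fin 781 7 781)
(mv 911 (cons (mv 1102 (cons (fin 909 7 845)
(fin 847 6 846)))
(cons (mv 844 (cons (fin 843 0 843)
(mv 912 (cons (fin 909 3 844)
(fin 913 3 845)))))
(mv 844 (cons (fin 843 0 843)
(mv 847 (cons (fin 912 0 844)
(fin 1102 6 846)))))))))))))))
(cons (cons (mv 1102 (cons (cons (mv 845 (cons (fin 909 7 845)
(mv 781 (cons (fin 846 7 781)
(mv 1165 (cons (fin 1101 5 909)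
(mv 1166 (cons (fin 1229 5 973)
(mv 975 (cons (fin 911 6 910)
(fin 1230 6 974)))))))))))
(mv 1165 (cons (fin 1101 5 909)
(mv 1166 (cons (fin 1229 5 973)
(mv 975 (cons (fin 911 6 910)
(fin 1230 6 974))))))))
(cons (mv 845 (cons (fin 909 7 845)
(mv 846 (cons (fin 781 7 781)
(mv 975 (cons (fin 782 4 782)
(mv 1166 (cons (fin 911 6 910)
(fin 1230 6 974)))))))))
(cons (mv 909 (cons (fin 845 7 845)
(mv 1101 (cons (fin 1165 5 909)
(mv 1099 (cons (fin 1100 2 1035)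
(mv 975 (cons (cons (mv 782 (cons (fin 846 4 782)
(mv 907 (cons (fin 908 0 907)
(mv 973 (cons (fin 972 0 972)
(mv 976 (cons (fin 977 3 909)
(mv 912 (cons (fin 913 2 909)
(mv 848 (cons (fin 784 5 783)
(mv 849 (cons (fin 911 2 845)
(fin 785 6 784)))))))))))))))
(cons (mv 782 (cons (fin 846 4 782)
(mv 908 (cons (fin 907 0 907)
(mv 972 (cons (fin 973 0 972)
(mv 971 (cons (fin 911 1 907)
(mv 969 (cons (fin 970 2 905)
(mv 1035 (cons (fin 1163 6 907)
(mv 844 (cons (fin 780 5 779)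
(fin 1036 5 843)))))))))))))))
(mv 782 (cons (fin 846 4 782)
(mv 908 (cons (fin 907 0 907)
(mv 976 (cons (fin 977 3 909)
(fin 911 0 908)))))))))
(cons (mv 782 (cons (fin 846 4 782)
(mv 973 (cons (fin 972 0 972)
(mv 976 (cons (fin 977 3 909)
(mv 912 (cons (fin 913 2 909)
(mv 848 (cons (fin 784 5 783)
(mv 849 (cons (fin 911 2 845)
(fin 785 6 784)))))))))))))
(cons (mv 907 (cons (fin 908 0 907)
(mv 973 (cons (fin 972 0 972)
(mv 976 (cons (fin 977 3 909)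
(mv 912 (cons (fin 913 2 909)
(mv 848 (cons (fin 784 5 783)
(mv 849 (cons (fin 911 2 845)
(fin 785 6 784)))))))))))))
(mv 782 (cons (fin 846 4 782)
(mv 908 (cons (fin 907 0 907)
(mv 973 (cons (fin 976 3 908)
(fin 972 0 972)))))))))))))))))
(mv 909 (cons (fin 845 7 845)
(mv 1165 (cons (fin 1101 5 909)
(mv 1166 (cons (fin 973 7 909)
(fin 1229 5 973)))))))))))
(mv 975 (cons (cons (mv 846 (cons (fin 782 4 782)
(mv 847 (cons (fin 783 6 782)
(mv 911 (cons (fin 1102 5 846)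
(fin 1104 4 847)))))))
(mv 973 (cons (fin 972 0 972)
(mv 976 (cons (mv 909 (cons (fin 908 3 908)
(fin 977 3 909)))
(cons (mv 908 (cons (fin 909 3 908)
(mv 912 (cons (fin 913 2 909)
(mv 848 (cons (fin 784 5 783)
(mv 785 (cons (fin 849 6 784)
(mv 847 (cons (fin 783 7 783)
(mv 911 (cons (fin 1104 7 847)
(fin 1102 5 846)))))))))))))
(mv 912 (cons (fin 913 2 909)
(mv 848 (cons (fin 784 5 783)
(mv 785 (cons (fin 849 6 784)
(mv 847 (cons (fin 783 7 783)
(mv 911 (cons (fin 1104 7 847)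
(fin 1102 5 846)))))))))))))))))
(cons (mv 846 (cons (fin 782 4 782)
(mv 847 (cons (fin 783 6 782)
(mv 973 (cons (fin 972 0 972)
(mv 976 (cons (mv 909 (cons (fin 908 3 908)
(fin 977 3 909)))
(cons (mv 913 (cons (fin 912 2 909)
(mv 977 (cons (fin 978 1 974)
(fin 914 2 910)))))
(mv 909 (cons (fin 908 3 908)
(mv 848 (cons (fin 849 1 845)
(mv 912 (cons (fin 913 2 909)
(fin 784 5 783))))))))))))))))
(mv 782 (cons (fin 846 4 782)
(mv 973 (cons (fin 972 0 972)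
(mv 976 (cons (mv 909 (cons (fin 908 3 908)
(fin 977 3 909)))
(cons (mv 909 (cons (fin 908 3 908)
(mv 912 (cons (fin 913 2 909)
(mv 848 (cons (fin 784 5 783)
(mv 849 (cons (fin 911 2 845)
(fin 785 6 784)))))))))
(mv 913 (cons (fin 912 2 909)
(mv 977 (cons (fin 978 1 974)
(fin 914 2 910))))))))))))))))
(cons (mv 846 (cons (cons (mv 781 (cons (fin 845 7 781)
(mv 782 (cons (fin 717 7 717)
(fin 975 4 782)))))
(mv 783 (cons (fin 847 6 782)
(mv 845 (cons (fin 781 7 781)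
(mv 1102 (cons (fin 909 7 845)
(mv 1165 (cons (fin 1101 5 909)
(mv 1166 (cons (fin 1229 5 973)
(mv 1230 (cons (fin 975 6 974)
(mv 1231 (cons (fin 1167 4 974)
(fin 1295 4 1038))))))))))))))))
(cons (mv 781 (cons (fin 845 7 781)
(mv 782 (cons (fin 717 7 717)
(mv 783 (cons (fin 719 6 718)
(fin 847 6 782)))))))
(mv 782 (cons (fin 975 4 782)
(mv 783 (cons (fin 719 6 718)
(fin 847 6 782))))))))
(mv 846 (cons (cons (mv 781 (cons (fin 845 7 781)
(mv 782 (cons (fin 717 7 717)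
(fin 975 4 782)))))
(mv 781 (cons (fin 845 7 781)
(mv 847 (cons (fin 783 6 782)
(mv 911 (cons (fin 1102 6 846)
(mv 975 (cons (fin 1104 4 847)
(mv 848 (cons (fin 784 6 783)
(mv 849 (cons (fin 850 1 846)
(mv 785 (cons (fin 786 2 782)
(mv 912 (cons (fin 976 6 784)
(mv 913 (cons (fin 914 3 846)
(fin 973 1 909))))))))))))))))))))
(cons (mv 781 (cons (fin 845 7 781)
(mv 782 (cons (fin 717 7 717)
(mv 783 (cons (fin 719 6 718)
(fin 847 6 782)))))))
(mv 782 (cons (fin 975 4 782)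
(mv 783 (cons (fin 719 6 718)
(fin 847 6 782)))))))))))))
(cons (mv 1041 (cons (cons (mv 975 (cons (fin 1042 3 974)
(mv 977 (cons (fin 978 2 974)
(mv 1102 (cons (fin 1101 1 1037)
(mv 911 (cons (fin 847 5 846)
(fin 1166 6 910)))))))))
(mv 977 (cons (fin 978 2 974)
(mv 1101 (cons (fin 1102 1 1037)
(mv 913 (cons (cons (mv 849 (cons (fin 1104 5 848)
(mv 784 (cons (fin 848 7 784)
(mv 785 (cons (fin 720 7 720)
(fin 976 5 784)))))))
(mv 1105 (cons (cons (mv 848 (cons (fin 912 7 848)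
(mv 850 (cons (fin 914 6 849)
(mv 1168 (cons (fin 1104 5 912)
(mv 1169 (cons (fin 1232 5 976)
(mv 1233 (cons (fin 976 7 976)
(mv 1234 (cons (fin 1170 4 977)
(fin 1298 4 1041)))))))))))))
(cons (mv 850 (cons (fin 914 6 849)
(mv 912 (cons (fin 848 7 848)
(mv 1169 (cons (fin 976 7 912)
(mv 1234 (cons (fin 1170 4 977)
(mv 1233 (cons (fin 1298 4 1041)
(mv 1296 (cons (fin 1232 5 1040)
(mv 1297 (cons (fin 1104 7 1040)
(fin 1360 5 1104)))))))))))))))
(mv 850 (cons (fin 914 6 849)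
(mv 912 (cons (fin 848 7 848)
(mv 1169 (cons (fin 976 7 912)
(mv 1232 (cons (fin 1168 5 976)
(mv 1233 (cons (fin 1296 5 1040)
(mv 1234 (cons (fin 1170 4 977)
(fin 1298 4 1041)))))))))))))))
(cons (cons (mv 850 (cons (fin 914 6 849)
(mv 1168 (cons (fin 1104 5 912)
(mv 1169 (cons (fin 1232 5 976)
(mv 1233 (cons (fin 976 7 976)
(mv 1234 (cons (fin 1170 4 977)
(fin 1298 4 1041)))))))))))
(mv 848 (cons (fin 912 7 848)
(mv 1168 (cons (fin 1104 5 912)
(mv 1169 (cons (fin 1232 5 976)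
(mv 1233 (cons (fin 976 7 976)
(mv 1234 (cons (fin 1170 4 977)
(fin 1298 4 1041))))))))))))
(cons (mv 848 (cons (fin 912 7 848)
(mv 850 (cons (fin 914 6 849)
(mv 1169 (cons (cons (mv 1168 (cons (fin 1104 5 912)
(fin 1232 5 976)))
(mv 1234 (cons (fin 1170 4 977)
(mv 1233 (cons (fin 1298 4 1041)
(mv 1296 (cons (fin 1232 5 1040)
(mv 1297 (cons (fin 1104 7 1040)
(fin 1360 5 1104))))))))))
(cons (mv 1232 (cons (fin 1168 5 976)
(mv 1233 (cons (fin 1296 5 1040)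
(mv 1234 (cons (fin 1170 4 977)
(fin 1298 4 1041)))))))
(mv 1104 (cons (fin 1168 5 912)
(mv 1233 (cons (fin 1297 7 1040)
(mv 1234 (cons (fin 1170 4 977)
(fin 1298 4 1041))))))))))))))
(mv 912 (cons (fin 848 7 848)
(mv 914 (cons (fin 850 6 849)
(mv 975 (cons (fin 911 1 910)
(fin 976 2 910))))))))))))
(cons (mv 849 (cons (mv 784 (cons (fin 848 7 784)
(mv 785 (cons (fin 720 7 720)
(fin 976 5 784)))))
(cons (mv 848 (cons (fin 784 7 784)
(mv 850 (cons (fin 786 6 785)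
(mv 1105 (cons (fin 912 7 848)
(fin 914 6 849)))))))
(mv 785 (cons (fin 976 5 784)
(mv 786 (cons (fin 722 6 721)
(fin 850 6 785))))))))
(cons (mv 849 (cons (fin 1104 5 848)
(mv 784 (cons (fin 848 7 784)
(mv 785 (cons (fin 720 7 720)
(mv 786 (cons (fin 722 6 721)
(fin 850 6 785)))))))))
(mv 849 (cons (fin 1104 5 848)
(mv 785 (cons (fin 976 5 784)
(mv 786 (cons (fin 722 6 721)
(fin 850 6 785))))))))))))))))
(cons (mv 975 (cons (fin 1042 3 974)
(mv 1102 (cons (fin 1101 1 1037)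
(mv 911 (cons (fin 847 5 846)
(fin 1166 6 910)))))))
(cons (mv 1102 (cons (fin 1101 1 1037)
(mv 910 (cons (cons (mv 845 (cons (fin 909 7 845)
(mv 846 (cons (fin 781 7 781)
(mv 847 (cons (fin 783 6 782)
(fin 911 6 846)))))))
(cons (mv 845 (cons (fin 909 7 845)
(mv 846 (cons (fin 781 7 781)
(mv 977 (cons (fin 978 2 974)
(mv 913 (cons (cons (mv 849 (cons (fin 1104 5 848)
(mv 784 (cons (fin 848 7 784)
(mv 785 (cons (fin 720 7 720)
(fin 976 5 784)))))))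
(mv 912 (cons (fin 911 3 845)
(mv 848 (cons (fin 1105 7 848)
(mv 784 (cons (fin 720 4 720)
(fin 976 4 784))))))))
(cons (mv 849 (cons (fin 1104 5 848)
(mv 784 (cons (fin 848 7 784)
(mv 785 (cons (fin 720 7 720)
(mv 786 (cons (fin 722 6 721)
(fin 850 6 785)))))))))
(mv 849 (cons (fin 1104 5 848)
(mv 785 (cons (fin 976 5 784)
(mv 786 (cons (fin 722 6 721)
(fin 850 6 785))))))))))))))))
(mv 847 (cons (fin 911 6 846)
(mv 846 (cons (fin 783 6 782)
(mv 849 (cons (cons (mv 848 (cons (fin 909 1 845)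
(mv 781 (cons (fin 782 3 781)
(mv 785 (cons (fin 786 2 782)
(mv 912 (cons (fin 976 6 784)
(mv 657 (cons (fin 721 5 656)
(mv 913 (cons (fin 914 0 846)
(mv 977 (cons (fin 978 2 974)
(fin 784 7 784)))))))))))))))
(mv 977 (cons (fin 978 2 974)
(mv 913 (cons (fin 1104 5 848)
(mv 785 (cons (fin 976 5 784)
(mv 786 (cons (fin 722 6 721)
(fin 850 6 785))))))))))
(cons (mv 848 (cons (fin 909 1 845)
(mv 781 (cons (fin 782 3 781)
(mv 786 (cons (fin 785 2 782)
(mv 850 (cons (fin 787 2 783)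
(mv 914 (cons (fin 913 0 846)
(fin 915 0 847)))))))))))
(cons (mv 848 (cons (fin 909 1 845)
(mv 781 (cons (fin 782 3 781)
(mv 786 (cons (fin 785 2 782)
(mv 850 (cons (fin 787 2 783)
(mv 914 (cons (fin 915 0 847)
(mv 978 (cons (fin 977 2 974)
(mv 979 (cons (fin 1042 2 975)
(fin 1043 4 786)))))))))))))))
(mv 848 (cons (fin 909 1 845)
(mv 781 (cons (fin 782 3 781)
(mv 913 (cons (fin 914 0 846)
(mv 977 (cons (fin 978 2 974)
(fin 784 7 784)))))))))))))))))))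
(cons (mv 846 (cons (cons (mv 845 (cons (fin 781 7 781)
(fin 909 7 845)))
(mv 847 (cons (fin 783 6 782)
(mv 849 (cons (cons (mv 848 (cons (fin 909 1 845)
(mv 781 (cons (fin 782 3 781)
(mv 785 (cons (fin 786 2 782)
(mv 912 (cons (fin 976 6 784)
(mv 657 (cons (fin 721 5 656)
(mv 913 (cons (fin 914 0 846)
(mv 977 (cons (fin 978 2 974)
(fin 784 7 784)))))))))))))))
(mv 977 (cons (fin 978 2 974)
(mv 913 (cons (fin 1104 5 848)
(mv 785 (cons (fin 976 5 784)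
(mv 786 (cons (fin 722 6 721)
(fin 850 6 785))))))))))
(cons (mv 848 (cons (fin 909 1 845)
(mv 781 (cons (fin 782 3 781)
(mv 786 (cons (fin 785 2 782)
(mv 850 (cons (fin 787 2 783)
(mv 914 (cons (fin 913 0 846)
(fin 915 0 847)))))))))))
(cons (mv 848 (cons (fin 909 1 845)
(mv 781 (cons (fin 782 3 781)
(mv 786 (cons (fin 785 2 782)
(mv 850 (cons (fin 787 2 783)
(mv 914 (cons (fin 915 0 847)
(mv 978 (cons (fin 977 2 974)
(mv 979 (cons (fin 1042 2 975)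
(fin 1043 4 786)))))))))))))))
(mv 848 (cons (fin 909 1 845)
(mv 781 (cons (fin 782 3 781)
(mv 913 (cons (fin 914 0 846)
(mv 977 (cons (fin 978 2 974)
(fin 784 7 784))))))))))))))))
(cons (mv 847 (cons (fin 783 6 782)
(mv 909 (cons (fin 845 7 845)
(mv 849 (cons (fin 848 1 845)
(mv 907 (cons (fin 908 2 843)
(mv 977 (cons (fin 978 2 974)
(mv 913 (cons (fin 1104 5 848)
(mv 785 (cons (fin 976 5 784)
(mv 786 (cons (fin 722 6 721)
(fin 850 6 785)))))))))))))))))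
(mv 781 (cons (fin 845 7 781)
(mv 782 (cons (fin 717 7 717)
(mv 783 (cons (fin 719 6 718)
(fin 847 6 782))))))))))
(cons (mv 847 (cons (fin 911 6 846)
(mv 846 (cons (fin 783 6 782)
(mv 781 (cons (fin 845 7 781)
(mv 782 (cons (fin 717 7 717)
(mv 779 (cons (fin 780 0 779)
(mv 849 (cons (fin 848 3 781)
(mv 977 (cons (fin 978 2 974)
(mv 913 (cons (fin 1104 5 848)
(mv 785 (cons (fin 976 5 784)
(mv 786 (cons (fin 722 6 721)
(fin 850 6 785)))))))))))))))))))))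
(mv 909 (cons (fin 845 7 845)
(mv 911 (cons (fin 847 6 846)
(mv 977 (cons (fin 978 2 974)
(mv 912 (cons (fin 976 0 909)
(mv 849 (cons (fin 848 2 845)
(mv 913 (cons (fin 850 2 846)
(fin 1104 5 848)))))))))))))))))))
(mv 978 (cons (fin 977 2 974)
(mv 1042 (cons (fin 975 3 974)
(fin 979 2 975)))))))))
(mv 1041 (cons (fin 973 3 973)
(mv 1102 (cons (fin 1101 1 1037)
(mv 910 (cons (cons (mv 845 (cons (fin 909 7 845)
(mv 846 (cons (fin 781 7 781)
(mv 847 (cons (fin 783 6 782)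
(fin 911 6 846)))))))
(cons (mv 845 (cons (fin 909 7 845)
(mv 846 (cons (fin 781 7 781)
(mv 977 (cons (fin 978 2 974)
(mv 913 (cons (cons (mv 849 (cons (fin 1104 5 848)
(mv 784 (cons (fin 848 7 784)
(mv 785 (cons (fin 720 7 720)
(fin 976 5 784)))))))
(mv 912 (cons (fin 911 3 845)
(mv 848 (cons (fin 1105 7 848)
(mv 784 (cons (fin 720 4 720)
(fin 976 4 784))))))))
(cons (mv 849 (cons (fin 1104 5 848)
(mv 784 (cons (fin 848 7 784)
(mv 785 (cons (fin 720 7 720)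
(mv 786 (cons (fin 722 6 721)
(fin 850 6 785)))))))))
(mv 849 (cons (fin 1104 5 848)
(mv 785 (cons (fin 976 5 784)
(mv 786 (cons (fin 722 6 721)
(fin 850 6 785))))))))))))))))
(mv 847 (cons (fin 911 6 846)
(mv 846 (cons (fin 783 6 782)
(mv 849 (cons (cons (mv 848 (cons (fin 909 1 845)
(mv 781 (cons (fin 782 3 781)
(mv 785 (cons (fin 786 2 782)
(mv 912 (cons (fin 976 6 784)
(mv 657 (cons (fin 721 5 656)
(mv 913 (cons (fin 914 0 846)
(mv 977 (cons (fin 978 2 974)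
(fin 784 7 784)))))))))))))))
(mv 977 (cons (fin 978 2 974)
(mv 913 (cons (fin 1104 5 848)
(mv 785 (cons (fin 976 5 784)
(mv 786 (cons (fin 722 6 721)
(fin 850 6 785))))))))))
(cons (mv 848 (cons (fin 909 1 845)
(mv 781 (cons (fin 782 3 781)
(mv 786 (cons (fin 785 2 782)
(mv 850 (cons (fin 787 2 783)
(mv 914 (cons (fin 913 0 846)
(fin 915 0 847)))))))))))
(cons (mv 848 (cons (fin 909 1 845)
(mv 781 (cons (fin 782 3 781)
(mv 786 (cons (fin 785 2 782)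
(mv 850 (cons (fin 787 2 783)
(mv 914 (cons (fin 915 0 847)
(mv 978 (cons (fin 977 2 974)
(mv 979 (cons (fin 1042 2 975)
(fin 1043 4 786)))))))))))))))
(mv 848 (cons (fin 909 1 845)
(mv 781 (cons (fin 782 3 781)
(mv 913 (cons (fin 914 0 846)
(mv 977 (cons (fin 978 2 974)
(fin 784 7 784)))))))))))))))))))
(cons (mv 846 (cons (cons (mv 845 (cons (fin 781 7 781)
(fin 909 7 845)))
(mv 847 (cons (fin 783 6 782)
(mv 849 (cons (cons (mv 848 (cons (fin 909 1 845)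
(mv 781 (cons (fin 782 3 781)
(mv 785 (cons (fin 786 2 782)
(mv 912 (cons (fin 976 6 784)
(mv 657 (cons (fin 721 5 656)
(mv 913 (cons (fin 914 0 846)
(mv 977 (cons (fin 978 2 974)
(fin 784 7 784)))))))))))))))
(mv 977 (cons (fin 978 2 974)
(mv 913 (cons (fin 1104 5 848)
(mv 785 (cons (fin 976 5 784)
(mv 786 (cons (fin 722 6 721)
(fin 850 6 785))))))))))
(cons (mv 848 (cons (fin 909 1 845)
(mv 781 (cons (fin 782 3 781)
(mv 786 (cons (fin 785 2 782)
(mv 850 (cons (fin 787 2 783)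
(mv 914 (cons (fin 913 0 846)
(fin 915 0 847)))))))))))
(cons (mv 848 (cons (fin 909 1 845)
(mv 781 (cons (fin 782 3 781)
(mv 786 (cons (fin 785 2 782)
(mv 850 (cons (fin 787 2 783)
(mv 914 (cons (fin 915 0 847)
(mv 978 (cons (fin 977 2 974)
(mv 979 (cons (fin 1042 2 975)
(fin 1043 4 786)))))))))))))))
(mv 848 (cons (fin 909 1 845)
(mv 781 (cons (fin 782 3 781)
(mv 913 (cons (fin 914 0 846)
(mv 977 (cons (fin 978 2 974)
(fin 784 7 784))))))))))))))))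
(cons (mv 847 (cons (fin 783 6 782)
(mv 909 (cons (fin 845 7 845)
(mv 849 (cons (fin 848 1 845)
(mv 907 (cons (fin 908 2 843)
(mv 977 (cons (fin 978 2 974)
(mv 913 (cons (fin 1104 5 848)
(mv 785 (cons (fin 976 5 784)
(mv 786 (cons (fin 722 6 721)
(fin 850 6 785)))))))))))))))))
(mv 781 (cons (fin 845 7 781)
(mv 782 (cons (fin 717 7 717)
(mv 783 (cons (fin 719 6 718)
(fin 847 6 782))))))))))
(cons (mv 847 (cons (fin 911 6 846)
(mv 846 (cons (fin 783 6 782)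
(mv 781 (cons (fin 845 7 781)
(mv 782 (cons (fin 717 7 717)
(mv 779 (cons (fin 780 0 779)
(mv 849 (cons (fin 848 3 781)
(mv 977 (cons (fin 978 2 974)
(mv 913 (cons (fin 1104 5 848)
(mv 785 (cons (fin 976 5 784)
(mv 786 (cons (fin 722 6 721)
(fin 850 6 785)))))))))))))))))))))
(mv 909 (cons (fin 845 7 845)
(mv 911 (cons (fin 847 6 846)
(mv 977 (cons (fin 978 2 974)
(mv 912 (cons (fin 976 0 909)
(mv 849 (cons (fin 848 2 845)
(mv 913 (cons (fin 850 2 846)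
(fin 1104 5 848)))))))))))))))))))))))))
(cons (mv 1037 (cons (cons (mv 972 (cons (fin 973 3 972)
(mv 976 (cons (fin 977 2 973)
(mv 1036 (cons (fin 971 3 971)
(fin 975 2 972)))))))
(mv 972 (cons (fin 973 3 972)
(mv 1036 (cons (fin 971 3 971)
(mv 1100 (cons (fin 1099 1 1035)
(fin 1101 1 1036))))))))
(cons (mv 976 (cons (fin 977 2 973)
(mv 975 (cons (fin 1036 2 972)
(mv 1100 (cons (fin 1101 1 1036)
(mv 1104 (cons (fin 1105 0 1037)
(mv 911 (cons (fin 1168 7 911)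
(fin 847 4 847)))))))))))
(mv 972 (cons (fin 973 3 972)
(mv 976 (cons (fin 977 2 973)
(mv 1100 (cons (fin 1101 1 1036)
(mv 1104 (cons (fin 1105 0 1037)
(mv 1168 (cons (mv 975 (cons (fin 911 7 911)
(fin 1232 7 975)))
(cons (mv 1231 (cons (fin 1167 5 975)
(mv 1232 (cons (fin 1295 5 1039)
(mv 1233 (cons (fin 1169 4 976)
(fin 1297 4 1040)))))))
(mv 1167 (cons (fin 1231 5 975)
(mv 1169 (cons (fin 1233 4 976)
(mv 912 (cons (cons (mv 911 (cons (fin 847 7 847)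
(fin 975 7 911)))
(mv 849 (cons (fin 913 6 848)
(mv 848 (cons (fin 785 6 784)
(mv 783 (cons (fin 847 7 783)
(mv 784 (cons (fin 719 7 719)
(fin 975 5 783))))))))))
(cons (mv 847 (cons (fin 911 7 847)
(mv 848 (cons (fin 783 7 783)
(mv 849 (cons (fin 785 6 784)
(fin 913 6 848)))))))
(mv 849 (cons (fin 913 6 848)
(mv 848 (cons (fin 785 6 784)
(mv 975 (cons (fin 911 7 911)
(fin 784 5 783))))))))))))))))))))))))))))
(cons (mv 1037 (cons (cons (mv 976 (cons (fin 977 2 973)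
(mv 975 (cons (fin 1036 2 972)
(mv 1100 (cons (fin 1101 1 1036)
(mv 1104 (cons (fin 1105 0 1037)
(mv 911 (cons (fin 1168 7 911)
(fin 847 4 847)))))))))))
(mv 976 (cons (fin 977 2 973)
(mv 975 (cons (fin 1036 2 972)
(mv 1104 (cons (fin 1105 0 1037)
(mv 911 (cons (fin 1168 7 911)
(fin 847 4 847))))))))))
(cons (mv 1101 (cons (fin 1100 1 1036)
(mv 1102 (cons (fin 1041 1 1037)
(mv 1104 (cons (fin 1105 0 1037)
(mv 974 (cons (mv 910 (cons (fin 846 5 845)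
(fin 1165 5 909)))
(cons (mv 910 (cons (fin 846 5 845)
(mv 845 (cons (fin 909 7 845)
(mv 911 (cons (fin 847 6 846)
(mv 1166 (cons (fin 975 6 910)
(mv 1230 (cons (fin 1294 7 1037)
(mv 1231 (cons (fin 1167 4 974)
(fin 1295 4 1038)))))))))))))
(mv 1165 (cons (fin 1229 6 973)
(mv 1166 (cons (mv 975 (cons (fin 911 6 910)
(fin 1230 6 974)))
(cons (mv 1230 (cons (fin 1294 7 1037)
(mv 1231 (cons (fin 1167 4 974)
(fin 1295 4 1038)))))
(mv 975 (cons (fin 911 6 910)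
(mv 1035 (cons (fin 1036 2 971)
(mv 1167 (cons (fin 1231 4 974)
(mv 1168 (cons (fin 1169 3 1101)
(fin 1232 7 975)))))))))))))))))))))))
(cons (mv 976 (cons (fin 977 2 973)
(mv 975 (cons (fin 1036 2 972)
(mv 1101 (cons (fin 1100 1 1036)
(mv 1041 (cons (fin 1102 1 1037)
(mv 1042 (cons (fin 974 3 974)
(fin 1043 3 975)))))))))))
(mv 977 (cons (fin 976 2 973)
(mv 1041 (cons (fin 978 2 974)
(mv 1101 (cons (fin 1100 1 1036)
(fin 1102 1 1037)))))))))))
(mv 1037 (cons (cons (mv 972 (cons (fin 973 3 972)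
(mv 1036 (cons (fin 971 3 971)
(mv 1100 (cons (fin 1099 1 1035)
(fin 1101 1 1036)))))))
(cons (mv 1100 (cons (fin 1101 1 1036)
(mv 1036 (cons (fin 1099 1 1035)
(mv 971 (cons (fin 972 3 971)
(mv 975 (cons (fin 976 2 972)
(mv 1035 (cons (fin 970 3 970)
(fin 974 2 971)))))))))))
(mv 972 (cons (fin 973 3 972)
(mv 1036 (cons (fin 971 3 971)
(mv 975 (cons (fin 976 2 972)
(mv 1035 (cons (fin 974 2 971)
(mv 1099 (cons (fin 1098 1 1034)
(fin 1100 1 1035)))))))))))))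
(cons (mv 1100 (cons (fin 1101 1 1036)
(mv 1036 (cons (fin 1099 1 1035)
(mv 975 (cons (fin 976 2 972)
(mv 974 (cons (fin 1035 2 971)
(mv 1041 (cons (fin 973 3 973)
(fin 1042 3 974)))))))))))
(cons (mv 972 (cons (fin 973 3 972)
(mv 1036 (cons (fin 971 3 971)
(mv 975 (cons (fin 976 2 972)
(mv 974 (cons (fin 1035 2 971)
(mv 1041 (cons (fin 1042 3 974)
(mv 1101 (cons (fin 1102 1 1037)
(mv 844 (cons (fin 908 4 844)
(mv 846 (cons (fin 910 5 845)
(mv 1104 (cons (fin 1105 0 1037)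
(mv 847 (cons (fin 911 4 847)
(mv 845 (cons (cons (mv 779 (cons (fin 780 3 779)
(mv 783 (cons (fin 784 2 780)
(mv 843 (cons (fin 778 3 778)
(fin 782 2 779)))))))
(mv 783 (cons (fin 784 2 780)
(mv 843 (cons (fin 782 2 779)
(mv 778 (cons (fin 779 3 778)
(mv 842 (cons (fin 777 3 777)
(mv 906 (cons (fin 905 1 841)
(fin 907 1 842))))))))))))
(cons (mv 780 (cons (fin 779 3 779)
(mv 848 (cons (fin 781 3 780)
(mv 785 (cons (fin 784 2 781)
(mv 849 (cons (fin 786 2 782)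
(mv 913 (cons (fin 912 0 845)
(fin 914 0 846)))))))))))
(cons (mv 784 (cons (fin 783 2 780)
(mv 848 (cons (fin 785 2 781)
(mv 781 (cons (fin 780 3 780)
(mv 849 (cons (fin 782 3 781)
(mv 913 (cons (fin 912 0 845)
(fin 914 0 846)))))))))))
(mv 779 (cons (fin 780 3 779)
(mv 843 (cons (fin 778 3 778)
(mv 782 (cons (fin 783 2 779)
(mv 842 (cons (fin 781 2 778)
(mv 906 (cons (fin 905 1 841)
(fin 907 1 842)))))))))))))))))))))))))))))))))))
(mv 973 (cons (fin 972 3 972)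
(mv 974 (cons (fin 1041 3 973)
(mv 1101 (cons (fin 1100 1 1036)
(mv 910 (cons (fin 846 5 845)
(fin 1165 6 909))))))))))))))))
(cons (cons (mv 1037 (cons (cons (mv 972 (cons (fin 973 3 972)
(mv 976 (cons (fin 977 2 973)
(mv 1036 (cons (fin 971 3 971)
(fin 975 2 972)))))))
(mv 976 (cons (fin 977 2 973)
(mv 975 (cons (fin 1036 2 972)
(mv 1104 (cons (fin 1105 0 1037)
(mv 911 (cons (fin 1168 7 911)
(fin 847 4 847))))))))))
(cons (mv 1104 (cons (fin 1105 0 1037)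
(mv 1036 (cons (cons (mv 972 (cons (fin 971 3 971)
(fin 973 3 972)))
(mv 1099 (cons (fin 1100 1 1035)
(mv 1035 (cons (fin 1098 1 1034)
(mv 970 (cons (fin 971 3 970)
(mv 974 (cons (fin 975 2 971)
(mv 973 (cons (fin 1041 3 973)
(fin 1034 2 970))))))))))))
(cons (mv 971 (cons (fin 972 3 971)
(mv 1035 (cons (fin 970 3 970)
(mv 1099 (cons (fin 1098 1 1034)
(fin 1100 1 1035)))))))
(mv 973 (cons (fin 972 3 972)
(mv 974 (cons (fin 1041 3 973)
(mv 1035 (cons (fin 1034 2 970)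
(fin 975 2 971))))))))))))
(mv 973 (cons (fin 972 3 972)
(mv 977 (cons (fin 976 2 973)
(mv 1041 (cons (fin 974 3 973)
(fin 978 2 974))))))))))
(cons (mv 1037 (cons (cons (mv 972 (cons (fin 973 3 972)
(mv 1036 (cons (fin 971 3 971)
(mv 1100 (cons (fin 1099 1 1035)
(fin 1101 1 1036)))))))
(mv 1101 (cons (fin 1100 1 1036)
(mv 1102 (cons (fin 1041 1 1037)
(mv 1104 (cons (fin 1105 0 1037)
(mv 974 (cons (mv 910 (cons (fin 846 5 845)
(fin 1165 5 909)))
(cons (mv 910 (cons (fin 846 5 845)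
(mv 845 (cons (fin 909 7 845)
(mv 911 (cons (fin 847 6 846)
(mv 1166 (cons (fin 975 6 910)
(mv 1230 (cons (fin 1294 7 1037)
(mv 1231 (cons (fin 1167 4 974)
(fin 1295 4 1038)))))))))))))
(mv 1165 (cons (fin 1229 6 973)
(mv 1166 (cons (mv 975 (cons (fin 911 6 910)
(fin 1230 6 974)))
(cons (mv 1230 (cons (fin 1294 7 1037)
(mv 1231 (cons (fin 1167 4 974)
(fin 1295 4 1038)))))
(mv 975 (cons (fin 911 6 910)
(mv 1035 (cons (fin 1036 2 971)
(mv 1167 (cons (fin 1231 4 974)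
(mv 1168 (cons (fin 1169 3 1101)
(fin 1232 7 975))))))))))))))))))))))))
(cons (mv 1104 (cons (fin 1105 0 1037)
(mv 1036 (cons (cons (mv 972 (cons (fin 971 3 971)
(fin 973 3 972)))
(mv 1099 (cons (fin 1100 1 1035)
(mv 1035 (cons (fin 1098 1 1034)
(mv 970 (cons (fin 971 3 970)
(mv 974 (cons (fin 975 2 971)
(mv 973 (cons (fin 1041 3 973)
(fin 1034 2 970))))))))))))
(cons (mv 971 (cons (fin 972 3 971)
(mv 1035 (cons (fin 970 3 970)
(mv 1099 (cons (fin 1098 1 1034)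
(fin 1100 1 1035)))))))
(mv 973 (cons (fin 972 3 972)
(mv 974 (cons (fin 1041 3 973)
(mv 1035 (cons (fin 1034 2 970)
(fin 975 2 971))))))))))))
(mv 973 (cons (fin 972 3 972)
(mv 974 (cons (fin 1041 3 973)
(mv 1104 (cons (fin 1105 0 1037)
(mv 1102 (cons (mv 909 (cons (fin 1166 7 909)
(fin 845 4 845)))
(cons (mv 909 (cons (fin 845 4 845)
(mv 910 (cons (mv 846 (cons (fin 782 5 781)
(fin 1101 5 845)))
(cons (mv 846 (cons (fin 782 5 781)
(mv 847 (cons (fin 783 6 782)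
(fin 911 6 846)))))
(mv 847 (cons (fin 911 6 846)
(mv 1101 (cons (fin 1165 5 909)
(mv 908 (cons (fin 844 7 844)
(mv 907 (cons (fin 906 0 906)
(fin 975 0 907))))))))))))))
(mv 1166 (cons (fin 1230 7 973)
(mv 911 (cons (fin 975 6 910)
(mv 910 (cons (fin 847 6 846)
(mv 846 (cons (fin 782 5 781)
(fin 1101 5 845)))))))))))))))))))))
(mv 1037 (cons (cons (mv 972 (cons (fin 973 3 972)
(mv 971 (cons (fin 1036 3 971)
(mv 977 (cons (fin 976 2 973)
(mv 1041 (cons (fin 978 2 974)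
(mv 1101 (cons (fin 1100 1 1036)
(fin 1102 1 1037)))))))))))
(mv 976 (cons (fin 977 2 973)
(mv 975 (cons (fin 1036 2 972)
(mv 1101 (cons (fin 1100 1 1036)
(mv 1041 (cons (fin 1102 1 1037)
(mv 1042 (cons (fin 974 3 974)
(fin 1043 3 975))))))))))))
(cons (mv 972 (cons (fin 973 3 972)
(mv 976 (cons (fin 977 2 973)
(mv 1036 (cons (fin 971 3 971)
(fin 975 2 972)))))))
(cons (mv 972 (cons (fin 973 3 972)
(mv 1036 (cons (fin 971 3 971)
(mv 1100 (cons (fin 1099 1 1035)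
(fin 1101 1 1036)))))))
(mv 972 (cons (fin 973 3 972)
(mv 977 (cons (fin 976 2 973)
(mv 1041 (cons (fin 978 2 974)
(mv 1101 (cons (fin 1100 1 1036)
(fin 1102 1 1037)))))))))))))))
(cons (mv 1037 (cons (cons (mv 972 (cons (fin 973 3 972)
(mv 976 (cons (fin 977 2 973)
(mv 1036 (cons (fin 971 3 971)
(fin 975 2 972)))))))
(mv 976 (cons (fin 977 2 973)
(mv 975 (cons (fin 1036 2 972)
(mv 1104 (cons (fin 1105 0 1037)
(mv 911 (cons (fin 1168 7 911)
(fin 847 4 847))))))))))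
(cons (mv 973 (cons (fin 972 3 972)
(mv 974 (cons (fin 1041 3 973)
(mv 1104 (cons (fin 1105 0 1037)
(mv 1102 (cons (mv 909 (cons (fin 1166 7 909)
(fin 845 4 845)))
(cons (mv 909 (cons (fin 845 4 845)
(mv 910 (cons (mv 846 (cons (fin 782 5 781)
(fin 1101 5 845)))
(cons (mv 846 (cons (fin 782 5 781)
(mv 847 (cons (fin 783 6 782)
(fin 911 6 846)))))
(mv 847 (cons (fin 911 6 846)
(mv 1101 (cons (fin 1165 5 909)
(mv 908 (cons (fin 844 7 844)
(mv 907 (cons (fin 906 0 906)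
(fin 975 0 907))))))))))))))
(mv 1166 (cons (fin 1230 7 973)
(mv 911 (cons (fin 975 6 910)
(mv 910 (cons (fin 847 6 846)
(mv 846 (cons (fin 782 5 781)
(fin 1101 5 845))))))))))))))))))
(mv 973 (cons (fin 972 3 972)
(mv 977 (cons (fin 976 2 973)
(mv 1041 (cons (fin 974 3 973)
(fin 978 2 974))))))))))
(cons (mv 1037 (cons (cons (mv 972 (cons (fin 973 3 972)
(mv 971 (cons (fin 1036 3 971)
(mv 977 (cons (fin 976 2 973)
(mv 1041 (cons (fin 978 2 974)
(mv 1101 (cons (fin 1100 1 1036)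
(fin 1102 1 1037)))))))))))
(mv 977 (cons (fin 976 2 973)
(mv 1041 (cons (fin 978 2 974)
(mv 1101 (cons (fin 1100 1 1036)
(fin 1102 1 1037))))))))
(cons (mv 973 (cons (fin 972 3 972)
(mv 977 (cons (fin 976 2 973)
(mv 1041 (cons (fin 974 3 973)
(fin 978 2 974)))))))
(mv 972 (cons (fin 973 3 972)
(mv 1036 (cons (fin 971 3 971)
(mv 1100 (cons (fin 1099 1 1035)
(fin 1101 1 1036))))))))))
(mv 1037 (cons (cons (mv 972 (cons (fin 973 3 972)
(mv 977 (cons (fin 976 2 973)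
(mv 1041 (cons (fin 978 2 974)
(mv 1101 (cons (fin 1100 1 1036)
(fin 1102 1 1037)))))))))
(mv 977 (cons (fin 976 2 973)
(mv 1041 (cons (fin 978 2 974)
(mv 1101 (cons (fin 1100 1 1036)
(fin 1102 1 1037))))))))
(cons (mv 973 (cons (fin 972 3 972)
(mv 977 (cons (fin 976 2 973)
(mv 1041 (cons (fin 974 3 973)
(fin 978 2 974)))))))
(cons (mv 973 (cons (fin 972 3 972)
(mv 974 (cons (fin 1041 3 973)
(mv 1101 (cons (fin 1100 1 1036)
(mv 910 (cons (fin 846 5 845)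
(fin 1165 6 909)))))))))
(mv 972 (cons (fin 973 3 972)
(mv 976 (cons (fin 977 2 973)
(mv 1100 (cons (fin 1101 1 1036)
(mv 1104 (cons (fin 1105 0 1037)
(mv 1168 (cons (mv 975 (cons (fin 911 7 911)
(fin 1232 7 975)))
(cons (mv 1231 (cons (fin 1167 5 975)
(mv 1232 (cons (fin 1295 5 1039)
(mv 1233 (cons (fin 1169 4 976)
(fin 1297 4 1040)))))))
(mv 1167 (cons (fin 1231 5 975)
(mv 1169 (cons (fin 1233 4 976)
(mv 912 (cons (cons (mv 911 (cons (fin 847 7 847)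
(fin 975 7 911)))
(mv 849 (cons (fin 913 6 848)
(mv 848 (cons (fin 785 6 784)
(mv 783 (cons (fin 847 7 783)
(mv 784 (cons (fin 719 7 719)
(fin 975 5 783))))))))))
(cons (mv 847 (cons (fin 911 7 847)
(mv 848 (cons (fin 783 7 783)
(mv 849 (cons (fin 785 6 784)
(fin 913 6 848)))))))
(mv 849 (cons (fin 913 6 848)
(mv 848 (cons (fin 785 6 784)
(mv 975 (cons (fin 911 7 911)
(fin 784 5 783))))))))))))))))))))))))))))))))))
(ref 4 0))))
(cons (cons (mv 1038 (cons (cons (cons (mv 1037 (cons (cons (mv 972 (cons (fin 973 3 972)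
(mv 971 (cons (fin 1036 3 971)
(mv 977 (cons (fin 976 2 973)
(mv 1041 (cons (fin 978 2 974)
(mv 1101 (cons (fin 1100 1 1036)
(fin 1102 1 1037)))))))))))
(mv 976 (cons (fin 977 2 973)
(mv 975 (cons (fin 1036 2 972)
(mv 1101 (cons (fin 1100 1 1036)
(mv 1041 (cons (fin 1102 1 1037)
(mv 1042 (cons (fin 974 3 974)
(fin 1043 3 975))))))))))))
(cons (mv 972 (cons (fin 973 3 972)
(mv 976 (cons (fin 977 2 973)
(mv 1036 (cons (fin 971 3 971)
(fin 975 2 972)))))))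
(cons (mv 972 (cons (fin 973 3 972)
(mv 1036 (cons (fin 971 3 971)
(mv 1100 (cons (fin 1099 1 1035)
(fin 1101 1 1036)))))))
(mv 972 (cons (fin 973 3 972)
(mv 977 (cons (fin 976 2 973)
(mv 1041 (cons (fin 978 2 974)
(mv 1101 (cons (fin 1100 1 1036)
(fin 1102 1 1037)))))))))))))
(mv 1041 (cons (cons (mv 973 (cons (fin 974 3 973)
(mv 978 (cons (fin 977 2 974)
(mv 1042 (cons (fin 979 2 975)
(mv 1102 (cons (fin 1101 1 1037)
(fin 1103 1 1038)))))))))
(mv 978 (cons (fin 977 2 974)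
(mv 1042 (cons (fin 979 2 975)
(mv 1102 (cons (fin 1101 1 1037)
(fin 1103 1 1038))))))))
(cons (mv 974 (cons (fin 973 3 973)
(mv 978 (cons (fin 977 2 974)
(mv 1042 (cons (fin 975 3 974)
(fin 979 2 975)))))))
(cons (mv 974 (cons (fin 973 3 973)
(mv 975 (cons (fin 1042 3 974)
(mv 1102 (cons (fin 1101 1 1037)
(mv 911 (cons (fin 847 5 846)
(fin 1166 6 910)))))))))
(mv 974 (cons (fin 973 3 973)
(mv 977 (cons (fin 978 2 974)
(mv 1102 (cons (fin 1101 1 1037)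
(mv 910 (cons (cons (mv 1103 (cons (fin 846 4 846)
(fin 1167 4 910)))
(mv 845 (cons (fin 909 7 845)
(mv 781 (cons (fin 846 7 781)
(mv 911 (cons (fin 847 6 846)
(mv 1166 (cons (fin 975 6 910)
(mv 1229 (cons (fin 1165 5 973)
(mv 1230 (cons (fin 1293 5 1037)
(mv 1231 (cons (fin 1167 4 974)
(fin 1295 4 1038))))))))))))))))
(cons (mv 845 (cons (fin 909 7 845)
(mv 847 (cons (fin 911 6 846)
(mv 1167 (cons (fin 1103 4 910)
(mv 1166 (cons (fin 1231 4 974)
(mv 1229 (cons (fin 1165 5 973)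
(mv 1230 (cons (fin 1293 5 1037)
(fin 975 6 974)))))))))))))
(mv 845 (cons (fin 909 7 845)
(mv 846 (cons (fin 781 7 781)
(fin 1103 4 846)))))))))))))))))))
(cons (mv 1037 (cons (cons (mv 972 (cons (fin 973 3 972)
(mv 976 (cons (fin 977 2 973)
(mv 1036 (cons (fin 971 3 971)
(fin 975 2 972)))))))
(mv 972 (cons (fin 973 3 972)
(mv 1036 (cons (fin 971 3 971)
(mv 1100 (cons (fin 1099 1 1035)
(fin 1101 1 1036))))))))
(cons (mv 976 (cons (fin 977 2 973)
(mv 1036 (cons (fin 975 2 972)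
(mv 1100 (cons (fin 1099 1 1035)
(fin 1101 1 1036)))))))
(mv 973 (cons (fin 972 3 972)
(mv 976 (cons (fin 977 2 973)
(mv 1100 (cons (fin 1101 1 1036)
(mv 909 (cons (cons (mv 845 (cons (fin 1102 4 845)
(mv 780 (cons (fin 844 7 780)
(mv 781 (cons (fin 716 7 716)
(fin 974 4 781)))))))
(mv 974 (cons (cons (mv 975 (cons (fin 908 3 908)
(mv 912 (cons (fin 913 2 909)
(mv 848 (cons (fin 784 5 783)
(fin 1103 5 847)))))))
(mv 1102 (cons (fin 1166 7 909)
(mv 910 (cons (mv 846 (cons (fin 782 5 781)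
(fin 1103 4 846)))
(cons (mv 846 (cons (fin 782 5 781)
(mv 847 (cons (fin 783 6 782)
(fin 911 6 846)))))
(mv 911 (cons (fin 847 6 846)
(mv 912 (cons (fin 913 1 909)
(mv 848 (cons (fin 849 2 845)
(fin 1103 5 847)))))))))))))
(cons (mv 975 (cons (fin 908 3 908)
(mv 912 (cons (fin 913 2 909)
(mv 848 (cons (fin 784 5 783)
(mv 785 (cons (fin 849 6 784)
(mv 847 (cons (fin 783 7 783)
(mv 1102 (cons (fin 1166 7 909)
(fin 911 5 846)))))))))))))
(mv 908 (cons (fin 975 3 908)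
(mv 907 (cons (fin 906 0 906)
(mv 1102 (cons (fin 1166 7 909)
(mv 910 (cons (mv 846 (cons (fin 847 2 843)
(fin 782 5 781)))
(cons (mv 843 (cons (fin 842 3 842)
(mv 911 (cons (fin 844 3 843)
(fin 847 6 846)))))
(mv 846 (cons (fin 782 5 781)
(fin 1103 4 846))))))))))))))))
(cons (mv 845 (cons (mv 780 (cons (fin 844 7 780)
(mv 781 (cons (fin 716 7 716)
(fin 974 4 781)))))
(cons (mv 780 (cons (fin 844 7 780)
(mv 846 (cons (fin 782 6 781)
(mv 848 (cons (mv 847 (cons (fin 908 1 844)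
(mv 912 (cons (fin 913 0 845)
(fin 783 7 783)))))
(cons (mv 912 (cons (fin 1103 5 847)
(mv 784 (cons (fin 975 5 783)
(mv 785 (cons (fin 721 6 720)
(fin 849 6 784)))))))
(mv 847 (cons (fin 908 1 844)
(mv 784 (cons (fin 785 2 781)
(mv 849 (cons (fin 910 1 845)
(mv 911 (cons (fin 975 6 783)
(mv 914 (cons (fin 913 0 846)
(mv 850 (cons (fin 915 0 847)
(mv 787 (cons (fin 786 2 783)
(mv 851 (cons (fin 783 3 783)
(fin 788 2 784))))))))))))))))))))))))
(mv 781 (cons (fin 974 4 781)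
(mv 782 (cons (fin 718 6 717)
(fin 846 6 781))))))))
(cons (mv 845 (cons (fin 1102 4 845)
(mv 780 (cons (fin 844 7 780)
(mv 781 (cons (fin 716 7 716)
(mv 782 (cons (fin 718 6 717)
(fin 846 6 781)))))))))
(mv 845 (cons (fin 1102 4 845)
(mv 781 (cons (fin 974 4 781)
(mv 782 (cons (fin 718 6 717)
(fin 846 6 781))))))))))))))))))))
(mv 1037 (cons (cons (mv 976 (cons (fin 977 2 973)
(mv 975 (cons (fin 1036 2 972)
(mv 1101 (cons (fin 1100 1 1036)
(mv 1041 (cons (fin 1102 1 1037)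
(mv 1042 (cons (fin 974 3 974)
(fin 1043 3 975)))))))))))
(mv 1101 (cons (fin 1100 1 1036)
(mv 1102 (cons (fin 1041 1 1037)
(mv 974 (cons (mv 910 (cons (fin 846 5 845)
(fin 1165 5 909)))
(cons (mv 1165 (cons (fin 1229 6 973)
(mv 1166 (cons (mv 975 (cons (fin 911 6 910)
(fin 1230 6 974)))
(cons (mv 975 (cons (fin 911 6 910)
(mv 1035 (cons (fin 1036 2 971)
(mv 1167 (cons (fin 1231 4 974)
(mv 1168 (cons (fin 1169 3 1101)
(mv 1232 (cons (fin 1233 0 1165)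
(fin 1103 4 975)))))))))))
(mv 1230 (cons (fin 1294 7 1037)
(mv 1231 (cons (fin 1167 4 974)
(fin 1295 4 1038))))))))))
(mv 910 (cons (fin 846 5 845)
(mv 845 (cons (fin 909 7 845)
(mv 847 (cons (fin 911 6 846)
(mv 1167 (cons (fin 1103 4 910)
(mv 1166 (cons (fin 1231 4 974)
(mv 1230 (cons (fin 1294 7 1037)
(fin 975 6 974)))))))))))))))))))))
(cons (mv 976 (cons (fin 977 2 973)
(mv 1036 (cons (fin 975 2 972)
(mv 971 (cons (fin 972 3 971)
(mv 1035 (cons (fin 970 3 970)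
(mv 1099 (cons (fin 1098 1 1034)
(fin 1100 1 1035)))))))))))
(cons (mv 976 (cons (fin 977 2 973)
(mv 1036 (cons (fin 975 2 972)
(mv 971 (cons (fin 972 3 971)
(mv 1035 (cons (fin 970 3 970)
(mv 1098 (cons (fin 1099 1 1034)
(mv 1034 (cons (fin 1097 1 1033)
(mv 1102 (cons (fin 1101 0 1034)
(fin 1103 0 1035)))))))))))))))
(mv 977 (cons (fin 976 2 973)
(mv 1041 (cons (fin 978 2 974)
(mv 1101 (cons (fin 1100 1 1036)
(fin 1102 1 1037)))))))))))))
(cons (cons (mv 1037 (cons (cons (mv 972 (cons (fin 973 3 972)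
(mv 976 (cons (fin 977 2 973)
(mv 1036 (cons (fin 971 3 971)
(fin 975 2 972)))))))
(mv 976 (cons (fin 977 2 973)
(mv 1036 (cons (fin 975 2 972)
(mv 971 (cons (fin 972 3 971)
(mv 1035 (cons (fin 970 3 970)
(mv 1099 (cons (fin 1098 1 1034)
(fin 1100 1 1035))))))))))))
(cons (mv 973 (cons (fin 972 3 972)
(mv 974 (cons (fin 1041 3 973)
(mv 1102 (cons (mv 909 (cons (fin 1166 7 909)
(fin 845 4 845)))
(cons (mv 909 (cons (fin 845 4 845)
(mv 910 (cons (mv 846 (cons (fin 782 5 781)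
(fin 1103 4 846)))
(cons (mv 911 (cons (fin 847 6 846)
(mv 912 (cons (fin 913 1 909)
(mv 848 (cons (fin 849 2 845)
(mv 1103 (cons (fin 975 6 847)
(fin 1167 4 910)))))))))
(mv 846 (cons (fin 782 5 781)
(mv 847 (cons (fin 783 6 782)
(fin 911 6 846))))))))))
(mv 1166 (cons (fin 1230 7 973)
(mv 911 (cons (fin 975 6 910)
(mv 910 (cons (fin 847 6 846)
(mv 846 (cons (fin 782 5 781)
(fin 1103 4 846))))))))))))))))
(cons (mv 976 (cons (fin 977 2 973)
(mv 975 (cons (fin 1036 2 972)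
(mv 1041 (cons (mv 974 (cons (fin 973 3 973)
(fin 1042 3 974)))
(cons (mv 1042 (cons (fin 1043 3 975)
(mv 978 (cons (fin 979 2 975)
(mv 1103 (cons (fin 1102 1 1038)
(mv 912 (cons (fin 848 5 847)
(fin 1167 6 911)))))))))
(mv 973 (cons (fin 974 3 973)
(mv 912 (cons (mv 848 (cons (fin 784 5 783)
(fin 1103 5 847)))
(cons (mv 1103 (cons (fin 1167 6 911)
(mv 911 (cons (mv 847 (cons (fin 1102 5 846)
(fin 783 4 783)))
(cons (mv 846 (cons (fin 910 7 846)
(mv 847 (cons (fin 782 7 782)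
(fin 783 4 783)))))
(mv 910 (cons (fin 846 7 846)
(mv 909 (cons (fin 908 0 908)
(mv 845 (cons (fin 844 3 844)
(fin 1102 4 845))))))))))))
(mv 848 (cons (fin 784 5 783)
(fin 1105 4 848)))))))))))))))
(mv 973 (cons (fin 972 3 972)
(mv 977 (cons (fin 976 2 973)
(mv 1041 (cons (fin 974 3 973)
(fin 978 2 974)))))))))))
(mv 1037 (cons (cons (mv 972 (cons (fin 973 3 972)
(mv 1036 (cons (fin 971 3 971)
(mv 1100 (cons (fin 1099 1 1035)
(fin 1101 1 1036)))))))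
(cons (mv 1100 (cons (fin 1101 1 1036)
(mv 1036 (cons (fin 1099 1 1035)
(mv 971 (cons (fin 972 3 971)
(mv 975 (cons (fin 976 2 972)
(mv 1035 (cons (fin 970 3 970)
(fin 974 2 971)))))))))))
(mv 972 (cons (fin 973 3 972)
(mv 1036 (cons (fin 971 3 971)
(mv 975 (cons (fin 976 2 972)
(mv 1035 (cons (fin 974 2 971)
(mv 1099 (cons (fin 1098 1 1034)
(fin 1100 1 1035)))))))))))))
(cons (mv 1100 (cons (fin 1101 1 1036)
(mv 1036 (cons (fin 1099 1 1035)
(mv 975 (cons (fin 976 2 972)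
(mv 974 (cons (fin 1035 2 971)
(mv 1041 (cons (fin 973 3 973)
(fin 1042 3 974)))))))))))
(cons (mv 972 (cons (fin 973 3 972)
(mv 1036 (cons (fin 971 3 971)
(mv 975 (cons (fin 976 2 972)
(mv 974 (cons (fin 1035 2 971)
(mv 1041 (cons (fin 1042 3 974)
(mv 1102 (cons (fin 1101 1 1037)
(mv 911 (cons (fin 847 5 846)
(fin 1166 6 910)))))))))))))))
(mv 973 (cons (fin 972 3 972)
(mv 974 (cons (fin 1041 3 973)
(mv 1101 (cons (fin 1100 1 1036)
(mv 910 (cons (fin 846 5 845)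
(fin 1165 6 909))))))))))))))
(cons (mv 1037 (cons (cons (mv 972 (cons (fin 973 3 972)
(mv 971 (cons (fin 1036 3 971)
(mv 977 (cons (fin 976 2 973)
(mv 1041 (cons (fin 978 2 974)
(mv 1101 (cons (fin 1100 1 1036)
(fin 1102 1 1037)))))))))))
(mv 972 (cons (fin 973 3 972)
(mv 1036 (cons (fin 971 3 971)
(mv 1100 (cons (fin 1099 1 1035)
(fin 1101 1 1036))))))))
(cons (mv 972 (cons (fin 973 3 972)
(mv 976 (cons (fin 977 2 973)
(mv 1036 (cons (fin 971 3 971)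
(fin 975 2 972)))))))
(cons (mv 976 (cons (fin 977 2 973)
(mv 975 (cons (fin 1036 2 972)
(mv 1101 (cons (fin 1100 1 1036)
(mv 1102 (cons (fin 1041 1 1037)
(mv 911 (cons (fin 847 5 846)
(mv 1166 (cons (fin 1103 5 910)
(fin 1230 6 974)))))))))))))
(mv 972 (cons (fin 973 3 972)
(mv 977 (cons (fin 976 2 973)
(mv 1041 (cons (fin 978 2 974)
(mv 1101 (cons (fin 1100 1 1036)
(fin 1102 1 1037)))))))))))))
(cons (mv 1037 (cons (cons (mv 972 (cons (fin 973 3 972)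
(mv 976 (cons (fin 977 2 973)
(mv 1036 (cons (fin 971 3 971)
(fin 975 2 972)))))))
(mv 972 (cons (fin 973 3 972)
(mv 1036 (cons (fin 971 3 971)
(mv 1100 (cons (fin 1099 1 1035)
(fin 1101 1 1036))))))))
(cons (mv 976 (cons (fin 977 2 973)
(mv 1036 (cons (fin 975 2 972)
(mv 1100 (cons (fin 1099 1 1035)
(fin 1101 1 1036)))))))
(mv 973 (cons (fin 972 3 972)
(mv 974 (cons (fin 1041 3 973)
(mv 976 (cons (fin 977 2 973)
(mv 1101 (cons (fin 1100 1 1036)
(mv 910 (cons (fin 846 5 845)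
(fin 1165 6 909))))))))))))))
(mv 1037 (cons (cons (mv 972 (cons (fin 973 3 972)
(mv 971 (cons (fin 1036 3 971)
(mv 977 (cons (fin 976 2 973)
(mv 1041 (cons (fin 978 2 974)
(mv 1101 (cons (fin 1100 1 1036)
(fin 1102 1 1037)))))))))))
(mv 973 (cons (fin 972 3 972)
(mv 977 (cons (fin 976 2 973)
(mv 1041 (cons (fin 974 3 973)
(fin 978 2 974))))))))
(cons (mv 977 (cons (fin 976 2 973)
(mv 1041 (cons (fin 978 2 974)
(mv 1101 (cons (fin 1100 1 1036)
(fin 1102 1 1037)))))))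
(mv 972 (cons (fin 973 3 972)
(mv 1036 (cons (fin 971 3 971)
(mv 1100 (cons (fin 1099 1 1035)
(fin 1101 1 1036)))))))))))))))
(cons (ref 1 0)
(mv 1038 (cons (cons (mv 1037 (cons (cons (mv 972 (cons (fin 973 3 972)
(mv 976 (cons (fin 977 2 973)
(mv 1036 (cons (fin 971 3 971)
(fin 975 2 972)))))))
(mv 972 (cons (fin 973 3 972)
(mv 1036 (cons (fin 971 3 971)
(mv 1100 (cons (fin 1099 1 1035)
(fin 1101 1 1036))))))))
(cons (mv 976 (cons (fin 977 2 973)
(mv 975 (cons (fin 1036 2 972)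
(mv 1100 (cons (fin 1101 1 1036)
(mv 1104 (cons (fin 1105 0 1037)
(mv 911 (cons (fin 1168 7 911)
(fin 847 4 847)))))))))))
(mv 973 (cons (fin 972 3 972)
(mv 974 (cons (fin 1041 3 973)
(mv 976 (cons (fin 977 2 973)
(mv 1101 (cons (fin 1100 1 1036)
(mv 910 (cons (fin 846 5 845)
(fin 1165 6 909))))))))))))))
(cons (mv 974 (cons (cons (mv 973 (cons (fin 1041 3 973)
(mv 972 (cons (fin 971 0 971)
(fin 975 0 972)))))
(mv 912 (cons (cons (cons (mv 1103 (cons (cons (mv 846 (cons (fin 910 4 846)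
(mv 976 (cons (fin 848 5 847)
(mv 1167 (cons (fin 1231 7 974)
(fin 1104 5 911)))))))
(mv 848 (cons (fin 976 5 847)
(mv 910 (cons (fin 846 4 846)
(mv 911 (cons (fin 975 6 847)
(mv 849 (cons (fin 909 2 845)
(mv 850 (cons (fin 847 1 846)
(fin 851 1 847))))))))))))
(cons (mv 910 (cons (fin 846 4 846)
(mv 1167 (cons (fin 975 7 910)
(fin 1231 7 974)))))
(mv 976 (cons (fin 848 5 847)
(mv 1167 (cons (fin 1231 7 974)
(fin 1104 5 911))))))))
(mv 975 (cons (cons (mv 973 (cons (fin 972 0 972)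
(mv 913 (cons (fin 976 2 909)
(mv 911 (cons (fin 910 1 909)
(fin 914 1 910)))))))
(cons (mv 976 (cons (cons (mv 784 (cons (fin 848 5 783)
(mv 977 (cons (fin 978 1 974)
(mv 909 (cons (fin 910 3 909)
(mv 913 (cons (fin 914 2 910)
(mv 849 (cons (fin 785 5 784)
(fin 1104 6 848)))))))))))
(mv 848 (cons (fin 784 5 783)
(mv 783 (cons (fin 847 7 783)
(mv 849 (cons (fin 785 6 784)
(mv 913 (cons (fin 1104 6 848)
(mv 914 (cons (fin 911 1 910)
(fin 915 1 911))))))))))))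
(cons (mv 977 (cons (fin 978 1 974)
(mv 909 (cons (fin 910 3 909)
(mv 913 (cons (fin 914 2 910)
(mv 849 (cons (fin 785 5 784)
(fin 1104 6 848)))))))))
(cons (mv 784 (cons (fin 848 5 783)
(mv 977 (cons (fin 978 1 974)
(mv 910 (cons (fin 909 3 909)
(mv 846 (cons (fin 782 4 782)
(mv 783 (cons (fin 847 6 782)
(mv 845 (cons (fin 781 7 781)
(mv 913 (cons (fin 911 3 845)
(fin 914 2 910)))))))))))))))
(mv 784 (cons (fin 848 5 783)
(mv 977 (cons (fin 978 1 974)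
(mv 910 (cons (fin 909 3 909)
(mv 846 (cons (fin 782 4 782)
(mv 781 (cons (fin 845 7 781)
(mv 847 (cons (fin 783 6 782)
(mv 1104 (cons (fin 911 7 847)
(mv 1168 (cons (fin 1232 7 975)
(mv 1169 (cons (fin 1105 4 912)
(fin 1233 4 976)))))))))))))))))))))))
(mv 973 (cons (fin 972 0 972)
(mv 976 (cons (fin 913 2 909)
(mv 784 (cons (fin 848 5 783)
(mv 909 (cons (fin 908 3 908)
(mv 977 (cons (fin 910 3 909)
(fin 978 1 974)))))))))))))
(cons (mv 973 (cons (fin 972 0 972)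
(mv 911 (cons (mv 847 (cons (fin 783 5 782)
(fin 1104 4 847)))
(mv 913 (cons (fin 910 1 909)
(fin 914 1 910)))))))
(cons (mv 973 (cons (fin 972 0 972)
(mv 976 (cons (cons (mv 784 (cons (fin 848 5 783)
(mv 909 (cons (fin 908 3 908)
(mv 977 (cons (fin 910 3 909)
(fin 978 1 974)))))))
(mv 848 (cons (fin 784 5 783)
(mv 785 (cons (fin 849 6 784)
(mv 847 (cons (fin 783 7 783)
(mv 908 (cons (fin 909 3 908)
(mv 911 (cons (fin 1104 7 847)
(mv 846 (cons (fin 782 7 782)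
(mv 845 (cons (fin 844 0 844)
(mv 781 (cons (fin 780 3 780)
(fin 910 7 781))))))))))))))))))
(cons (mv 848 (cons (fin 784 5 783)
(mv 785 (cons (fin 849 6 784)
(mv 847 (cons (fin 783 7 783)
(mv 911 (cons (fin 1104 7 847)
(mv 846 (cons (fin 782 7 782)
(mv 845 (cons (fin 844 0 844)
(mv 781 (cons (fin 780 3 780)
(fin 910 7 781)))))))))))))))
(cons (mv 909 (cons (fin 908 3 908)
(mv 977 (cons (fin 910 3 909)
(fin 978 1 974)))))
(mv 848 (cons (fin 784 5 783)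
(mv 785 (cons (fin 849 6 784)
(mv 847 (cons (fin 783 7 783)
(mv 908 (cons (fin 909 3 908)
(mv 977 (cons (fin 978 1 974)
(mv 1104 (cons (fin 911 7 847)
(mv 1168 (cons (fin 1232 7 975)
(mv 1169 (cons (fin 1105 4 912)
(fin 1233 4 976)))))))))))))))))))))))
(mv 973 (cons (fin 972 0 972)
(mv 913 (cons (fin 976 2 909)
(mv 911 (cons (fin 914 1 910)
(mv 847 (cons (fin 783 5 782)
(fin 1104 4 847))))))))))))))
(cons (mv 976 (cons (cons (mv 848 (cons (fin 1103 5 847)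
(mv 783 (cons (fin 847 7 783)
(mv 784 (cons (fin 719 7 719)
(mv 785 (cons (fin 721 6 720)
(fin 849 6 784)))))))))
(mv 847 (cons (cons (mv 783 (cons (fin 848 7 783)
(mv 911 (cons (fin 1104 7 847)
(fin 719 4 719)))))
(mv 1104 (cons (fin 911 7 847)
(mv 913 (cons (fin 849 6 848)
(mv 1168 (cons (fin 977 6 912)
(mv 1169 (cons (fin 1105 4 912)
(fin 1233 4 976))))))))))
(cons (mv 783 (cons (fin 848 7 783)
(mv 910 (cons (fin 846 6 782)
(mv 911 (cons (fin 719 5 718)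
(mv 909 (cons (fin 977 0 909)
(mv 973 (cons (fin 972 1 908)
(fin 913 1 909)))))))))))
(mv 848 (cons (fin 783 7 783)
(mv 849 (cons (fin 785 6 784)
(mv 913 (cons (fin 1104 6 848)
(mv 846 (cons (fin 845 0 845)
(fin 914 0 846)))))))))))))
(cons (mv 1104 (cons (cons (mv 847 (cons (fin 911 7 847)
(mv 849 (cons (fin 913 6 848)
(mv 1167 (cons (fin 1103 5 911)
(mv 1168 (cons (fin 1231 5 975)
(mv 1169 (cons (fin 1105 4 912)
(fin 1233 4 976)))))))))))
(cons (mv 847 (cons (fin 911 7 847)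
(mv 913 (cons (fin 849 6 848)
(mv 1168 (cons (fin 977 6 912)
(mv 1169 (cons (fin 1105 4 912)
(fin 1233 4 976)))))))))
(mv 847 (cons (fin 911 7 847)
(mv 1167 (cons (fin 1103 5 911)
(mv 1168 (cons (fin 1231 5 975)
(mv 1169 (cons (fin 1105 4 912)
(fin 1233 4 976)))))))))))
(cons (mv 847 (cons (fin 911 7 847)
(mv 913 (cons (fin 849 6 848)
(mv 1167 (cons (fin 1103 5 911)
(mv 1168 (cons (fin 1231 5 975)
(fin 977 6 912)))))))))
(cons (mv 849 (cons (fin 913 6 848)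
(mv 1167 (cons (fin 1103 5 911)
(mv 1168 (cons (fin 1231 5 975)
(mv 1169 (cons (fin 1105 4 912)
(fin 1233 4 976)))))))))
(mv 849 (cons (fin 913 6 848)
(mv 911 (cons (fin 847 7 847)
(mv 1103 (cons (fin 1167 5 911)
(mv 910 (cons (fin 846 4 846)
(mv 909 (cons (fin 977 0 909)
(mv 844 (cons (fin 845 3 844)
(mv 908 (cons (fin 843 3 843)
(mv 972 (cons (fin 971 1 907)
(fin 973 1 908)))))))))))))))))))))
(mv 1103 (cons (fin 848 5 847)
(mv 1167 (cons (fin 1231 7 974)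
(fin 1104 5 911))))))))
(cons (mv 911 (cons (cons (mv 975 (cons (mv 847 (cons (fin 783 5 782)
(fin 1104 4 847)))
(mv 848 (cons (fin 1103 6 847)
(mv 720 (cons (fin 784 5 719)
(mv 913 (cons (fin 914 1 910)
(mv 973 (cons (fin 910 1 909)
(fin 972 2 908)))))))))))
(cons (mv 910 (cons (mv 846 (cons (fin 1103 4 846)
(mv 845 (cons (fin 913 3 845)
(fin 781 7 781)))))
(cons (mv 913 (cons (fin 973 1 909)
(mv 849 (cons (fin 850 2 846)
(mv 848 (cons (fin 909 2 845)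
(mv 978 (cons (fin 977 0 910)
(mv 914 (cons (fin 979 0 911)
(mv 915 (cons (fin 847 3 847)
(fin 916 3 848)))))))))))))
(mv 846 (cons (fin 1103 4 846)
(mv 781 (cons (fin 845 7 781)
(mv 782 (cons (fin 717 7 717)
(mv 783 (cons (fin 719 6 718)
(fin 847 6 782))))))))))))
(mv 975 (cons (mv 847 (cons (fin 783 5 782)
(fin 1104 4 847)))
(mv 913 (cons (fin 914 1 910)
(mv 1103 (cons (fin 848 6 847)
(mv 910 (cons (fin 846 7 846)
(fin 1167 7 910)))))))))))
(cons (cons (mv 975 (cons (mv 847 (cons (fin 783 5 782)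
(fin 1104 4 847)))
(mv 913 (cons (fin 914 1 910)
(mv 973 (cons (fin 910 1 909)
(fin 972 2 908)))))))
(mv 975 (cons (mv 847 (cons (fin 783 5 782)
(fin 1104 4 847)))
(cons (mv 913 (cons (fin 914 1 910)
(mv 972 (cons (fin 973 2 908)
(mv 1103 (cons (fin 848 6 847)
(mv 1167 (cons (fin 1231 7 974)
(mv 1168 (cons (fin 1104 4 911)
(fin 1232 4 975)))))))))))
(mv 847 (cons (fin 783 5 782)
(mv 848 (cons (fin 784 6 783)
(fin 1103 6 847)))))))))
(cons (mv 975 (cons (cons (mv 848 (cons (fin 1103 6 847)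
(mv 720 (cons (fin 784 5 719)
(mv 913 (cons (fin 914 1 910)
(mv 973 (cons (fin 910 1 909)
(fin 972 2 908)))))))))
(mv 913 (cons (fin 914 1 910)
(mv 1103 (cons (fin 848 6 847)
(mv 910 (cons (fin 846 7 846)
(fin 1167 7 910))))))))
(cons (mv 913 (cons (fin 914 1 910)
(mv 973 (cons (fin 910 1 909)
(fin 972 2 908)))))
(cons (mv 972 (cons (fin 973 2 908)
(mv 1103 (cons (fin 848 6 847)
(mv 910 (cons (fin 846 7 846)
(fin 1167 7 910)))))))
(mv 913 (cons (fin 914 1 910)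
(mv 972 (cons (fin 973 2 908)
(mv 1103 (cons (fin 848 6 847)
(mv 1167 (cons (fin 1231 7 974)
(mv 1168 (cons (fin 1104 4 911)
(fin 1232 4 975)))))))))))))))
(mv 975 (cons (mv 847 (cons (fin 783 5 782)
(fin 1104 4 847)))
(mv 972 (cons (fin 973 2 908)
(mv 1103 (cons (fin 848 6 847)
(mv 910 (cons (fin 846 7 846)
(fin 1167 7 910)))))))))))))
(mv 976 (cons (cons (mv 848 (cons (fin 1103 5 847)
(mv 783 (cons (fin 847 7 783)
(mv 784 (cons (fin 719 7 719)
(fin 975 5 783)))))))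
(mv 975 (cons (mv 973 (cons (fin 913 2 909)
(fin 972 0 972)))
(cons (mv 784 (cons (fin 848 5 783)
(mv 977 (cons (fin 978 1 974)
(mv 913 (cons (fin 914 2 910)
(mv 849 (cons (fin 785 5 784)
(fin 1104 6 848)))))))))
(mv 848 (cons (fin 784 5 783)
(mv 785 (cons (fin 849 6 784)
(mv 847 (cons (fin 783 7 783)
(mv 911 (cons (fin 1104 7 847)
(mv 846 (cons (fin 782 7 782)
(mv 845 (cons (fin 844 0 844)
(mv 781 (cons (fin 780 3 780)
(mv 909 (cons (fin 908 1 844)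
(fin 973 4 781)))))))))))))))))))))
(cons (mv 1104 (cons (cons (cons (mv 847 (cons (fin 911 7 847)
(mv 849 (cons (fin 913 6 848)
(mv 1103 (cons (fin 1167 5 911)
(mv 1169 (cons (fin 1105 4 912)
(mv 1168 (cons (fin 1233 4 976)
(mv 1232 (cons (fin 975 7 975)
(fin 1296 7 1039)))))))))))))
(mv 847 (cons (fin 911 7 847)
(mv 849 (cons (fin 913 6 848)
(mv 1169 (cons (fin 1105 4 912)
(mv 1168 (cons (fin 1233 4 976)
(mv 1232 (cons (fin 975 7 975)
(mv 1295 (cons (fin 1231 5 1039)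
(mv 1296 (cons (fin 1103 7 1039)
(fin 1359 5 1103))))))))))))))))
(cons (mv 847 (cons (fin 911 7 847)
(mv 849 (cons (fin 913 6 848)
(mv 1169 (cons (fin 1105 4 912)
(mv 1168 (cons (fin 1233 4 976)
(mv 1231 (cons (fin 1167 5 975)
(mv 1232 (cons (fin 975 7 975)
(fin 1295 5 1039)))))))))))))
(mv 849 (cons (fin 913 6 848)
(mv 1103 (cons (fin 1167 5 911)
(mv 1169 (cons (fin 1105 4 912)
(mv 1168 (cons (fin 1233 4 976)
(mv 1232 (cons (fin 975 7 975)
(fin 1296 7 1039)))))))))))))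
(cons (cons (mv 847 (cons (fin 911 7 847)
(mv 1103 (cons (fin 1167 5 911)
(mv 1169 (cons (fin 1105 4 912)
(mv 1168 (cons (fin 1233 4 976)
(mv 1232 (cons (fin 975 7 975)
(fin 1296 7 1039)))))))))))
(mv 847 (cons (fin 911 7 847)
(mv 913 (cons (fin 849 6 848)
(mv 973 (cons (fin 975 2 909)
(mv 971 (cons (fin 972 0 971)
(mv 1167 (cons (fin 1103 5 911)
(mv 1168 (cons (fin 1231 5 975)
(fin 977 6 912))))))))))))))
(cons (mv 847 (cons (fin 911 7 847)
(mv 849 (cons (fin 913 6 848)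
(mv 1167 (cons (fin 1103 5 911)
(mv 1168 (cons (fin 1231 5 975)
(mv 1169 (cons (fin 1105 4 912)
(fin 1233 4 976)))))))))))
(mv 847 (cons (fin 911 7 847)
(mv 913 (cons (fin 849 6 848)
(mv 975 (cons (fin 973 2 909)
(mv 914 (cons (fin 915 1 911)
(fin 977 2 910)))))))))))))
(cons (mv 848 (cons (fin 1103 5 847)
(mv 783 (cons (fin 847 7 783)
(mv 784 (cons (fin 719 7 719)
(mv 785 (cons (fin 721 6 720)
(fin 849 6 784)))))))))
(mv 848 (cons (fin 1103 5 847)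
(mv 784 (cons (fin 975 5 783)
(mv 785 (cons (fin 721 6 720)
(fin 849 6 784))))))))))))))
(cons (cons (mv 973 (cons (mv 972 (cons (fin 971 0 971)
(fin 975 0 972)))
(cons (mv 910 (cons (mv 846 (cons (fin 1103 4 846)
(mv 781 (cons (fin 845 7 781)
(mv 782 (cons (fin 717 7 717)
(fin 975 4 782)))))))
(cons (mv 913 (cons (fin 911 1 909)
(mv 976 (cons (fin 975 2 909)
(mv 849 (cons (fin 1104 6 848)
(mv 785 (cons (fin 721 5 720)
(fin 977 5 784)))))))))
(mv 846 (cons (fin 1103 4 846)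
(mv 781 (cons (fin 845 7 781)
(mv 782 (cons (fin 717 7 717)
(mv 783 (cons (fin 719 6 718)
(fin 847 6 782))))))))))))
(mv 972 (cons (fin 971 0 971)
(mv 910 (cons (mv 911 (cons (fin 909 1 908)
(fin 913 1 909)))
(mv 846 (cons (fin 1103 4 846)
(mv 781 (cons (fin 845 7 781)
(mv 782 (cons (fin 717 7 717)
(mv 783 (cons (fin 719 6 718)
(fin 847 6 782))))))))))))))))
(mv 1103 (cons (cons (mv 848 (cons (fin 976 5 847)
(mv 975 (cons (fin 911 6 847)
(mv 1167 (cons (fin 910 7 910)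
(fin 1231 7 974)))))))
(mv 848 (cons (fin 976 5 847)
(mv 911 (cons (fin 975 6 847)
(mv 910 (cons (cons (mv 849 (cons (fin 909 2 845)
(mv 850 (cons (fin 847 1 846)
(fin 851 1 847)))))
(mv 913 (cons (fin 973 1 909)
(mv 849 (cons (fin 850 2 846)
(mv 978 (cons (fin 977 0 910)
(mv 914 (cons (fin 979 0 911)
(mv 915 (cons (fin 847 3 847)
(fin 916 3 848))))))))))))
(cons (mv 913 (cons (fin 973 1 909)
(mv 978 (cons (fin 977 0 910)
(mv 914 (cons (fin 979 0 911)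
(mv 851 (cons (fin 850 2 847)
(mv 915 (cons (fin 847 3 847)
(fin 852 2 848)))))))))))
(cons (mv 849 (cons (fin 909 2 845)
(mv 850 (cons (fin 851 1 847)
(fin 913 2 846)))))
(mv 849 (cons (fin 909 2 845)
(mv 913 (cons (fin 973 1 909)
(mv 978 (cons (fin 977 0 910)
(mv 914 (cons (fin 979 0 911)
(mv 915 (cons (fin 847 3 847)
(fin 916 3 848))))))))))))))))))))
(cons (mv 1167 (cons (fin 1231 7 974)
(mv 975 (cons (fin 910 7 910)
(mv 911 (cons (fin 848 6 847)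
(mv 847 (cons (fin 783 5 782)
(fin 1104 4 847)))))))))
(cons (mv 1167 (cons (fin 1231 7 974)
(mv 975 (cons (fin 910 7 910)
(fin 976 6 911)))))
(mv 976 (cons (fin 848 5 847)
(mv 1167 (cons (fin 1231 7 974)
(fin 1104 5 911))))))))))
(cons (mv 1103 (cons (cons (mv 846 (cons (fin 910 4 846)
(mv 976 (cons (fin 848 5 847)
(mv 1167 (cons (fin 1231 7 974)
(fin 1104 5 911)))))))
(mv 910 (cons (fin 846 4 846)
(mv 976 (cons (fin 848 5 847)
(mv 975 (cons (mv 973 (cons (fin 913 2 909)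
(fin 972 0 972)))
(mv 977 (cons (fin 909 3 909)
(fin 978 1 974))))))))))
(cons (mv 910 (cons (fin 846 4 846)
(mv 1167 (cons (fin 975 7 910)
(fin 1231 7 974)))))
(mv 976 (cons (fin 848 5 847)
(mv 1167 (cons (fin 1231 7 974)
(fin 1104 5 911))))))))
(cons (mv 1103 (cons (cons (mv 846 (cons (fin 910 4 846)
(mv 976 (cons (fin 848 5 847)
(mv 1167 (cons (fin 1231 7 974)
(fin 975 6 911)))))))
(mv 848 (cons (fin 976 5 847)
(mv 910 (cons (fin 846 4 846)
(mv 911 (cons (fin 975 6 847)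
(mv 849 (cons (fin 909 2 845)
(mv 850 (cons (fin 847 1 846)
(fin 851 1 847))))))))))))
(cons (mv 910 (cons (fin 846 4 846)
(mv 1167 (cons (fin 975 7 910)
(fin 1231 7 974)))))
(cons (mv 976 (cons (fin 848 5 847)
(mv 1167 (cons (fin 1231 7 974)
(fin 975 6 911)))))
(mv 848 (cons (fin 976 5 847)
(mv 910 (cons (fin 846 4 846)
(mv 1167 (cons (fin 1231 7 974)
(mv 911 (cons (cons (mv 849 (cons (fin 909 2 845)
(mv 850 (cons (fin 847 1 846)
(fin 851 1 847)))))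
(mv 913 (cons (fin 973 1 909)
(mv 849 (cons (fin 850 2 846)
(mv 978 (cons (fin 977 0 910)
(mv 914 (cons (fin 979 0 911)
(mv 915 (cons (fin 847 3 847)
(fin 916 3 848))))))))))))
(cons (mv 913 (cons (fin 973 1 909)
(mv 978 (cons (fin 977 0 910)
(mv 914 (cons (fin 979 0 911)
(mv 851 (cons (fin 850 2 847)
(mv 915 (cons (fin 847 3 847)
(fin 852 2 848)))))))))))
(cons (mv 849 (cons (fin 909 2 845)
(mv 850 (cons (fin 851 1 847)
(fin 913 2 846)))))
(mv 849 (cons (fin 909 2 845)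
(mv 913 (cons (fin 973 1 909)
(mv 978 (cons (fin 977 0 910)
(mv 914 (cons (fin 979 0 911)
(mv 915 (cons (fin 847 3 847)
(fin 916 3 848)))))))))))))))))))))))))
(mv 1103 (cons (cons (mv 846 (cons (fin 910 4 846)
(mv 976 (cons (fin 848 5 847)
(mv 1167 (cons (fin 1231 7 974)
(fin 1104 5 911)))))))
(mv 848 (cons (fin 976 5 847)
(mv 910 (cons (fin 846 4 846)
(mv 911 (cons (fin 975 6 847)
(mv 913 (cons (fin 973 1 909)
(mv 849 (cons (fin 850 2 846)
(mv 978 (cons (fin 977 0 910)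
(mv 914 (cons (fin 979 0 911)
(mv 915 (cons (fin 847 3 847)
(fin 916 3 848))))))))))))))))))
(cons (mv 910 (cons (fin 846 4 846)
(mv 1167 (cons (fin 975 7 910)
(fin 1231 7 974)))))
(mv 976 (cons (fin 848 5 847)
(mv 1167 (cons (fin 1231 7 974)
(fin 1104 5 911))))))))))))))
(cons (mv 910 (cons (cons (mv 846 (cons (fin 1103 4 846)
(mv 781 (cons (fin 845 7 781)
(mv 782 (cons (fin 717 7 717)
(fin 975 4 782)))))))
(mv 975 (cons (cons (mv 1041 (cons (fin 1042 3 974)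
(mv 977 (cons (fin 978 2 974)
(mv 976 (cons (fin 909 3 909)
(mv 913 (cons (fin 914 2 910)
(mv 849 (cons (fin 785 5 784)
(fin 1104 5 848)))))))))))
(cons (mv 1103 (cons (fin 1167 7 910)
(mv 911 (cons (mv 847 (cons (fin 783 5 782)
(fin 1104 4 847)))
(cons (mv 912 (cons (fin 848 6 847)
(mv 913 (cons (fin 914 1 910)
(mv 849 (cons (fin 850 2 846)
(mv 1104 (cons (fin 976 6 848)
(fin 1168 4 911)))))))))
(mv 783 (cons (fin 847 5 782)
(mv 912 (cons (fin 848 6 847)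
(mv 913 (cons (fin 914 1 910)
(mv 849 (cons (fin 850 2 846)
(mv 977 (cons (fin 978 0 910)
(mv 976 (cons (fin 909 3 909)
(fin 785 5 784))))))))))))))))))
(mv 1041 (cons (fin 1042 3 974)
(mv 1103 (cons (fin 1167 7 910)
(mv 911 (cons (mv 847 (cons (fin 783 5 782)
(fin 1104 4 847)))
(cons (mv 912 (cons (fin 848 6 847)
(mv 913 (cons (fin 914 1 910)
(mv 849 (cons (fin 850 2 846)
(mv 1104 (cons (fin 976 6 848)
(fin 1168 4 911)))))))))
(mv 847 (cons (fin 783 5 782)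
(mv 848 (cons (fin 784 6 783)
(fin 912 6 847))))))))))))))
(cons (mv 1041 (cons (fin 1042 3 974)
(mv 977 (cons (fin 978 2 974)
(mv 1103 (cons (fin 1167 7 910)
(mv 1104 (cons (mv 911 (cons (fin 847 4 847)
(fin 1168 4 911)))
(cons (mv 911 (cons (fin 847 4 847)
(mv 912 (cons (fin 848 6 847)
(mv 913 (cons (fin 914 1 910)
(fin 849 5 848)))))))
(mv 913 (cons (fin 849 5 848)
(mv 1168 (cons (fin 1232 7 975)
(fin 1105 5 912))))))))))))))
(cons (mv 1041 (cons (fin 1042 3 974)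
(mv 977 (cons (fin 978 2 974)
(mv 976 (cons (fin 909 3 909)
(mv 913 (cons (fin 914 2 910)
(mv 849 (cons (fin 785 5 784)
(mv 786 (cons (fin 850 6 785)
(mv 848 (cons (fin 784 7 784)
(mv 912 (cons (fin 1105 7 848)
(fin 1103 5 847)))))))))))))))))
(mv 1041 (cons (fin 1042 3 974)
(mv 977 (cons (fin 978 2 974)
(mv 909 (cons (fin 976 3 909)
(mv 908 (cons (fin 907 0 907)
(mv 1103 (cons (fin 1167 7 910)
(mv 911 (cons (mv 847 (cons (fin 848 2 844)
(fin 783 5 782)))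
(cons (mv 844 (cons (fin 843 3 843)
(mv 912 (cons (fin 845 3 844)
(fin 848 6 847)))))
(mv 847 (cons (fin 783 5 782)
(fin 1104 4 847)))))))))))))))))))))
(cons (mv 846 (cons (cons (mv 781 (cons (fin 845 7 781)
(mv 782 (cons (fin 717 7 717)
(fin 975 4 782)))))
(mv 781 (cons (fin 845 7 781)
(mv 847 (cons (fin 783 6 782)
(mv 975 (cons (cons (mv 911 (cons (fin 1104 4 847)
(mv 784 (cons (fin 848 6 783)
(mv 1041 (cons (fin 1042 3 974)
(mv 977 (cons (fin 978 2 974)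
(mv 976 (cons (fin 909 3 909)
(mv 913 (cons (fin 914 2 910)
(mv 849 (cons (fin 785 5 784)
(mv 850 (cons (fin 912 2 846)
(fin 786 6 785)))))))))))))))))
(cons (mv 1041 (cons (fin 1042 3 974)
(mv 977 (cons (fin 978 2 974)
(mv 976 (cons (fin 909 3 909)
(mv 913 (cons (fin 914 2 910)
(mv 849 (cons (fin 785 5 784)
(fin 1104 5 848)))))))))))
(mv 911 (cons (fin 1104 4 847)
(mv 848 (cons (fin 784 6 783)
(mv 849 (cons (fin 909 1 845)
(fin 850 1 846)))))))))
(cons (mv 1041 (cons (fin 1042 3 974)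
(mv 977 (cons (fin 978 2 974)
(mv 909 (cons (fin 976 3 909)
(mv 848 (cons (fin 849 1 845)
(mv 908 (cons (fin 907 2 843)
(fin 911 2 844)))))))))))
(cons (mv 911 (cons (fin 1104 4 847)
(mv 848 (cons (fin 784 6 783)
(mv 849 (cons (fin 850 1 846)
(mv 785 (cons (fin 786 2 782)
(mv 912 (cons (fin 976 6 784)
(mv 657 (cons (fin 721 5 656)
(mv 913 (cons (fin 914 3 846)
(mv 977 (cons (fin 978 0 910)
(mv 1041 (cons (fin 1042 3 974)
(fin 1105 7 848)))))))))))))))))))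
(mv 911 (cons (fin 1104 4 847)
(mv 848 (cons (fin 784 6 783)
(mv 909 (cons (fin 908 2 844)
(mv 977 (cons (fin 976 3 909)
(mv 1041 (cons (fin 1042 3 974)
(fin 978 2 974))))))))))))))))))))
(cons (mv 781 (cons (fin 845 7 781)
(mv 782 (cons (fin 717 7 717)
(mv 783 (cons (fin 719 6 718)
(fin 847 6 782)))))))
(mv 782 (cons (fin 975 4 782)
(mv 783 (cons (fin 719 6 718)
(fin 847 6 782))))))))
(cons (mv 846 (cons (fin 1103 4 846)
(mv 781 (cons (fin 845 7 781)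
(mv 782 (cons (fin 717 7 717)
(mv 783 (cons (fin 719 6 718)
(fin 847 6 782)))))))))
(mv 846 (cons (fin 1103 4 846)
(mv 782 (cons (fin 975 4 782)
(mv 783 (cons (fin 719 6 718)
(fin 847 6 782)))))))))))
(mv 912 (cons (cons (mv 973 (cons (fin 1041 3 973)
(mv 971 (cons (fin 972 0 971)
(mv 1103 (cons (cons (mv 846 (cons (fin 910 4 846)
(mv 976 (cons (fin 848 5 847)
(mv 1167 (cons (fin 1231 7 974)
(fin 1104 5 911)))))))
(mv 910 (cons (fin 846 4 846)
(mv 911 (cons (fin 913 1 909)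
(mv 1167 (cons (fin 1231 7 974)
(mv 909 (cons (mv 845 (cons (fin 844 3 844)
(fin 781 4 781)))
(mv 848 (cons (fin 849 2 845)
(mv 908 (cons (fin 847 2 844)
(mv 907 (cons (fin 970 1 906)
(fin 906 0 906))))))))))))))))
(cons (mv 848 (cons (fin 976 5 847)
(mv 910 (cons (fin 846 4 846)
(mv 911 (cons (fin 913 1 909)
(mv 849 (cons (fin 909 2 845)
(mv 850 (cons (fin 847 1 846)
(fin 851 1 847)))))))))))
(cons (mv 976 (cons (fin 848 5 847)
(mv 1167 (cons (fin 1231 7 974)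
(fin 1104 5 911)))))
(mv 910 (cons (fin 846 4 846)
(mv 911 (cons (fin 913 1 909)
(mv 1167 (cons (fin 1231 7 974)
(mv 976 (cons (fin 1104 5 911)
(mv 909 (cons (fin 977 0 909)
(mv 845 (cons (fin 844 3 844)
(fin 781 4 781)))))))))))))))))))))
(cons (mv 976 (cons (cons (mv 848 (cons (fin 1103 5 847)
(mv 783 (cons (fin 847 7 783)
(mv 784 (cons (fin 719 7 719)
(mv 785 (cons (fin 721 6 720)
(fin 849 6 784)))))))))
(mv 847 (cons (cons (mv 783 (cons (fin 848 7 783)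
(mv 911 (cons (fin 1104 7 847)
(fin 719 4 719)))))
(mv 1104 (cons (fin 911 7 847)
(mv 913 (cons (fin 849 6 848)
(mv 1168 (cons (fin 977 6 912)
(mv 1169 (cons (fin 1105 4 912)
(fin 1233 4 976))))))))))
(cons (mv 783 (cons (fin 848 7 783)
(mv 910 (cons (fin 846 6 782)
(mv 911 (cons (fin 719 5 718)
(mv 909 (cons (fin 977 0 909)
(mv 973 (cons (fin 972 1 908)
(fin 913 1 909)))))))))))
(mv 848 (cons (fin 783 7 783)
(mv 849 (cons (fin 785 6 784)
(mv 913 (cons (fin 1104 6 848)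
(mv 846 (cons (fin 845 0 845)
(fin 914 0 846)))))))))))))
(cons (mv 1104 (cons (cons (mv 847 (cons (fin 911 7 847)
(mv 849 (cons (fin 913 6 848)
(mv 1167 (cons (fin 1103 5 911)
(mv 1168 (cons (fin 1231 5 975)
(mv 1169 (cons (fin 1105 4 912)
(fin 1233 4 976)))))))))))
(cons (mv 847 (cons (fin 911 7 847)
(mv 913 (cons (fin 849 6 848)
(mv 1168 (cons (fin 977 6 912)
(mv 1169 (cons (fin 1105 4 912)
(fin 1233 4 976)))))))))
(mv 847 (cons (fin 911 7 847)
(mv 1167 (cons (fin 1103 5 911)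
(mv 1168 (cons (fin 1231 5 975)
(mv 1169 (cons (fin 1105 4 912)
(fin 1233 4 976)))))))))))
(cons (mv 847 (cons (fin 911 7 847)
(mv 913 (cons (fin 849 6 848)
(mv 1167 (cons (fin 1103 5 911)
(mv 1168 (cons (fin 1231 5 975)
(fin 977 6 912)))))))))
(cons (mv 849 (cons (fin 913 6 848)
(mv 1167 (cons (fin 1103 5 911)
(mv 1168 (cons (fin 1231 5 975)
(mv 1169 (cons (fin 1105 4 912)
(fin 1233 4 976)))))))))
(mv 849 (cons (fin 913 6 848)
(mv 911 (cons (fin 847 7 847)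
(mv 1103 (cons (fin 1167 5 911)
(mv 910 (cons (fin 846 4 846)
(mv 909 (cons (fin 977 0 909)
(mv 844 (cons (fin 845 3 844)
(mv 908 (cons (fin 843 3 843)
(mv 972 (cons (fin 971 1 907)
(fin 973 1 908)))))))))))))))))))))
(mv 1103 (cons (fin 848 5 847)
(mv 1167 (cons (fin 1231 7 974)
(fin 1104 5 911))))))))
(mv 976 (cons (cons (mv 848 (cons (fin 1103 5 847)
(mv 783 (cons (fin 847 7 783)
(mv 719 (cons (fin 784 7 719)
(mv 849 (cons (fin 785 6 784)
(mv 913 (cons (fin 1104 6 848)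
(mv 1041 (cons (fin 1105 4 848)
(mv 977 (cons (fin 978 2 974)
(mv 850 (cons (fin 786 6 785)
(mv 851 (cons (fin 911 1 847)
(fin 852 1 848)))))))))))))))))))
(cons (mv 848 (cons (cons (mv 783 (cons (fin 847 7 783)
(mv 719 (cons (fin 784 7 719)
(mv 849 (cons (fin 785 6 784)
(mv 913 (cons (fin 1104 6 848)
(mv 1041 (cons (fin 1105 4 848)
(mv 977 (cons (fin 978 2 974)
(mv 850 (cons (fin 786 6 785)
(mv 851 (cons (fin 911 1 847)
(fin 852 1 848)))))))))))))))))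
(mv 783 (cons (fin 847 7 783)
(mv 784 (cons (fin 719 7 719)
(mv 785 (cons (fin 721 6 720)
(fin 849 6 784))))))))
(cons (mv 783 (cons (fin 847 7 783)
(mv 784 (cons (fin 719 7 719)
(mv 1041 (cons (fin 977 4 784)
(fin 1105 4 848)))))))
(cons (mv 785 (cons (fin 849 6 784)
(mv 784 (cons (fin 721 6 720)
(mv 1041 (cons (fin 977 4 784)
(fin 1105 4 848)))))))
(mv 783 (cons (fin 847 7 783)
(mv 849 (cons (fin 785 6 784)
(mv 913 (cons (fin 1104 6 848)
(mv 1041 (cons (fin 1105 4 848)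
(mv 977 (cons (fin 978 2 974)
(mv 850 (cons (fin 786 6 785)
(mv 851 (cons (fin 911 1 847)
(fin 852 1 848)))))))))))))))))))
(mv 1104 (cons (cons (mv 847 (cons (fin 911 7 847)
(mv 849 (cons (fin 913 6 848)
(mv 1167 (cons (fin 1103 5 911)
(mv 1168 (cons (fin 1231 5 975)
(mv 1169 (cons (fin 1105 4 912)
(fin 1233 4 976)))))))))))
(mv 847 (cons (fin 911 7 847)
(mv 913 (cons (fin 849 6 848)
(mv 977 (cons (fin 1168 6 912)
(mv 978 (cons (fin 979 1 975)
(fin 1041 2 974))))))))))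
(cons (mv 847 (cons (fin 911 7 847)
(mv 1167 (cons (fin 1103 5 911)
(mv 1168 (cons (fin 1231 5 975)
(mv 1169 (cons (fin 1105 4 912)
(fin 1233 4 976)))))))))
(cons (mv 849 (cons (fin 913 6 848)
(mv 1167 (cons (fin 1103 5 911)
(mv 1168 (cons (fin 1231 5 975)
(mv 1169 (cons (fin 1105 4 912)
(fin 1233 4 976)))))))))
(mv 849 (cons (fin 913 6 848)
(mv 911 (cons (fin 847 7 847)
(mv 1103 (cons (fin 1167 5 911)
(mv 910 (cons (fin 846 4 846)
(mv 977 (cons (fin 909 0 909)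
(mv 978 (cons (fin 979 3 911)
(fin 1041 2 974)))))))))))))))))))
(cons (mv 848 (cons (fin 1103 5 847)
(mv 783 (cons (fin 847 7 783)
(mv 784 (cons (fin 719 7 719)
(mv 785 (cons (fin 721 6 720)
(fin 849 6 784)))))))))
(cons (mv 848 (cons (fin 1103 5 847)
(mv 783 (cons (fin 847 7 783)
(mv 784 (cons (fin 719 7 719)
(mv 1041 (cons (fin 977 4 784)
(fin 1105 4 848)))))))))
(mv 848 (cons (fin 1103 5 847)
(mv 785 (cons (fin 849 6 784)
(mv 784 (cons (fin 721 6 720)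
(mv 1041 (cons (fin 977 4 784)
(fin 1105 4 848)))))))))))))))
(cons (cons (mv 1041 (cons (fin 973 3 973)
(mv 977 (cons (fin 978 2 974)
(mv 1105 (cons (cons (mv 848 (cons (fin 913 7 848)
(fin 976 4 848)))
(mv 913 (cons (fin 848 7 848)
(mv 1104 (cons (fin 849 5 848)
(fin 1168 5 912))))))
(cons (mv 1169 (cons (fin 976 7 912)
(mv 1168 (cons (fin 1232 5 976)
(mv 1104 (cons (fin 913 5 912)
(mv 1233 (cons (fin 1297 7 1040)
(mv 1234 (cons (fin 1170 4 977)
(fin 1298 4 1041)))))))))))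
(mv 976 (cons (fin 1169 7 912)
(fin 848 4 848))))))))))
(mv 1041 (cons (fin 973 3 973)
(mv 977 (cons (fin 978 2 974)
(mv 913 (cons (mv 848 (cons (fin 1105 7 848)
(mv 784 (cons (fin 849 7 784)
(fin 720 4 720)))))
(cons (mv 848 (cons (fin 1105 7 848)
(mv 720 (cons (fin 784 4 720)
(mv 846 (cons (cons (mv 845 (cons (fin 847 0 845)
(mv 910 (cons (fin 911 3 845)
(fin 781 7 781)))))
(mv 910 (cons (fin 1103 4 846)
(mv 845 (cons (fin 911 3 845)
(fin 781 7 781))))))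
(cons (mv 847 (cons (fin 845 0 845)
(mv 914 (cons (fin 911 3 846)
(fin 915 3 847)))))
(cons (mv 910 (cons (fin 1103 4 846)
(mv 847 (cons (fin 783 6 782)
(mv 914 (cons (fin 911 3 846)
(fin 915 3 847)))))))
(mv 845 (cons (fin 847 0 845)
(mv 910 (cons (fin 781 7 781)
(fin 1103 4 846)))))))))))))
(mv 849 (cons (fin 1104 5 848)
(mv 850 (cons (fin 786 6 785)
(mv 851 (cons (fin 852 1 848)
(mv 911 (cons (fin 910 2 846)
(fin 914 2 847)))))))))))))))))
(cons (mv 973 (cons (fin 1041 3 973)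
(mv 972 (cons (fin 971 0 971)
(mv 910 (cons (mv 911 (cons (fin 909 1 908)
(fin 913 1 909)))
(mv 846 (cons (fin 1103 4 846)
(mv 781 (cons (fin 845 7 781)
(mv 782 (cons (fin 717 7 717)
(mv 783 (cons (fin 719 6 718)
(fin 847 6 782)))))))))))))))
(mv 973 (cons (fin 1041 3 973)
(mv 972 (cons (fin 971 0 971)
(mv 910 (cons (cons (mv 846 (cons (fin 1103 4 846)
(mv 781 (cons (fin 845 7 781)
(mv 782 (cons (fin 717 7 717)
(mv 783 (cons (fin 719 6 718)
(fin 847 6 782)))))))))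
(mv 911 (cons (fin 909 1 908)
(mv 976 (cons (cons (mv 847 (cons (fin 1104 7 847)
(mv 783 (cons (fin 848 7 783)
(fin 719 5 718)))))
(mv 1103 (cons (fin 848 5 847)
(mv 1167 (cons (fin 1231 7 974)
(fin 1104 5 911))))))
(cons (mv 1104 (cons (fin 847 7 847)
(mv 1167 (cons (fin 1103 5 911)
(mv 1168 (cons (fin 1231 5 975)
(mv 1169 (cons (fin 1105 4 912)
(fin 1233 4 976)))))))))
(mv 848 (cons (fin 1103 5 847)
(mv 783 (cons (fin 847 7 783)
(mv 784 (cons (fin 719 7 719)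
(mv 785 (cons (fin 721 6 720)
(fin 849 6 784)))))))))))))))
(cons (mv 909 (cons (fin 911 1 908)
(mv 846 (cons (cons (mv 718 (cons (fin 782 5 717)
(mv 845 (cons (fin 781 7 781)
(mv 847 (cons (fin 783 6 782)
(mv 848 (cons (fin 908 1 844)
(fin 849 1 845)))))))))
(mv 718 (cons (fin 782 5 717)
(mv 847 (cons (fin 783 6 782)
(mv 848 (cons (fin 849 1 845)
(mv 908 (cons (fin 845 1 844)
(fin 907 2 843))))))))))
(cons (mv 782 (cons (fin 718 5 717)
(mv 783 (cons (fin 719 6 718)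
(fin 847 6 782)))))
(cons (mv 845 (cons (fin 781 7 781)
(mv 847 (cons (fin 783 6 782)
(mv 848 (cons (fin 908 1 844)
(fin 849 1 845)))))))
(mv 781 (cons (fin 845 7 781)
(mv 782 (cons (fin 717 7 717)
(fin 718 5 717)))))))))))
(mv 846 (cons (fin 1103 4 846)
(mv 781 (cons (fin 845 7 781)
(mv 782 (cons (fin 717 7 717)
(mv 909 (cons (fin 911 1 908)
(fin 718 5 717)))))))))))))))))))))))
(mv 1037 (cons (cons (mv 972 (cons (fin 973 3 972)
(mv 976 (cons (fin 977 2 973)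
(mv 1036 (cons (fin 971 3 971)
(fin 975 2 972)))))))
(mv 972 (cons (fin 973 3 972)
(mv 1036 (cons (fin 971 3 971)
(mv 1100 (cons (fin 1099 1 1035)
(fin 1101 1 1036))))))))
(cons (mv 976 (cons (fin 977 2 973)
(mv 975 (cons (fin 1036 2 972)
(mv 1100 (cons (fin 1101 1 1036)
(mv 1104 (cons (fin 1105 0 1037)
(mv 911 (cons (fin 1168 7 911)
(fin 847 4 847)))))))))))
(mv 972 (cons (fin 973 3 972)
(mv 976 (cons (fin 977 2 973)
(mv 1100 (cons (fin 1101 1 1036)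
(mv 1104 (cons (fin 1105 0 1037)
(mv 912 (cons (mv 1103 (cons (fin 848 5 847)
(fin 1167 5 911)))
(cons (mv 847 (cons (fin 911 7 847)
(mv 848 (cons (fin 783 7 783)
(mv 849 (cons (fin 785 6 784)
(fin 913 6 848)))))))
(mv 847 (cons (fin 911 7 847)
(mv 849 (cons (fin 913 6 848)
(mv 1167 (cons (fin 1103 5 911)
(mv 1168 (cons (fin 1231 5 975)
(mv 1232 (cons (fin 975 7 975)
(mv 1233 (cons (fin 1169 4 976)
(fin 1297 4 1040)))))))))))))))))))))))))))))
(cons (mv 1037 (cons (cons (mv 972 (cons (fin 973 3 972)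
(mv 1036 (cons (fin 971 3 971)
(mv 1100 (cons (fin 1099 1 1035)
(fin 1101 1 1036)))))))
(mv 1100 (cons (fin 1101 1 1036)
(mv 1036 (cons (fin 1099 1 1035)
(mv 1104 (cons (fin 1103 0 1036)
(fin 1105 0 1037))))))))
(cons (mv 972 (cons (fin 973 3 972)
(mv 1036 (cons (fin 971 3 971)
(mv 1104 (cons (fin 1103 0 1036)
(fin 1105 0 1037)))))))
(mv 973 (cons (fin 972 3 972)
(mv 974 (cons (fin 1041 3 973)
(mv 1101 (cons (fin 1100 1 1036)
(mv 910 (cons (fin 846 5 845)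
(fin 1165 6 909))))))))))))
(cons (mv 1037 (cons (cons (mv 976 (cons (fin 977 2 973)
(mv 975 (cons (fin 1036 2 972)
(mv 1100 (cons (fin 1101 1 1036)
(mv 1104 (cons (fin 1105 0 1037)
(mv 911 (cons (fin 1168 7 911)
(fin 847 4 847)))))))))))
(mv 1100 (cons (fin 1101 1 1036)
(mv 1036 (cons (fin 1099 1 1035)
(mv 1104 (cons (fin 1103 0 1036)
(fin 1105 0 1037))))))))
(cons (mv 976 (cons (fin 977 2 973)
(mv 1036 (cons (fin 975 2 972)
(mv 1100 (cons (fin 1099 1 1035)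
(fin 1101 1 1036)))))))
(cons (mv 976 (cons (fin 977 2 973)
(mv 975 (cons (fin 1036 2 972)
(mv 1104 (cons (fin 1105 0 1037)
(mv 911 (cons (fin 1168 7 911)
(fin 847 4 847)))))))))
(mv 976 (cons (fin 977 2 973)
(mv 1100 (cons (fin 1101 1 1036)
(mv 1104 (cons (fin 1105 0 1037)
(mv 912 (cons (mv 1103 (cons (fin 848 5 847)
(fin 1167 5 911)))
(cons (mv 847 (cons (fin 911 7 847)
(mv 848 (cons (fin 783 7 783)
(mv 849 (cons (fin 785 6 784)
(fin 913 6 848)))))))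
(mv 847 (cons (fin 911 7 847)
(mv 849 (cons (fin 913 6 848)
(mv 1167 (cons (fin 1103 5 911)
(mv 1168 (cons (fin 1231 5 975)
(mv 1232 (cons (fin 975 7 975)
(mv 1233 (cons (fin 1169 4 976)
(fin 1297 4 1040))))))))))))))))))))))))))
(mv 1037 (cons (cons (mv 972 (cons (fin 973 3 972)
(mv 976 (cons (fin 977 2 973)
(mv 1036 (cons (fin 971 3 971)
(fin 975 2 972)))))))
(mv 972 (cons (fin 973 3 972)
(mv 1036 (cons (fin 971 3 971)
(mv 1100 (cons (fin 1099 1 1035)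
(fin 1101 1 1036))))))))
(cons (mv 976 (cons (fin 977 2 973)
(mv 1036 (cons (fin 975 2 972)
(mv 1100 (cons (fin 1099 1 1035)
(fin 1101 1 1036)))))))
(mv 973 (cons (fin 972 3 972)
(mv 974 (cons (fin 1041 3 973)
(mv 976 (cons (fin 977 2 973)
(mv 1101 (cons (fin 1100 1 1036)
(mv 910 (cons (fin 846 5 845)
(fin 1165 6 909))))))))))))))))))))
(cons (cons (mv 1038 (cons (cons (cons (mv 1037 (cons (cons (mv 972 (cons (fin 973 3 972)
(mv 1036 (cons (fin 971 3 971)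
(mv 1100 (cons (fin 1099 1 1035)
(fin 1101 1 1036)))))))
(mv 1100 (cons (fin 1101 1 1036)
(mv 1036 (cons (fin 1099 1 1035)
(mv 1104 (cons (fin 1103 0 1036)
(fin 1105 0 1037))))))))
(cons (mv 972 (cons (fin 973 3 972)
(mv 1036 (cons (fin 971 3 971)
(mv 1104 (cons (fin 1103 0 1036)
(fin 1105 0 1037)))))))
(mv 973 (cons (fin 972 3 972)
(mv 974 (cons (fin 1041 3 973)
(mv 1101 (cons (fin 1100 1 1036)
(mv 910 (cons (fin 846 5 845)
(fin 1165 6 909))))))))))))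
(mv 1041 (cons (cons (mv 974 (cons (fin 973 3 973)
(mv 975 (cons (fin 1042 3 974)
(mv 1102 (cons (fin 1101 1 1037)
(mv 911 (cons (fin 847 5 846)
(fin 1166 6 910)))))))))
(mv 974 (cons (fin 973 3 973)
(mv 1042 (cons (fin 975 3 974)
(mv 979 (cons (fin 978 2 975)
(mv 1043 (cons (fin 980 2 976)
(mv 1104 (cons (fin 1103 1 1039)
(mv 1044 (cons (fin 1105 1 1040)
(mv 1108 (cons (fin 1107 0 1040)
(fin 1109 0 1041))))))))))))))))
(cons (mv 1102 (cons (fin 1101 1 1037)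
(mv 1103 (cons (fin 1042 1 1038)
(mv 975 (cons (mv 911 (cons (fin 847 5 846)
(fin 1166 5 910)))
(cons (mv 1166 (cons (fin 1230 6 974)
(mv 1167 (cons (mv 976 (cons (fin 912 6 911)
(fin 1231 6 975)))
(cons (mv 976 (cons (fin 912 6 911)
(mv 1168 (cons (fin 1232 4 975)
(mv 1169 (cons (fin 1170 3 1102)
(mv 1233 (cons (fin 1234 0 1166)
(fin 1105 7 976)))))))))
(mv 1231 (cons (fin 1295 7 1038)
(mv 1232 (cons (fin 1168 4 975)
(fin 1296 4 1039))))))))))
(mv 911 (cons (fin 847 5 846)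
(mv 846 (cons (fin 910 7 846)
(mv 848 (cons (fin 912 6 847)
(mv 1168 (cons (fin 1104 4 911)
(mv 1167 (cons (fin 1232 4 975)
(mv 1231 (cons (fin 1295 7 1038)
(fin 976 6 975))))))))))))))))))))
(cons (mv 974 (cons (fin 973 3 973)
(mv 1102 (cons (fin 1101 1 1037)
(mv 1166 (cons (mv 975 (cons (fin 911 6 910)
(fin 1230 6 974)))
(cons (mv 1165 (cons (fin 1229 5 973)
(mv 1167 (cons (fin 1231 4 974)
(mv 910 (cons (fin 1103 4 910)
(mv 845 (cons (fin 909 7 845)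
(mv 846 (cons (fin 781 7 781)
(mv 847 (cons (fin 783 6 782)
(fin 911 6 846)))))))))))))
(mv 975 (cons (fin 1230 6 974)
(mv 1165 (cons (fin 1229 5 973)
(mv 1167 (cons (fin 1231 4 974)
(mv 910 (cons (fin 1103 7 910)
(mv 845 (cons (fin 909 7 845)
(mv 846 (cons (fin 781 7 781)
(fin 782 4 782))))))))))))))))))))
(mv 974 (cons (fin 973 3 973)
(mv 1102 (cons (fin 1101 1 1037)
(mv 1103 (cons (fin 1042 1 1038)
(mv 910 (cons (fin 846 4 846)
(fin 1167 4 910))))))))))))))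
(cons (mv 1037 (cons (cons (mv 972 (cons (fin 973 3 972)
(mv 1036 (cons (fin 971 3 971)
(mv 1100 (cons (fin 1099 1 1035)
(fin 1101 1 1036)))))))
(mv 1100 (cons (fin 1101 1 1036)
(mv 1036 (cons (fin 1099 1 1035)
(mv 1104 (cons (fin 1103 0 1036)
(fin 1105 0 1037))))))))
(cons (mv 972 (cons (fin 973 3 972)
(mv 1036 (cons (fin 971 3 971)
(mv 1104 (cons (fin 1103 0 1036)
(fin 1105 0 1037)))))))
(mv 972 (cons (fin 973 3 972)
(mv 1101 (cons (fin 1100 1 1036)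
(mv 1104 (cons (fin 1105 0 1037)
(mv 975 (cons (cons (mv 911 (cons (fin 847 4 847)
(mv 1168 (cons (fin 976 7 911)
(fin 1232 7 975)))))
(mv 1168 (cons (fin 1232 7 975)
(mv 1102 (cons (cons (mv 1103 (cons (fin 1169 0 1101)
(mv 1165 (cons (fin 1164 1 1100)
(mv 974 (cons (fin 910 5 909)
(fin 1229 6 973)))))))
(mv 1166 (cons (fin 1230 6 974)
(mv 1165 (cons (mv 974 (cons (fin 910 5 909)
(fin 1229 5 973)))
(cons (mv 910 (cons (fin 974 5 909)
(mv 1164 (cons (fin 1103 1 1100)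
(mv 1163 (cons (fin 1162 2 1098)
(mv 1099 (cons (fin 1098 3 1098)
(mv 1227 (cons (fin 1226 1 1162)
(mv 1228 (cons (fin 1167 1 1163)
(mv 1035 (cons (fin 971 4 971)
(fin 1292 4 1035)))))))))))))))
(mv 1103 (cons (fin 1164 1 1100)
(mv 1229 (cons (fin 1293 6 1037)
(mv 1228 (cons (fin 1167 1 1164)
(fin 1292 5 1036)))))))))))))
(cons (mv 1166 (cons (fin 1230 6 974)
(mv 1167 (cons (fin 1169 3 1101)
(mv 1231 (cons (fin 976 5 975)
(fin 974 4 974)))))))
(mv 1103 (cons (fin 1169 0 1101)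
(mv 1165 (cons (fin 1164 1 1100)
(mv 1166 (cons (fin 1230 6 974)
(mv 1229 (cons (fin 1293 6 1037)
(mv 1228 (cons (fin 1167 1 1164)
(fin 1292 5 1036)))))))))))))))))
(cons (mv 911 (cons (fin 847 4 847)
(mv 1103 (cons (cons (mv 846 (cons (fin 910 7 846)
(mv 848 (cons (fin 912 6 847)
(mv 1102 (cons (fin 1166 5 910)
(mv 1165 (cons (fin 1164 1 1100)
(mv 1229 (cons (fin 974 6 973)
(fin 1293 6 1037)))))))))))
(mv 848 (cons (fin 912 6 847)
(mv 1102 (cons (fin 1166 5 910)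
(mv 1165 (cons (fin 1164 1 1100)
(mv 1229 (cons (fin 974 6 973)
(fin 1293 6 1037))))))))))
(cons (mv 846 (cons (fin 910 7 846)
(mv 912 (cons (fin 848 6 847)
(mv 976 (cons (fin 1167 5 911)
(mv 913 (cons (fin 849 6 848)
(mv 914 (cons (fin 974 1 910)
(fin 915 1 911)))))))))))
(cons (mv 846 (cons (fin 910 7 846)
(mv 1102 (cons (fin 1166 5 910)
(mv 1165 (cons (fin 1164 1 1100)
(mv 1229 (cons (fin 974 6 973)
(fin 1293 6 1037)))))))))
(mv 846 (cons (fin 910 7 846)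
(mv 848 (cons (fin 912 6 847)
(mv 1166 (cons (fin 1102 5 910)
(mv 1167 (cons (fin 1230 5 974)
(mv 1231 (cons (fin 976 6 975)
(fin 1295 6 1039)))))))))))))))))
(mv 911 (cons (fin 847 4 847)
(mv 1168 (cons (fin 1232 7 975)
(fin 1103 4 911)))))))))))))))))
(mv 1037 (cons (cons (mv 1100 (cons (fin 1101 1 1036)
(mv 1036 (cons (fin 1099 1 1035)
(mv 1104 (cons (fin 1103 0 1036)
(fin 1105 0 1037)))))))
(mv 1104 (cons (fin 1105 0 1037)
(mv 1036 (cons (fin 1103 0 1036)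
(mv 971 (cons (fin 972 3 971)
(mv 975 (cons (fin 976 2 972)
(mv 1035 (cons (fin 970 3 970)
(fin 974 2 971))))))))))))
(cons (mv 1100 (cons (fin 1101 1 1036)
(mv 1036 (cons (fin 1099 1 1035)
(mv 971 (cons (fin 972 3 971)
(mv 975 (cons (fin 976 2 972)
(mv 1035 (cons (fin 970 3 970)
(fin 974 2 971)))))))))))
(mv 1101 (cons (fin 1100 1 1036)
(mv 1041 (cons (fin 1102 1 1037)
(mv 1104 (cons (fin 1105 0 1037)
(mv 975 (cons (cons (mv 847 (cons (fin 911 4 847)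
(mv 974 (cons (fin 1042 3 974)
(mv 910 (cons (fin 846 5 845)
(mv 1167 (cons (fin 1103 7 910)
(mv 1168 (cons (fin 1232 7 975)
(mv 1229 (cons (fin 1165 6 973)
(mv 1231 (cons (fin 976 5 975)
(mv 1230 (cons (fin 1228 2 1164)
(mv 1169 (cons (fin 1166 1 1165)
(fin 1170 1 1166)))))))))))))))))))
(mv 911 (cons (fin 847 4 847)
(mv 1168 (cons (fin 976 7 911)
(fin 1232 7 975))))))
(cons (mv 974 (cons (fin 1042 3 974)
(mv 910 (cons (fin 846 5 845)
(mv 1167 (cons (fin 1103 7 910)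
(mv 1168 (cons (fin 1232 7 975)
(mv 1229 (cons (fin 1165 6 973)
(mv 1231 (cons (fin 976 5 975)
(mv 1230 (cons (fin 1228 2 1164)
(mv 1169 (cons (fin 1166 1 1165)
(fin 1170 1 1166)))))))))))))))))
(cons (mv 847 (cons (fin 911 4 847)
(mv 1042 (cons (fin 974 3 974)
(mv 1043 (cons (fin 976 3 975)
(fin 1103 1 1039)))))))
(mv 847 (cons (fin 911 4 847)
(mv 1042 (cons (fin 974 3 974)
(mv 979 (cons (fin 978 2 975)
(mv 1043 (cons (fin 1103 1 1039)
(fin 980 2 976))))))))))))))))))))))))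
(cons (cons (mv 1037 (cons (cons (mv 972 (cons (fin 973 3 972)
(mv 1036 (cons (fin 971 3 971)
(mv 1104 (cons (fin 1103 0 1036)
(fin 1105 0 1037)))))))
(mv 1104 (cons (fin 1105 0 1037)
(mv 1036 (cons (fin 1103 0 1036)
(mv 971 (cons (fin 972 3 971)
(mv 975 (cons (fin 976 2 972)
(mv 1035 (cons (fin 970 3 970)
(fin 974 2 971))))))))))))
(cons (mv 972 (cons (fin 973 3 972)
(mv 1036 (cons (fin 971 3 971)
(mv 975 (cons (fin 976 2 972)
(mv 1035 (cons (fin 974 2 971)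
(mv 1099 (cons (fin 1098 1 1034)
(fin 1100 1 1035)))))))))))
(cons (mv 1104 (cons (fin 1105 0 1037)
(mv 1036 (cons (fin 1103 0 1036)
(mv 975 (cons (fin 976 2 972)
(mv 847 (cons (fin 911 4 847)
(mv 974 (cons (fin 1035 2 971)
(mv 1041 (cons (fin 973 3 973)
(fin 1042 3 974)))))))))))))
(mv 973 (cons (fin 972 3 972)
(mv 974 (cons (fin 1041 3 973)
(mv 1104 (cons (fin 1105 0 1037)
(mv 1102 (cons (mv 909 (cons (fin 1166 7 909)
(fin 845 4 845)))
(cons (mv 845 (cons (fin 909 4 845)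
(mv 910 (cons (mv 846 (cons (fin 781 7 781)
(fin 782 5 781)))
(mv 911 (cons (fin 847 6 846)
(mv 912 (cons (fin 913 1 909)
(mv 1103 (cons (fin 1167 4 910)
(mv 848 (cons (fin 976 5 847)
(fin 975 6 847)))))))))))))
(mv 1166 (cons (fin 1230 7 973)
(mv 911 (cons (fin 975 6 910)
(mv 847 (cons (fin 910 6 846)
(mv 912 (cons (fin 976 7 847)
(mv 1165 (cons (fin 1229 5 973)
(mv 1167 (cons (fin 1231 4 974)
(mv 1164 (cons (fin 1103 2 1100)
(mv 1099 (cons (fin 1100 3 1099)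
(mv 1163 (cons (fin 1098 3 1098)
(mv 1227 (cons (fin 1226 1 1162)
(fin 1228 1 1163))))))))))))))))))))))))))))))))))
(mv 1037 (cons (cons (mv 972 (cons (fin 973 3 972)
(mv 1036 (cons (fin 971 3 971)
(mv 1100 (cons (fin 1099 1 1035)
(fin 1101 1 1036)))))))
(mv 972 (cons (fin 973 3 972)
(mv 1036 (cons (fin 971 3 971)
(mv 1104 (cons (fin 1103 0 1036)
(fin 1105 0 1037))))))))
(cons (mv 1100 (cons (fin 1101 1 1036)
(mv 1036 (cons (fin 1099 1 1035)
(mv 1104 (cons (fin 1103 0 1036)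
(fin 1105 0 1037)))))))
(mv 973 (cons (fin 972 3 972)
(mv 1101 (cons (fin 1100 1 1036)
(mv 1041 (cons (fin 1102 1 1037)
(mv 1165 (cons (cons (mv 1104 (cons (fin 1105 0 1037)
(mv 1164 (cons (fin 1228 5 972)
(mv 1166 (cons (fin 1230 4 973)
(mv 1167 (cons (fin 1103 2 1100)
(mv 1232 (cons (fin 1231 0 1164)
(mv 1168 (cons (fin 1233 0 1165)
(fin 975 7 975)))))))))))))
(cons (mv 1104 (cons (fin 1105 0 1037)
(mv 1228 (cons (fin 1164 5 972)
(mv 1229 (cons (fin 1292 5 1036)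
(mv 1168 (cons (cons (mv 975 (cons (fin 1232 7 975)
(mv 911 (cons (fin 976 7 911)
(fin 847 4 847)))))
(mv 1167 (cons (fin 1166 1 1164)
(mv 976 (cons (fin 1231 5 975)
(mv 911 (cons (fin 975 7 911)
(mv 912 (cons (fin 847 7 847)
(fin 1103 5 911))))))))))
(cons (mv 1167 (cons (fin 1166 1 1164)
(mv 976 (cons (fin 1231 5 975)
(mv 912 (cons (fin 1103 5 911)
(mv 847 (cons (fin 911 7 847)
(mv 848 (cons (fin 783 7 783)
(mv 849 (cons (fin 785 6 784)
(fin 913 6 848)))))))))))))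
(cons (mv 975 (cons (fin 1232 7 975)
(mv 911 (cons (fin 847 4 847)
(fin 1103 4 911)))))
(mv 975 (cons (fin 1232 7 975)
(mv 1167 (cons (fin 1166 1 1164)
(mv 976 (cons (fin 1231 5 975)
(mv 912 (cons (fin 1103 5 911)
(mv 848 (cons (fin 784 5 783)
(mv 849 (cons (fin 785 6 784)
(fin 913 6 848)))))))))))))))))))))))
(mv 1230 (cons (fin 1166 4 973)
(mv 1229 (cons (fin 1294 4 1037)
(mv 1232 (cons (cons (mv 1104 (cons (fin 1105 0 1037)
(mv 1164 (cons (fin 1231 3 1164)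
(mv 1162 (cons (fin 1163 0 1162)
(mv 1168 (cons (fin 975 7 975)
(mv 1103 (cons (fin 1296 7 1039)
(mv 1042 (cons (fin 1043 1 1039)
(mv 1233 (cons (fin 1297 4 1040)
(mv 976 (cons (fin 1169 4 976)
(mv 912 (cons (fin 848 5 847)
(fin 1167 5 911)))))))))))))))))))
(cons (mv 1104 (cons (fin 1105 0 1037)
(mv 1168 (cons (fin 975 7 975)
(mv 1103 (cons (fin 1296 7 1039)
(mv 1042 (cons (fin 1043 1 1039)
(mv 978 (cons (fin 979 2 975)
(mv 1233 (cons (fin 1297 4 1040)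
(mv 976 (cons (fin 1169 4 976)
(mv 912 (cons (fin 848 5 847)
(fin 1167 5 911)))))))))))))))))
(mv 1231 (cons (fin 1164 3 1164)
(mv 1169 (cons (fin 1168 2 1165)
(mv 1233 (cons (fin 1170 2 1166)
(mv 1105 (cons (fin 976 7 976)
(fin 1296 5 1040)))))))))))
(cons (mv 1231 (cons (fin 1164 3 1164)
(mv 1168 (cons (fin 1169 2 1165)
(mv 1104 (cons (fin 975 7 975)
(fin 1295 5 1039)))))))
(cons (mv 1105 (cons (fin 1104 0 1037)
(mv 1231 (cons (fin 1164 3 1164)
(mv 1292 (cons (fin 1293 1 1228)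
(mv 1297 (cons (fin 1296 0 1229)
(mv 1233 (cons (fin 1298 0 1230)
(mv 1169 (cons (fin 1170 2 1166)
(fin 976 7 976)))))))))))))
(mv 1104 (cons (fin 1105 0 1037)
(mv 1164 (cons (fin 1231 3 1164)
(mv 1162 (cons (fin 1163 0 1162)
(mv 1168 (cons (fin 975 7 975)
(mv 1296 (cons (fin 1103 7 1039)
(mv 1297 (cons (fin 1233 4 1040)
(fin 1361 4 1104)))))))))))))))))))))))
(cons (mv 1228 (cons (fin 1164 5 972)
(mv 1229 (cons (fin 1292 5 1036)
(mv 1230 (cons (fin 1166 4 973)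
(fin 1294 4 1037)))))))
(cons (mv 1229 (cons (cons (mv 1228 (cons (fin 1164 5 972)
(fin 1292 5 1036)))
(mv 1230 (cons (fin 1294 4 1037)
(mv 1232 (cons (cons (mv 1104 (cons (fin 1105 0 1037)
(mv 1164 (cons (fin 1231 3 1164)
(mv 1162 (cons (fin 1163 0 1162)
(mv 1168 (cons (fin 975 7 975)
(mv 1103 (cons (fin 1296 7 1039)
(mv 1042 (cons (fin 1043 1 1039)
(mv 1233 (cons (fin 1297 4 1040)
(mv 976 (cons (fin 1169 4 976)
(mv 912 (cons (fin 848 5 847)
(fin 1167 5 911)))))))))))))))))))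
(cons (mv 1104 (cons (fin 1105 0 1037)
(mv 1168 (cons (fin 975 7 975)
(mv 1103 (cons (fin 1296 7 1039)
(mv 1042 (cons (fin 1043 1 1039)
(mv 978 (cons (fin 979 2 975)
(mv 1233 (cons (fin 1297 4 1040)
(mv 976 (cons (fin 1169 4 976)
(mv 912 (cons (fin 848 5 847)
(fin 1167 5 911)))))))))))))))))
(mv 1231 (cons (fin 1164 3 1164)
(mv 1169 (cons (fin 1168 2 1165)
(mv 1233 (cons (fin 1170 2 1166)
(mv 1105 (cons (fin 976 7 976)
(fin 1296 5 1040)))))))))))
(cons (mv 1231 (cons (fin 1164 3 1164)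
(mv 1168 (cons (fin 1169 2 1165)
(mv 1104 (cons (fin 975 7 975)
(fin 1295 5 1039)))))))
(cons (mv 1105 (cons (fin 1104 0 1037)
(mv 1231 (cons (fin 1164 3 1164)
(mv 1292 (cons (fin 1293 1 1228)
(mv 1297 (cons (fin 1296 0 1229)
(mv 1233 (cons (fin 1298 0 1230)
(mv 1169 (cons (fin 1170 2 1166)
(fin 976 7 976)))))))))))))
(mv 1104 (cons (fin 1105 0 1037)
(mv 1164 (cons (fin 1231 3 1164)
(mv 1162 (cons (fin 1163 0 1162)
(mv 1168 (cons (fin 975 7 975)
(mv 1296 (cons (fin 1103 7 1039)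
(mv 1297 (cons (fin 1233 4 1040)
(fin 1361 4 1104))))))))))))))))))))
(cons (mv 1104 (cons (fin 1105 0 1037)
(mv 1164 (cons (fin 1228 5 972)
(mv 1230 (cons (fin 1294 4 1037)
(mv 1162 (cons (fin 1163 0 1162)
(mv 1232 (cons (fin 1231 3 1164)
(mv 1168 (cons (fin 975 7 975)
(mv 1103 (cons (fin 1296 7 1039)
(mv 1042 (cons (fin 1043 1 1039)
(mv 1233 (cons (fin 1297 4 1040)
(mv 976 (cons (fin 1169 4 976)
(mv 912 (cons (fin 848 5 847)
(fin 1167 5 911)))))))))))))))))))))))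
(mv 1104 (cons (fin 1105 0 1037)
(mv 1230 (cons (fin 1294 4 1037)
(mv 1292 (cons (fin 1228 5 1036)
(mv 1293 (cons (fin 1356 5 1100)
(mv 1232 (cons (fin 1231 1 1228)
(mv 1168 (cons (fin 975 7 975)
(mv 1103 (cons (fin 1296 7 1039)
(mv 1042 (cons (fin 1043 1 1039)
(mv 1233 (cons (fin 1297 4 1040)
(mv 976 (cons (fin 1169 4 976)
(mv 912 (cons (fin 848 5 847)
(fin 1167 5 911))))))))))))))))))))))))))
(mv 1104 (cons (fin 1105 0 1037)
(mv 1230 (cons (fin 1166 4 973)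
(mv 1229 (cons (fin 1294 4 1037)
(mv 1292 (cons (fin 1228 5 1036)
(mv 1293 (cons (fin 1356 5 1100)
(mv 1232 (cons (fin 1231 1 1228)
(mv 1168 (cons (fin 975 7 975)
(mv 1103 (cons (fin 1296 7 1039)
(mv 1042 (cons (fin 1043 1 1039)
(mv 1233 (cons (fin 1297 4 1040)
(mv 976 (cons (fin 1169 4 976)
(mv 912 (cons (fin 848 5 847)
(fin 1167 5 911)))))))))))))))))))))))))))))))))))))))
(cons (mv 1037 (cons (cons (mv 972 (cons (fin 973 3 972)
(mv 1036 (cons (fin 971 3 971)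
(mv 1100 (cons (fin 1099 1 1035)
(fin 1101 1 1036)))))))
(cons (mv 1100 (cons (fin 1101 1 1036)
(mv 1036 (cons (fin 1099 1 1035)
(mv 971 (cons (fin 972 3 971)
(mv 975 (cons (fin 976 2 972)
(mv 1035 (cons (fin 970 3 970)
(fin 974 2 971)))))))))))
(mv 972 (cons (fin 973 3 972)
(mv 1036 (cons (fin 971 3 971)
(mv 975 (cons (fin 976 2 972)
(mv 1035 (cons (fin 974 2 971)
(mv 1099 (cons (fin 1098 1 1034)
(fin 1100 1 1035)))))))))))))
(cons (mv 1100 (cons (fin 1101 1 1036)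
(mv 1036 (cons (fin 1099 1 1035)
(mv 975 (cons (fin 976 2 972)
(mv 974 (cons (fin 1035 2 971)
(mv 1041 (cons (fin 973 3 973)
(fin 1042 3 974)))))))))))
(cons (mv 972 (cons (fin 973 3 972)
(mv 1036 (cons (fin 971 3 971)
(mv 975 (cons (fin 976 2 972)
(mv 974 (cons (fin 1035 2 971)
(mv 1041 (cons (fin 1042 3 974)
(mv 1102 (cons (fin 1101 1 1037)
(mv 911 (cons (fin 847 5 846)
(fin 1166 6 910)))))))))))))))
(mv 973 (cons (fin 972 3 972)
(mv 974 (cons (fin 1041 3 973)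
(mv 1101 (cons (fin 1100 1 1036)
(mv 910 (cons (fin 846 5 845)
(fin 1165 6 909)))))))))))))
(mv 1037 (cons (cons (mv 972 (cons (fin 973 3 972)
(mv 1036 (cons (fin 971 3 971)
(mv 1100 (cons (fin 1099 1 1035)
(fin 1101 1 1036)))))))
(mv 1100 (cons (fin 1101 1 1036)
(mv 1036 (cons (fin 1099 1 1035)
(mv 1104 (cons (fin 1103 0 1036)
(fin 1105 0 1037))))))))
(cons (mv 972 (cons (fin 973 3 972)
(mv 1036 (cons (fin 971 3 971)
(mv 1104 (cons (fin 1103 0 1036)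
(fin 1105 0 1037)))))))
(mv 973 (cons (fin 972 3 972)
(mv 1041 (cons (fin 974 3 973)
(mv 1101 (cons (fin 1100 1 1036)
(fin 1102 1 1037))))))))))))))
(mv 1038 (cons (cons (cons (mv 1037 (cons (cons (mv 976 (cons (fin 977 2 973)
(mv 975 (cons (fin 1036 2 972)
(mv 1100 (cons (fin 1101 1 1036)
(mv 1104 (cons (fin 1105 0 1037)
(mv 911 (cons (fin 1168 7 911)
(fin 847 4 847)))))))))))
(mv 1100 (cons (fin 1101 1 1036)
(mv 1036 (cons (fin 1099 1 1035)
(mv 1104 (cons (fin 1103 0 1036)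
(fin 1105 0 1037))))))))
(cons (mv 976 (cons (fin 977 2 973)
(mv 975 (cons (fin 1036 2 972)
(mv 1104 (cons (fin 1105 0 1037)
(mv 911 (cons (fin 1168 7 911)
(fin 847 4 847)))))))))
(cons (mv 976 (cons (fin 977 2 973)
(mv 975 (cons (fin 1036 2 972)
(mv 1101 (cons (fin 1100 1 1036)
(mv 1041 (cons (fin 1102 1 1037)
(mv 1042 (cons (fin 974 3 974)
(fin 1043 3 975)))))))))))
(mv 977 (cons (fin 976 2 973)
(mv 1041 (cons (fin 978 2 974)
(mv 1101 (cons (fin 1100 1 1036)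
(fin 1102 1 1037)))))))))))
(mv 1041 (cons (cons (mv 977 (cons (fin 978 2 974)
(mv 1102 (cons (fin 1101 1 1037)
(mv 1042 (cons (fin 1103 1 1038)
(mv 975 (cons (fin 974 3 974)
(mv 847 (cons (fin 911 5 846)
(mv 1043 (cons (fin 976 3 975)
(mv 980 (cons (fin 979 2 976)
(mv 1044 (cons (fin 981 2 977)
(mv 1108 (cons (fin 1107 0 1040)
(fin 1109 0 1041)))))))))))))))))))
(cons (mv 978 (cons (fin 977 2 974)
(mv 1042 (cons (fin 979 2 975)
(mv 975 (cons (fin 974 3 974)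
(mv 1043 (cons (fin 976 3 975)
(mv 1104 (cons (fin 1103 1 1039)
(mv 847 (cons (fin 911 4 847)
(mv 1044 (cons (fin 1105 1 1040)
(mv 1108 (cons (fin 1107 0 1040)
(fin 1109 0 1041)))))))))))))))))
(mv 1102 (cons (fin 1101 1 1037)
(mv 1042 (cons (fin 1103 1 1038)
(mv 975 (cons (fin 974 3 974)
(mv 847 (cons (fin 911 5 846)
(mv 1043 (cons (fin 976 3 975)
(mv 980 (cons (fin 979 2 976)
(mv 1044 (cons (fin 981 2 977)
(mv 1108 (cons (fin 1107 0 1040)
(fin 1109 0 1041)))))))))))))))))))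
(cons (mv 977 (cons (fin 978 2 974)
(mv 1101 (cons (fin 1102 1 1037)
(mv 913 (cons (cons (mv 849 (cons (fin 1104 5 848)
(mv 784 (cons (fin 848 7 784)
(mv 785 (cons (fin 720 7 720)
(fin 976 5 784)))))))
(mv 849 (cons (cons (mv 784 (cons (fin 848 7 784)
(mv 785 (cons (fin 720 7 720)
(fin 976 5 784)))))
(mv 786 (cons (fin 850 6 785)
(mv 848 (cons (fin 784 7 784)
(mv 912 (cons (fin 1105 7 848)
(mv 976 (cons (fin 1103 5 847)
(mv 847 (cons (fin 783 7 783)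
(mv 846 (cons (fin 845 0 845)
(fin 914 0 846))))))))))))))
(cons (mv 785 (cons (fin 976 5 784)
(mv 786 (cons (fin 722 6 721)
(fin 850 6 785)))))
(mv 784 (cons (fin 848 7 784)
(mv 785 (cons (fin 720 7 720)
(mv 786 (cons (fin 722 6 721)
(fin 850 6 785)))))))))))
(cons (mv 1105 (cons (cons (mv 848 (cons (fin 912 7 848)
(mv 850 (cons (fin 914 6 849)
(mv 1168 (cons (fin 1104 5 912)
(mv 1169 (cons (fin 1232 5 976)
(mv 1233 (cons (fin 976 7 976)
(mv 1234 (cons (fin 1170 4 977)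
(fin 1298 4 1041)))))))))))))
(cons (mv 850 (cons (fin 914 6 849)
(mv 912 (cons (fin 848 7 848)
(mv 1169 (cons (fin 976 7 912)
(mv 1234 (cons (fin 1170 4 977)
(mv 1233 (cons (fin 1298 4 1041)
(mv 1296 (cons (fin 1232 5 1040)
(mv 1297 (cons (fin 1104 7 1040)
(fin 1360 5 1104)))))))))))))))
(mv 850 (cons (fin 914 6 849)
(mv 912 (cons (fin 848 7 848)
(mv 1169 (cons (fin 976 7 912)
(mv 1232 (cons (fin 1168 5 976)
(mv 1233 (cons (fin 1296 5 1040)
(mv 1234 (cons (fin 1170 4 977)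
(fin 1298 4 1041)))))))))))))))
(cons (cons (mv 850 (cons (fin 914 6 849)
(mv 1168 (cons (fin 1104 5 912)
(mv 1169 (cons (fin 1232 5 976)
(mv 1233 (cons (fin 976 7 976)
(mv 1234 (cons (fin 1170 4 977)
(fin 1298 4 1041)))))))))))
(mv 848 (cons (fin 912 7 848)
(mv 1168 (cons (fin 1104 5 912)
(mv 1169 (cons (fin 1232 5 976)
(mv 1233 (cons (fin 976 7 976)
(mv 1234 (cons (fin 1170 4 977)
(fin 1298 4 1041))))))))))))
(cons (mv 848 (cons (fin 912 7 848)
(mv 850 (cons (fin 914 6 849)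
(mv 1169 (cons (cons (mv 1168 (cons (fin 1104 5 912)
(fin 1232 5 976)))
(mv 1234 (cons (fin 1170 4 977)
(mv 1233 (cons (fin 1298 4 1041)
(mv 1296 (cons (fin 1232 5 1040)
(mv 1297 (cons (fin 1104 7 1040)
(fin 1360 5 1104))))))))))
(cons (mv 1232 (cons (fin 1168 5 976)
(mv 1233 (cons (fin 1296 5 1040)
(mv 1234 (cons (fin 1170 4 977)
(fin 1298 4 1041)))))))
(mv 1104 (cons (fin 1168 5 912)
(mv 1233 (cons (fin 1297 7 1040)
(mv 1234 (cons (fin 1170 4 977)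
(fin 1298 4 1041))))))))))))))
(mv 912 (cons (fin 848 7 848)
(mv 914 (cons (fin 850 6 849)
(mv 1104 (cons (fin 1168 5 912)
(mv 976 (cons (mv 915 (cons (fin 975 1 911)
(fin 916 1 912)))
(mv 911 (cons (fin 847 7 847)
(mv 910 (cons (fin 909 0 909)
(mv 846 (cons (fin 845 3 845)
(mv 1103 (cons (fin 1167 5 911)
(fin 974 4 846)))))))))))))))))))))
(cons (mv 849 (cons (fin 1104 5 848)
(mv 784 (cons (fin 848 7 784)
(mv 785 (cons (fin 720 7 720)
(mv 786 (cons (fin 722 6 721)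
(fin 850 6 785)))))))))
(mv 849 (cons (fin 1104 5 848)
(mv 785 (cons (fin 976 5 784)
(mv 786 (cons (fin 722 6 721)
(fin 850 6 785)))))))))))))))
(cons (mv 977 (cons (fin 978 2 974)
(mv 1101 (cons (fin 1102 1 1037)
(mv 913 (cons (cons (mv 849 (cons (fin 1104 5 848)
(mv 784 (cons (fin 848 7 784)
(mv 785 (cons (fin 720 7 720)
(fin 976 5 784)))))))
(mv 1105 (cons (cons (mv 848 (cons (fin 912 7 848)
(mv 850 (cons (fin 914 6 849)
(mv 1168 (cons (fin 1104 5 912)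
(mv 1169 (cons (fin 1232 5 976)
(mv 1233 (cons (fin 976 7 976)
(mv 1234 (cons (fin 1170 4 977)
(fin 1298 4 1041)))))))))))))
(cons (mv 850 (cons (fin 914 6 849)
(mv 912 (cons (fin 848 7 848)
(mv 1169 (cons (fin 976 7 912)
(mv 1234 (cons (fin 1170 4 977)
(mv 1233 (cons (fin 1298 4 1041)
(mv 1296 (cons (fin 1232 5 1040)
(mv 1297 (cons (fin 1104 7 1040)
(fin 1360 5 1104)))))))))))))))
(mv 850 (cons (fin 914 6 849)
(mv 912 (cons (fin 848 7 848)
(mv 1169 (cons (fin 976 7 912)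
(mv 1232 (cons (fin 1168 5 976)
(mv 1233 (cons (fin 1296 5 1040)
(mv 1234 (cons (fin 1170 4 977)
(fin 1298 4 1041)))))))))))))))
(cons (cons (mv 850 (cons (fin 914 6 849)
(mv 1168 (cons (fin 1104 5 912)
(mv 1169 (cons (fin 1232 5 976)
(mv 1233 (cons (fin 976 7 976)
(mv 1234 (cons (fin 1170 4 977)
(fin 1298 4 1041)))))))))))
(mv 848 (cons (fin 912 7 848)
(mv 1168 (cons (fin 1104 5 912)
(mv 1169 (cons (fin 1232 5 976)
(mv 1233 (cons (fin 976 7 976)
(mv 1234 (cons (fin 1170 4 977)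
(fin 1298 4 1041))))))))))))
(cons (mv 848 (cons (fin 912 7 848)
(mv 850 (cons (fin 914 6 849)
(mv 1169 (cons (cons (mv 1168 (cons (fin 1104 5 912)
(fin 1232 5 976)))
(mv 1234 (cons (fin 1170 4 977)
(mv 1233 (cons (fin 1298 4 1041)
(mv 1296 (cons (fin 1232 5 1040)
(mv 1297 (cons (fin 1104 7 1040)
(fin 1360 5 1104))))))))))
(cons (mv 1232 (cons (fin 1168 5 976)
(mv 1233 (cons (fin 1296 5 1040)
(mv 1234 (cons (fin 1170 4 977)
(fin 1298 4 1041)))))))
(mv 1104 (cons (fin 1168 5 912)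
(mv 1233 (cons (fin 1297 7 1040)
(mv 1234 (cons (fin 1170 4 977)
(fin 1298 4 1041))))))))))))))
(mv 912 (cons (fin 848 7 848)
(mv 914 (cons (fin 850 6 849)
(mv 1104 (cons (fin 1168 5 912)
(mv 975 (cons (mv 911 (cons (fin 974 1 910)
(fin 847 4 847)))
(cons (mv 847 (cons (fin 911 4 847)
(mv 915 (cons (fin 976 1 911)
(mv 852 (cons (fin 851 2 848)
(mv 916 (cons (fin 853 2 849)
(mv 980 (cons (fin 979 0 912)
(fin 981 0 913)))))))))))
(mv 974 (cons (fin 1042 3 974)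
(fin 976 2 910)))))))))))))))))
(cons (mv 849 (cons (mv 784 (cons (fin 848 7 784)
(mv 785 (cons (fin 720 7 720)
(fin 976 5 784)))))
(cons (mv 848 (cons (fin 784 7 784)
(mv 850 (cons (fin 786 6 785)
(mv 1105 (cons (fin 912 7 848)
(fin 914 6 849)))))))
(mv 785 (cons (fin 976 5 784)
(mv 786 (cons (fin 722 6 721)
(fin 850 6 785))))))))
(cons (mv 849 (cons (fin 1104 5 848)
(mv 784 (cons (fin 848 7 784)
(mv 785 (cons (fin 720 7 720)
(mv 786 (cons (fin 722 6 721)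
(fin 850 6 785)))))))))
(mv 849 (cons (fin 1104 5 848)
(mv 785 (cons (fin 976 5 784)
(mv 786 (cons (fin 722 6 721)
(fin 850 6 785)))))))))))))))
(mv 978 (cons (fin 977 2 974)
(mv 1042 (cons (fin 979 2 975)
(mv 1102 (cons (fin 1101 1 1037)
(fin 1103 1 1038))))))))))))
(cons (mv 1037 (cons (cons (mv 976 (cons (fin 977 2 973)
(mv 975 (cons (fin 1036 2 972)
(mv 1100 (cons (fin 1101 1 1036)
(mv 1104 (cons (fin 1105 0 1037)
(mv 911 (cons (fin 1168 7 911)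
(fin 847 4 847)))))))))))
(mv 1100 (cons (fin 1101 1 1036)
(mv 1036 (cons (fin 1099 1 1035)
(mv 1104 (cons (fin 1103 0 1036)
(fin 1105 0 1037))))))))
(cons (mv 976 (cons (fin 977 2 973)
(mv 1036 (cons (fin 975 2 972)
(mv 1100 (cons (fin 1099 1 1035)
(fin 1101 1 1036)))))))
(cons (mv 976 (cons (fin 977 2 973)
(mv 975 (cons (fin 1036 2 972)
(mv 1104 (cons (fin 1105 0 1037)
(mv 911 (cons (fin 1168 7 911)
(fin 847 4 847)))))))))
(mv 976 (cons (fin 977 2 973)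
(mv 1100 (cons (fin 1101 1 1036)
(mv 1104 (cons (fin 1105 0 1037)
(mv 912 (cons (mv 1103 (cons (fin 848 5 847)
(fin 1167 5 911)))
(cons (mv 847 (cons (fin 911 7 847)
(mv 848 (cons (fin 783 7 783)
(mv 849 (cons (fin 785 6 784)
(fin 913 6 848)))))))
(mv 847 (cons (fin 911 7 847)
(mv 849 (cons (fin 913 6 848)
(mv 1167 (cons (fin 1103 5 911)
(mv 1168 (cons (fin 1231 5 975)
(mv 1232 (cons (fin 975 7 975)
(mv 1233 (cons (fin 1169 4 976)
(fin 1297 4 1040))))))))))))))))))))))))))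
(mv 1037 (cons (cons (mv 1100 (cons (fin 1101 1 1036)
(mv 1036 (cons (fin 1099 1 1035)
(mv 1104 (cons (fin 1103 0 1036)
(fin 1105 0 1037)))))))
(mv 1104 (cons (fin 1105 0 1037)
(mv 1036 (cons (fin 1103 0 1036)
(mv 971 (cons (fin 972 3 971)
(mv 975 (cons (fin 976 2 972)
(mv 1035 (cons (fin 970 3 970)
(fin 974 2 971))))))))))))
(cons (mv 1100 (cons (fin 1101 1 1036)
(mv 1036 (cons (fin 1099 1 1035)
(mv 971 (cons (fin 972 3 971)
(mv 975 (cons (fin 976 2 972)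
(mv 1035 (cons (fin 970 3 970)
(fin 974 2 971)))))))))))
(mv 1101 (cons (fin 1100 1 1036)
(mv 1041 (cons (fin 1102 1 1037)
(mv 1104 (cons (fin 1105 0 1037)
(mv 975 (cons (cons (mv 847 (cons (fin 911 4 847)
(mv 974 (cons (fin 1042 3 974)
(mv 910 (cons (fin 846 5 845)
(mv 1167 (cons (fin 1103 7 910)
(mv 1168 (cons (fin 1232 7 975)
(mv 1229 (cons (fin 1165 6 973)
(mv 1231 (cons (fin 976 5 975)
(mv 1230 (cons (fin 1228 2 1164)
(mv 1169 (cons (fin 1166 1 1165)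
(fin 1170 1 1166)))))))))))))))))))
(mv 911 (cons (fin 847 4 847)
(mv 1168 (cons (fin 976 7 911)
(fin 1232 7 975))))))
(cons (mv 974 (cons (fin 1042 3 974)
(mv 910 (cons (fin 846 5 845)
(mv 1167 (cons (fin 1103 7 910)
(mv 1168 (cons (fin 1232 7 975)
(mv 1229 (cons (fin 1165 6 973)
(mv 1231 (cons (fin 976 5 975)
(mv 1230 (cons (fin 1228 2 1164)
(mv 1169 (cons (fin 1166 1 1165)
(fin 1170 1 1166)))))))))))))))))
(cons (mv 847 (cons (fin 911 4 847)
(mv 1042 (cons (fin 974 3 974)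
(mv 1043 (cons (fin 976 3 975)
(fin 1103 1 1039)))))))
(mv 847 (cons (fin 911 4 847)
(mv 1042 (cons (fin 974 3 974)
(mv 979 (cons (fin 978 2 975)
(mv 1043 (cons (fin 1103 1 1039)
(fin 980 2 976))))))))))))))))))))))))
(cons (cons (mv 1037 (cons (cons (mv 976 (cons (fin 977 2 973)
(mv 975 (cons (fin 1036 2 972)
(mv 1104 (cons (fin 1105 0 1037)
(mv 911 (cons (fin 1168 7 911)
(fin 847 4 847)))))))))
(mv 1104 (cons (fin 1105 0 1037)
(mv 1036 (cons (fin 1103 0 1036)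
(mv 971 (cons (fin 972 3 971)
(mv 1035 (cons (fin 970 3 970)
(mv 1099 (cons (fin 1098 1 1034)
(fin 1100 1 1035))))))))))))
(cons (mv 976 (cons (fin 977 2 973)
(mv 1036 (cons (fin 975 2 972)
(mv 971 (cons (fin 972 3 971)
(mv 1035 (cons (fin 970 3 970)
(mv 1099 (cons (fin 1098 1 1034)
(fin 1100 1 1035)))))))))))
(mv 976 (cons (fin 977 2 973)
(mv 1104 (cons (fin 1105 0 1037)
(mv 912 (cons (mv 1103 (cons (fin 848 5 847)
(fin 1167 5 911)))
(cons (mv 847 (cons (fin 911 7 847)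
(mv 848 (cons (fin 783 7 783)
(mv 849 (cons (fin 785 6 784)
(fin 913 6 848)))))))
(mv 847 (cons (fin 911 7 847)
(mv 849 (cons (fin 913 6 848)
(mv 1167 (cons (fin 1103 5 911)
(mv 1168 (cons (fin 1231 5 975)
(mv 1232 (cons (fin 975 7 975)
(mv 1233 (cons (fin 1169 4 976)
(fin 1297 4 1040)))))))))))))))))))))))
(mv 1037 (cons (cons (mv 1100 (cons (fin 1101 1 1036)
(mv 1036 (cons (fin 1099 1 1035)
(mv 1104 (cons (fin 1103 0 1036)
(fin 1105 0 1037)))))))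
(cons (mv 1104 (cons (fin 1105 0 1037)
(mv 1036 (cons (fin 1103 0 1036)
(mv 971 (cons (fin 972 3 971)
(mv 1035 (cons (fin 970 3 970)
(mv 1099 (cons (fin 1098 1 1034)
(fin 1100 1 1035)))))))))))
(mv 1101 (cons (fin 1100 1 1036)
(mv 1102 (cons (fin 1041 1 1037)
(mv 974 (cons (mv 910 (cons (fin 846 5 845)
(fin 1165 5 909)))
(cons (mv 1165 (cons (fin 1229 6 973)
(mv 1166 (cons (mv 975 (cons (fin 911 6 910)
(fin 1230 6 974)))
(cons (mv 975 (cons (fin 911 6 910)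
(mv 1035 (cons (fin 1036 2 971)
(mv 1167 (cons (fin 1231 4 974)
(mv 1168 (cons (fin 1169 3 1101)
(mv 1232 (cons (fin 1233 0 1165)
(fin 1103 4 975)))))))))))
(mv 1230 (cons (fin 1294 7 1037)
(mv 1231 (cons (fin 1167 4 974)
(fin 1295 4 1038))))))))))
(mv 910 (cons (fin 846 5 845)
(mv 845 (cons (fin 909 7 845)
(mv 847 (cons (fin 911 6 846)
(mv 1167 (cons (fin 1103 4 910)
(mv 1166 (cons (fin 1231 4 974)
(mv 1230 (cons (fin 1294 7 1037)
(fin 975 6 974))))))))))))))))))))))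
(cons (mv 1104 (cons (fin 1105 0 1037)
(mv 1103 (cons (fin 1036 0 1036)
(mv 1041 (cons (mv 1042 (cons (fin 1102 1 1038)
(fin 1043 1 1039)))
(cons (mv 977 (cons (fin 978 2 974)
(mv 849 (cons (fin 913 5 848)
(mv 1042 (cons (fin 1043 1 1039)
(mv 975 (cons (fin 974 3 974)
(mv 911 (cons (fin 847 4 847)
(fin 1168 4 911)))))))))))
(mv 977 (cons (fin 978 2 974)
(mv 849 (cons (fin 913 5 848)
(mv 1101 (cons (fin 1102 1 1037)
(mv 1168 (cons (fin 1232 6 976)
(mv 975 (cons (fin 911 4 911)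
(mv 1167 (cons (mv 974 (cons (fin 910 7 910)
(fin 1231 7 974)))
(cons (mv 1230 (cons (fin 1166 5 974)
(mv 1231 (cons (fin 1294 5 1038)
(fin 1295 6 1039)))))
(mv 974 (cons (fin 910 7 910)
(mv 1165 (cons (fin 1229 6 973)
(mv 1166 (cons (fin 1164 2 1100)
(fin 1230 5 974)))))))))))))))))))))))))))
(cons (mv 1101 (cons (fin 1100 1 1036)
(mv 1041 (cons (fin 1102 1 1037)
(mv 978 (cons (fin 977 2 974)
(mv 1042 (cons (fin 979 2 975)
(mv 975 (cons (fin 974 3 974)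
(mv 1104 (cons (fin 1105 0 1037)
(mv 911 (cons (fin 847 4 847)
(mv 1103 (cons (fin 1043 1 1039)
(fin 1168 4 911)))))))))))))))))
(mv 1101 (cons (fin 1100 1 1036)
(mv 1102 (cons (fin 1041 1 1037)
(mv 1104 (cons (fin 1105 0 1037)
(mv 974 (cons (mv 910 (cons (fin 846 5 845)
(fin 1165 5 909)))
(cons (mv 910 (cons (fin 846 5 845)
(mv 845 (cons (fin 909 7 845)
(mv 911 (cons (fin 847 6 846)
(mv 1166 (cons (fin 975 6 910)
(mv 1230 (cons (fin 1294 7 1037)
(mv 1231 (cons (fin 1167 4 974)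
(fin 1295 4 1038)))))))))))))
(mv 1165 (cons (fin 1229 6 973)
(mv 1166 (cons (mv 975 (cons (fin 911 6 910)
(fin 1230 6 974)))
(cons (mv 1230 (cons (fin 1294 7 1037)
(mv 1231 (cons (fin 1167 4 974)
(fin 1295 4 1038)))))
(mv 975 (cons (fin 911 6 910)
(mv 1035 (cons (fin 1036 2 971)
(mv 1167 (cons (fin 1231 4 974)
(mv 1168 (cons (fin 1169 3 1101)
(fin 1232 7 975))))))))))))))))))))))))))))
(cons (mv 1037 (cons (cons (mv 976 (cons (fin 977 2 973)
(mv 975 (cons (fin 1036 2 972)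
(mv 1101 (cons (fin 1100 1 1036)
(mv 1041 (cons (fin 1102 1 1037)
(mv 1042 (cons (fin 974 3 974)
(fin 1043 3 975)))))))))))
(mv 1101 (cons (fin 1100 1 1036)
(mv 1102 (cons (fin 1041 1 1037)
(mv 974 (cons (mv 910 (cons (fin 846 5 845)
(fin 1165 5 909)))
(cons (mv 1165 (cons (fin 1229 6 973)
(mv 1166 (cons (mv 975 (cons (fin 911 6 910)
(fin 1230 6 974)))
(cons (mv 975 (cons (fin 911 6 910)
(mv 1035 (cons (fin 1036 2 971)
(mv 1167 (cons (fin 1231 4 974)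
(mv 1168 (cons (fin 1169 3 1101)
(mv 1232 (cons (fin 1233 0 1165)
(fin 1103 4 975)))))))))))
(mv 1230 (cons (fin 1294 7 1037)
(mv 1231 (cons (fin 1167 4 974)
(fin 1295 4 1038))))))))))
(mv 910 (cons (fin 846 5 845)
(mv 845 (cons (fin 909 7 845)
(mv 847 (cons (fin 911 6 846)
(mv 1167 (cons (fin 1103 4 910)
(mv 1166 (cons (fin 1231 4 974)
(mv 1230 (cons (fin 1294 7 1037)
(fin 975 6 974)))))))))))))))))))))
(cons (mv 976 (cons (fin 977 2 973)
(mv 1036 (cons (fin 975 2 972)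
(mv 971 (cons (fin 972 3 971)
(mv 1035 (cons (fin 970 3 970)
(mv 1099 (cons (fin 1098 1 1034)
(fin 1100 1 1035)))))))))))
(cons (mv 976 (cons (fin 977 2 973)
(mv 1036 (cons (fin 975 2 972)
(mv 971 (cons (fin 972 3 971)
(mv 1035 (cons (fin 970 3 970)
(mv 1098 (cons (fin 1099 1 1034)
(mv 1034 (cons (fin 1097 1 1033)
(mv 1102 (cons (fin 1101 0 1034)
(fin 1103 0 1035)))))))))))))))
(mv 977 (cons (fin 976 2 973)
(mv 1041 (cons (fin 978 2 974)
(mv 1101 (cons (fin 1100 1 1036)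
(fin 1102 1 1037)))))))))))
(cons (mv 1037 (cons (cons (mv 976 (cons (fin 977 2 973)
(mv 975 (cons (fin 1036 2 972)
(mv 1100 (cons (fin 1101 1 1036)
(mv 1104 (cons (fin 1105 0 1037)
(mv 911 (cons (fin 1168 7 911)
(fin 847 4 847)))))))))))
(mv 976 (cons (fin 977 2 973)
(mv 975 (cons (fin 1036 2 972)
(mv 1104 (cons (fin 1105 0 1037)
(mv 911 (cons (fin 1168 7 911)
(fin 847 4 847))))))))))
(cons (mv 1101 (cons (fin 1100 1 1036)
(mv 1102 (cons (fin 1041 1 1037)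
(mv 1104 (cons (fin 1105 0 1037)
(mv 974 (cons (mv 910 (cons (fin 846 5 845)
(fin 1165 5 909)))
(cons (mv 910 (cons (fin 846 5 845)
(mv 845 (cons (fin 909 7 845)
(mv 911 (cons (fin 847 6 846)
(mv 1166 (cons (fin 975 6 910)
(mv 1230 (cons (fin 1294 7 1037)
(mv 1231 (cons (fin 1167 4 974)
(fin 1295 4 1038)))))))))))))
(mv 1165 (cons (fin 1229 6 973)
(mv 1166 (cons (mv 975 (cons (fin 911 6 910)
(fin 1230 6 974)))
(cons (mv 1230 (cons (fin 1294 7 1037)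
(mv 1231 (cons (fin 1167 4 974)
(fin 1295 4 1038)))))
(mv 975 (cons (fin 911 6 910)
(mv 1035 (cons (fin 1036 2 971)
(mv 1167 (cons (fin 1231 4 974)
(mv 1168 (cons (fin 1169 3 1101)
(fin 1232 7 975)))))))))))))))))))))))
(cons (mv 976 (cons (fin 977 2 973)
(mv 975 (cons (fin 1036 2 972)
(mv 1101 (cons (fin 1100 1 1036)
(mv 1041 (cons (fin 1102 1 1037)
(mv 1042 (cons (fin 974 3 974)
(fin 1043 3 975)))))))))))
(mv 977 (cons (fin 976 2 973)
(mv 1041 (cons (fin 978 2 974)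
(mv 1101 (cons (fin 1100 1 1036)
(fin 1102 1 1037)))))))))))
(mv 1037 (cons (cons (mv 976 (cons (fin 977 2 973)
(mv 1100 (cons (fin 1101 1 1036)
(mv 1036 (cons (fin 1099 1 1035)
(mv 1104 (cons (fin 1103 0 1036)
(fin 1105 0 1037)))))))))
(mv 976 (cons (fin 977 2 973)
(mv 1104 (cons (fin 1105 0 1037)
(mv 1036 (cons (fin 1103 0 1036)
(mv 971 (cons (fin 972 3 971)
(mv 1035 (cons (fin 970 3 970)
(mv 1099 (cons (fin 1098 1 1034)
(fin 1100 1 1035))))))))))))))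
(cons (mv 976 (cons (fin 977 2 973)
(mv 1104 (cons (fin 1105 0 1037)
(mv 1103 (cons (fin 1036 0 1036)
(mv 912 (cons (fin 848 5 847)
(fin 1167 5 911)))))))))
(cons (mv 977 (cons (fin 976 2 973)
(mv 1041 (cons (fin 978 2 974)
(mv 1101 (cons (fin 1100 1 1036)
(fin 1102 1 1037)))))))
(mv 1100 (cons (fin 1101 1 1036)
(mv 1036 (cons (fin 1099 1 1035)
(mv 1104 (cons (fin 1103 0 1036)
(fin 1105 0 1037)))))))))))))))))
(cons (mv 1038 (cons (cons (cons (mv 1037 (cons (cons (mv 972 (cons (fin 973 3 972)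
(mv 976 (cons (fin 977 2 973)
(mv 1036 (cons (fin 971 3 971)
(fin 975 2 972)))))))
(mv 972 (cons (fin 973 3 972)
(mv 1036 (cons (fin 971 3 971)
(mv 1104 (cons (fin 1103 0 1036)
(fin 1105 0 1037))))))))
(cons (mv 976 (cons (fin 977 2 973)
(mv 975 (cons (fin 1036 2 972)
(mv 1104 (cons (fin 1105 0 1037)
(mv 911 (cons (fin 1168 7 911)
(fin 847 4 847)))))))))
(mv 973 (cons (fin 972 3 972)
(mv 977 (cons (fin 976 2 973)
(mv 1041 (cons (fin 974 3 973)
(fin 978 2 974))))))))))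
(mv 1041 (cons (cons (mv 973 (cons (fin 974 3 973)
(mv 978 (cons (fin 977 2 974)
(mv 1042 (cons (fin 979 2 975)
(mv 1103 (cons (fin 1102 1 1038)
(mv 976 (cons (cons (mv 1043 (cons (fin 975 3 975)
(fin 1104 1 1039)))
(mv 912 (cons (fin 848 5 847)
(mv 1167 (cons (fin 1104 5 911)
(fin 975 6 911))))))
(cons (mv 912 (cons (fin 848 5 847)
(mv 975 (cons (fin 1043 3 975)
(fin 1167 6 911)))))
(mv 912 (cons (fin 848 5 847)
(mv 1104 (cons (fin 1043 1 1039)
(fin 1167 5 911))))))))))))))))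
(cons (mv 977 (cons (fin 978 2 974)
(mv 913 (cons (cons (mv 849 (cons (fin 1104 5 848)
(mv 784 (cons (fin 848 7 784)
(mv 785 (cons (fin 720 7 720)
(fin 976 5 784)))))))
(mv 849 (cons (cons (mv 784 (cons (fin 848 7 784)
(mv 785 (cons (fin 720 7 720)
(fin 976 5 784)))))
(mv 786 (cons (fin 850 6 785)
(mv 848 (cons (fin 784 7 784)
(mv 912 (cons (fin 1105 7 848)
(mv 976 (cons (fin 1103 5 847)
(mv 847 (cons (fin 783 7 783)
(mv 846 (cons (fin 845 0 845)
(fin 914 0 846))))))))))))))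
(cons (mv 785 (cons (fin 976 5 784)
(mv 786 (cons (fin 722 6 721)
(fin 850 6 785)))))
(mv 784 (cons (fin 848 7 784)
(mv 785 (cons (fin 720 7 720)
(mv 786 (cons (fin 722 6 721)
(fin 850 6 785)))))))))))
(cons (mv 1105 (cons (cons (mv 848 (cons (fin 912 7 848)
(mv 850 (cons (fin 914 6 849)
(mv 1168 (cons (fin 1104 5 912)
(mv 1169 (cons (fin 1232 5 976)
(mv 1233 (cons (fin 976 7 976)
(mv 1234 (cons (fin 1170 4 977)
(fin 1298 4 1041)))))))))))))
(cons (mv 850 (cons (fin 914 6 849)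
(mv 912 (cons (fin 848 7 848)
(mv 1169 (cons (fin 976 7 912)
(mv 1234 (cons (fin 1170 4 977)
(mv 1233 (cons (fin 1298 4 1041)
(mv 1296 (cons (fin 1232 5 1040)
(mv 1297 (cons (fin 1104 7 1040)
(fin 1360 5 1104)))))))))))))))
(mv 850 (cons (fin 914 6 849)
(mv 912 (cons (fin 848 7 848)
(mv 1169 (cons (fin 976 7 912)
(mv 1232 (cons (fin 1168 5 976)
(mv 1233 (cons (fin 1296 5 1040)
(mv 1234 (cons (fin 1170 4 977)
(fin 1298 4 1041)))))))))))))))
(cons (cons (mv 850 (cons (fin 914 6 849)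
(mv 1168 (cons (fin 1104 5 912)
(mv 1169 (cons (fin 1232 5 976)
(mv 1233 (cons (fin 976 7 976)
(mv 1234 (cons (fin 1170 4 977)
(fin 1298 4 1041)))))))))))
(mv 848 (cons (fin 912 7 848)
(mv 1168 (cons (fin 1104 5 912)
(mv 1169 (cons (fin 1232 5 976)
(mv 1233 (cons (fin 976 7 976)
(mv 1234 (cons (fin 1170 4 977)
(fin 1298 4 1041))))))))))))
(cons (mv 848 (cons (fin 912 7 848)
(mv 850 (cons (fin 914 6 849)
(mv 1169 (cons (cons (mv 1168 (cons (fin 1104 5 912)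
(fin 1232 5 976)))
(mv 1234 (cons (fin 1170 4 977)
(mv 1233 (cons (fin 1298 4 1041)
(mv 1296 (cons (fin 1232 5 1040)
(mv 1297 (cons (fin 1104 7 1040)
(fin 1360 5 1104))))))))))
(cons (mv 1232 (cons (fin 1168 5 976)
(mv 1233 (cons (fin 1296 5 1040)
(mv 1234 (cons (fin 1170 4 977)
(fin 1298 4 1041)))))))
(mv 1104 (cons (fin 1168 5 912)
(mv 1233 (cons (fin 1297 7 1040)
(mv 1234 (cons (fin 1170 4 977)
(fin 1298 4 1041))))))))))))))
(mv 850 (cons (fin 914 6 849)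
(mv 912 (cons (fin 848 7 848)
(mv 1104 (cons (fin 1168 5 912)
(mv 1103 (cons (mv 1042 (cons (fin 1102 1 1038)
(fin 1043 1 1039)))
(mv 976 (cons (fin 1167 5 911)
(mv 911 (cons (fin 847 7 847)
(mv 910 (cons (fin 909 0 909)
(mv 846 (cons (fin 845 3 845)
(fin 975 7 846)))))))))))))))))))))
(cons (mv 849 (cons (fin 1104 5 848)
(mv 784 (cons (fin 848 7 784)
(mv 785 (cons (fin 720 7 720)
(mv 786 (cons (fin 722 6 721)
(fin 850 6 785)))))))))
(mv 849 (cons (fin 1104 5 848)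
(mv 785 (cons (fin 976 5 784)
(mv 786 (cons (fin 722 6 721)
(fin 850 6 785)))))))))))))
(mv 974 (cons (fin 973 3 973)
(mv 1042 (cons (fin 975 3 974)
(mv 1103 (cons (fin 1102 1 1038)
(mv 846 (cons (fin 910 4 846)
(mv 1043 (cons (fin 1104 1 1039)
(mv 980 (cons (fin 979 2 976)
(mv 1044 (cons (fin 981 2 977)
(mv 1108 (cons (fin 1107 0 1040)
(fin 1109 0 1041)))))))))))))))))))
(cons (mv 974 (cons (fin 973 3 973)
(mv 977 (cons (fin 978 2 974)
(mv 1103 (cons (cons (mv 910 (cons (fin 846 4 846)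
(mv 1167 (cons (fin 975 7 910)
(fin 1231 7 974)))))
(mv 846 (cons (fin 910 4 846)
(mv 1104 (cons (cons (mv 913 (cons (fin 849 5 848)
(mv 1168 (cons (fin 1105 5 912)
(fin 976 6 912)))))
(mv 913 (cons (fin 849 5 848)
(mv 1105 (cons (cons (mv 848 (cons (fin 912 7 848)
(mv 914 (cons (fin 850 6 849)
(mv 976 (cons (fin 975 2 910)
(mv 915 (cons (fin 916 1 912)
(mv 1169 (cons (fin 1233 7 976)
(mv 1170 (cons (fin 1102 0 1102)
(fin 1234 4 977)))))))))))))
(mv 914 (cons (fin 850 6 849)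
(mv 976 (cons (fin 975 2 910)
(mv 915 (cons (fin 916 1 912)
(mv 1169 (cons (fin 1233 7 976)
(mv 1170 (cons (fin 1102 0 1102)
(fin 1234 4 977))))))))))))
(cons (mv 912 (cons (fin 848 7 848)
(mv 1169 (cons (fin 976 7 912)
(mv 1170 (cons (fin 1102 0 1102)
(fin 1234 4 977)))))))
(mv 912 (cons (fin 848 7 848)
(mv 914 (cons (fin 850 6 849)
(mv 911 (cons (fin 847 3 846)
(fin 975 1 910)))))))))))))
(cons (mv 1168 (cons (fin 1232 6 976)
(mv 911 (cons (fin 975 4 911)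
(mv 976 (cons (mv 912 (cons (fin 847 7 847)
(fin 848 5 847)))
(mv 1169 (cons (fin 1233 4 976)
(mv 1170 (cons (fin 1171 3 1103)
(mv 1105 (cons (fin 1102 0 1102)
(fin 1234 4 977)))))))))))))
(cons (mv 913 (cons (fin 849 5 848)
(mv 1168 (cons (fin 1105 5 912)
(fin 1232 6 976)))))
(mv 913 (cons (fin 849 5 848)
(mv 1168 (cons (fin 976 6 912)
(fin 1232 6 976))))))))))))
(cons (mv 1167 (cons (fin 1231 7 974)
(mv 975 (cons (mv 912 (cons (fin 976 6 911)
(mv 848 (cons (fin 911 6 847)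
(mv 913 (cons (fin 1105 7 848)
(mv 784 (cons (fin 849 7 784)
(fin 720 4 720)))))))))
(cons (mv 1166 (cons (fin 1230 5 974)
(mv 911 (cons (fin 1102 5 910)
(mv 847 (cons (fin 783 5 782)
(fin 1104 4 847)))))))
(mv 976 (cons (fin 912 6 911)
(mv 913 (cons (fin 914 2 910)
(mv 849 (cons (fin 785 5 784)
(fin 1104 5 848))))))))))))
(mv 910 (cons (fin 846 4 846)
(mv 1167 (cons (fin 1231 7 974)
(fin 1102 4 910))))))))))))
(cons (mv 973 (cons (fin 974 3 973)
(mv 1042 (cons (mv 978 (cons (fin 977 2 974)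
(fin 979 2 975)))
(cons (mv 1103 (cons (fin 1102 1 1038)
(mv 1043 (cons (fin 1104 1 1039)
(mv 980 (cons (fin 979 2 976)
(mv 1044 (cons (fin 981 2 977)
(mv 1108 (cons (fin 1107 0 1040)
(fin 1109 0 1041)))))))))))
(mv 977 (cons (fin 978 2 974)
(mv 1103 (cons (fin 1102 1 1038)
(mv 1043 (cons (fin 1104 1 1039)
(mv 1044 (cons (fin 976 3 976)
(mv 1108 (cons (fin 1107 0 1040)
(fin 1109 0 1041))))))))))))))))
(mv 974 (cons (fin 973 3 973)
(mv 978 (cons (fin 977 2 974)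
(mv 1042 (cons (fin 975 3 974)
(fin 979 2 975))))))))))))
(cons (mv 1037 (cons (cons (mv 972 (cons (fin 973 3 972)
(mv 976 (cons (fin 977 2 973)
(mv 1036 (cons (fin 971 3 971)
(fin 975 2 972)))))))
(mv 972 (cons (fin 973 3 972)
(mv 1036 (cons (fin 971 3 971)
(mv 1104 (cons (fin 1103 0 1036)
(fin 1105 0 1037))))))))
(cons (mv 976 (cons (fin 977 2 973)
(mv 975 (cons (fin 1036 2 972)
(mv 1104 (cons (fin 1105 0 1037)
(mv 911 (cons (fin 1168 7 911)
(fin 847 4 847)))))))))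
(mv 972 (cons (fin 973 3 972)
(mv 976 (cons (fin 977 2 973)
(mv 1104 (cons (fin 1105 0 1037)
(mv 912 (cons (mv 1103 (cons (fin 848 5 847)
(fin 1167 5 911)))
(cons (mv 847 (cons (fin 911 7 847)
(mv 848 (cons (fin 783 7 783)
(mv 849 (cons (fin 785 6 784)
(fin 913 6 848)))))))
(mv 847 (cons (fin 911 7 847)
(mv 849 (cons (fin 913 6 848)
(mv 1167 (cons (fin 1103 5 911)
(mv 1168 (cons (fin 1231 5 975)
(mv 1232 (cons (fin 975 7 975)
(mv 1233 (cons (fin 1169 4 976)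
(fin 1297 4 1040)))))))))))))))))))))))))
(cons (mv 1037 (cons (cons (mv 972 (cons (fin 973 3 972)
(mv 1036 (cons (fin 971 3 971)
(mv 1104 (cons (fin 1103 0 1036)
(fin 1105 0 1037)))))))
(mv 1104 (cons (fin 1105 0 1037)
(mv 1036 (cons (fin 1103 0 1036)
(mv 971 (cons (fin 972 3 971)
(mv 975 (cons (fin 976 2 972)
(mv 1035 (cons (fin 970 3 970)
(fin 974 2 971))))))))))))
(cons (mv 972 (cons (fin 973 3 972)
(mv 1036 (cons (fin 971 3 971)
(mv 975 (cons (fin 976 2 972)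
(mv 1035 (cons (fin 974 2 971)
(mv 1099 (cons (fin 1098 1 1034)
(fin 1100 1 1035)))))))))))
(cons (mv 1104 (cons (fin 1105 0 1037)
(mv 1036 (cons (fin 1103 0 1036)
(mv 975 (cons (fin 976 2 972)
(mv 847 (cons (fin 911 4 847)
(mv 974 (cons (fin 1035 2 971)
(mv 1041 (cons (fin 973 3 973)
(fin 1042 3 974)))))))))))))
(mv 973 (cons (fin 972 3 972)
(mv 974 (cons (fin 1041 3 973)
(mv 1104 (cons (fin 1105 0 1037)
(mv 1102 (cons (mv 909 (cons (fin 1166 7 909)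
(fin 845 4 845)))
(cons (mv 845 (cons (fin 909 4 845)
(mv 910 (cons (mv 846 (cons (fin 781 7 781)
(fin 782 5 781)))
(mv 911 (cons (fin 847 6 846)
(mv 912 (cons (fin 913 1 909)
(mv 1103 (cons (fin 1167 4 910)
(mv 848 (cons (fin 976 5 847)
(fin 975 6 847)))))))))))))
(mv 1166 (cons (fin 1230 7 973)
(mv 911 (cons (fin 975 6 910)
(mv 847 (cons (fin 910 6 846)
(mv 912 (cons (fin 976 7 847)
(mv 1165 (cons (fin 1229 5 973)
(mv 1167 (cons (fin 1231 4 974)
(mv 1164 (cons (fin 1103 2 1100)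
(mv 1099 (cons (fin 1100 3 1099)
(mv 1163 (cons (fin 1098 3 1098)
(mv 1227 (cons (fin 1226 1 1162)
(fin 1228 1 1163))))))))))))))))))))))))))))))))))
(mv 1037 (cons (cons (mv 976 (cons (fin 977 2 973)
(mv 975 (cons (fin 1036 2 972)
(mv 1104 (cons (fin 1105 0 1037)
(mv 911 (cons (fin 1168 7 911)
(fin 847 4 847)))))))))
(mv 1104 (cons (fin 1105 0 1037)
(mv 1036 (cons (fin 1103 0 1036)
(mv 971 (cons (fin 972 3 971)
(mv 1035 (cons (fin 970 3 970)
(mv 1099 (cons (fin 1098 1 1034)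
(fin 1100 1 1035))))))))))))
(cons (mv 976 (cons (fin 977 2 973)
(mv 1036 (cons (fin 975 2 972)
(mv 971 (cons (fin 972 3 971)
(mv 1035 (cons (fin 970 3 970)
(mv 1099 (cons (fin 1098 1 1034)
(fin 1100 1 1035)))))))))))
(mv 976 (cons (fin 977 2 973)
(mv 1104 (cons (fin 1105 0 1037)
(mv 912 (cons (mv 1103 (cons (fin 848 5 847)
(fin 1167 5 911)))
(cons (mv 847 (cons (fin 911 7 847)
(mv 848 (cons (fin 783 7 783)
(mv 849 (cons (fin 785 6 784)
(fin 913 6 848)))))))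
(mv 847 (cons (fin 911 7 847)
(mv 849 (cons (fin 913 6 848)
(mv 1167 (cons (fin 1103 5 911)
(mv 1168 (cons (fin 1231 5 975)
(mv 1232 (cons (fin 975 7 975)
(mv 1233 (cons (fin 1169 4 976)
(fin 1297 4 1040))))))))))))))))))))))))))
(cons (cons (mv 1037 (cons (cons (mv 972 (cons (fin 973 3 972)
(mv 1036 (cons (fin 971 3 971)
(mv 1104 (cons (fin 1103 0 1036)
(fin 1105 0 1037)))))))
(mv 1104 (cons (fin 1105 0 1037)
(mv 1036 (cons (fin 1103 0 1036)
(mv 971 (cons (fin 972 3 971)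
(mv 1035 (cons (fin 970 3 970)
(mv 1099 (cons (fin 1098 1 1034)
(fin 1100 1 1035))))))))))))
(cons (mv 973 (cons (fin 972 3 972)
(mv 974 (cons (fin 1041 3 973)
(mv 1102 (cons (mv 909 (cons (fin 1166 7 909)
(fin 845 4 845)))
(cons (mv 909 (cons (fin 845 4 845)
(mv 910 (cons (mv 846 (cons (fin 782 5 781)
(fin 1103 4 846)))
(cons (mv 911 (cons (fin 847 6 846)
(mv 912 (cons (fin 913 1 909)
(mv 848 (cons (fin 849 2 845)
(mv 1103 (cons (fin 975 6 847)
(fin 1167 4 910)))))))))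
(mv 846 (cons (fin 782 5 781)
(mv 847 (cons (fin 783 6 782)
(fin 911 6 846))))))))))
(mv 1166 (cons (fin 1230 7 973)
(mv 911 (cons (fin 975 6 910)
(mv 910 (cons (fin 847 6 846)
(mv 846 (cons (fin 782 5 781)
(fin 1103 4 846))))))))))))))))
(cons (mv 1104 (cons (fin 1105 0 1037)
(mv 1036 (cons (fin 1103 0 1036)
(mv 1099 (cons (fin 1100 1 1035)
(mv 1035 (cons (fin 1098 1 1034)
(mv 970 (cons (fin 971 3 970)
(mv 974 (cons (fin 975 2 971)
(mv 973 (cons (fin 1041 3 973)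
(fin 1034 2 970)))))))))))))))
(mv 1104 (cons (fin 1105 0 1037)
(mv 1036 (cons (cons (mv 972 (cons (fin 971 3 971)
(fin 973 3 972)))
(mv 1099 (cons (fin 1100 1 1035)
(mv 1035 (cons (fin 1098 1 1034)
(mv 970 (cons (fin 971 3 970)
(mv 974 (cons (fin 975 2 971)
(mv 973 (cons (fin 1041 3 973)
(fin 1034 2 970))))))))))))
(cons (mv 971 (cons (fin 972 3 971)
(mv 1035 (cons (fin 970 3 970)
(mv 1099 (cons (fin 1098 1 1034)
(fin 1100 1 1035)))))))
(mv 973 (cons (fin 972 3 972)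
(mv 974 (cons (fin 1041 3 973)
(mv 1035 (cons (fin 1034 2 970)
(fin 975 2 971))))))))))))))))
(mv 1037 (cons (cons (mv 972 (cons (fin 973 3 972)
(mv 976 (cons (fin 977 2 973)
(mv 1036 (cons (fin 971 3 971)
(fin 975 2 972)))))))
(mv 976 (cons (fin 977 2 973)
(mv 1036 (cons (fin 975 2 972)
(mv 971 (cons (fin 972 3 971)
(mv 1035 (cons (fin 970 3 970)
(mv 1099 (cons (fin 1098 1 1034)
(fin 1100 1 1035))))))))))))
(cons (mv 973 (cons (fin 972 3 972)
(mv 974 (cons (fin 1041 3 973)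
(mv 1102 (cons (mv 909 (cons (fin 1166 7 909)
(fin 845 4 845)))
(cons (mv 909 (cons (fin 845 4 845)
(mv 910 (cons (mv 846 (cons (fin 782 5 781)
(fin 1103 4 846)))
(cons (mv 911 (cons (fin 847 6 846)
(mv 912 (cons (fin 913 1 909)
(mv 848 (cons (fin 849 2 845)
(mv 1103 (cons (fin 975 6 847)
(fin 1167 4 910)))))))))
(mv 846 (cons (fin 782 5 781)
(mv 847 (cons (fin 783 6 782)
(fin 911 6 846))))))))))
(mv 1166 (cons (fin 1230 7 973)
(mv 911 (cons (fin 975 6 910)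
(mv 910 (cons (fin 847 6 846)
(mv 846 (cons (fin 782 5 781)
(fin 1103 4 846))))))))))))))))
(cons (mv 976 (cons (fin 977 2 973)
(mv 975 (cons (fin 1036 2 972)
(mv 1041 (cons (mv 974 (cons (fin 973 3 973)
(fin 1042 3 974)))
(cons (mv 1042 (cons (fin 1043 3 975)
(mv 978 (cons (fin 979 2 975)
(mv 1103 (cons (fin 1102 1 1038)
(mv 912 (cons (fin 848 5 847)
(fin 1167 6 911)))))))))
(mv 973 (cons (fin 974 3 973)
(mv 912 (cons (mv 848 (cons (fin 784 5 783)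
(fin 1103 5 847)))
(cons (mv 1103 (cons (fin 1167 6 911)
(mv 911 (cons (mv 847 (cons (fin 1102 5 846)
(fin 783 4 783)))
(cons (mv 846 (cons (fin 910 7 846)
(mv 847 (cons (fin 782 7 782)
(fin 783 4 783)))))
(mv 910 (cons (fin 846 7 846)
(mv 909 (cons (fin 908 0 908)
(mv 845 (cons (fin 844 3 844)
(fin 1102 4 845))))))))))))
(mv 848 (cons (fin 784 5 783)
(fin 1105 4 848)))))))))))))))
(mv 973 (cons (fin 972 3 972)
(mv 977 (cons (fin 976 2 973)
(mv 1041 (cons (fin 974 3 973)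
(fin 978 2 974))))))))))))
(cons (mv 1037 (cons (cons (mv 972 (cons (fin 973 3 972)
(mv 976 (cons (fin 977 2 973)
(mv 1036 (cons (fin 971 3 971)
(fin 975 2 972)))))))
(mv 972 (cons (fin 973 3 972)
(mv 1036 (cons (fin 971 3 971)
(mv 1099 (cons (fin 1100 1 1035)
(mv 1035 (cons (fin 1098 1 1034)
(mv 1103 (cons (fin 1102 0 1035)
(fin 1104 0 1036))))))))))))
(cons (mv 976 (cons (fin 977 2 973)
(mv 1036 (cons (fin 975 2 972)
(mv 971 (cons (fin 972 3 971)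
(mv 1035 (cons (fin 970 3 970)
(mv 1099 (cons (fin 1098 1 1034)
(fin 1100 1 1035)))))))))))
(cons (mv 976 (cons (fin 977 2 973)
(mv 1036 (cons (fin 975 2 972)
(mv 1099 (cons (fin 1100 1 1035)
(mv 1035 (cons (fin 1098 1 1034)
(mv 1103 (cons (fin 1102 0 1035)
(fin 1104 0 1036)))))))))))
(mv 973 (cons (fin 972 3 972)
(mv 977 (cons (fin 976 2 973)
(mv 1041 (cons (fin 974 3 973)
(fin 978 2 974)))))))))))
(cons (mv 1037 (cons (cons (mv 972 (cons (fin 973 3 972)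
(mv 976 (cons (fin 977 2 973)
(mv 1036 (cons (fin 971 3 971)
(mv 1104 (cons (fin 1103 0 1036)
(fin 1105 0 1037)))))))))
(mv 976 (cons (fin 977 2 973)
(mv 1104 (cons (fin 1105 0 1037)
(mv 1036 (cons (fin 1103 0 1036)
(mv 971 (cons (fin 972 3 971)
(mv 1035 (cons (fin 970 3 970)
(mv 1099 (cons (fin 1098 1 1034)
(fin 1100 1 1035))))))))))))))
(cons (mv 976 (cons (fin 977 2 973)
(mv 1104 (cons (fin 1105 0 1037)
(mv 1103 (cons (fin 1036 0 1036)
(mv 912 (cons (fin 848 5 847)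
(fin 1167 5 911)))))))))
(cons (mv 973 (cons (fin 972 3 972)
(mv 977 (cons (fin 976 2 973)
(mv 1041 (cons (fin 974 3 973)
(fin 978 2 974)))))))
(mv 972 (cons (fin 973 3 972)
(mv 1036 (cons (fin 971 3 971)
(mv 1104 (cons (fin 1103 0 1036)
(fin 1105 0 1037)))))))))))
(mv 1037 (cons (cons (mv 972 (cons (fin 973 3 972)
(mv 976 (cons (fin 977 2 973)
(mv 1036 (cons (fin 971 3 971)
(fin 975 2 972)))))))
(mv 976 (cons (fin 977 2 973)
(mv 975 (cons (fin 1036 2 972)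
(mv 1104 (cons (fin 1105 0 1037)
(mv 911 (cons (fin 1168 7 911)
(fin 847 4 847))))))))))
(cons (mv 1104 (cons (fin 1105 0 1037)
(mv 1036 (cons (cons (mv 972 (cons (fin 971 3 971)
(fin 973 3 972)))
(mv 1099 (cons (fin 1100 1 1035)
(mv 1035 (cons (fin 1098 1 1034)
(mv 970 (cons (fin 971 3 970)
(mv 974 (cons (fin 975 2 971)
(mv 973 (cons (fin 1041 3 973)
(fin 1034 2 970))))))))))))
(cons (mv 971 (cons (fin 972 3 971)
(mv 1035 (cons (fin 970 3 970)
(mv 1099 (cons (fin 1098 1 1034)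
(fin 1100 1 1035)))))))
(mv 973 (cons (fin 972 3 972)
(mv 974 (cons (fin 1041 3 973)
(mv 1035 (cons (fin 1034 2 970)
(fin 975 2 971))))))))))))
(mv 973 (cons (fin 972 3 972)
(mv 977 (cons (fin 976 2 973)
(mv 1041 (cons (fin 974 3 973)
(fin 978 2 974)))))))))))))))
(mv 1038 (cons (cons (mv 1037 (cons (cons (mv 972 (cons (fin 973 3 972)
(mv 976 (cons (fin 977 2 973)
(mv 1036 (cons (fin 971 3 971)
(fin 975 2 972)))))))
(mv 976 (cons (fin 977 2 973)
(mv 975 (cons (fin 1036 2 972)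
(mv 1100 (cons (fin 1101 1 1036)
(mv 1104 (cons (fin 1105 0 1037)
(mv 911 (cons (fin 1168 7 911)
(fin 847 4 847))))))))))))
(cons (mv 972 (cons (fin 973 3 972)
(mv 1036 (cons (fin 971 3 971)
(mv 1100 (cons (fin 1099 1 1035)
(fin 1101 1 1036)))))))
(mv 973 (cons (fin 972 3 972)
(mv 974 (cons (fin 1041 3 973)
(mv 976 (cons (fin 977 2 973)
(mv 1101 (cons (fin 1100 1 1036)
(mv 910 (cons (fin 846 5 845)
(fin 1165 6 909))))))))))))))
(cons (mv 1041 (cons (cons (mv 974 (cons (fin 973 3 973)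
(mv 975 (cons (fin 1042 3 974)
(mv 1102 (cons (fin 1101 1 1037)
(mv 911 (cons (fin 847 5 846)
(fin 1166 6 910)))))))))
(mv 1102 (cons (fin 1101 1 1037)
(mv 1042 (cons (fin 1103 1 1038)
(mv 1043 (cons (cons (mv 975 (cons (fin 976 3 975)
(mv 847 (cons (fin 911 5 846)
(mv 980 (cons (fin 979 2 976)
(mv 1044 (cons (fin 981 2 977)
(mv 1108 (cons (fin 1107 0 1040)
(fin 1109 0 1041)))))))))))
(mv 980 (cons (fin 979 2 976)
(mv 1044 (cons (fin 981 2 977)
(mv 1108 (cons (fin 1107 0 1040)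
(fin 1109 0 1041))))))))
(cons (mv 976 (cons (fin 975 3 975)
(mv 1044 (cons (fin 977 3 976)
(mv 1108 (cons (fin 1107 0 1040)
(fin 1109 0 1041)))))))
(cons (mv 976 (cons (fin 975 3 975)
(mv 980 (cons (fin 979 2 976)
(mv 1044 (cons (fin 977 3 976)
(fin 981 2 977)))))))
(mv 979 (cons (fin 980 2 976)
(mv 1107 (cons (fin 1108 0 1040)
(mv 915 (cons (cons (mv 850 (cons (fin 914 7 850)
(mv 851 (cons (fin 786 7 786)
(mv 852 (cons (fin 788 6 787)
(fin 916 6 851)))))))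
(cons (mv 852 (cons (fin 916 6 851)
(mv 851 (cons (fin 788 6 787)
(mv 976 (cons (fin 975 3 975)
(mv 912 (cons (mv 848 (cons (fin 1105 4 848)
(mv 783 (cons (fin 847 7 783)
(mv 784 (cons (fin 719 7 719)
(fin 977 4 784)))))))
(cons (mv 913 (cons (fin 914 2 848)
(mv 849 (cons (fin 1104 6 848)
(mv 785 (cons (fin 721 5 720)
(fin 977 5 784)))))))
(mv 848 (cons (fin 1105 4 848)
(mv 783 (cons (fin 847 7 783)
(mv 719 (cons (fin 784 7 719)
(mv 849 (cons (fin 785 6 784)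
(mv 913 (cons (fin 914 2 848)
(fin 1104 6 848))))))))))))))))))))
(mv 850 (cons (fin 914 7 850)
(mv 851 (cons (fin 786 7 786)
(mv 848 (cons (cons (mv 849 (cons (fin 916 0 848)
(mv 783 (cons (fin 784 3 783)
(mv 782 (cons (fin 847 3 782)
(mv 787 (cons (fin 788 2 784)
(mv 912 (cons (fin 911 1 847)
(mv 976 (cons (fin 975 3 975)
(fin 785 6 784)))))))))))))
(cons (mv 976 (cons (fin 975 3 975)
(mv 912 (cons (fin 1105 4 848)
(mv 783 (cons (fin 847 7 783)
(mv 784 (cons (fin 719 7 719)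
(fin 977 4 784)))))))))
(mv 849 (cons (fin 916 0 848)
(mv 783 (cons (fin 784 3 783)
(mv 782 (cons (fin 847 3 782)
(mv 787 (cons (fin 788 2 784)
(mv 912 (cons (fin 911 1 847)
(mv 976 (cons (fin 785 6 784)
(fin 1105 4 848)))))))))))))))
(cons (cons (mv 849 (cons (fin 916 0 848)
(mv 783 (cons (fin 784 3 783)
(mv 787 (cons (fin 788 2 784)
(mv 847 (cons (fin 782 3 782)
(mv 911 (cons (fin 910 1 846)
(fin 912 1 847)))))))))))
(mv 849 (cons (fin 916 0 848)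
(mv 783 (cons (fin 784 3 783)
(mv 787 (cons (fin 788 2 784)
(mv 847 (cons (fin 782 3 782)
(mv 911 (cons (fin 910 1 846)
(fin 975 5 846))))))))))))
(cons (mv 849 (cons (fin 916 0 848)
(mv 783 (cons (fin 784 3 783)
(mv 787 (cons (fin 788 2 784)
(mv 912 (cons (fin 911 1 847)
(mv 976 (cons (fin 975 3 975)
(fin 785 6 784)))))))))))
(mv 849 (cons (fin 916 0 848)
(mv 787 (cons (fin 788 2 784)
(mv 911 (cons (fin 912 1 847)
(mv 847 (cons (fin 910 1 846)
(fin 975 5 846)))))))))))))))))))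
(cons (mv 851 (cons (cons (mv 852 (cons (fin 788 6 787)
(fin 916 6 851)))
(mv 850 (cons (fin 786 7 786)
(mv 848 (cons (cons (mv 849 (cons (fin 916 0 848)
(mv 783 (cons (fin 784 3 783)
(mv 782 (cons (fin 847 3 782)
(mv 787 (cons (fin 788 2 784)
(mv 912 (cons (fin 911 1 847)
(mv 976 (cons (fin 975 3 975)
(fin 785 6 784)))))))))))))
(cons (mv 976 (cons (fin 975 3 975)
(mv 912 (cons (fin 1105 4 848)
(mv 783 (cons (fin 847 7 783)
(mv 784 (cons (fin 719 7 719)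
(fin 977 4 784)))))))))
(mv 849 (cons (fin 916 0 848)
(mv 783 (cons (fin 784 3 783)
(mv 782 (cons (fin 847 3 782)
(mv 787 (cons (fin 788 2 784)
(mv 912 (cons (fin 911 1 847)
(mv 976 (cons (fin 785 6 784)
(fin 1105 4 848)))))))))))))))
(cons (cons (mv 849 (cons (fin 916 0 848)
(mv 783 (cons (fin 784 3 783)
(mv 787 (cons (fin 788 2 784)
(mv 847 (cons (fin 782 3 782)
(mv 911 (cons (fin 910 1 846)
(fin 912 1 847)))))))))))
(mv 849 (cons (fin 916 0 848)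
(mv 783 (cons (fin 784 3 783)
(mv 787 (cons (fin 788 2 784)
(mv 847 (cons (fin 782 3 782)
(mv 911 (cons (fin 910 1 846)
(fin 975 5 846))))))))))))
(cons (mv 849 (cons (fin 916 0 848)
(mv 783 (cons (fin 784 3 783)
(mv 787 (cons (fin 788 2 784)
(mv 912 (cons (fin 911 1 847)
(mv 976 (cons (fin 975 3 975)
(fin 785 6 784)))))))))))
(mv 849 (cons (fin 916 0 848)
(mv 787 (cons (fin 788 2 784)
(mv 911 (cons (fin 912 1 847)
(mv 847 (cons (fin 910 1 846)
(fin 975 5 846))))))))))))))))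
(cons (mv 850 (cons (fin 786 7 786)
(mv 916 (cons (fin 852 6 851)
(mv 848 (cons (fin 849 0 848)
(mv 917 (cons (fin 918 3 850)
(mv 976 (cons (fin 975 3 975)
(mv 912 (cons (fin 1105 4 848)
(mv 783 (cons (fin 847 7 783)
(mv 784 (cons (fin 719 7 719)
(fin 977 4 784)))))))))))))))))
(mv 786 (cons (fin 850 7 786)
(mv 787 (cons (fin 722 7 722)
(mv 788 (cons (fin 724 6 723)
(fin 852 6 787))))))))))
(cons (mv 850 (cons (fin 914 7 850)
(mv 851 (cons (fin 786 7 786)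
(mv 788 (cons (fin 852 6 787)
(mv 787 (cons (fin 724 6 723)
(mv 789 (cons (fin 790 1 786)
(mv 848 (cons (fin 849 2 784)
(mv 976 (cons (fin 975 3 975)
(mv 912 (cons (fin 1105 4 848)
(mv 783 (cons (fin 847 7 783)
(mv 784 (cons (fin 719 7 719)
(fin 977 4 784)))))))))))))))))))))
(mv 914 (cons (fin 850 7 850)
(mv 916 (cons (fin 852 6 851)
(mv 976 (cons (fin 975 3 975)
(mv 913 (cons (fin 977 1 912)
(mv 848 (cons (fin 849 3 848)
(mv 912 (cons (fin 847 3 847)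
(fin 1105 4 848))))))))))))))))))))))))))))))
(cons (mv 974 (cons (fin 973 3 973)
(mv 975 (cons (fin 1042 3 974)
(mv 1103 (cons (mv 910 (cons (fin 1167 7 910)
(fin 846 4 846)))
(cons (mv 846 (cons (fin 910 4 846)
(mv 911 (cons (mv 847 (cons (fin 782 7 782)
(fin 783 5 782)))
(mv 912 (cons (fin 848 6 847)
(mv 913 (cons (fin 914 1 910)
(mv 1104 (cons (fin 1168 4 911)
(mv 849 (cons (fin 977 5 848)
(fin 976 6 848)))))))))))))
(mv 1167 (cons (fin 1231 7 974)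
(mv 912 (cons (fin 976 6 911)
(mv 911 (cons (fin 848 6 847)
(mv 847 (cons (fin 783 5 782)
(fin 1104 4 847))))))))))))))))
(cons (mv 974 (cons (fin 973 3 973)
(mv 1102 (cons (fin 1101 1 1037)
(mv 910 (cons (cons (mv 1103 (cons (fin 846 4 846)
(fin 1167 4 910)))
(mv 845 (cons (fin 909 7 845)
(mv 781 (cons (fin 846 7 781)
(mv 911 (cons (fin 847 6 846)
(mv 1166 (cons (fin 975 6 910)
(mv 1229 (cons (fin 1165 5 973)
(mv 1230 (cons (fin 1293 5 1037)
(mv 1231 (cons (fin 1167 4 974)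
(fin 1295 4 1038))))))))))))))))
(cons (mv 845 (cons (fin 909 7 845)
(mv 847 (cons (fin 911 6 846)
(mv 1167 (cons (fin 1103 4 910)
(mv 1166 (cons (fin 1231 4 974)
(mv 1229 (cons (fin 1165 5 973)
(mv 1230 (cons (fin 1293 5 1037)
(fin 975 6 974)))))))))))))
(mv 845 (cons (fin 909 7 845)
(mv 846 (cons (fin 781 7 781)
(fin 1103 4 846))))))))))))
(mv 974 (cons (fin 973 3 973)
(mv 1102 (cons (fin 1101 1 1037)
(mv 1103 (cons (fin 1042 1 1038)
(mv 910 (cons (fin 846 4 846)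
(fin 1167 4 910)))))))))))))
(mv 1037 (cons (cons (mv 972 (cons (fin 973 3 972)
(mv 976 (cons (fin 977 2 973)
(mv 1036 (cons (fin 971 3 971)
(fin 975 2 972)))))))
(mv 972 (cons (fin 973 3 972)
(mv 1036 (cons (fin 971 3 971)
(mv 1100 (cons (fin 1099 1 1035)
(fin 1101 1 1036))))))))
(cons (mv 976 (cons (fin 977 2 973)
(mv 975 (cons (fin 1036 2 972)
(mv 1100 (cons (fin 1101 1 1036)
(mv 1104 (cons (fin 1105 0 1037)
(mv 911 (cons (fin 1168 7 911)
(fin 847 4 847)))))))))))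
(mv 972 (cons (fin 973 3 972)
(mv 976 (cons (fin 977 2 973)
(mv 1100 (cons (fin 1101 1 1036)
(mv 1104 (cons (fin 1105 0 1037)
(mv 912 (cons (mv 1103 (cons (fin 848 5 847)
(fin 1167 5 911)))
(cons (mv 847 (cons (fin 911 7 847)
(mv 848 (cons (fin 783 7 783)
(mv 849 (cons (fin 785 6 784)
(fin 913 6 848)))))))
(mv 847 (cons (fin 911 7 847)
(mv 849 (cons (fin 913 6 848)
(mv 1167 (cons (fin 1103 5 911)
(mv 1168 (cons (fin 1231 5 975)
(mv 1232 (cons (fin 975 7 975)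
(mv 1233 (cons (fin 1169 4 976)
(fin 1297 4 1040)))))))))))))))))))))))))))))
(cons (cons (mv 1037 (cons (cons (mv 976 (cons (fin 977 2 973)
(mv 975 (cons (fin 1036 2 972)
(mv 1100 (cons (fin 1101 1 1036)
(mv 1104 (cons (fin 1105 0 1037)
(mv 911 (cons (fin 1168 7 911)
(fin 847 4 847)))))))))))
(mv 976 (cons (fin 977 2 973)
(mv 975 (cons (fin 1036 2 972)
(mv 1104 (cons (fin 1105 0 1037)
(mv 911 (cons (fin 1168 7 911)
(fin 847 4 847))))))))))
(cons (mv 976 (cons (fin 977 2 973)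
(mv 975 (cons (fin 1036 2 972)
(mv 1101 (cons (fin 1100 1 1036)
(mv 1041 (cons (fin 1102 1 1037)
(mv 1042 (cons (fin 974 3 974)
(fin 1043 3 975)))))))))))
(cons (mv 1100 (cons (fin 1101 1 1036)
(mv 1036 (cons (fin 1099 1 1035)
(mv 1104 (cons (fin 1103 0 1036)
(fin 1105 0 1037)))))))
(mv 976 (cons (fin 977 2 973)
(mv 1100 (cons (fin 1101 1 1036)
(mv 1104 (cons (fin 1105 0 1037)
(mv 912 (cons (mv 1103 (cons (fin 848 5 847)
(fin 1167 5 911)))
(cons (mv 847 (cons (fin 911 7 847)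
(mv 848 (cons (fin 783 7 783)
(mv 849 (cons (fin 785 6 784)
(fin 913 6 848)))))))
(mv 847 (cons (fin 911 7 847)
(mv 849 (cons (fin 913 6 848)
(mv 1167 (cons (fin 1103 5 911)
(mv 1168 (cons (fin 1231 5 975)
(mv 1232 (cons (fin 975 7 975)
(mv 1233 (cons (fin 1169 4 976)
(fin 1297 4 1040))))))))))))))))))))))))))
(mv 1037 (cons (cons (mv 972 (cons (fin 973 3 972)
(mv 976 (cons (fin 977 2 973)
(mv 1036 (cons (fin 971 3 971)
(fin 975 2 972)))))))
(mv 976 (cons (fin 977 2 973)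
(mv 975 (cons (fin 1036 2 972)
(mv 1104 (cons (fin 1105 0 1037)
(mv 911 (cons (fin 1168 7 911)
(fin 847 4 847))))))))))
(cons (mv 972 (cons (fin 973 3 972)
(mv 1036 (cons (fin 971 3 971)
(mv 1104 (cons (fin 1103 0 1036)
(fin 1105 0 1037)))))))
(mv 972 (cons (fin 973 3 972)
(mv 976 (cons (fin 977 2 973)
(mv 1104 (cons (fin 1105 0 1037)
(mv 912 (cons (mv 1103 (cons (fin 848 5 847)
(fin 1167 5 911)))
(cons (mv 847 (cons (fin 911 7 847)
(mv 848 (cons (fin 783 7 783)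
(mv 849 (cons (fin 785 6 784)
(fin 913 6 848)))))))
(mv 847 (cons (fin 911 7 847)
(mv 849 (cons (fin 913 6 848)
(mv 1167 (cons (fin 1103 5 911)
(mv 1168 (cons (fin 1231 5 975)
(mv 1232 (cons (fin 975 7 975)
(mv 1233 (cons (fin 1169 4 976)
(fin 1297 4 1040))))))))))))))))))))))))))
(cons (mv 1037 (cons (cons (mv 972 (cons (fin 973 3 972)
(mv 1036 (cons (fin 971 3 971)
(mv 1100 (cons (fin 1099 1 1035)
(fin 1101 1 1036)))))))
(mv 972 (cons (fin 973 3 972)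
(mv 1036 (cons (fin 971 3 971)
(mv 1104 (cons (fin 1103 0 1036)
(fin 1105 0 1037))))))))
(cons (mv 1100 (cons (fin 1101 1 1036)
(mv 1036 (cons (fin 1099 1 1035)
(mv 1104 (cons (fin 1103 0 1036)
(fin 1105 0 1037)))))))
(mv 973 (cons (fin 972 3 972)
(mv 974 (cons (fin 1041 3 973)
(mv 1101 (cons (fin 1100 1 1036)
(mv 910 (cons (fin 846 5 845)
(fin 1165 6 909))))))))))))
(mv 1037 (cons (cons (mv 972 (cons (fin 973 3 972)
(mv 976 (cons (fin 977 2 973)
(mv 1036 (cons (fin 971 3 971)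
(fin 975 2 972)))))))
(mv 976 (cons (fin 977 2 973)
(mv 975 (cons (fin 1036 2 972)
(mv 1101 (cons (fin 1100 1 1036)
(mv 1041 (cons (fin 1102 1 1037)
(mv 1042 (cons (fin 974 3 974)
(fin 1043 3 975))))))))))))
(cons (mv 972 (cons (fin 973 3 972)
(mv 1036 (cons (fin 971 3 971)
(mv 1100 (cons (fin 1099 1 1035)
(fin 1101 1 1036)))))))
(mv 973 (cons (fin 972 3 972)
(mv 974 (cons (fin 1041 3 973)
(mv 976 (cons (fin 977 2 973)
(mv 1101 (cons (fin 1100 1 1036)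
(mv 910 (cons (fin 846 5 845)
(fin 1165 6 909))))))))))))))))))))))
(cons (cons (cons (mv 1041 (cons (cons (cons (mv 1042 (cons (cons (mv 974 (cons (fin 975 3 974)
(mv 973 (cons (fin 1038 3 973)
(mv 978 (cons (fin 979 2 975)
(mv 1103 (cons (fin 1102 1 1038)
(mv 1043 (cons (fin 1104 1 1039)
(mv 1108 (cons (fin 1107 0 1040)
(mv 1044 (cons (fin 1109 0 1041)
(mv 977 (cons (fin 976 3 976)
(fin 1045 3 977)))))))))))))))))
(cons (mv 974 (cons (fin 975 3 974)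
(mv 978 (cons (fin 979 2 975)
(mv 1038 (cons (fin 973 3 973)
(fin 977 2 974)))))))
(mv 974 (cons (fin 975 3 974)
(mv 973 (cons (fin 1038 3 973)
(mv 1103 (cons (fin 1102 1 1038)
(mv 1043 (cons (fin 1104 1 1039)
(mv 980 (cons (fin 979 2 976)
(mv 1044 (cons (fin 981 2 977)
(mv 1108 (cons (fin 1107 0 1040)
(fin 1109 0 1041)))))))))))))))))
(cons (mv 978 (cons (fin 979 2 975)
(mv 977 (cons (fin 1038 2 974)
(mv 1103 (cons (fin 1102 1 1038)
(mv 1043 (cons (fin 1104 1 1039)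
(mv 1044 (cons (fin 976 3 976)
(fin 1045 3 977)))))))))))
(cons (mv 974 (cons (fin 975 3 974)
(mv 973 (cons (fin 1038 3 973)
(mv 1103 (cons (fin 1102 1 1038)
(mv 1043 (cons (fin 1104 1 1039)
(mv 1108 (cons (fin 1107 0 1040)
(mv 1044 (cons (fin 1109 0 1041)
(mv 977 (cons (fin 976 3 976)
(mv 981 (cons (fin 980 2 977)
(mv 1045 (cons (fin 978 3 977)
(fin 982 2 978)))))))))))))))))))
(mv 974 (cons (fin 975 3 974)
(mv 978 (cons (fin 979 2 975)
(mv 1103 (cons (fin 1102 1 1038)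
(mv 1043 (cons (fin 1104 1 1039)
(mv 1108 (cons (fin 1107 0 1040)
(mv 1044 (cons (fin 1109 0 1041)
(mv 977 (cons (fin 976 3 976)
(fin 1045 3 977)))))))))))))))))))
(mv 1038 (cons (cons (mv 973 (cons (fin 974 3 973)
(mv 977 (cons (fin 978 2 974)
(mv 1037 (cons (fin 976 2 973)
(mv 1101 (cons (fin 1100 1 1036)
(fin 1102 1 1037)))))))))
(cons (mv 974 (cons (fin 973 3 973)
(mv 1101 (cons (fin 1102 1 1037)
(mv 1037 (cons (fin 1100 1 1036)
(mv 846 (cons (fin 910 5 845)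
(mv 1104 (cons (fin 1105 0 1037)
(mv 1036 (cons (fin 1103 0 1036)
(mv 975 (cons (fin 1035 2 971)
(fin 976 2 972)))))))))))))))
(mv 974 (cons (fin 973 3 973)
(mv 977 (cons (fin 978 2 974)
(mv 1037 (cons (fin 976 2 973)
(mv 1104 (cons (fin 1105 0 1037)
(mv 849 (cons (fin 913 5 848)
(mv 1036 (cons (fin 1103 0 1036)
(mv 1035 (cons (fin 975 2 971)
(mv 1099 (cons (fin 1098 1 1034)
(fin 1100 1 1035)))))))))))))))))))
(cons (mv 977 (cons (fin 978 2 974)
(mv 1037 (cons (fin 976 2 973)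
(mv 1101 (cons (fin 1100 1 1036)
(fin 1102 1 1037)))))))
(cons (mv 973 (cons (fin 974 3 973)
(mv 977 (cons (fin 978 2 974)
(mv 1102 (cons (fin 1101 1 1037)
(mv 975 (cons (cons (mv 911 (cons (fin 847 5 846)
(mv 1166 (cons (fin 1103 5 910)
(fin 1230 6 974)))))
(mv 1166 (cons (fin 1230 6 974)
(mv 913 (cons (cons (mv 849 (cons (fin 1104 5 848)
(mv 784 (cons (fin 848 7 784)
(mv 785 (cons (fin 720 7 720)
(fin 976 5 784)))))))
(mv 849 (cons (cons (mv 784 (cons (fin 848 7 784)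
(mv 785 (cons (fin 720 7 720)
(fin 976 5 784)))))
(mv 786 (cons (fin 850 6 785)
(mv 848 (cons (fin 784 7 784)
(mv 912 (cons (fin 1105 7 848)
(mv 976 (cons (fin 1103 5 847)
(mv 847 (cons (fin 783 7 783)
(mv 846 (cons (fin 845 0 845)
(fin 914 0 846))))))))))))))
(cons (mv 785 (cons (fin 976 5 784)
(mv 786 (cons (fin 722 6 721)
(fin 850 6 785)))))
(mv 784 (cons (fin 848 7 784)
(mv 785 (cons (fin 720 7 720)
(mv 786 (cons (fin 722 6 721)
(fin 850 6 785)))))))))))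
(cons (mv 1105 (cons (cons (mv 848 (cons (fin 912 7 848)
(mv 850 (cons (fin 914 6 849)
(mv 1104 (cons (fin 1168 5 912)
(mv 1103 (cons (fin 1165 1 1101)
(mv 1169 (cons (fin 1170 0 1102)
(mv 1233 (cons (fin 976 7 976)
(fin 1297 7 1040)))))))))))))
(cons (mv 850 (cons (fin 914 6 849)
(mv 912 (cons (fin 848 7 848)
(mv 1169 (cons (fin 976 7 912)
(mv 1168 (cons (fin 1232 5 976)
(mv 1234 (cons (fin 1170 4 977)
(mv 1233 (cons (fin 1167 0 1166)
(fin 1298 4 1041)))))))))))))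
(mv 850 (cons (fin 914 6 849)
(mv 912 (cons (fin 848 7 848)
(mv 1169 (cons (fin 976 7 912)
(mv 1234 (cons (fin 1170 4 977)
(mv 1233 (cons (fin 1298 4 1041)
(mv 1296 (cons (fin 1232 5 1040)
(mv 1297 (cons (fin 1104 7 1040)
(fin 1360 5 1104)))))))))))))))))
(cons (cons (mv 850 (cons (fin 914 6 849)
(mv 1104 (cons (fin 1168 5 912)
(mv 1103 (cons (fin 1165 1 1101)
(mv 1169 (cons (fin 1170 0 1102)
(mv 1233 (cons (fin 976 7 976)
(fin 1297 7 1040)))))))))))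
(mv 848 (cons (fin 912 7 848)
(mv 1104 (cons (fin 1168 5 912)
(mv 1103 (cons (fin 1165 1 1101)
(mv 1169 (cons (fin 1170 0 1102)
(mv 1233 (cons (fin 976 7 976)
(fin 1297 7 1040))))))))))))
(cons (mv 848 (cons (fin 912 7 848)
(mv 850 (cons (fin 914 6 849)
(mv 1168 (cons (fin 1104 5 912)
(mv 1169 (cons (fin 1232 5 976)
(mv 1234 (cons (fin 1170 4 977)
(mv 1233 (cons (fin 1167 0 1166)
(fin 1298 4 1041)))))))))))))
(mv 912 (cons (fin 848 7 848)
(mv 914 (cons (fin 850 6 849)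
(mv 915 (cons (fin 976 1 911)
(mv 852 (cons (fin 851 2 848)
(mv 916 (cons (fin 853 2 849)
(mv 980 (cons (fin 979 0 912)
(fin 981 0 913)))))))))))))))))
(cons (mv 849 (cons (fin 1104 5 848)
(mv 784 (cons (fin 848 7 784)
(mv 785 (cons (fin 720 7 720)
(mv 786 (cons (fin 722 6 721)
(fin 850 6 785)))))))))
(mv 849 (cons (fin 1104 5 848)
(mv 785 (cons (fin 976 5 784)
(mv 786 (cons (fin 722 6 721)
(fin 850 6 785))))))))))))))
(cons (mv 911 (cons (fin 847 5 846)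
(mv 912 (cons (cons (mv 848 (cons (fin 1103 6 847)
(mv 784 (cons (fin 720 5 719)
(fin 976 5 783)))))
(mv 976 (cons (cons (mv 909 (cons (fin 910 0 909)
(mv 1103 (cons (fin 1167 6 911)
(mv 1104 (cons (fin 1168 7 911)
(mv 913 (cons (fin 849 5 848)
(mv 914 (cons (fin 915 1 911)
(mv 850 (cons (fin 851 2 847)
(fin 1105 6 849)))))))))))))
(mv 910 (cons (fin 909 0 909)
(mv 1103 (cons (fin 846 7 846)
(fin 1167 6 911))))))
(cons (mv 909 (cons (fin 910 0 909)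
(mv 1104 (cons (fin 1168 7 911)
(mv 913 (cons (fin 849 5 848)
(mv 914 (cons (fin 915 1 911)
(mv 850 (cons (fin 851 2 847)
(fin 1105 6 849)))))))))))
(mv 1103 (cons (fin 1167 6 911)
(mv 1104 (cons (fin 1168 7 911)
(mv 913 (cons (fin 849 5 848)
(mv 914 (cons (fin 915 1 911)
(mv 850 (cons (fin 851 2 847)
(fin 1105 6 849)))))))))))))))
(cons (mv 976 (cons (mv 848 (cons (fin 784 5 783)
(fin 1105 4 848)))
(cons (mv 909 (cons (fin 910 0 909)
(mv 1104 (cons (fin 1168 7 911)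
(mv 913 (cons (fin 849 5 848)
(mv 914 (cons (fin 915 1 911)
(mv 850 (cons (fin 851 2 847)
(fin 1105 6 849)))))))))))
(mv 848 (cons (fin 784 5 783)
(mv 849 (cons (fin 785 6 784)
(mv 1104 (cons (fin 1168 7 911)
(fin 913 5 848))))))))))
(mv 848 (cons (fin 1103 6 847)
(mv 720 (cons (fin 784 5 719)
(mv 913 (cons (fin 1105 7 848)
(mv 849 (cons (fin 1104 5 848)
(mv 850 (cons (fin 851 1 847)
(fin 910 2 846))))))))))))))))
(cons (mv 1166 (cons (fin 1230 6 974)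
(mv 911 (cons (fin 1103 5 910)
(mv 913 (cons (cons (mv 849 (cons (fin 1104 5 848)
(mv 784 (cons (fin 848 7 784)
(mv 785 (cons (fin 720 7 720)
(fin 976 5 784)))))))
(mv 849 (cons (mv 784 (cons (fin 848 7 784)
(mv 785 (cons (fin 720 7 720)
(fin 976 5 784)))))
(cons (mv 784 (cons (fin 848 7 784)
(mv 850 (cons (fin 786 6 785)
(mv 912 (cons (fin 910 2 846)
(mv 851 (cons (fin 852 1 848)
(fin 914 2 847)))))))))
(mv 785 (cons (fin 976 5 784)
(mv 786 (cons (fin 722 6 721)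
(fin 850 6 785)))))))))
(cons (mv 1105 (cons (cons (mv 848 (cons (fin 912 7 848)
(mv 850 (cons (fin 914 6 849)
(mv 1168 (cons (fin 1104 5 912)
(mv 1169 (cons (fin 1232 5 976)
(mv 1233 (cons (fin 976 7 976)
(mv 1234 (cons (fin 1167 0 1166)
(fin 1170 4 977)))))))))))))
(cons (mv 850 (cons (fin 914 6 849)
(mv 912 (cons (fin 848 7 848)
(mv 1169 (cons (fin 976 7 912)
(mv 1234 (cons (fin 1170 4 977)
(mv 1233 (cons (fin 1298 4 1041)
(mv 1296 (cons (fin 1232 5 1040)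
(mv 1297 (cons (fin 1104 7 1040)
(fin 1360 5 1104)))))))))))))))
(mv 850 (cons (fin 914 6 849)
(mv 912 (cons (fin 848 7 848)
(mv 1169 (cons (fin 976 7 912)
(mv 1168 (cons (fin 1232 5 976)
(mv 1234 (cons (fin 1170 4 977)
(mv 1233 (cons (fin 1167 0 1166)
(fin 1298 4 1041)))))))))))))))
(cons (cons (mv 850 (cons (fin 914 6 849)
(mv 1168 (cons (fin 1104 5 912)
(mv 1169 (cons (fin 1232 5 976)
(mv 1233 (cons (fin 976 7 976)
(mv 1234 (cons (fin 1167 0 1166)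
(fin 1170 4 977)))))))))))
(mv 848 (cons (fin 912 7 848)
(mv 1168 (cons (fin 1104 5 912)
(mv 1169 (cons (fin 1232 5 976)
(mv 1233 (cons (fin 976 7 976)
(mv 1234 (cons (fin 1167 0 1166)
(fin 1170 4 977))))))))))))
(cons (mv 848 (cons (fin 912 7 848)
(mv 850 (cons (fin 914 6 849)
(mv 1168 (cons (fin 1104 5 912)
(mv 1169 (cons (fin 1232 5 976)
(mv 1234 (cons (fin 1170 4 977)
(mv 1233 (cons (fin 1167 0 1166)
(fin 1298 4 1041)))))))))))))
(mv 912 (cons (fin 848 7 848)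
(mv 914 (cons (fin 850 6 849)
(mv 915 (cons (fin 976 1 911)
(mv 852 (cons (fin 851 2 848)
(mv 916 (cons (fin 853 2 849)
(mv 980 (cons (fin 979 0 912)
(fin 981 0 913)))))))))))))))))
(cons (mv 849 (cons (fin 1104 5 848)
(mv 784 (cons (fin 848 7 784)
(mv 720 (cons (fin 785 7 720)
(mv 850 (cons (fin 786 6 785)
(mv 912 (cons (fin 910 2 846)
(mv 851 (cons (fin 852 1 848)
(fin 914 2 847)))))))))))))
(mv 849 (cons (fin 1104 5 848)
(mv 785 (cons (fin 976 5 784)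
(mv 786 (cons (fin 722 6 721)
(fin 850 6 785)))))))))))))))
(mv 911 (cons (fin 847 5 846)
(mv 1166 (cons (fin 1230 6 974)
(mv 913 (cons (cons (mv 849 (cons (fin 1104 5 848)
(mv 784 (cons (fin 848 7 784)
(mv 785 (cons (fin 720 7 720)
(fin 976 5 784)))))))
(mv 849 (cons (mv 784 (cons (fin 848 7 784)
(mv 785 (cons (fin 720 7 720)
(fin 976 5 784)))))
(cons (mv 784 (cons (fin 848 7 784)
(mv 850 (cons (fin 786 6 785)
(mv 912 (cons (fin 910 2 846)
(mv 851 (cons (fin 852 1 848)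
(fin 914 2 847)))))))))
(mv 785 (cons (fin 976 5 784)
(mv 786 (cons (fin 722 6 721)
(fin 850 6 785)))))))))
(cons (mv 1105 (cons (cons (mv 848 (cons (fin 912 7 848)
(mv 850 (cons (fin 914 6 849)
(mv 1168 (cons (fin 1104 5 912)
(mv 1169 (cons (fin 1232 5 976)
(mv 1233 (cons (fin 976 7 976)
(mv 1234 (cons (fin 1167 0 1166)
(fin 1170 4 977)))))))))))))
(cons (mv 850 (cons (fin 914 6 849)
(mv 912 (cons (fin 848 7 848)
(mv 1169 (cons (fin 976 7 912)
(mv 1234 (cons (fin 1170 4 977)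
(mv 1233 (cons (fin 1298 4 1041)
(mv 1296 (cons (fin 1232 5 1040)
(mv 1297 (cons (fin 1104 7 1040)
(fin 1360 5 1104)))))))))))))))
(mv 850 (cons (fin 914 6 849)
(mv 912 (cons (fin 848 7 848)
(mv 1169 (cons (fin 976 7 912)
(mv 1168 (cons (fin 1232 5 976)
(mv 1234 (cons (fin 1170 4 977)
(mv 1233 (cons (fin 1167 0 1166)
(fin 1298 4 1041)))))))))))))))
(cons (cons (mv 850 (cons (fin 914 6 849)
(mv 1168 (cons (fin 1104 5 912)
(mv 1169 (cons (fin 1232 5 976)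
(mv 1233 (cons (fin 976 7 976)
(mv 1234 (cons (fin 1167 0 1166)
(fin 1170 4 977)))))))))))
(mv 848 (cons (fin 912 7 848)
(mv 1168 (cons (fin 1104 5 912)
(mv 1169 (cons (fin 1232 5 976)
(mv 1233 (cons (fin 976 7 976)
(mv 1234 (cons (fin 1167 0 1166)
(fin 1170 4 977))))))))))))
(cons (mv 848 (cons (fin 912 7 848)
(mv 850 (cons (fin 914 6 849)
(mv 1168 (cons (fin 1104 5 912)
(mv 1169 (cons (fin 1232 5 976)
(mv 1234 (cons (fin 1170 4 977)
(mv 1233 (cons (fin 1167 0 1166)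
(fin 1298 4 1041)))))))))))))
(mv 912 (cons (fin 848 7 848)
(mv 914 (cons (fin 850 6 849)
(mv 915 (cons (fin 976 1 911)
(mv 852 (cons (fin 851 2 848)
(mv 916 (cons (fin 853 2 849)
(mv 980 (cons (fin 979 0 912)
(fin 981 0 913)))))))))))))))))
(cons (mv 849 (cons (fin 1104 5 848)
(mv 784 (cons (fin 848 7 784)
(mv 720 (cons (fin 785 7 720)
(mv 850 (cons (fin 786 6 785)
(mv 912 (cons (fin 910 2 846)
(mv 851 (cons (fin 852 1 848)
(fin 914 2 847)))))))))))))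
(mv 849 (cons (fin 1104 5 848)
(mv 785 (cons (fin 976 5 784)
(mv 786 (cons (fin 722 6 721)
(fin 850 6 785)))))))))))))))))))))))))
(mv 974 (cons (fin 973 3 973)
(mv 977 (cons (fin 978 2 974)
(mv 1101 (cons (fin 1102 1 1037)
(mv 1037 (cons (fin 1100 1 1036)
(mv 846 (cons (fin 910 5 845)
(mv 1104 (cons (fin 1105 0 1037)
(mv 849 (cons (fin 913 5 848)
(mv 1036 (cons (fin 1103 0 1036)
(mv 1035 (cons (fin 975 2 971)
(mv 970 (cons (fin 971 3 970)
(mv 1034 (cons (fin 969 3 969)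
(mv 1098 (cons (fin 1097 1 1033)
(fin 1099 1 1034))))))))))))))))))))))))))))))
(cons (mv 1042 (cons (cons (mv 974 (cons (fin 975 3 974)
(mv 978 (cons (fin 979 2 975)
(mv 1103 (cons (fin 1102 1 1038)
(mv 1043 (cons (fin 1104 1 1039)
(mv 1108 (cons (fin 1107 0 1040)
(mv 1044 (cons (fin 1109 0 1041)
(mv 977 (cons (fin 976 3 976)
(fin 1045 3 977)))))))))))))))
(cons (mv 975 (cons (fin 974 3 974)
(mv 978 (cons (fin 979 2 975)
(mv 1043 (cons (fin 976 3 975)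
(mv 1108 (cons (fin 1107 0 1040)
(mv 1044 (cons (fin 1109 0 1041)
(mv 977 (cons (fin 1045 3 977)
(mv 980 (cons (fin 981 2 977)
(mv 1105 (cons (fin 1104 1 1040)
(mv 914 (cons (fin 850 5 849)
(fin 1169 6 913)))))))))))))))))))
(mv 978 (cons (fin 979 2 975)
(mv 1103 (cons (fin 1102 1 1038)
(mv 1043 (cons (fin 1104 1 1039)
(mv 1108 (cons (fin 1107 0 1040)
(mv 1044 (cons (fin 1109 0 1041)
(mv 977 (cons (fin 976 3 976)
(fin 1045 3 977)))))))))))))))
(cons (cons (mv 974 (cons (fin 975 3 974)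
(mv 1103 (cons (fin 1102 1 1038)
(mv 1043 (cons (fin 1104 1 1039)
(mv 1108 (cons (fin 1107 0 1040)
(mv 1044 (cons (fin 1109 0 1041)
(mv 977 (cons (fin 976 3 976)
(mv 981 (cons (fin 980 2 977)
(mv 1045 (cons (fin 978 3 977)
(fin 982 2 978)))))))))))))))))
(mv 974 (cons (fin 975 3 974)
(mv 1103 (cons (fin 1102 1 1038)
(mv 1043 (cons (fin 1104 1 1039)
(mv 980 (cons (fin 979 2 976)
(mv 1044 (cons (fin 981 2 977)
(mv 1108 (cons (fin 1107 0 1040)
(fin 1109 0 1041))))))))))))))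
(cons (mv 975 (cons (fin 974 3 974)
(mv 978 (cons (fin 979 2 975)
(mv 1102 (cons (fin 1103 1 1038)
(mv 914 (cons (cons (mv 850 (cons (fin 1105 5 849)
(mv 785 (cons (fin 849 7 785)
(mv 786 (cons (fin 721 7 721)
(fin 977 5 785)))))))
(mv 977 (cons (cons (mv 976 (cons (fin 915 2 911)
(mv 911 (cons (fin 910 3 910)
(mv 847 (cons (fin 783 4 783)
(fin 1104 4 847)))))))
(mv 1105 (cons (fin 1169 6 913)
(mv 913 (cons (mv 849 (cons (fin 1104 5 848)
(fin 785 4 785)))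
(cons (mv 848 (cons (fin 912 7 848)
(mv 849 (cons (fin 784 7 784)
(fin 785 4 785)))))
(mv 912 (cons (fin 848 7 848)
(mv 911 (cons (fin 910 0 910)
(mv 847 (cons (fin 846 3 846)
(fin 1104 4 847)))))))))))))
(cons (mv 976 (cons (fin 915 2 911)
(mv 911 (cons (fin 910 3 910)
(mv 847 (cons (fin 783 4 783)
(mv 782 (cons (fin 846 7 782)
(mv 848 (cons (fin 784 6 783)
(mv 1105 (cons (fin 1169 6 913)
(fin 912 4 848)))))))))))))
(mv 915 (cons (fin 976 2 911)
(mv 916 (cons (fin 917 1 913)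
(mv 1105 (cons (fin 1169 6 913)
(mv 913 (cons (mv 848 (cons (fin 849 3 848)
(fin 912 7 848)))
(cons (mv 852 (cons (fin 853 2 849)
(mv 912 (cons (fin 851 2 848)
(fin 848 7 848)))))
(mv 849 (cons (fin 1104 5 848)
(fin 785 4 785))))))))))))))))
(cons (mv 850 (cons (mv 785 (cons (fin 849 7 785)
(mv 786 (cons (fin 721 7 721)
(fin 977 5 785)))))
(cons (mv 787 (cons (fin 851 6 786)
(mv 849 (cons (fin 785 7 785)
(mv 847 (cons (mv 848 (cons (fin 915 0 847)
(mv 911 (cons (fin 910 1 846)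
(fin 784 6 783)))))
(cons (mv 911 (cons (fin 1104 4 847)
(mv 782 (cons (fin 846 7 782)
(mv 783 (cons (fin 718 7 718)
(fin 976 4 783)))))))
(mv 848 (cons (fin 915 0 847)
(mv 782 (cons (fin 783 3 782)
(mv 846 (cons (fin 781 3 781)
(fin 913 0 846))))))))))))))
(mv 786 (cons (fin 977 5 785)
(mv 787 (cons (fin 723 6 722)
(fin 851 6 786))))))))
(cons (mv 850 (cons (fin 1105 5 849)
(mv 785 (cons (fin 849 7 785)
(mv 786 (cons (fin 721 7 721)
(mv 787 (cons (fin 723 6 722)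
(fin 851 6 786)))))))))
(mv 850 (cons (fin 1105 5 849)
(mv 786 (cons (fin 977 5 785)
(mv 787 (cons (fin 723 6 722)
(fin 851 6 786)))))))))))))))))
(mv 975 (cons (fin 974 3 974)
(mv 976 (cons (fin 1043 3 975)
(mv 978 (cons (fin 979 2 975)
(mv 1103 (cons (fin 1102 1 1038)
(mv 912 (cons (fin 848 5 847)
(fin 1167 6 911)))))))))))))))
(cons (mv 1042 (cons (cons (mv 974 (cons (fin 975 3 974)
(mv 973 (cons (fin 1038 3 973)
(mv 979 (cons (fin 978 2 975)
(mv 1043 (cons (fin 980 2 976)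
(mv 1104 (cons (fin 1103 1 1039)
(mv 1044 (cons (fin 1105 1 1040)
(mv 1108 (cons (fin 1107 0 1040)
(fin 1109 0 1041)))))))))))))))
(mv 975 (cons (fin 974 3 974)
(mv 1043 (cons (fin 976 3 975)
(mv 979 (cons (fin 980 2 976)
(mv 1104 (cons (fin 1103 1 1039)
(mv 847 (cons (fin 911 4 847)
(mv 1044 (cons (fin 1105 1 1040)
(mv 1108 (cons (fin 1107 0 1040)
(fin 1109 0 1041))))))))))))))))
(cons (mv 979 (cons (fin 978 2 975)
(mv 1043 (cons (fin 980 2 976)
(mv 1104 (cons (fin 1103 1 1039)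
(mv 1044 (cons (fin 1105 1 1040)
(mv 1108 (cons (fin 1107 0 1040)
(fin 1109 0 1041)))))))))))
(cons (mv 974 (cons (fin 975 3 974)
(mv 1038 (cons (fin 973 3 973)
(mv 977 (cons (fin 978 2 974)
(mv 976 (cons (fin 1037 2 973)
(mv 1043 (cons (fin 1044 3 976)
(mv 1104 (cons (fin 1103 1 1039)
(mv 913 (cons (fin 849 5 848)
(fin 1168 6 912)))))))))))))))
(mv 974 (cons (fin 975 3 974)
(mv 978 (cons (fin 979 2 975)
(mv 1038 (cons (fin 973 3 973)
(fin 977 2 974)))))))))))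
(mv 1042 (cons (cons (mv 974 (cons (fin 975 3 974)
(mv 973 (cons (fin 1038 3 973)
(mv 1103 (cons (fin 1102 1 1038)
(mv 1043 (cons (fin 1104 1 1039)
(mv 980 (cons (fin 979 2 976)
(mv 1044 (cons (fin 981 2 977)
(mv 1108 (cons (fin 1107 0 1040)
(fin 1109 0 1041)))))))))))))))
(mv 975 (cons (fin 974 3 974)
(mv 1043 (cons (fin 976 3 975)
(mv 980 (cons (fin 979 2 976)
(mv 1044 (cons (fin 981 2 977)
(mv 1108 (cons (fin 1107 0 1040)
(fin 1109 0 1041))))))))))))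
(cons (mv 1103 (cons (fin 1102 1 1038)
(mv 1043 (cons (fin 1104 1 1039)
(mv 980 (cons (fin 979 2 976)
(mv 1044 (cons (fin 981 2 977)
(mv 1108 (cons (fin 1107 0 1040)
(fin 1109 0 1041)))))))))))
(mv 974 (cons (fin 975 3 974)
(mv 1038 (cons (fin 973 3 973)
(mv 1102 (cons (fin 1101 1 1037)
(fin 1103 1 1038)))))))))))))
(cons (cons (mv 1042 (cons (cons (mv 978 (cons (fin 979 2 975)
(mv 977 (cons (fin 1038 2 974)
(mv 1103 (cons (fin 1102 1 1038)
(mv 1043 (cons (fin 1104 1 1039)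
(mv 976 (cons (fin 975 3 975)
(fin 1044 3 976)))))))))))
(mv 979 (cons (fin 978 2 975)
(mv 1043 (cons (fin 980 2 976)
(mv 976 (cons (fin 975 3 975)
(mv 1044 (cons (fin 977 3 976)
(mv 1108 (cons (fin 1107 0 1040)
(fin 1109 0 1041))))))))))))
(cons (mv 1103 (cons (fin 1102 1 1038)
(mv 1043 (cons (fin 1104 1 1039)
(mv 975 (cons (fin 976 3 975)
(mv 980 (cons (fin 979 2 976)
(mv 1044 (cons (fin 981 2 977)
(mv 1108 (cons (fin 1107 0 1040)
(fin 1109 0 1041)))))))))))))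
(cons (mv 1102 (cons (fin 1103 1 1038)
(mv 1038 (cons (fin 1101 1 1037)
(mv 977 (cons (fin 978 2 974)
(mv 976 (cons (fin 1037 2 973)
(mv 1043 (cons (fin 975 3 975)
(fin 1044 3 976)))))))))))
(mv 978 (cons (fin 979 2 975)
(mv 1038 (cons (fin 977 2 974)
(mv 1102 (cons (fin 1101 1 1037)
(fin 1103 1 1038)))))))))))
(mv 1038 (cons (cons (mv 973 (cons (fin 974 3 973)
(mv 977 (cons (fin 978 2 974)
(mv 1037 (cons (fin 976 2 973)
(mv 1101 (cons (fin 1100 1 1036)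
(fin 1102 1 1037)))))))))
(mv 974 (cons (fin 973 3 973)
(mv 975 (cons (fin 1042 3 974)
(mv 1101 (cons (fin 1102 1 1037)
(mv 1037 (cons (fin 1100 1 1036)
(mv 1036 (cons (fin 1035 2 971)
(fin 976 2 972))))))))))))
(cons (mv 977 (cons (fin 978 2 974)
(mv 1037 (cons (fin 976 2 973)
(mv 1101 (cons (fin 1100 1 1036)
(fin 1102 1 1037)))))))
(cons (mv 974 (cons (fin 973 3 973)
(mv 975 (cons (fin 1042 3 974)
(mv 977 (cons (fin 978 2 974)
(mv 976 (cons (fin 1037 1 973)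
(mv 909 (cons (fin 910 3 909)
(mv 913 (cons (fin 914 2 910)
(mv 849 (cons (fin 785 5 784)
(fin 1104 5 848)))))))))))))))
(mv 974 (cons (fin 973 3 973)
(mv 975 (cons (fin 1042 3 974)
(mv 977 (cons (fin 978 2 974)
(mv 1102 (cons (fin 1101 1 1037)
(mv 911 (cons (fin 847 5 846)
(fin 1166 6 910))))))))))))))))
(cons (mv 1038 (cons (cons (mv 973 (cons (fin 974 3 973)
(mv 977 (cons (fin 978 2 974)
(mv 976 (cons (fin 1037 2 973)
(mv 1102 (cons (fin 1101 1 1037)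
(mv 1103 (cons (fin 1042 1 1038)
(mv 912 (cons (fin 848 5 847)
(mv 1167 (cons (fin 1104 5 911)
(fin 1231 6 975)))))))))))))))
(cons (mv 974 (cons (fin 973 3 973)
(mv 1102 (cons (fin 1101 1 1037)
(mv 1103 (cons (fin 1042 1 1038)
(mv 910 (cons (fin 846 4 846)
(fin 1167 4 910)))))))))
(mv 973 (cons (fin 974 3 973)
(mv 977 (cons (fin 978 2 974)
(mv 1037 (cons (fin 976 2 973)
(mv 1100 (cons (fin 1101 1 1036)
(mv 1036 (cons (fin 1099 1 1035)
(mv 1104 (cons (fin 1103 0 1036)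
(fin 1105 0 1037)))))))))))))))
(cons (mv 973 (cons (fin 974 3 973)
(mv 977 (cons (fin 978 2 974)
(mv 1037 (cons (fin 976 2 973)
(mv 1104 (cons (fin 1105 0 1037)
(mv 849 (cons (fin 913 5 848)
(mv 1103 (cons (fin 1036 0 1036)
(mv 1042 (cons (fin 1102 1 1038)
(fin 1043 1 1039)))))))))))))))
(cons (mv 977 (cons (fin 978 2 974)
(mv 976 (cons (fin 1037 2 973)
(mv 1102 (cons (fin 1101 1 1037)
(mv 1103 (cons (fin 1042 1 1038)
(mv 912 (cons (fin 848 5 847)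
(mv 1167 (cons (fin 1104 5 911)
(fin 1231 6 975)))))))))))))
(mv 973 (cons (fin 974 3 973)
(mv 977 (cons (fin 978 2 974)
(mv 1037 (cons (fin 976 2 973)
(mv 1101 (cons (fin 1100 1 1036)
(fin 1102 1 1037)))))))))))))
(cons (mv 1042 (cons (cons (mv 974 (cons (fin 975 3 974)
(mv 973 (cons (fin 1038 3 973)
(mv 978 (cons (fin 979 2 975)
(mv 1103 (cons (fin 1102 1 1038)
(mv 1043 (cons (fin 1104 1 1039)
(mv 1108 (cons (fin 1107 0 1040)
(mv 1044 (cons (fin 1109 0 1041)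
(mv 981 (cons (fin 980 2 977)
(mv 1045 (cons (fin 977 3 977)
(fin 982 2 978)))))))))))))))))))
(cons (mv 974 (cons (fin 975 3 974)
(mv 973 (cons (fin 1038 3 973)
(mv 1103 (cons (fin 1102 1 1038)
(mv 1043 (cons (fin 1104 1 1039)
(mv 980 (cons (fin 979 2 976)
(mv 1044 (cons (fin 981 2 977)
(mv 1108 (cons (fin 1107 0 1040)
(fin 1109 0 1041)))))))))))))))
(mv 974 (cons (fin 975 3 974)
(mv 978 (cons (fin 979 2 975)
(mv 1038 (cons (fin 973 3 973)
(fin 977 2 974)))))))))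
(cons (mv 974 (cons (fin 975 3 974)
(mv 1038 (cons (fin 973 3 973)
(mv 1102 (cons (fin 1101 1 1037)
(fin 1103 1 1038)))))))
(cons (mv 978 (cons (fin 979 2 975)
(mv 977 (cons (fin 1038 2 974)
(mv 1103 (cons (fin 1102 1 1038)
(mv 1043 (cons (fin 1104 1 1039)
(mv 1044 (cons (fin 1045 3 977)
(mv 1108 (cons (fin 1107 0 1040)
(fin 1109 0 1041)))))))))))))
(mv 974 (cons (fin 975 3 974)
(mv 978 (cons (fin 979 2 975)
(mv 1103 (cons (fin 1102 1 1038)
(mv 1043 (cons (fin 1104 1 1039)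
(mv 1108 (cons (fin 1107 0 1040)
(mv 1044 (cons (fin 1109 0 1041)
(mv 981 (cons (fin 980 2 977)
(mv 1045 (cons (fin 977 3 977)
(fin 982 2 978)))))))))))))))))))))
(mv 1042 (cons (cons (mv 974 (cons (fin 975 3 974)
(mv 978 (cons (fin 979 2 975)
(mv 1038 (cons (fin 973 3 973)
(fin 977 2 974)))))))
(mv 974 (cons (fin 975 3 974)
(mv 1038 (cons (fin 973 3 973)
(mv 1102 (cons (fin 1101 1 1037)
(fin 1103 1 1038))))))))
(cons (mv 978 (cons (fin 979 2 975)
(mv 1038 (cons (fin 977 2 974)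
(mv 1102 (cons (fin 1101 1 1037)
(fin 1103 1 1038)))))))
(mv 975 (cons (fin 974 3 974)
(mv 976 (cons (fin 1043 3 975)
(mv 978 (cons (fin 979 2 975)
(mv 1103 (cons (fin 1102 1 1038)
(mv 912 (cons (fin 848 5 847)
(fin 1167 6 911)))))))))))))))))))
(cons (mv 1038 (cons (cons (mv 1037 (cons (cons (mv 972 (cons (fin 973 3 972)
(mv 971 (cons (fin 1036 3 971)
(mv 977 (cons (fin 976 2 973)
(mv 1041 (cons (fin 978 2 974)
(mv 1101 (cons (fin 1100 1 1036)
(fin 1102 1 1037)))))))))))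
(mv 976 (cons (fin 977 2 973)
(mv 975 (cons (fin 1036 2 972)
(mv 1100 (cons (fin 1101 1 1036)
(mv 1104 (cons (fin 1105 0 1037)
(mv 911 (cons (fin 1168 7 911)
(fin 847 4 847))))))))))))
(cons (mv 972 (cons (fin 973 3 972)
(mv 976 (cons (fin 977 2 973)
(mv 1036 (cons (fin 971 3 971)
(fin 975 2 972)))))))
(cons (mv 972 (cons (fin 973 3 972)
(mv 1036 (cons (fin 971 3 971)
(mv 1100 (cons (fin 1099 1 1035)
(fin 1101 1 1036)))))))
(mv 972 (cons (fin 973 3 972)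
(mv 977 (cons (fin 976 2 973)
(mv 1041 (cons (fin 978 2 974)
(mv 1101 (cons (fin 1100 1 1036)
(fin 1102 1 1037)))))))))))))
(cons (mv 1041 (cons (cons (mv 974 (cons (fin 973 3 973)
(mv 975 (cons (fin 1042 3 974)
(mv 977 (cons (fin 978 2 974)
(mv 1102 (cons (fin 1101 1 1037)
(mv 911 (cons (fin 847 5 846)
(fin 1166 6 910)))))))))))
(cons (mv 977 (cons (fin 978 2 974)
(mv 1102 (cons (fin 1101 1 1037)
(mv 1103 (cons (fin 1042 1 1038)
(mv 975 (cons (mv 911 (cons (fin 847 5 846)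
(fin 1166 5 910)))
(cons (mv 1166 (cons (fin 1230 6 974)
(mv 1104 (cons (cons (mv 849 (cons (fin 913 5 848)
(mv 1105 (cons (fin 1165 1 1101)
(mv 1168 (cons (fin 1232 7 975)
(mv 1169 (cons (fin 1170 0 1102)
(mv 976 (cons (fin 912 7 912)
(fin 1233 7 976)))))))))))
(mv 849 (cons (fin 913 5 848)
(mv 1105 (cons (fin 1165 1 1101)
(mv 1169 (cons (fin 1170 0 1102)
(mv 976 (cons (fin 912 7 912)
(fin 1233 7 976))))))))))
(cons (mv 913 (cons (fin 849 5 848)
(mv 1168 (cons (fin 1232 7 975)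
(fin 976 6 912)))))
(cons (mv 1105 (cons (fin 1165 1 1101)
(mv 1168 (cons (fin 1232 7 975)
(mv 1169 (cons (fin 1170 0 1102)
(mv 976 (cons (fin 912 7 912)
(fin 1233 7 976)))))))))
(mv 849 (cons (fin 913 5 848)
(mv 1105 (cons (fin 1165 1 1101)
(mv 1168 (cons (fin 1232 7 975)
(mv 1169 (cons (fin 1170 0 1102)
(mv 1233 (cons (fin 1297 7 1040)
(mv 1234 (cons (fin 1167 0 1166)
(fin 1298 4 1041)))))))))))))))))))
(mv 911 (cons (fin 847 5 846)
(mv 846 (cons (fin 910 7 846)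
(mv 848 (cons (fin 912 6 847)
(mv 1168 (cons (fin 1104 4 911)
(mv 1167 (cons (fin 1232 4 975)
(mv 1231 (cons (fin 1295 7 1038)
(fin 976 6 975))))))))))))))))))))))
(mv 974 (cons (fin 973 3 973)
(mv 975 (cons (fin 1042 3 974)
(mv 977 (cons (fin 978 2 974)
(mv 1104 (cons (cons (mv 847 (cons (fin 911 4 847)
(mv 913 (cons (fin 849 5 848)
(mv 976 (cons (fin 914 2 910)
(fin 1168 6 912)))))))
(mv 847 (cons (fin 911 4 847)
(mv 913 (cons (fin 849 5 848)
(mv 976 (cons (fin 914 2 910)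
(mv 910 (cons (fin 909 3 909)
(mv 846 (cons (fin 783 6 782)
(fin 782 4 782))))))))))))
(cons (mv 913 (cons (fin 849 5 848)
(mv 976 (cons (fin 914 2 910)
(fin 1168 6 912)))))
(cons (mv 911 (cons (fin 847 4 847)
(mv 1168 (cons (fin 976 7 911)
(fin 1232 7 975)))))
(mv 847 (cons (fin 911 4 847)
(mv 913 (cons (fin 849 5 848)
(mv 1168 (cons (fin 1232 7 975)
(fin 1105 5 912)))))))))))))))))))
(cons (mv 974 (cons (fin 973 3 973)
(mv 975 (cons (fin 1042 3 974)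
(mv 1102 (cons (fin 1101 1 1037)
(mv 911 (cons (fin 847 5 846)
(fin 1166 6 910)))))))))
(cons (mv 973 (cons (fin 974 3 973)
(mv 977 (cons (fin 978 2 974)
(mv 1102 (cons (fin 1101 1 1037)
(mv 1166 (cons (cons (mv 975 (cons (fin 1230 6 974)
(mv 911 (cons (fin 847 5 846)
(fin 1103 5 910)))))
(mv 913 (cons (cons (mv 849 (cons (fin 1104 5 848)
(mv 784 (cons (fin 848 7 784)
(mv 785 (cons (fin 720 7 720)
(fin 976 5 784)))))))
(mv 849 (cons (cons (mv 784 (cons (fin 848 7 784)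
(mv 785 (cons (fin 720 7 720)
(fin 976 5 784)))))
(mv 786 (cons (fin 850 6 785)
(mv 848 (cons (fin 784 7 784)
(mv 912 (cons (fin 1105 7 848)
(mv 976 (cons (fin 1103 5 847)
(mv 847 (cons (fin 783 7 783)
(mv 846 (cons (fin 845 0 845)
(fin 914 0 846))))))))))))))
(cons (mv 785 (cons (fin 976 5 784)
(mv 786 (cons (fin 722 6 721)
(fin 850 6 785)))))
(mv 784 (cons (fin 848 7 784)
(mv 785 (cons (fin 720 7 720)
(mv 786 (cons (fin 722 6 721)
(fin 850 6 785)))))))))))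
(cons (mv 1105 (cons (cons (mv 848 (cons (fin 912 7 848)
(mv 850 (cons (fin 914 6 849)
(mv 1104 (cons (fin 1168 5 912)
(mv 1103 (cons (fin 1165 1 1101)
(mv 911 (cons (fin 975 5 910)
(mv 1169 (cons (fin 1170 0 1102)
(mv 1233 (cons (fin 976 7 976)
(fin 1297 7 1040)))))))))))))))
(cons (mv 850 (cons (fin 914 6 849)
(mv 912 (cons (fin 848 7 848)
(mv 1169 (cons (fin 976 7 912)
(mv 1168 (cons (fin 1232 5 976)
(mv 1234 (cons (fin 1170 4 977)
(mv 1233 (cons (fin 1167 0 1166)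
(fin 1298 4 1041)))))))))))))
(mv 850 (cons (fin 914 6 849)
(mv 912 (cons (fin 848 7 848)
(mv 1169 (cons (fin 976 7 912)
(mv 1234 (cons (fin 1170 4 977)
(mv 1233 (cons (fin 1298 4 1041)
(mv 1296 (cons (fin 1232 5 1040)
(mv 1297 (cons (fin 1104 7 1040)
(fin 1360 5 1104)))))))))))))))))
(cons (cons (mv 850 (cons (fin 914 6 849)
(mv 1104 (cons (fin 1168 5 912)
(mv 1103 (cons (fin 1165 1 1101)
(mv 911 (cons (fin 975 5 910)
(mv 1169 (cons (fin 1170 0 1102)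
(mv 1233 (cons (fin 976 7 976)
(fin 1297 7 1040)))))))))))))
(mv 848 (cons (fin 912 7 848)
(mv 1104 (cons (fin 1168 5 912)
(mv 1103 (cons (fin 1165 1 1101)
(mv 911 (cons (fin 975 5 910)
(mv 1169 (cons (fin 1170 0 1102)
(mv 1233 (cons (fin 976 7 976)
(fin 1297 7 1040))))))))))))))
(cons (mv 848 (cons (fin 912 7 848)
(mv 850 (cons (fin 914 6 849)
(mv 1168 (cons (fin 1104 5 912)
(mv 1169 (cons (fin 1232 5 976)
(mv 1234 (cons (fin 1170 4 977)
(mv 1233 (cons (fin 1167 0 1166)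
(fin 1298 4 1041)))))))))))))
(mv 850 (cons (fin 914 6 849)
(mv 912 (cons (fin 848 7 848)
(mv 1104 (cons (fin 1168 5 912)
(mv 1103 (cons (fin 1165 1 1101)
(mv 911 (cons (fin 975 5 910)
(mv 976 (cons (fin 847 7 847)
(fin 1167 5 911)))))))))))))))))
(cons (mv 849 (cons (fin 1104 5 848)
(mv 784 (cons (fin 848 7 784)
(mv 785 (cons (fin 720 7 720)
(mv 786 (cons (fin 722 6 721)
(fin 850 6 785)))))))))
(mv 849 (cons (fin 1104 5 848)
(mv 785 (cons (fin 976 5 784)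
(mv 786 (cons (fin 722 6 721)
(fin 850 6 785))))))))))))
(cons (mv 1230 (cons (cons (mv 1103 (cons (fin 1294 6 1038)
(mv 1229 (cons (fin 1293 5 1037)
(mv 1231 (cons (fin 1295 4 1038)
(mv 976 (cons (fin 1167 6 975)
(mv 912 (cons (fin 848 5 847)
(mv 1105 (cons (fin 1169 7 912)
(mv 1104 (cons (fin 1165 1 1101)
(mv 913 (cons (fin 849 5 848)
(fin 1168 5 912)))))))))))))))))
(mv 1229 (cons (fin 1293 5 1037)
(mv 1231 (cons (fin 1295 4 1038)
(mv 1232 (cons (mv 1165 (cons (fin 1164 3 1164)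
(fin 1233 3 1165)))
(mv 1168 (cons (fin 1169 2 1165)
(fin 1104 6 976))))))))))
(cons (mv 1293 (cons (fin 1229 5 1037)
(mv 1294 (cons (fin 1357 5 1101)
(fin 1103 6 1038)))))
(mv 1103 (cons (fin 1294 6 1038)
(mv 1231 (cons (fin 1295 4 1038)
(mv 976 (cons (fin 1167 6 975)
(mv 912 (cons (fin 848 5 847)
(mv 1105 (cons (fin 1169 7 912)
(mv 1104 (cons (fin 1165 1 1101)
(mv 913 (cons (fin 849 5 848)
(fin 1168 5 912))))))))))))))))))
(mv 1230 (cons (fin 975 6 974)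
(mv 1231 (cons (fin 1295 4 1038)
(mv 1293 (cons (fin 1229 5 1037)
(mv 1294 (cons (fin 1357 5 1101)
(mv 1232 (cons (fin 1233 1 1229)
(mv 1168 (cons (fin 1104 6 976)
(mv 1169 (cons (fin 1105 5 976)
(mv 1170 (cons (fin 1167 1 1166)
(fin 1171 1 1167))))))))))))))))))))))))))
(mv 974 (cons (fin 973 3 973)
(mv 977 (cons (fin 978 2 974)
(mv 1102 (cons (fin 1101 1 1037)
(mv 1103 (cons (fin 1042 1 1038)
(mv 910 (cons (fin 846 4 846)
(fin 1167 4 910)))))))))))))))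
(mv 1037 (cons (cons (mv 972 (cons (fin 973 3 972)
(mv 976 (cons (fin 977 2 973)
(mv 1036 (cons (fin 971 3 971)
(fin 975 2 972)))))))
(mv 972 (cons (fin 973 3 972)
(mv 1036 (cons (fin 971 3 971)
(mv 1100 (cons (fin 1099 1 1035)
(fin 1101 1 1036))))))))
(cons (mv 976 (cons (fin 977 2 973)
(mv 975 (cons (fin 1036 2 972)
(mv 1100 (cons (fin 1101 1 1036)
(mv 1104 (cons (fin 1105 0 1037)
(mv 911 (cons (fin 1168 7 911)
(fin 847 4 847)))))))))))
(mv 972 (cons (fin 973 3 972)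
(mv 976 (cons (fin 977 2 973)
(mv 1100 (cons (fin 1101 1 1036)
(mv 1104 (cons (fin 1105 0 1037)
(mv 1168 (cons (mv 975 (cons (fin 911 7 911)
(fin 1232 7 975)))
(cons (mv 1167 (cons (fin 1231 5 975)
(mv 912 (cons (fin 1103 5 911)
(mv 847 (cons (fin 911 7 847)
(mv 848 (cons (fin 783 7 783)
(mv 849 (cons (fin 785 6 784)
(fin 913 6 848)))))))))))
(mv 975 (cons (fin 1232 7 975)
(mv 1167 (cons (fin 1231 5 975)
(mv 912 (cons (fin 1103 5 911)
(mv 848 (cons (fin 784 5 783)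
(mv 849 (cons (fin 785 6 784)
(fin 913 6 848)))))))))))))))))))))))))))
(cons (cons (mv 1037 (cons (cons (mv 976 (cons (fin 977 2 973)
(mv 975 (cons (fin 1036 2 972)
(mv 1100 (cons (fin 1101 1 1036)
(mv 1104 (cons (fin 1105 0 1037)
(mv 911 (cons (fin 1168 7 911)
(fin 847 4 847)))))))))))
(mv 976 (cons (fin 977 2 973)
(mv 975 (cons (fin 1036 2 972)
(mv 1104 (cons (fin 1105 0 1037)
(mv 911 (cons (fin 1168 7 911)
(fin 847 4 847))))))))))
(cons (mv 1100 (cons (fin 1101 1 1036)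
(mv 1036 (cons (fin 1099 1 1035)
(mv 1104 (cons (fin 1103 0 1036)
(fin 1105 0 1037)))))))
(cons (mv 976 (cons (fin 977 2 973)
(mv 975 (cons (fin 1036 2 972)
(mv 1101 (cons (fin 1100 1 1036)
(mv 1041 (cons (fin 1102 1 1037)
(mv 1042 (cons (fin 974 3 974)
(fin 1043 3 975)))))))))))
(mv 977 (cons (fin 976 2 973)
(mv 1041 (cons (fin 978 2 974)
(mv 1101 (cons (fin 1100 1 1036)
(fin 1102 1 1037)))))))))))
(mv 1037 (cons (cons (mv 972 (cons (fin 973 3 972)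
(mv 976 (cons (fin 977 2 973)
(mv 1036 (cons (fin 971 3 971)
(fin 975 2 972)))))))
(mv 976 (cons (fin 977 2 973)
(mv 975 (cons (fin 1036 2 972)
(mv 1104 (cons (fin 1105 0 1037)
(mv 911 (cons (fin 1168 7 911)
(fin 847 4 847))))))))))
(cons (mv 972 (cons (fin 973 3 972)
(mv 1036 (cons (fin 971 3 971)
(mv 1104 (cons (fin 1103 0 1036)
(fin 1105 0 1037)))))))
(mv 973 (cons (fin 972 3 972)
(mv 977 (cons (fin 976 2 973)
(mv 1041 (cons (fin 974 3 973)
(fin 978 2 974)))))))))))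
(cons (mv 1037 (cons (cons (mv 972 (cons (fin 973 3 972)
(mv 1036 (cons (fin 971 3 971)
(mv 1100 (cons (fin 1099 1 1035)
(fin 1101 1 1036)))))))
(mv 1100 (cons (fin 1101 1 1036)
(mv 1036 (cons (fin 1099 1 1035)
(mv 1104 (cons (fin 1103 0 1036)
(fin 1105 0 1037))))))))
(cons (mv 972 (cons (fin 973 3 972)
(mv 1036 (cons (fin 971 3 971)
(mv 1104 (cons (fin 1103 0 1036)
(fin 1105 0 1037)))))))
(mv 973 (cons (fin 972 3 972)
(mv 974 (cons (fin 1041 3 973)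
(mv 1101 (cons (fin 1100 1 1036)
(mv 910 (cons (fin 846 5 845)
(fin 1165 6 909))))))))))))
(mv 1037 (cons (cons (mv 972 (cons (fin 973 3 972)
(mv 971 (cons (fin 1036 3 971)
(mv 977 (cons (fin 976 2 973)
(mv 1041 (cons (fin 978 2 974)
(mv 1101 (cons (fin 1100 1 1036)
(fin 1102 1 1037)))))))))))
(mv 976 (cons (fin 977 2 973)
(mv 975 (cons (fin 1036 2 972)
(mv 1101 (cons (fin 1100 1 1036)
(mv 1041 (cons (fin 1102 1 1037)
(mv 1042 (cons (fin 974 3 974)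
(fin 1043 3 975))))))))))))
(cons (mv 972 (cons (fin 973 3 972)
(mv 976 (cons (fin 977 2 973)
(mv 1036 (cons (fin 971 3 971)
(fin 975 2 972)))))))
(cons (mv 972 (cons (fin 973 3 972)
(mv 1036 (cons (fin 971 3 971)
(mv 1100 (cons (fin 1099 1 1035)
(fin 1101 1 1036)))))))
(mv 972 (cons (fin 973 3 972)
(mv 977 (cons (fin 976 2 973)
(mv 1041 (cons (fin 978 2 974)
(mv 1101 (cons (fin 1100 1 1036)
(fin 1102 1 1037)))))))))))))))))
(mv 1038 (cons (cons (mv 1037 (cons (cons (mv 972 (cons (fin 973 3 972)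
(mv 971 (cons (fin 1036 3 971)
(mv 977 (cons (fin 976 2 973)
(mv 1041 (cons (fin 978 2 974)
(mv 1101 (cons (fin 1100 1 1036)
(fin 1102 1 1037)))))))))))
(mv 972 (cons (fin 973 3 972)
(mv 976 (cons (fin 977 2 973)
(mv 1036 (cons (fin 971 3 971)
(fin 975 2 972))))))))
(cons (mv 976 (cons (fin 977 2 973)
(mv 975 (cons (fin 1036 2 972)
(mv 1100 (cons (fin 1101 1 1036)
(mv 1104 (cons (fin 1105 0 1037)
(mv 1168 (cons (fin 1232 7 975)
(mv 1167 (cons (fin 1231 5 975)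
(mv 912 (cons (fin 1103 5 911)
(mv 848 (cons (fin 784 5 783)
(mv 849 (cons (fin 785 6 784)
(fin 913 6 848)))))))))))))))))))
(cons (mv 972 (cons (fin 973 3 972)
(mv 1036 (cons (fin 971 3 971)
(mv 1100 (cons (fin 1099 1 1035)
(fin 1101 1 1036)))))))
(mv 972 (cons (fin 973 3 972)
(mv 977 (cons (fin 976 2 973)
(mv 1041 (cons (fin 978 2 974)
(mv 1101 (cons (fin 1100 1 1036)
(fin 1102 1 1037)))))))))))))
(cons (mv 1041 (cons (cons (mv 973 (cons (fin 974 3 973)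
(mv 978 (cons (fin 977 2 974)
(mv 1042 (cons (fin 979 2 975)
(mv 1102 (cons (fin 1101 1 1037)
(fin 1103 1 1038)))))))))
(mv 978 (cons (fin 977 2 974)
(mv 1042 (cons (fin 979 2 975)
(mv 1102 (cons (fin 1101 1 1037)
(fin 1103 1 1038))))))))
(cons (mv 974 (cons (fin 973 3 973)
(mv 978 (cons (fin 977 2 974)
(mv 1042 (cons (fin 975 3 974)
(fin 979 2 975)))))))
(cons (mv 974 (cons (fin 973 3 973)
(mv 975 (cons (fin 1042 3 974)
(mv 1102 (cons (fin 1101 1 1037)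
(mv 1166 (cons (fin 1230 6 974)
(mv 1165 (cons (fin 1229 5 973)
(mv 1167 (cons (fin 1231 4 974)
(mv 910 (cons (fin 1103 7 910)
(mv 845 (cons (fin 909 7 845)
(mv 846 (cons (fin 781 7 781)
(fin 782 4 782)))))))))))))))))))
(mv 973 (cons (fin 974 3 973)
(mv 977 (cons (fin 978 2 974)
(mv 1102 (cons (fin 1101 1 1037)
(mv 1166 (cons (cons (cons (mv 1230 (cons (fin 975 6 974)
(mv 1103 (cons (fin 1294 6 1038)
(mv 1229 (cons (fin 1293 5 1037)
(mv 1231 (cons (fin 1295 4 1038)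
(mv 976 (cons (fin 1167 6 975)
(mv 912 (cons (fin 848 5 847)
(mv 1105 (cons (fin 1169 7 912)
(mv 1104 (cons (fin 1165 1 1101)
(mv 913 (cons (fin 849 5 848)
(fin 1168 5 912)))))))))))))))))))
(mv 913 (cons (cons (mv 849 (cons (fin 1104 5 848)
(mv 784 (cons (fin 848 7 784)
(mv 785 (cons (fin 720 7 720)
(fin 976 5 784)))))))
(mv 849 (cons (cons (mv 784 (cons (fin 848 7 784)
(mv 785 (cons (fin 720 7 720)
(fin 976 5 784)))))
(mv 786 (cons (fin 850 6 785)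
(mv 848 (cons (fin 784 7 784)
(mv 912 (cons (fin 1105 7 848)
(mv 976 (cons (fin 1103 5 847)
(mv 847 (cons (fin 783 7 783)
(mv 846 (cons (fin 845 0 845)
(fin 914 0 846))))))))))))))
(cons (mv 785 (cons (fin 976 5 784)
(mv 786 (cons (fin 722 6 721)
(fin 850 6 785)))))
(mv 784 (cons (fin 848 7 784)
(mv 785 (cons (fin 720 7 720)
(mv 786 (cons (fin 722 6 721)
(fin 850 6 785)))))))))))
(cons (mv 1105 (cons (cons (mv 848 (cons (fin 912 7 848)
(mv 850 (cons (fin 914 6 849)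
(mv 1104 (cons (fin 1168 5 912)
(mv 1103 (cons (fin 1165 1 1101)
(mv 1169 (cons (fin 1170 0 1102)
(mv 1233 (cons (fin 976 7 976)
(fin 1297 7 1040)))))))))))))
(cons (mv 850 (cons (fin 914 6 849)
(mv 912 (cons (fin 848 7 848)
(mv 1169 (cons (fin 976 7 912)
(mv 1168 (cons (fin 1232 5 976)
(mv 1234 (cons (fin 1170 4 977)
(mv 1233 (cons (fin 1167 0 1166)
(fin 1298 4 1041)))))))))))))
(mv 850 (cons (fin 914 6 849)
(mv 912 (cons (fin 848 7 848)
(mv 1169 (cons (fin 976 7 912)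
(mv 1234 (cons (fin 1170 4 977)
(mv 1233 (cons (fin 1298 4 1041)
(mv 1296 (cons (fin 1232 5 1040)
(mv 1297 (cons (fin 1104 7 1040)
(fin 1360 5 1104)))))))))))))))))
(cons (cons (mv 850 (cons (fin 914 6 849)
(mv 1104 (cons (fin 1168 5 912)
(mv 1103 (cons (fin 1165 1 1101)
(mv 1169 (cons (fin 1170 0 1102)
(mv 1233 (cons (fin 976 7 976)
(fin 1297 7 1040)))))))))))
(mv 848 (cons (fin 912 7 848)
(mv 1104 (cons (fin 1168 5 912)
(mv 1103 (cons (fin 1165 1 1101)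
(mv 1169 (cons (fin 1170 0 1102)
(mv 1233 (cons (fin 976 7 976)
(fin 1297 7 1040))))))))))))
(cons (mv 912 (cons (fin 848 7 848)
(mv 914 (cons (fin 850 6 849)
(mv 1104 (cons (fin 1168 5 912)
(mv 1103 (cons (fin 1165 1 1101)
(mv 976 (cons (fin 1167 5 911)
(mv 915 (cons (fin 975 1 911)
(fin 916 1 912)))))))))))))
(mv 848 (cons (fin 912 7 848)
(mv 850 (cons (fin 914 6 849)
(mv 1168 (cons (fin 1104 5 912)
(mv 1169 (cons (fin 1232 5 976)
(mv 1234 (cons (fin 1170 4 977)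
(mv 1233 (cons (fin 1167 0 1166)
(fin 1298 4 1041)))))))))))))))))
(cons (mv 849 (cons (fin 1104 5 848)
(mv 784 (cons (fin 848 7 784)
(mv 785 (cons (fin 720 7 720)
(mv 786 (cons (fin 722 6 721)
(fin 850 6 785)))))))))
(mv 849 (cons (fin 1104 5 848)
(mv 785 (cons (fin 976 5 784)
(mv 786 (cons (fin 722 6 721)
(fin 850 6 785))))))))))))
(cons (mv 1230 (cons (cons (mv 1103 (cons (fin 1294 6 1038)
(mv 1229 (cons (fin 1293 5 1037)
(mv 1231 (cons (fin 1295 4 1038)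
(mv 976 (cons (fin 1167 6 975)
(mv 912 (cons (fin 848 5 847)
(mv 1105 (cons (fin 1169 7 912)
(mv 1104 (cons (fin 1165 1 1101)
(mv 913 (cons (fin 849 5 848)
(fin 1168 5 912)))))))))))))))))
(mv 1229 (cons (fin 1293 5 1037)
(mv 1231 (cons (fin 1295 4 1038)
(mv 1232 (cons (mv 1165 (cons (fin 1164 3 1164)
(fin 1233 3 1165)))
(mv 1168 (cons (fin 1169 2 1165)
(fin 1104 6 976))))))))))
(cons (mv 1293 (cons (fin 1229 5 1037)
(mv 1294 (cons (fin 1357 5 1101)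
(fin 1103 6 1038)))))
(mv 1103 (cons (fin 1294 6 1038)
(mv 1231 (cons (fin 1295 4 1038)
(mv 976 (cons (fin 1167 6 975)
(mv 912 (cons (fin 848 5 847)
(mv 1105 (cons (fin 1169 7 912)
(mv 1104 (cons (fin 1165 1 1101)
(mv 913 (cons (fin 849 5 848)
(fin 1168 5 912))))))))))))))))))
(mv 1230 (cons (fin 975 6 974)
(mv 1103 (cons (fin 1294 6 1038)
(mv 1229 (cons (fin 1293 5 1037)
(mv 1231 (cons (fin 1295 4 1038)
(mv 976 (cons (fin 1167 6 975)
(mv 912 (cons (fin 848 5 847)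
(mv 1169 (cons (fin 1105 7 912)
(mv 1232 (cons (fin 1168 2 1165)
(mv 1165 (cons (fin 1164 3 1164)
(fin 1233 3 1165)))))))))))))))))))))
(cons (cons (mv 1230 (cons (fin 975 6 974)
(mv 1231 (cons (fin 1295 4 1038)
(mv 1293 (cons (fin 1229 5 1037)
(mv 1294 (cons (fin 1357 5 1101)
(mv 1232 (cons (fin 1233 1 1229)
(mv 1168 (cons (fin 1104 6 976)
(mv 1169 (cons (fin 1105 5 976)
(mv 1170 (cons (fin 1167 1 1166)
(fin 1171 1 1167)))))))))))))))))
(mv 1230 (cons (fin 975 6 974)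
(mv 1103 (cons (fin 1294 6 1038)
(mv 1229 (cons (fin 1293 5 1037)
(mv 1231 (cons (fin 1295 4 1038)
(mv 976 (cons (fin 1167 6 975)
(mv 912 (cons (fin 848 5 847)
(mv 1105 (cons (fin 1169 7 912)
(mv 1165 (cons (fin 1104 1 1101)
(mv 1164 (cons (fin 1232 3 1164)
(fin 1163 2 1099))))))))))))))))))))
(cons (mv 1230 (cons (fin 975 6 974)
(mv 1103 (cons (fin 1294 6 1038)
(mv 1229 (cons (fin 1293 5 1037)
(mv 1231 (cons (fin 1295 4 1038)
(mv 1167 (cons (fin 976 6 975)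
(mv 1168 (cons (fin 1169 1 1165)
(fin 1228 2 1164)))))))))))))
(mv 1230 (cons (fin 975 6 974)
(mv 1229 (cons (fin 1293 5 1037)
(mv 1294 (cons (fin 1103 6 1038)
(mv 1295 (cons (fin 1231 4 1038)
(fin 1359 4 1102)))))))))))))))))))))))
(mv 1037 (cons (cons (mv 972 (cons (fin 973 3 972)
(mv 976 (cons (fin 977 2 973)
(mv 1036 (cons (fin 971 3 971)
(fin 975 2 972)))))))
(mv 972 (cons (fin 973 3 972)
(mv 1036 (cons (fin 971 3 971)
(mv 1100 (cons (fin 1099 1 1035)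
(fin 1101 1 1036))))))))
(cons (mv 976 (cons (fin 977 2 973)
(mv 975 (cons (fin 1036 2 972)
(mv 1100 (cons (fin 1101 1 1036)
(mv 1104 (cons (fin 1105 0 1037)
(mv 1168 (cons (fin 1232 7 975)
(mv 1167 (cons (fin 1231 5 975)
(mv 912 (cons (fin 1103 5 911)
(mv 848 (cons (fin 784 5 783)
(mv 849 (cons (fin 785 6 784)
(fin 913 6 848)))))))))))))))))))
(mv 972 (cons (fin 973 3 972)
(mv 976 (cons (fin 977 2 973)
(mv 1100 (cons (fin 1101 1 1036)
(mv 1104 (cons (fin 1105 0 1037)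
(mv 912 (cons (mv 1103 (cons (fin 848 5 847)
(fin 1167 5 911)))
(cons (mv 849 (cons (fin 913 6 848)
(mv 848 (cons (fin 785 6 784)
(mv 783 (cons (fin 847 7 783)
(mv 784 (cons (fin 719 7 719)
(fin 975 5 783)))))))))
(mv 849 (cons (fin 913 6 848)
(mv 1167 (cons (fin 1103 5 911)
(mv 1168 (cons (fin 1231 5 975)
(mv 1232 (cons (fin 975 7 975)
(mv 1233 (cons (fin 1169 4 976)
(fin 1297 4 1040)))))))))))))))))))))))))))
(cons (cons (mv 1037 (cons (cons (mv 972 (cons (fin 973 3 972)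
(mv 976 (cons (fin 977 2 973)
(mv 1036 (cons (fin 971 3 971)
(fin 975 2 972)))))))
(mv 972 (cons (fin 973 3 972)
(mv 1036 (cons (fin 971 3 971)
(mv 1104 (cons (fin 1103 0 1036)
(fin 1105 0 1037))))))))
(cons (mv 976 (cons (fin 977 2 973)
(mv 975 (cons (fin 1036 2 972)
(mv 1104 (cons (fin 1105 0 1037)
(mv 1168 (cons (fin 1232 7 975)
(mv 1167 (cons (fin 1231 5 975)
(mv 912 (cons (fin 1103 5 911)
(mv 848 (cons (fin 784 5 783)
(mv 849 (cons (fin 785 6 784)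
(fin 913 6 848)))))))))))))))))
(mv 973 (cons (fin 972 3 972)
(mv 977 (cons (fin 976 2 973)
(mv 1041 (cons (fin 974 3 973)
(fin 978 2 974))))))))))
(mv 1037 (cons (cons (mv 976 (cons (fin 977 2 973)
(mv 975 (cons (fin 1036 2 972)
(mv 1100 (cons (fin 1101 1 1036)
(mv 1104 (cons (fin 1105 0 1037)
(mv 1168 (cons (fin 1232 7 975)
(mv 1167 (cons (fin 1231 5 975)
(mv 912 (cons (fin 1103 5 911)
(mv 848 (cons (fin 784 5 783)
(mv 849 (cons (fin 785 6 784)
(fin 913 6 848)))))))))))))))))))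
(mv 1100 (cons (fin 1101 1 1036)
(mv 1036 (cons (fin 1099 1 1035)
(mv 1104 (cons (fin 1103 0 1036)
(fin 1105 0 1037))))))))
(cons (mv 976 (cons (fin 977 2 973)
(mv 975 (cons (fin 1036 2 972)
(mv 1104 (cons (fin 1105 0 1037)
(mv 1168 (cons (fin 1232 7 975)
(mv 1167 (cons (fin 1231 5 975)
(mv 912 (cons (fin 1103 5 911)
(mv 848 (cons (fin 784 5 783)
(mv 849 (cons (fin 785 6 784)
(fin 913 6 848)))))))))))))))))
(cons (mv 976 (cons (fin 977 2 973)
(mv 975 (cons (fin 1036 2 972)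
(mv 1101 (cons (fin 1100 1 1036)
(mv 1041 (cons (fin 1102 1 1037)
(mv 1042 (cons (fin 974 3 974)
(fin 1043 3 975)))))))))))
(mv 977 (cons (fin 976 2 973)
(mv 1041 (cons (fin 978 2 974)
(mv 1101 (cons (fin 1100 1 1036)
(fin 1102 1 1037))))))))))))
(cons (mv 1037 (cons (cons (mv 972 (cons (fin 973 3 972)
(mv 1036 (cons (fin 971 3 971)
(mv 1100 (cons (fin 1099 1 1035)
(fin 1101 1 1036)))))))
(mv 972 (cons (fin 973 3 972)
(mv 1036 (cons (fin 971 3 971)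
(mv 1104 (cons (fin 1103 0 1036)
(fin 1105 0 1037))))))))
(cons (mv 1100 (cons (fin 1101 1 1036)
(mv 1036 (cons (fin 1099 1 1035)
(mv 1104 (cons (fin 1103 0 1036)
(fin 1105 0 1037)))))))
(mv 973 (cons (fin 972 3 972)
(mv 974 (cons (fin 1041 3 973)
(mv 1101 (cons (fin 1100 1 1036)
(mv 910 (cons (fin 846 5 845)
(fin 1165 6 909))))))))))))
(mv 1037 (cons (cons (mv 972 (cons (fin 973 3 972)
(mv 971 (cons (fin 1036 3 971)
(mv 977 (cons (fin 976 2 973)
(mv 1041 (cons (fin 978 2 974)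
(mv 1101 (cons (fin 1100 1 1036)
(fin 1102 1 1037)))))))))))
(mv 976 (cons (fin 977 2 973)
(mv 975 (cons (fin 1036 2 972)
(mv 1101 (cons (fin 1100 1 1036)
(mv 1041 (cons (fin 1102 1 1037)
(mv 1042 (cons (fin 974 3 974)
(fin 1043 3 975))))))))))))
(cons (mv 972 (cons (fin 973 3 972)
(mv 976 (cons (fin 977 2 973)
(mv 1036 (cons (fin 971 3 971)
(fin 975 2 972)))))))
(cons (mv 972 (cons (fin 973 3 972)
(mv 1036 (cons (fin 971 3 971)
(mv 1100 (cons (fin 1099 1 1035)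
(fin 1101 1 1036)))))))
(mv 972 (cons (fin 973 3 972)
(mv 977 (cons (fin 976 2 973)
(mv 1041 (cons (fin 978 2 974)
(mv 1101 (cons (fin 1100 1 1036)
(fin 1102 1 1037)))))))))))))))))))
(cons (cons (mv 1038 (cons (cons (mv 1037 (cons (cons (mv 972 (cons (fin 973 3 972)
(mv 971 (cons (fin 1036 3 971)
(mv 977 (cons (fin 976 2 973)
(mv 1041 (cons (fin 978 2 974)
(mv 1101 (cons (fin 1100 1 1036)
(fin 1102 1 1037)))))))))))
(cons (mv 972 (cons (fin 973 3 972)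
(mv 976 (cons (fin 977 2 973)
(mv 1036 (cons (fin 971 3 971)
(fin 975 2 972)))))))
(mv 976 (cons (fin 977 2 973)
(mv 975 (cons (fin 1036 2 972)
(mv 1100 (cons (fin 1101 1 1036)
(mv 1104 (cons (fin 1105 0 1037)
(mv 911 (cons (fin 1168 7 911)
(fin 847 4 847)))))))))))))
(cons (mv 972 (cons (fin 973 3 972)
(mv 971 (cons (fin 1036 3 971)
(mv 1101 (cons (fin 1100 1 1036)
(mv 1041 (cons (fin 1102 1 1037)
(mv 978 (cons (fin 977 2 974)
(mv 1042 (cons (fin 979 2 975)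
(mv 975 (cons (fin 974 3 974)
(mv 1104 (cons (fin 1105 0 1037)
(mv 911 (cons (fin 847 4 847)
(mv 1103 (cons (fin 1043 1 1039)
(fin 1168 4 911)))))))))))))))))))))
(cons (mv 972 (cons (fin 973 3 972)
(mv 1036 (cons (fin 971 3 971)
(mv 1100 (cons (fin 1099 1 1035)
(fin 1101 1 1036)))))))
(mv 972 (cons (fin 973 3 972)
(mv 977 (cons (fin 976 2 973)
(mv 1041 (cons (fin 978 2 974)
(mv 1101 (cons (fin 1100 1 1036)
(fin 1102 1 1037)))))))))))))
(cons (mv 1041 (cons (cons (mv 973 (cons (fin 974 3 973)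
(mv 978 (cons (fin 977 2 974)
(mv 1042 (cons (fin 979 2 975)
(mv 1102 (cons (fin 1101 1 1037)
(fin 1103 1 1038)))))))))
(mv 974 (cons (fin 973 3 973)
(mv 978 (cons (fin 977 2 974)
(mv 1042 (cons (fin 975 3 974)
(fin 979 2 975))))))))
(cons (mv 977 (cons (fin 978 2 974)
(mv 1102 (cons (fin 1101 1 1037)
(mv 1103 (cons (fin 1042 1 1038)
(mv 975 (cons (mv 911 (cons (fin 847 5 846)
(fin 1166 5 910)))
(cons (mv 1166 (cons (fin 1230 6 974)
(mv 1104 (cons (cons (mv 849 (cons (fin 913 5 848)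
(mv 1105 (cons (fin 1165 1 1101)
(mv 1168 (cons (fin 1232 7 975)
(mv 1169 (cons (fin 1170 0 1102)
(mv 1233 (cons (fin 976 7 976)
(fin 1297 7 1040)))))))))))
(mv 849 (cons (fin 913 5 848)
(mv 1105 (cons (fin 1165 1 1101)
(mv 1169 (cons (fin 1170 0 1102)
(mv 1233 (cons (fin 976 7 976)
(fin 1297 7 1040))))))))))
(cons (mv 913 (cons (fin 849 5 848)
(mv 1168 (cons (fin 1232 7 975)
(fin 976 6 912)))))
(cons (mv 1105 (cons (fin 1165 1 1101)
(mv 1168 (cons (fin 1232 7 975)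
(mv 1169 (cons (fin 1170 0 1102)
(mv 1233 (cons (fin 976 7 976)
(fin 1297 7 1040)))))))))
(mv 849 (cons (fin 913 5 848)
(mv 1105 (cons (fin 1165 1 1101)
(mv 1168 (cons (fin 1232 7 975)
(mv 1169 (cons (fin 1170 0 1102)
(mv 1233 (cons (fin 1297 7 1040)
(mv 1234 (cons (fin 1167 0 1166)
(fin 1298 4 1041)))))))))))))))))))
(mv 911 (cons (fin 847 5 846)
(mv 846 (cons (fin 910 7 846)
(mv 1168 (cons (fin 1104 4 911)
(mv 1167 (cons (fin 1232 4 975)
(mv 1231 (cons (fin 1295 7 1038)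
(fin 976 6 975))))))))))))))))))))
(cons (mv 974 (cons (fin 973 3 973)
(mv 975 (cons (fin 1042 3 974)
(mv 1102 (cons (fin 1101 1 1037)
(mv 911 (cons (fin 847 5 846)
(fin 1166 6 910)))))))))
(mv 974 (cons (fin 973 3 973)
(mv 977 (cons (fin 978 2 974)
(mv 1102 (cons (fin 1101 1 1037)
(mv 910 (cons (cons (mv 1103 (cons (fin 846 4 846)
(fin 1167 4 910)))
(mv 845 (cons (fin 909 7 845)
(mv 781 (cons (fin 846 7 781)
(mv 911 (cons (fin 847 6 846)
(mv 1166 (cons (fin 975 6 910)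
(mv 1167 (cons (fin 1231 4 974)
(mv 1229 (cons (fin 1165 5 973)
(mv 1230 (cons (fin 1293 5 1037)
(mv 1168 (cons (fin 1169 1 1165)
(mv 1104 (cons (fin 1232 6 976)
(mv 913 (cons (fin 849 5 848)
(fin 1105 5 912))))))))))))))))))))))
(cons (mv 845 (cons (fin 909 7 845)
(mv 847 (cons (fin 911 6 846)
(mv 1167 (cons (fin 1103 4 910)
(mv 1166 (cons (fin 1231 4 974)
(mv 1229 (cons (fin 1165 5 973)
(mv 1230 (cons (fin 1293 5 1037)
(fin 975 6 974)))))))))))))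
(mv 845 (cons (fin 909 7 845)
(mv 846 (cons (fin 781 7 781)
(fin 1103 4 846))))))))))))))))))
(mv 1037 (cons (cons (mv 972 (cons (fin 973 3 972)
(mv 976 (cons (fin 977 2 973)
(mv 1036 (cons (fin 971 3 971)
(fin 975 2 972)))))))
(mv 972 (cons (fin 973 3 972)
(mv 1036 (cons (fin 971 3 971)
(mv 1100 (cons (fin 1099 1 1035)
(fin 1101 1 1036))))))))
(cons (mv 976 (cons (fin 977 2 973)
(mv 975 (cons (fin 1036 2 972)
(mv 1100 (cons (fin 1101 1 1036)
(mv 1104 (cons (fin 1105 0 1037)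
(mv 911 (cons (fin 1168 7 911)
(fin 847 4 847)))))))))))
(mv 972 (cons (fin 973 3 972)
(mv 976 (cons (fin 977 2 973)
(mv 1101 (cons (fin 1100 1 1036)
(mv 1104 (cons (fin 1105 0 1037)
(mv 1168 (cons (mv 975 (cons (fin 911 7 911)
(fin 1232 7 975)))
(mv 1167 (cons (fin 1231 5 975)
(mv 1169 (cons (fin 1233 4 976)
(mv 1102 (cons (fin 1166 3 1101)
(fin 1103 0 1101))))))))))))))))))))))
(cons (cons (mv 1037 (cons (cons (mv 972 (cons (fin 973 3 972)
(mv 976 (cons (fin 977 2 973)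
(mv 1036 (cons (fin 971 3 971)
(fin 975 2 972)))))))
(mv 976 (cons (fin 977 2 973)
(mv 975 (cons (fin 1036 2 972)
(mv 1104 (cons (fin 1105 0 1037)
(mv 911 (cons (fin 1168 7 911)
(fin 847 4 847))))))))))
(cons (mv 972 (cons (fin 973 3 972)
(mv 1036 (cons (fin 971 3 971)
(mv 1104 (cons (fin 1103 0 1036)
(fin 1105 0 1037)))))))
(mv 973 (cons (fin 972 3 972)
(mv 977 (cons (fin 976 2 973)
(mv 1041 (cons (fin 974 3 973)
(fin 978 2 974))))))))))
(mv 1037 (cons (cons (mv 976 (cons (fin 977 2 973)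
(mv 975 (cons (fin 1036 2 972)
(mv 1100 (cons (fin 1101 1 1036)
(mv 1104 (cons (fin 1105 0 1037)
(mv 911 (cons (fin 1168 7 911)
(fin 847 4 847)))))))))))
(mv 976 (cons (fin 977 2 973)
(mv 975 (cons (fin 1036 2 972)
(mv 1104 (cons (fin 1105 0 1037)
(mv 911 (cons (fin 1168 7 911)
(fin 847 4 847))))))))))
(cons (mv 1100 (cons (fin 1101 1 1036)
(mv 1036 (cons (fin 1099 1 1035)
(mv 1104 (cons (fin 1103 0 1036)
(fin 1105 0 1037)))))))
(cons (mv 976 (cons (fin 977 2 973)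
(mv 975 (cons (fin 1036 2 972)
(mv 1101 (cons (fin 1100 1 1036)
(mv 1041 (cons (fin 1102 1 1037)
(mv 1042 (cons (fin 974 3 974)
(fin 1043 3 975)))))))))))
(mv 977 (cons (fin 976 2 973)
(mv 1041 (cons (fin 978 2 974)
(mv 1101 (cons (fin 1100 1 1036)
(fin 1102 1 1037))))))))))))
(cons (mv 1037 (cons (cons (mv 972 (cons (fin 973 3 972)
(mv 1036 (cons (fin 971 3 971)
(mv 1100 (cons (fin 1099 1 1035)
(fin 1101 1 1036)))))))
(mv 972 (cons (fin 973 3 972)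
(mv 1036 (cons (fin 971 3 971)
(mv 1104 (cons (fin 1103 0 1036)
(fin 1105 0 1037))))))))
(cons (mv 1100 (cons (fin 1101 1 1036)
(mv 1036 (cons (fin 1099 1 1035)
(mv 1104 (cons (fin 1103 0 1036)
(fin 1105 0 1037)))))))
(mv 973 (cons (fin 972 3 972)
(mv 974 (cons (fin 1041 3 973)
(mv 1101 (cons (fin 1100 1 1036)
(mv 910 (cons (fin 846 5 845)
(fin 1165 6 909))))))))))))
(mv 1037 (cons (cons (mv 972 (cons (fin 973 3 972)
(mv 971 (cons (fin 1036 3 971)
(mv 977 (cons (fin 976 2 973)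
(mv 1041 (cons (fin 978 2 974)
(mv 1101 (cons (fin 1100 1 1036)
(fin 1102 1 1037)))))))))))
(mv 976 (cons (fin 977 2 973)
(mv 975 (cons (fin 1036 2 972)
(mv 1101 (cons (fin 1100 1 1036)
(mv 1041 (cons (fin 1102 1 1037)
(mv 1042 (cons (fin 974 3 974)
(fin 1043 3 975))))))))))))
(cons (mv 972 (cons (fin 973 3 972)
(mv 976 (cons (fin 977 2 973)
(mv 1036 (cons (fin 971 3 971)
(fin 975 2 972)))))))
(cons (mv 972 (cons (fin 973 3 972)
(mv 1036 (cons (fin 971 3 971)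
(mv 1100 (cons (fin 1099 1 1035)
(fin 1101 1 1036)))))))
(mv 972 (cons (fin 973 3 972)
(mv 977 (cons (fin 976 2 973)
(mv 1041 (cons (fin 978 2 974)
(mv 1101 (cons (fin 1100 1 1036)
(fin 1102 1 1037)))))))))))))))))
(mv 1038 (cons (cons (mv 1037 (cons (cons (mv 972 (cons (fin 973 3 972)
(mv 971 (cons (fin 1036 3 971)
(mv 977 (cons (fin 976 2 973)
(mv 1041 (cons (fin 978 2 974)
(mv 1101 (cons (fin 1100 1 1036)
(fin 1102 1 1037)))))))))))
(cons (mv 976 (cons (fin 977 2 973)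
(mv 975 (cons (fin 1036 2 972)
(mv 1100 (cons (fin 1101 1 1036)
(mv 1104 (cons (fin 1105 0 1037)
(mv 911 (cons (fin 1168 7 911)
(fin 847 4 847)))))))))))
(mv 972 (cons (fin 973 3 972)
(mv 976 (cons (fin 977 2 973)
(mv 1036 (cons (fin 971 3 971)
(fin 975 2 972)))))))))
(cons (mv 972 (cons (fin 973 3 972)
(mv 971 (cons (fin 1036 3 971)
(mv 1101 (cons (fin 1100 1 1036)
(mv 1041 (cons (fin 1102 1 1037)
(mv 978 (cons (fin 977 2 974)
(mv 1042 (cons (fin 979 2 975)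
(mv 975 (cons (fin 974 3 974)
(mv 1104 (cons (fin 1105 0 1037)
(mv 911 (cons (fin 847 4 847)
(mv 1103 (cons (fin 1043 1 1039)
(fin 1168 4 911)))))))))))))))))))))
(cons (mv 972 (cons (fin 973 3 972)
(mv 1036 (cons (fin 971 3 971)
(mv 1100 (cons (fin 1099 1 1035)
(fin 1101 1 1036)))))))
(mv 972 (cons (fin 973 3 972)
(mv 977 (cons (fin 976 2 973)
(mv 1041 (cons (fin 978 2 974)
(mv 1101 (cons (fin 1100 1 1036)
(fin 1102 1 1037)))))))))))))
(cons (mv 1041 (cons (cons (mv 973 (cons (fin 974 3 973)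
(mv 978 (cons (fin 977 2 974)
(mv 1042 (cons (fin 979 2 975)
(mv 1102 (cons (fin 1101 1 1037)
(fin 1103 1 1038)))))))))
(cons (mv 974 (cons (fin 973 3 973)
(mv 978 (cons (fin 977 2 974)
(mv 1042 (cons (fin 975 3 974)
(fin 979 2 975)))))))
(mv 977 (cons (fin 978 2 974)
(mv 1102 (cons (fin 1101 1 1037)
(mv 1103 (cons (fin 1042 1 1038)
(mv 975 (cons (mv 911 (cons (fin 847 5 846)
(fin 1166 5 910)))
(cons (mv 1166 (cons (fin 1230 6 974)
(mv 1104 (cons (cons (mv 849 (cons (fin 913 5 848)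
(mv 1105 (cons (fin 1165 1 1101)
(mv 1168 (cons (fin 1232 7 975)
(mv 1169 (cons (fin 1170 0 1102)
(mv 976 (cons (fin 912 7 912)
(fin 1233 7 976)))))))))))
(mv 849 (cons (fin 913 5 848)
(mv 1105 (cons (fin 1165 1 1101)
(mv 1169 (cons (fin 1170 0 1102)
(mv 976 (cons (fin 912 7 912)
(fin 1233 7 976))))))))))
(cons (mv 913 (cons (fin 849 5 848)
(mv 1168 (cons (fin 1232 7 975)
(fin 976 6 912)))))
(cons (mv 1105 (cons (fin 1165 1 1101)
(mv 1168 (cons (fin 1232 7 975)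
(mv 1169 (cons (fin 1170 0 1102)
(mv 976 (cons (fin 912 7 912)
(fin 1233 7 976)))))))))
(mv 849 (cons (fin 913 5 848)
(mv 1105 (cons (fin 1165 1 1101)
(mv 1169 (cons (fin 1170 0 1102)
(mv 1232 (cons (fin 1168 7 975)
(mv 1233 (cons (fin 1297 7 1040)
(fin 1296 5 1040)))))))))))))))))
(mv 911 (cons (fin 847 5 846)
(mv 910 (cons (fin 846 7 846)
(mv 912 (cons (fin 848 6 847)
(mv 909 (cons (fin 976 0 909)
(mv 844 (cons (fin 845 3 844)
(mv 908 (cons (fin 843 3 843)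
(mv 972 (cons (fin 971 1 907)
(fin 973 1 908))))))))))))))))))))))))))
(cons (mv 974 (cons (fin 973 3 973)
(mv 975 (cons (fin 1042 3 974)
(mv 1102 (cons (fin 1101 1 1037)
(mv 911 (cons (fin 847 5 846)
(fin 1166 6 910)))))))))
(cons (mv 977 (cons (fin 978 2 974)
(mv 1102 (cons (fin 1101 1 1037)
(mv 1042 (cons (fin 1103 1 1038)
(mv 975 (cons (fin 974 3 974)
(mv 847 (cons (fin 911 5 846)
(mv 1043 (cons (fin 976 3 975)
(mv 980 (cons (fin 979 2 976)
(mv 1044 (cons (fin 981 2 977)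
(mv 1108 (cons (fin 1107 0 1040)
(fin 1109 0 1041)))))))))))))))))))
(mv 973 (cons (fin 974 3 973)
(mv 977 (cons (fin 978 2 974)
(mv 1102 (cons (fin 1101 1 1037)
(mv 913 (cons (cons (mv 849 (cons (fin 1104 5 848)
(mv 784 (cons (fin 848 7 784)
(mv 785 (cons (fin 720 7 720)
(fin 976 5 784)))))))
(mv 849 (cons (cons (mv 784 (cons (fin 848 7 784)
(mv 785 (cons (fin 720 7 720)
(fin 976 5 784)))))
(mv 786 (cons (fin 850 6 785)
(mv 848 (cons (fin 784 7 784)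
(mv 912 (cons (fin 1105 7 848)
(mv 976 (cons (fin 1103 5 847)
(mv 847 (cons (fin 783 7 783)
(mv 846 (cons (fin 845 0 845)
(fin 914 0 846))))))))))))))
(cons (mv 785 (cons (fin 976 5 784)
(mv 786 (cons (fin 722 6 721)
(fin 850 6 785)))))
(mv 784 (cons (fin 848 7 784)
(mv 785 (cons (fin 720 7 720)
(mv 786 (cons (fin 722 6 721)
(fin 850 6 785)))))))))))
(cons (mv 1105 (cons (cons (mv 848 (cons (fin 912 7 848)
(mv 850 (cons (fin 914 6 849)
(mv 1168 (cons (fin 1104 5 912)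
(mv 1169 (cons (fin 1232 5 976)
(mv 1233 (cons (fin 976 7 976)
(mv 1234 (cons (fin 1170 4 977)
(fin 1298 4 1041)))))))))))))
(cons (mv 850 (cons (fin 914 6 849)
(mv 912 (cons (fin 848 7 848)
(mv 1169 (cons (fin 976 7 912)
(mv 1234 (cons (fin 1170 4 977)
(mv 1233 (cons (fin 1298 4 1041)
(mv 1296 (cons (fin 1232 5 1040)
(mv 1297 (cons (fin 1104 7 1040)
(fin 1360 5 1104)))))))))))))))
(mv 850 (cons (fin 914 6 849)
(mv 912 (cons (fin 848 7 848)
(mv 1169 (cons (fin 976 7 912)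
(mv 1170 (cons (fin 1234 4 977)
(mv 1232 (cons (fin 1168 5 976)
(mv 1233 (cons (fin 1296 5 1040)
(mv 1171 (cons (fin 1172 1 1168)
(mv 1230 (cons (fin 1231 2 1166)
(mv 1166 (cons (fin 975 6 974)
(mv 1293 (cons (fin 1229 5 1037)
(mv 1294 (cons (fin 1357 5 1101)
(fin 1103 6 1038)))))))))))))))))))))))))
(cons (cons (mv 850 (cons (fin 914 6 849)
(mv 1104 (cons (fin 1168 5 912)
(mv 1169 (cons (mv 1170 (cons (fin 1103 0 1102)
(fin 1234 4 977)))
(mv 1233 (cons (fin 976 7 976)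
(fin 1297 7 1040)))))))))
(mv 848 (cons (fin 912 7 848)
(mv 1168 (cons (fin 1104 5 912)
(mv 1169 (cons (fin 1232 5 976)
(mv 1233 (cons (fin 976 7 976)
(mv 1234 (cons (fin 1170 4 977)
(fin 1298 4 1041))))))))))))
(cons (mv 912 (cons (fin 848 7 848)
(mv 914 (cons (fin 850 6 849)
(mv 1104 (cons (fin 1168 5 912)
(mv 915 (cons (mv 976 (cons (fin 975 1 911)
(fin 916 1 912)))
(cons (mv 852 (cons (fin 851 2 848)
(mv 916 (cons (fin 853 2 849)
(mv 980 (cons (fin 979 0 912)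
(fin 981 0 913)))))))
(mv 851 (cons (fin 852 2 848)
(mv 975 (cons (fin 976 1 911)
(mv 911 (cons (fin 847 5 846)
(mv 1166 (cons (fin 1103 5 910)
(fin 1230 6 974))))))))))))))))))
(mv 848 (cons (fin 912 7 848)
(mv 850 (cons (fin 914 6 849)
(mv 1169 (cons (cons (mv 1168 (cons (fin 1104 5 912)
(fin 1232 5 976)))
(mv 1234 (cons (fin 1170 4 977)
(mv 1233 (cons (fin 1298 4 1041)
(mv 1296 (cons (fin 1232 5 1040)
(mv 1297 (cons (fin 1104 7 1040)
(fin 1360 5 1104))))))))))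
(cons (mv 1170 (cons (fin 1234 4 977)
(mv 1232 (cons (fin 1168 5 976)
(mv 1233 (cons (fin 1296 5 1040)
(mv 1171 (cons (fin 1172 1 1168)
(mv 1230 (cons (fin 1231 2 1166)
(mv 1166 (cons (fin 975 6 974)
(mv 1293 (cons (fin 1229 5 1037)
(mv 1294 (cons (fin 1357 5 1101)
(fin 1103 6 1038)))))))))))))))))
(mv 1104 (cons (fin 1168 5 912)
(mv 1170 (cons (fin 1103 0 1102)
(fin 1234 4 977))))))))))))))))
(cons (mv 849 (cons (fin 1104 5 848)
(mv 784 (cons (fin 848 7 784)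
(mv 785 (cons (fin 720 7 720)
(mv 786 (cons (fin 722 6 721)
(fin 850 6 785)))))))))
(mv 849 (cons (fin 1104 5 848)
(mv 785 (cons (fin 976 5 784)
(mv 786 (cons (fin 722 6 721)
(fin 850 6 785)))))))))))))))))))))
(mv 1037 (cons (cons (mv 972 (cons (fin 973 3 972)
(mv 976 (cons (fin 977 2 973)
(mv 1036 (cons (fin 971 3 971)
(fin 975 2 972)))))))
(mv 972 (cons (fin 973 3 972)
(mv 1036 (cons (fin 971 3 971)
(mv 1100 (cons (fin 1099 1 1035)
(fin 1101 1 1036))))))))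
(cons (mv 976 (cons (fin 977 2 973)
(mv 975 (cons (fin 1036 2 972)
(mv 1100 (cons (fin 1101 1 1036)
(mv 1104 (cons (fin 1105 0 1037)
(mv 911 (cons (fin 1168 7 911)
(fin 847 4 847)))))))))))
(mv 972 (cons (fin 973 3 972)
(mv 976 (cons (fin 977 2 973)
(mv 1100 (cons (fin 1101 1 1036)
(mv 1104 (cons (fin 1105 0 1037)
(mv 1168 (cons (mv 975 (cons (fin 911 7 911)
(fin 1232 7 975)))
(cons (mv 1233 (cons (fin 1169 4 976)
(mv 1232 (cons (fin 1297 4 1040)
(mv 1295 (cons (fin 1231 5 1039)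
(mv 1296 (cons (fin 1103 7 1039)
(fin 1359 5 1103)))))))))
(mv 911 (cons (fin 975 7 911)
(mv 912 (cons (fin 847 7 847)
(mv 848 (cons (fin 1103 5 847)
(mv 849 (cons (fin 785 6 784)
(fin 913 6 848)))))))))))))))))))))))))
(cons (cons (mv 1037 (cons (cons (mv 976 (cons (fin 977 2 973)
(mv 975 (cons (fin 1036 2 972)
(mv 1100 (cons (fin 1101 1 1036)
(mv 1104 (cons (fin 1105 0 1037)
(mv 911 (cons (fin 1168 7 911)
(fin 847 4 847)))))))))))
(mv 976 (cons (fin 977 2 973)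
(mv 975 (cons (fin 1036 2 972)
(mv 1104 (cons (fin 1105 0 1037)
(mv 911 (cons (fin 1168 7 911)
(fin 847 4 847))))))))))
(cons (mv 1100 (cons (fin 1101 1 1036)
(mv 1036 (cons (fin 1099 1 1035)
(mv 1104 (cons (fin 1103 0 1036)
(fin 1105 0 1037)))))))
(cons (mv 976 (cons (fin 977 2 973)
(mv 975 (cons (fin 1036 2 972)
(mv 1101 (cons (fin 1100 1 1036)
(mv 1041 (cons (fin 1102 1 1037)
(mv 1042 (cons (fin 974 3 974)
(fin 1043 3 975)))))))))))
(mv 977 (cons (fin 976 2 973)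
(mv 1041 (cons (fin 978 2 974)
(mv 1101 (cons (fin 1100 1 1036)
(fin 1102 1 1037)))))))))))
(mv 1037 (cons (cons (mv 972 (cons (fin 973 3 972)
(mv 1036 (cons (fin 971 3 971)
(mv 1100 (cons (fin 1099 1 1035)
(fin 1101 1 1036)))))))
(mv 1100 (cons (fin 1101 1 1036)
(mv 1036 (cons (fin 1099 1 1035)
(mv 1104 (cons (fin 1103 0 1036)
(fin 1105 0 1037))))))))
(cons (mv 972 (cons (fin 973 3 972)
(mv 1036 (cons (fin 971 3 971)
(mv 1104 (cons (fin 1103 0 1036)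
(fin 1105 0 1037)))))))
(mv 973 (cons (fin 972 3 972)
(mv 974 (cons (fin 1041 3 973)
(mv 1101 (cons (fin 1100 1 1036)
(mv 910 (cons (fin 846 5 845)
(fin 1165 6 909)))))))))))))
(cons (mv 1037 (cons (cons (mv 972 (cons (fin 973 3 972)
(mv 976 (cons (fin 977 2 973)
(mv 1036 (cons (fin 971 3 971)
(fin 975 2 972)))))))
(mv 976 (cons (fin 977 2 973)
(mv 975 (cons (fin 1036 2 972)
(mv 1104 (cons (fin 1105 0 1037)
(mv 911 (cons (fin 1168 7 911)
(fin 847 4 847))))))))))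
(cons (mv 972 (cons (fin 973 3 972)
(mv 1036 (cons (fin 971 3 971)
(mv 1104 (cons (fin 1103 0 1036)
(fin 1105 0 1037)))))))
(mv 973 (cons (fin 972 3 972)
(mv 977 (cons (fin 976 2 973)
(mv 1041 (cons (fin 974 3 973)
(fin 978 2 974))))))))))
(mv 1037 (cons (cons (mv 972 (cons (fin 973 3 972)
(mv 971 (cons (fin 1036 3 971)
(mv 977 (cons (fin 976 2 973)
(mv 1041 (cons (fin 978 2 974)
(mv 1101 (cons (fin 1100 1 1036)
(fin 1102 1 1037)))))))))))
(mv 976 (cons (fin 977 2 973)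
(mv 975 (cons (fin 1036 2 972)
(mv 1101 (cons (fin 1100 1 1036)
(mv 1041 (cons (fin 1102 1 1037)
(mv 1042 (cons (fin 974 3 974)
(fin 1043 3 975))))))))))))
(cons (mv 972 (cons (fin 973 3 972)
(mv 976 (cons (fin 977 2 973)
(mv 1036 (cons (fin 971 3 971)
(fin 975 2 972)))))))
(cons (mv 972 (cons (fin 973 3 972)
(mv 1036 (cons (fin 971 3 971)
(mv 1100 (cons (fin 1099 1 1035)
(fin 1101 1 1036)))))))
(mv 972 (cons (fin 973 3 972)
(mv 977 (cons (fin 976 2 973)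
(mv 1041 (cons (fin 978 2 974)
(mv 1101 (cons (fin 1100 1 1036)
(fin 1102 1 1037))))))))))))))))))
(cons (mv 1038 (cons (cons (mv 1037 (cons (cons (mv 972 (cons (fin 973 3 972)
(mv 971 (cons (fin 1036 3 971)
(mv 977 (cons (fin 976 2 973)
(mv 1041 (cons (fin 978 2 974)
(mv 1101 (cons (fin 1100 1 1036)
(fin 1102 1 1037)))))))))))
(mv 976 (cons (fin 977 2 973)
(mv 975 (cons (fin 1036 2 972)
(mv 1101 (cons (fin 1100 1 1036)
(mv 1041 (cons (fin 1102 1 1037)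
(mv 1042 (cons (fin 974 3 974)
(fin 1043 3 975))))))))))))
(cons (mv 972 (cons (fin 973 3 972)
(mv 976 (cons (fin 977 2 973)
(mv 1036 (cons (fin 971 3 971)
(fin 975 2 972)))))))
(cons (mv 972 (cons (fin 973 3 972)
(mv 1036 (cons (fin 971 3 971)
(mv 1100 (cons (fin 1099 1 1035)
(fin 1101 1 1036)))))))
(mv 972 (cons (fin 973 3 972)
(mv 977 (cons (fin 976 2 973)
(mv 1041 (cons (fin 978 2 974)
(mv 1101 (cons (fin 1100 1 1036)
(fin 1102 1 1037)))))))))))))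
(cons (mv 1041 (cons (cons (mv 973 (cons (fin 974 3 973)
(mv 978 (cons (fin 977 2 974)
(mv 1042 (cons (fin 979 2 975)
(mv 1102 (cons (fin 1101 1 1037)
(fin 1103 1 1038)))))))))
(mv 978 (cons (fin 977 2 974)
(mv 1042 (cons (fin 979 2 975)
(mv 1102 (cons (fin 1101 1 1037)
(fin 1103 1 1038))))))))
(cons (mv 974 (cons (fin 973 3 973)
(mv 978 (cons (fin 977 2 974)
(mv 1042 (cons (fin 975 3 974)
(fin 979 2 975)))))))
(cons (mv 974 (cons (fin 973 3 973)
(mv 975 (cons (fin 1042 3 974)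
(mv 1102 (cons (fin 1101 1 1037)
(mv 911 (cons (fin 847 5 846)
(fin 1166 6 910)))))))))
(mv 974 (cons (fin 973 3 973)
(mv 977 (cons (fin 978 2 974)
(mv 1101 (cons (fin 1102 1 1037)
(mv 913 (cons (cons (mv 849 (cons (fin 1104 5 848)
(mv 784 (cons (fin 848 7 784)
(mv 785 (cons (fin 720 7 720)
(fin 976 5 784)))))))
(mv 912 (cons (cons (mv 848 (cons (fin 1105 7 848)
(mv 784 (cons (fin 720 4 720)
(fin 976 4 784)))))
(mv 914 (cons (mv 975 (cons (fin 911 1 910)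
(fin 976 2 910)))
(cons (mv 850 (cons (fin 1105 6 849)
(mv 722 (cons (fin 786 5 721)
(mv 851 (cons (fin 911 2 847)
(mv 852 (cons (fin 853 1 849)
(fin 915 2 848)))))))))
(mv 850 (cons (fin 1105 6 849)
(mv 786 (cons (fin 722 5 721)
(mv 976 (cons (fin 975 2 910)
(mv 915 (cons (fin 916 1 912)
(mv 851 (cons (fin 852 2 848)
(mv 979 (cons (fin 980 0 912)
(fin 1043 7 786)))))))))))))))))
(cons (mv 976 (cons (mv 848 (cons (fin 1103 5 847)
(fin 784 4 784)))
(mv 914 (cons (fin 975 2 910)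
(mv 915 (cons (fin 916 1 912)
(mv 851 (cons (fin 852 2 848)
(mv 850 (cons (fin 911 2 847)
(mv 786 (cons (fin 722 5 721)
(mv 979 (cons (fin 980 0 912)
(fin 1043 7 786)))))))))))))))
(mv 1105 (cons (fin 848 7 848)
(mv 914 (cons (fin 850 6 849)
(mv 911 (cons (fin 975 1 910)
(mv 846 (cons (fin 847 3 846)
(mv 910 (cons (fin 845 3 845)
(fin 1103 4 846)))))))))))))))
(cons (mv 849 (cons (fin 1104 5 848)
(mv 784 (cons (fin 848 7 784)
(mv 785 (cons (fin 720 7 720)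
(mv 786 (cons (fin 722 6 721)
(fin 850 6 785)))))))))
(mv 849 (cons (fin 1104 5 848)
(mv 785 (cons (fin 976 5 784)
(mv 786 (cons (fin 722 6 721)
(fin 850 6 785))))))))))))))))))))
(mv 1037 (cons (cons (mv 972 (cons (fin 973 3 972)
(mv 976 (cons (fin 977 2 973)
(mv 1036 (cons (fin 971 3 971)
(fin 975 2 972)))))))
(mv 972 (cons (fin 973 3 972)
(mv 1036 (cons (fin 971 3 971)
(mv 1100 (cons (fin 1099 1 1035)
(fin 1101 1 1036))))))))
(cons (mv 976 (cons (fin 977 2 973)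
(mv 1036 (cons (fin 975 2 972)
(mv 1100 (cons (fin 1099 1 1035)
(fin 1101 1 1036)))))))
(mv 972 (cons (fin 973 3 972)
(mv 976 (cons (fin 977 2 973)
(mv 1100 (cons (fin 1101 1 1036)
(mv 1104 (cons (fin 1105 0 1037)
(mv 912 (cons (mv 1103 (cons (fin 848 5 847)
(fin 1167 5 911)))
(cons (mv 847 (cons (fin 911 7 847)
(mv 848 (cons (fin 783 7 783)
(mv 849 (cons (fin 785 6 784)
(fin 913 6 848)))))))
(mv 911 (cons (fin 847 7 847)
(mv 913 (cons (fin 849 6 848)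
(mv 1103 (cons (fin 1167 5 911)
(mv 910 (cons (cons (mv 846 (cons (fin 845 3 845)
(fin 975 7 846)))
(mv 909 (cons (mv 908 (cons (fin 971 1 907)
(fin 975 0 908)))
(cons (mv 845 (cons (fin 844 3 844)
(mv 974 (cons (fin 1102 7 845)
(mv 914 (cons (fin 975 1 910)
(mv 851 (cons (fin 850 2 847)
(mv 915 (cons (fin 852 2 848)
(mv 979 (cons (fin 978 0 911)
(fin 980 0 912)))))))))))))
(mv 844 (cons (fin 845 3 844)
(mv 908 (cons (fin 843 3 843)
(fin 971 1 907)))))))))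
(cons (mv 846 (cons (fin 845 3 845)
(fin 974 4 846)))
(mv 846 (cons (fin 975 7 846)
(fin 974 4 846))))))))))))))))))))))))))))
(cons (cons (mv 1037 (cons (cons (mv 976 (cons (fin 977 2 973)
(mv 975 (cons (fin 1036 2 972)
(mv 1101 (cons (fin 1100 1 1036)
(mv 1041 (cons (fin 1102 1 1037)
(mv 1042 (cons (fin 974 3 974)
(fin 1043 3 975)))))))))))
(mv 1100 (cons (fin 1101 1 1036)
(mv 1036 (cons (fin 1099 1 1035)
(mv 1104 (cons (fin 1103 0 1036)
(fin 1105 0 1037))))))))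
(cons (mv 976 (cons (fin 977 2 973)
(mv 1036 (cons (fin 975 2 972)
(mv 1104 (cons (fin 1103 0 1036)
(fin 1105 0 1037)))))))
(mv 977 (cons (fin 976 2 973)
(mv 1041 (cons (fin 978 2 974)
(mv 1101 (cons (fin 1100 1 1036)
(fin 1102 1 1037))))))))))
(mv 1037 (cons (cons (mv 972 (cons (fin 973 3 972)
(mv 976 (cons (fin 977 2 973)
(mv 1036 (cons (fin 971 3 971)
(fin 975 2 972)))))))
(mv 972 (cons (fin 973 3 972)
(mv 1036 (cons (fin 971 3 971)
(mv 1104 (cons (fin 1103 0 1036)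
(fin 1105 0 1037))))))))
(cons (mv 976 (cons (fin 977 2 973)
(mv 1036 (cons (fin 975 2 972)
(mv 1104 (cons (fin 1103 0 1036)
(fin 1105 0 1037)))))))
(mv 973 (cons (fin 972 3 972)
(mv 977 (cons (fin 976 2 973)
(mv 1041 (cons (fin 974 3 973)
(fin 978 2 974)))))))))))
(cons (mv 1037 (cons (cons (mv 972 (cons (fin 973 3 972)
(mv 1036 (cons (fin 971 3 971)
(mv 1100 (cons (fin 1099 1 1035)
(fin 1101 1 1036)))))))
(mv 1100 (cons (fin 1101 1 1036)
(mv 1036 (cons (fin 1099 1 1035)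
(mv 1104 (cons (fin 1103 0 1036)
(fin 1105 0 1037))))))))
(cons (mv 972 (cons (fin 973 3 972)
(mv 1036 (cons (fin 971 3 971)
(mv 1104 (cons (fin 1103 0 1036)
(fin 1105 0 1037)))))))
(mv 973 (cons (fin 972 3 972)
(mv 974 (cons (fin 1041 3 973)
(mv 1101 (cons (fin 1100 1 1036)
(mv 910 (cons (fin 846 5 845)
(fin 1165 6 909))))))))))))
(mv 1037 (cons (cons (mv 972 (cons (fin 973 3 972)
(mv 971 (cons (fin 1036 3 971)
(mv 977 (cons (fin 976 2 973)
(mv 1041 (cons (fin 978 2 974)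
(mv 1101 (cons (fin 1100 1 1036)
(fin 1102 1 1037)))))))))))
(mv 972 (cons (fin 973 3 972)
(mv 1036 (cons (fin 971 3 971)
(mv 1100 (cons (fin 1099 1 1035)
(fin 1101 1 1036))))))))
(cons (mv 972 (cons (fin 973 3 972)
(mv 976 (cons (fin 977 2 973)
(mv 1036 (cons (fin 971 3 971)
(fin 975 2 972)))))))
(cons (mv 976 (cons (fin 977 2 973)
(mv 975 (cons (fin 1036 2 972)
(mv 1101 (cons (fin 1100 1 1036)
(mv 1102 (cons (fin 1041 1 1037)
(mv 911 (cons (fin 847 5 846)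
(mv 1166 (cons (fin 1103 5 910)
(fin 1230 6 974)))))))))))))
(mv 972 (cons (fin 973 3 972)
(mv 977 (cons (fin 976 2 973)
(mv 1041 (cons (fin 978 2 974)
(mv 1101 (cons (fin 1100 1 1036)
(fin 1102 1 1037)))))))))))))))))
(mv 1038 (cons (cons (mv 1037 (cons (cons (mv 972 (cons (fin 973 3 972)
(mv 971 (cons (fin 1036 3 971)
(mv 977 (cons (fin 976 2 973)
(mv 1041 (cons (fin 978 2 974)
(mv 1101 (cons (fin 1100 1 1036)
(fin 1102 1 1037)))))))))))
(cons (mv 976 (cons (fin 977 2 973)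
(mv 975 (cons (fin 1036 2 972)
(mv 1100 (cons (fin 1101 1 1036)
(mv 1104 (cons (fin 1105 0 1037)
(mv 1168 (cons (fin 911 7 911)
(fin 1232 7 975)))))))))))
(mv 972 (cons (fin 973 3 972)
(mv 976 (cons (fin 977 2 973)
(mv 1036 (cons (fin 971 3 971)
(fin 975 2 972)))))))))
(cons (mv 972 (cons (fin 973 3 972)
(mv 971 (cons (fin 1036 3 971)
(mv 1101 (cons (fin 1100 1 1036)
(mv 1041 (cons (fin 1102 1 1037)
(mv 978 (cons (fin 977 2 974)
(mv 1042 (cons (fin 979 2 975)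
(mv 975 (cons (fin 974 3 974)
(mv 1104 (cons (fin 1105 0 1037)
(mv 1103 (cons (fin 1043 1 1039)
(mv 1168 (cons (fin 1232 7 975)
(fin 911 4 911)))))))))))))))))))))
(cons (mv 972 (cons (fin 973 3 972)
(mv 1036 (cons (fin 971 3 971)
(mv 1100 (cons (fin 1099 1 1035)
(fin 1101 1 1036)))))))
(mv 972 (cons (fin 973 3 972)
(mv 977 (cons (fin 976 2 973)
(mv 1041 (cons (fin 978 2 974)
(mv 1101 (cons (fin 1100 1 1036)
(fin 1102 1 1037)))))))))))))
(cons (mv 1041 (cons (cons (mv 973 (cons (fin 974 3 973)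
(mv 978 (cons (fin 977 2 974)
(mv 1042 (cons (fin 979 2 975)
(mv 1102 (cons (fin 1101 1 1037)
(fin 1103 1 1038)))))))))
(mv 978 (cons (fin 977 2 974)
(mv 1042 (cons (fin 979 2 975)
(mv 1102 (cons (fin 1101 1 1037)
(fin 1103 1 1038))))))))
(cons (mv 974 (cons (fin 973 3 973)
(mv 978 (cons (fin 977 2 974)
(mv 1042 (cons (fin 975 3 974)
(fin 979 2 975)))))))
(cons (mv 974 (cons (fin 973 3 973)
(mv 975 (cons (fin 1042 3 974)
(mv 1102 (cons (fin 1101 1 1037)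
(mv 1166 (cons (fin 911 6 910)
(fin 1230 6 974)))))))))
(mv 973 (cons (fin 974 3 973)
(mv 977 (cons (fin 978 2 974)
(mv 1102 (cons (fin 1101 1 1037)
(mv 913 (cons (cons (mv 849 (cons (fin 1104 5 848)
(mv 784 (cons (fin 848 7 784)
(mv 785 (cons (fin 720 7 720)
(fin 976 5 784)))))))
(mv 1105 (cons (cons (mv 848 (cons (fin 912 7 848)
(mv 850 (cons (fin 914 6 849)
(mv 1168 (cons (fin 1104 5 912)
(mv 1169 (cons (fin 1232 5 976)
(mv 976 (cons (fin 1233 7 976)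
(mv 1170 (cons (fin 1234 4 977)
(mv 1167 (cons (fin 1103 3 1102)
(mv 1230 (cons (fin 1231 1 1166)
(mv 1166 (cons (fin 1229 1 1165)
(fin 975 6 974)))))))))))))))))))
(cons (mv 850 (cons (fin 914 6 849)
(mv 912 (cons (fin 848 7 848)
(mv 1169 (cons (fin 976 7 912)
(mv 1234 (cons (fin 1170 4 977)
(mv 1233 (cons (fin 1298 4 1041)
(mv 1296 (cons (fin 1232 5 1040)
(mv 1297 (cons (fin 1104 7 1040)
(fin 1360 5 1104)))))))))))))))
(mv 850 (cons (fin 914 6 849)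
(mv 912 (cons (fin 848 7 848)
(mv 1169 (cons (fin 976 7 912)
(mv 1168 (cons (fin 1232 5 976)
(mv 1170 (cons (fin 1234 4 977)
(mv 1167 (cons (fin 1103 3 1102)
(mv 1230 (cons (fin 1231 1 1166)
(mv 1166 (cons (fin 1229 1 1165)
(fin 975 6 974)))))))))))))))))))
(cons (cons (mv 850 (cons (fin 914 6 849)
(mv 1104 (cons (fin 1168 5 912)
(mv 1169 (cons (mv 1170 (cons (fin 1103 0 1102)
(fin 1234 4 977)))
(mv 1233 (cons (fin 976 7 976)
(fin 1297 7 1040)))))))))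
(mv 848 (cons (fin 912 7 848)
(mv 1168 (cons (fin 1104 5 912)
(mv 1169 (cons (fin 1232 5 976)
(mv 976 (cons (fin 1233 7 976)
(mv 1170 (cons (fin 1234 4 977)
(mv 1167 (cons (fin 1103 3 1102)
(mv 1230 (cons (fin 1231 1 1166)
(mv 1166 (cons (fin 1229 1 1165)
(fin 975 6 974))))))))))))))))))
(cons (mv 848 (cons (fin 912 7 848)
(mv 850 (cons (fin 914 6 849)
(mv 1168 (cons (fin 1104 5 912)
(mv 1169 (cons (fin 1232 5 976)
(mv 1170 (cons (fin 1234 4 977)
(mv 1167 (cons (fin 1103 3 1102)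
(mv 1230 (cons (fin 1231 1 1166)
(mv 1166 (cons (fin 1229 1 1165)
(fin 975 6 974)))))))))))))))))
(mv 912 (cons (fin 848 7 848)
(mv 914 (cons (fin 850 6 849)
(mv 1104 (cons (fin 1168 5 912)
(mv 915 (cons (mv 976 (cons (fin 975 1 911)
(fin 916 1 912)))
(cons (mv 852 (cons (fin 851 2 848)
(mv 916 (cons (fin 853 2 849)
(mv 980 (cons (fin 979 0 912)
(fin 981 0 913)))))))
(mv 851 (cons (fin 852 2 848)
(mv 975 (cons (fin 976 1 911)
(mv 979 (cons (fin 980 0 912)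
(mv 1166 (cons (fin 1230 6 974)
(mv 1103 (cons (fin 1165 1 1101)
(fin 911 5 910)))))))))))))))))))))))))
(cons (mv 849 (cons (mv 784 (cons (fin 848 7 784)
(mv 785 (cons (fin 720 7 720)
(fin 976 5 784)))))
(cons (mv 848 (cons (fin 784 7 784)
(mv 850 (cons (fin 786 6 785)
(mv 1105 (cons (fin 912 7 848)
(fin 914 6 849)))))))
(mv 785 (cons (fin 976 5 784)
(mv 786 (cons (fin 722 6 721)
(fin 850 6 785))))))))
(cons (mv 849 (cons (fin 1104 5 848)
(mv 784 (cons (fin 848 7 784)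
(mv 785 (cons (fin 720 7 720)
(mv 786 (cons (fin 722 6 721)
(fin 850 6 785)))))))))
(mv 849 (cons (fin 1104 5 848)
(mv 785 (cons (fin 976 5 784)
(mv 786 (cons (fin 722 6 721)
(fin 850 6 785)))))))))))))))))))))
(mv 1037 (cons (cons (mv 972 (cons (fin 973 3 972)
(mv 976 (cons (fin 977 2 973)
(mv 1036 (cons (fin 971 3 971)
(fin 975 2 972)))))))
(mv 972 (cons (fin 973 3 972)
(mv 1036 (cons (fin 971 3 971)
(mv 1100 (cons (fin 1099 1 1035)
(fin 1101 1 1036))))))))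
(cons (mv 976 (cons (fin 977 2 973)
(mv 975 (cons (fin 1036 2 972)
(mv 1100 (cons (fin 1101 1 1036)
(mv 1104 (cons (fin 1105 0 1037)
(mv 1168 (cons (fin 911 7 911)
(fin 1232 7 975)))))))))))
(mv 972 (cons (fin 973 3 972)
(mv 976 (cons (fin 977 2 973)
(mv 1100 (cons (fin 1101 1 1036)
(mv 1104 (cons (fin 1105 0 1037)
(mv 1168 (cons (mv 975 (cons (fin 911 7 911)
(fin 1232 7 975)))
(mv 1167 (cons (fin 1231 5 975)
(mv 1103 (cons (fin 912 5 911)
(mv 1169 (cons (fin 1233 4 976)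
(mv 1170 (cons (fin 1102 3 1102)
(fin 1171 3 1103))))))))))))))))))))))))
(cons (cons (mv 1037 (cons (cons (mv 976 (cons (fin 977 2 973)
(mv 975 (cons (fin 1036 2 972)
(mv 1100 (cons (fin 1101 1 1036)
(mv 1104 (cons (fin 1105 0 1037)
(mv 1168 (cons (fin 911 7 911)
(fin 1232 7 975)))))))))))
(mv 1100 (cons (fin 1101 1 1036)
(mv 1036 (cons (fin 1099 1 1035)
(mv 1104 (cons (fin 1103 0 1036)
(fin 1105 0 1037))))))))
(cons (mv 976 (cons (fin 977 2 973)
(mv 975 (cons (fin 1036 2 972)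
(mv 1104 (cons (fin 1105 0 1037)
(mv 1168 (cons (fin 911 7 911)
(fin 1232 7 975)))))))))
(cons (mv 976 (cons (fin 977 2 973)
(mv 975 (cons (fin 1036 2 972)
(mv 1101 (cons (fin 1100 1 1036)
(mv 1041 (cons (fin 1102 1 1037)
(mv 1042 (cons (fin 974 3 974)
(fin 1043 3 975)))))))))))
(mv 977 (cons (fin 976 2 973)
(mv 1041 (cons (fin 978 2 974)
(mv 1101 (cons (fin 1100 1 1036)
(fin 1102 1 1037)))))))))))
(mv 1037 (cons (cons (mv 972 (cons (fin 973 3 972)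
(mv 976 (cons (fin 977 2 973)
(mv 1036 (cons (fin 971 3 971)
(fin 975 2 972)))))))
(mv 972 (cons (fin 973 3 972)
(mv 1036 (cons (fin 971 3 971)
(mv 1104 (cons (fin 1103 0 1036)
(fin 1105 0 1037))))))))
(cons (mv 976 (cons (fin 977 2 973)
(mv 975 (cons (fin 1036 2 972)
(mv 1104 (cons (fin 1105 0 1037)
(mv 1168 (cons (fin 911 7 911)
(fin 1232 7 975)))))))))
(mv 973 (cons (fin 972 3 972)
(mv 977 (cons (fin 976 2 973)
(mv 1041 (cons (fin 974 3 973)
(fin 978 2 974)))))))))))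
(cons (mv 1037 (cons (cons (mv 972 (cons (fin 973 3 972)
(mv 1036 (cons (fin 971 3 971)
(mv 1100 (cons (fin 1099 1 1035)
(fin 1101 1 1036)))))))
(mv 1100 (cons (fin 1101 1 1036)
(mv 1036 (cons (fin 1099 1 1035)
(mv 1104 (cons (fin 1103 0 1036)
(fin 1105 0 1037))))))))
(cons (mv 972 (cons (fin 973 3 972)
(mv 1036 (cons (fin 971 3 971)
(mv 1104 (cons (fin 1103 0 1036)
(fin 1105 0 1037)))))))
(mv 973 (cons (fin 972 3 972)
(mv 974 (cons (fin 1041 3 973)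
(mv 1101 (cons (fin 1100 1 1036)
(mv 910 (cons (fin 846 5 845)
(fin 1165 6 909))))))))))))
(mv 1037 (cons (cons (mv 972 (cons (fin 973 3 972)
(mv 971 (cons (fin 1036 3 971)
(mv 977 (cons (fin 976 2 973)
(mv 1041 (cons (fin 978 2 974)
(mv 1101 (cons (fin 1100 1 1036)
(fin 1102 1 1037)))))))))))
(mv 976 (cons (fin 977 2 973)
(mv 975 (cons (fin 1036 2 972)
(mv 1101 (cons (fin 1100 1 1036)
(mv 1041 (cons (fin 1102 1 1037)
(mv 1042 (cons (fin 974 3 974)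
(fin 1043 3 975))))))))))))
(cons (mv 972 (cons (fin 973 3 972)
(mv 976 (cons (fin 977 2 973)
(mv 1036 (cons (fin 971 3 971)
(fin 975 2 972)))))))
(cons (mv 972 (cons (fin 973 3 972)
(mv 1036 (cons (fin 971 3 971)
(mv 1100 (cons (fin 1099 1 1035)
(fin 1101 1 1036)))))))
(mv 972 (cons (fin 973 3 972)
(mv 977 (cons (fin 976 2 973)
(mv 1041 (cons (fin 978 2 974)
(mv 1101 (cons (fin 1100 1 1036)
(fin 1102 1 1037))))))))))))))))))))
(cons (cons (cons (mv 1038 (cons (cons (cons (mv 1037 (cons (cons (mv 972 (cons (fin 973 3 972)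
(mv 971 (cons (fin 1036 3 971)
(mv 977 (cons (fin 976 2 973)
(mv 1041 (cons (fin 978 2 974)
(mv 1101 (cons (fin 1100 1 1036)
(fin 1102 1 1037)))))))))))
(mv 976 (cons (fin 977 2 973)
(mv 975 (cons (fin 1036 2 972)
(mv 1101 (cons (fin 1100 1 1036)
(mv 1041 (cons (fin 1102 1 1037)
(mv 1042 (cons (fin 974 3 974)
(fin 1043 3 975))))))))))))
(cons (mv 972 (cons (fin 973 3 972)
(mv 976 (cons (fin 977 2 973)
(mv 1036 (cons (fin 971 3 971)
(fin 975 2 972)))))))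
(cons (mv 972 (cons (fin 973 3 972)
(mv 1036 (cons (fin 971 3 971)
(mv 1100 (cons (fin 1099 1 1035)
(fin 1101 1 1036)))))))
(mv 972 (cons (fin 973 3 972)
(mv 977 (cons (fin 976 2 973)
(mv 1041 (cons (fin 978 2 974)
(mv 1101 (cons (fin 1100 1 1036)
(fin 1102 1 1037)))))))))))))
(mv 1041 (cons (cons (mv 973 (cons (fin 974 3 973)
(mv 978 (cons (fin 977 2 974)
(mv 1042 (cons (fin 979 2 975)
(mv 1102 (cons (fin 1101 1 1037)
(fin 1103 1 1038)))))))))
(mv 978 (cons (fin 977 2 974)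
(mv 1042 (cons (fin 979 2 975)
(mv 1102 (cons (fin 1101 1 1037)
(fin 1103 1 1038))))))))
(cons (mv 974 (cons (fin 973 3 973)
(mv 978 (cons (fin 977 2 974)
(mv 1042 (cons (fin 975 3 974)
(fin 979 2 975)))))))
(cons (mv 974 (cons (fin 973 3 973)
(mv 975 (cons (fin 1042 3 974)
(mv 1102 (cons (fin 1101 1 1037)
(mv 911 (cons (fin 847 5 846)
(fin 1166 6 910)))))))))
(mv 974 (cons (fin 973 3 973)
(mv 977 (cons (fin 978 2 974)
(mv 1101 (cons (fin 1102 1 1037)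
(mv 910 (cons (cons (mv 846 (cons (fin 1103 4 846)
(mv 781 (cons (fin 845 7 781)
(mv 782 (cons (fin 717 7 717)
(fin 975 4 782)))))))
(mv 975 (cons (cons (mv 976 (cons (fin 909 3 909)
(mv 913 (cons (fin 914 2 910)
(mv 849 (cons (fin 785 5 784)
(fin 1104 5 848)))))))
(mv 1103 (cons (fin 1167 7 910)
(mv 911 (cons (mv 847 (cons (fin 783 5 782)
(fin 1104 4 847)))
(cons (mv 847 (cons (fin 783 5 782)
(mv 848 (cons (fin 784 6 783)
(fin 912 6 847)))))
(mv 912 (cons (fin 848 6 847)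
(mv 913 (cons (fin 914 1 910)
(mv 849 (cons (fin 850 2 846)
(fin 1104 5 848)))))))))))))
(cons (mv 976 (cons (fin 909 3 909)
(mv 913 (cons (fin 914 2 910)
(mv 849 (cons (fin 785 5 784)
(mv 786 (cons (fin 850 6 785)
(mv 848 (cons (fin 784 7 784)
(mv 1103 (cons (fin 1167 7 910)
(fin 912 5 847)))))))))))))
(mv 909 (cons (fin 976 3 909)
(mv 908 (cons (fin 907 0 907)
(mv 1103 (cons (fin 1167 7 910)
(mv 911 (cons (mv 847 (cons (fin 848 2 844)
(fin 783 5 782)))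
(cons (mv 844 (cons (fin 843 3 843)
(mv 912 (cons (fin 845 3 844)
(fin 848 6 847)))))
(mv 847 (cons (fin 783 5 782)
(fin 1104 4 847))))))))))))))))
(cons (mv 846 (cons (mv 781 (cons (fin 845 7 781)
(mv 782 (cons (fin 717 7 717)
(fin 975 4 782)))))
(cons (mv 781 (cons (fin 845 7 781)
(mv 847 (cons (fin 783 6 782)
(mv 849 (cons (mv 848 (cons (fin 909 1 845)
(mv 913 (cons (fin 914 0 846)
(fin 784 7 784)))))
(cons (mv 913 (cons (fin 1104 5 848)
(mv 785 (cons (fin 976 5 784)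
(mv 786 (cons (fin 722 6 721)
(fin 850 6 785)))))))
(mv 848 (cons (fin 909 1 845)
(mv 785 (cons (fin 786 2 782)
(mv 850 (cons (fin 911 1 846)
(mv 912 (cons (fin 976 6 784)
(mv 915 (cons (fin 914 0 847)
(mv 851 (cons (fin 916 0 848)
(mv 788 (cons (fin 787 2 784)
(mv 852 (cons (fin 784 3 784)
(fin 789 2 785))))))))))))))))))))))))
(mv 782 (cons (fin 975 4 782)
(mv 783 (cons (fin 719 6 718)
(fin 847 6 782))))))))
(cons (mv 846 (cons (fin 1103 4 846)
(mv 781 (cons (fin 845 7 781)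
(mv 782 (cons (fin 717 7 717)
(mv 783 (cons (fin 719 6 718)
(fin 847 6 782)))))))))
(mv 846 (cons (fin 1103 4 846)
(mv 782 (cons (fin 975 4 782)
(mv 783 (cons (fin 719 6 718)
(fin 847 6 782))))))))))))))))))))))
(cons (mv 1037 (cons (cons (mv 972 (cons (fin 973 3 972)
(mv 976 (cons (fin 977 2 973)
(mv 1036 (cons (fin 971 3 971)
(fin 975 2 972)))))))
(mv 972 (cons (fin 973 3 972)
(mv 1036 (cons (fin 971 3 971)
(mv 1100 (cons (fin 1099 1 1035)
(fin 1101 1 1036))))))))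
(cons (mv 976 (cons (fin 977 2 973)
(mv 1036 (cons (fin 975 2 972)
(mv 1100 (cons (fin 1099 1 1035)
(fin 1101 1 1036)))))))
(mv 972 (cons (fin 973 3 972)
(mv 976 (cons (fin 977 2 973)
(mv 1100 (cons (fin 1101 1 1036)
(mv 912 (cons (cons (mv 848 (cons (fin 1103 5 847)
(mv 783 (cons (fin 847 7 783)
(mv 784 (cons (fin 719 7 719)
(fin 975 5 783)))))))
(mv 848 (cons (cons (mv 783 (cons (fin 847 7 783)
(mv 784 (cons (fin 719 7 719)
(fin 975 5 783)))))
(mv 785 (cons (fin 849 6 784)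
(mv 847 (cons (fin 783 7 783)
(mv 911 (cons (fin 1104 7 847)
(mv 975 (cons (fin 1102 5 846)
(mv 846 (cons (fin 782 7 782)
(mv 845 (cons (fin 844 0 844)
(fin 913 0 845))))))))))))))
(cons (mv 784 (cons (fin 975 5 783)
(mv 785 (cons (fin 721 6 720)
(fin 849 6 784)))))
(mv 783 (cons (fin 847 7 783)
(mv 784 (cons (fin 719 7 719)
(mv 785 (cons (fin 721 6 720)
(fin 849 6 784)))))))))))
(cons (mv 1104 (cons (cons (mv 847 (cons (fin 911 7 847)
(mv 849 (cons (fin 913 6 848)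
(mv 1167 (cons (fin 1103 5 911)
(mv 1168 (cons (fin 1231 5 975)
(mv 1232 (cons (fin 975 7 975)
(mv 1233 (cons (fin 1169 4 976)
(fin 1297 4 1040)))))))))))))
(cons (mv 849 (cons (fin 913 6 848)
(mv 911 (cons (fin 847 7 847)
(mv 1168 (cons (fin 975 7 911)
(mv 1233 (cons (fin 1169 4 976)
(mv 1232 (cons (fin 1297 4 1040)
(mv 1295 (cons (fin 1231 5 1039)
(mv 1296 (cons (fin 1103 7 1039)
(fin 1359 5 1103)))))))))))))))
(mv 849 (cons (fin 913 6 848)
(mv 911 (cons (fin 847 7 847)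
(mv 1168 (cons (fin 975 7 911)
(mv 1231 (cons (fin 1167 5 975)
(mv 1232 (cons (fin 1295 5 1039)
(mv 1233 (cons (fin 1169 4 976)
(fin 1297 4 1040)))))))))))))))
(cons (cons (mv 849 (cons (fin 913 6 848)
(mv 1167 (cons (fin 1103 5 911)
(mv 1168 (cons (fin 1231 5 975)
(mv 1232 (cons (fin 975 7 975)
(mv 1233 (cons (fin 1169 4 976)
(fin 1297 4 1040)))))))))))
(mv 847 (cons (fin 911 7 847)
(mv 1167 (cons (fin 1103 5 911)
(mv 1168 (cons (fin 1231 5 975)
(mv 1232 (cons (fin 975 7 975)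
(mv 1233 (cons (fin 1169 4 976)
(fin 1297 4 1040))))))))))))
(cons (mv 847 (cons (fin 911 7 847)
(mv 849 (cons (fin 913 6 848)
(mv 1168 (cons (cons (mv 1167 (cons (fin 1103 5 911)
(fin 1231 5 975)))
(mv 1233 (cons (fin 1169 4 976)
(mv 1232 (cons (fin 1297 4 1040)
(mv 1295 (cons (fin 1231 5 1039)
(mv 1296 (cons (fin 1103 7 1039)
(fin 1359 5 1103))))))))))
(cons (mv 1231 (cons (fin 1167 5 975)
(mv 1232 (cons (fin 1295 5 1039)
(mv 1233 (cons (fin 1169 4 976)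
(fin 1297 4 1040)))))))
(mv 1103 (cons (fin 1167 5 911)
(mv 1232 (cons (fin 1296 7 1039)
(mv 1233 (cons (fin 1169 4 976)
(fin 1297 4 1040))))))))))))))
(mv 911 (cons (fin 847 7 847)
(mv 913 (cons (fin 849 6 848)
(mv 1103 (cons (fin 1167 5 911)
(mv 910 (cons (cons (mv 846 (cons (fin 845 3 845)
(fin 975 7 846)))
(mv 909 (cons (mv 908 (cons (fin 971 1 907)
(fin 975 0 908)))
(cons (mv 845 (cons (fin 844 3 844)
(mv 974 (cons (fin 1102 7 845)
(mv 914 (cons (fin 975 1 910)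
(mv 851 (cons (fin 850 2 847)
(mv 915 (cons (fin 852 2 848)
(mv 979 (cons (fin 978 0 911)
(fin 980 0 912)))))))))))))
(mv 844 (cons (fin 845 3 844)
(mv 908 (cons (fin 843 3 843)
(fin 971 1 907)))))))))
(cons (mv 846 (cons (fin 845 3 845)
(fin 974 4 846)))
(mv 846 (cons (fin 975 7 846)
(fin 974 4 846))))))))))))))))
(cons (mv 848 (cons (fin 1103 5 847)
(mv 783 (cons (fin 847 7 783)
(mv 784 (cons (fin 719 7 719)
(mv 785 (cons (fin 721 6 720)
(fin 849 6 784)))))))))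
(mv 848 (cons (fin 1103 5 847)
(mv 784 (cons (fin 975 5 783)
(mv 785 (cons (fin 721 6 720)
(fin 849 6 784))))))))))))))))))))
(cons (mv 1037 (cons (cons (mv 976 (cons (fin 977 2 973)
(mv 975 (cons (fin 1036 2 972)
(mv 1101 (cons (fin 1100 1 1036)
(mv 1041 (cons (fin 1102 1 1037)
(mv 1042 (cons (fin 974 3 974)
(fin 1043 3 975)))))))))))
(mv 1100 (cons (fin 1101 1 1036)
(mv 1036 (cons (fin 1099 1 1035)
(mv 971 (cons (fin 972 3 971)
(mv 1035 (cons (fin 970 3 970)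
(mv 1103 (cons (fin 1102 0 1035)
(fin 1104 0 1036))))))))))))
(cons (mv 976 (cons (fin 977 2 973)
(mv 1036 (cons (fin 975 2 972)
(mv 971 (cons (fin 972 3 971)
(mv 1035 (cons (fin 970 3 970)
(mv 1099 (cons (fin 1098 1 1034)
(fin 1100 1 1035)))))))))))
(cons (mv 976 (cons (fin 977 2 973)
(mv 1036 (cons (fin 975 2 972)
(mv 971 (cons (fin 972 3 971)
(mv 1035 (cons (fin 970 3 970)
(mv 1103 (cons (fin 1102 0 1035)
(fin 1104 0 1036)))))))))))
(mv 977 (cons (fin 976 2 973)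
(mv 1041 (cons (fin 978 2 974)
(mv 1101 (cons (fin 1100 1 1036)
(fin 1102 1 1037)))))))))))
(mv 1037 (cons (cons (mv 972 (cons (fin 973 3 972)
(mv 976 (cons (fin 977 2 973)
(mv 1036 (cons (fin 971 3 971)
(fin 975 2 972)))))))
(mv 972 (cons (fin 973 3 972)
(mv 1036 (cons (fin 971 3 971)
(mv 1099 (cons (fin 1100 1 1035)
(mv 1035 (cons (fin 1098 1 1034)
(mv 1103 (cons (fin 1102 0 1035)
(fin 1104 0 1036))))))))))))
(cons (mv 976 (cons (fin 977 2 973)
(mv 1036 (cons (fin 975 2 972)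
(mv 971 (cons (fin 972 3 971)
(mv 1035 (cons (fin 970 3 970)
(mv 1099 (cons (fin 1098 1 1034)
(fin 1100 1 1035)))))))))))
(cons (mv 976 (cons (fin 977 2 973)
(mv 1036 (cons (fin 975 2 972)
(mv 1099 (cons (fin 1100 1 1035)
(mv 1035 (cons (fin 1098 1 1034)
(mv 1103 (cons (fin 1102 0 1035)
(fin 1104 0 1036)))))))))))
(mv 973 (cons (fin 972 3 972)
(mv 977 (cons (fin 976 2 973)
(mv 1041 (cons (fin 974 3 973)
(fin 978 2 974))))))))))))))
(cons (cons (mv 1037 (cons (cons (mv 972 (cons (fin 973 3 972)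
(mv 1036 (cons (fin 971 3 971)
(mv 1100 (cons (fin 1099 1 1035)
(fin 1101 1 1036)))))))
(cons (mv 1100 (cons (fin 1101 1 1036)
(mv 1036 (cons (fin 1099 1 1035)
(mv 971 (cons (fin 972 3 971)
(mv 975 (cons (fin 976 2 972)
(mv 1035 (cons (fin 970 3 970)
(fin 974 2 971)))))))))))
(mv 972 (cons (fin 973 3 972)
(mv 1036 (cons (fin 971 3 971)
(mv 975 (cons (fin 976 2 972)
(mv 974 (cons (fin 1035 2 971)
(mv 1041 (cons (fin 1042 3 974)
(mv 1099 (cons (fin 1100 1 1035)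
(mv 1103 (cons (fin 1104 0 1036)
(mv 910 (cons (fin 1167 7 910)
(fin 846 4 846)))))))))))))))))))
(cons (mv 1100 (cons (fin 1101 1 1036)
(mv 1036 (cons (fin 1099 1 1035)
(mv 975 (cons (fin 976 2 972)
(mv 974 (cons (fin 1035 2 971)
(mv 1041 (cons (fin 973 3 973)
(fin 1042 3 974)))))))))))
(cons (mv 972 (cons (fin 973 3 972)
(mv 1036 (cons (fin 971 3 971)
(mv 975 (cons (fin 976 2 972)
(mv 974 (cons (fin 1035 2 971)
(mv 1041 (cons (fin 1042 3 974)
(mv 1101 (cons (fin 1102 1 1037)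
(mv 844 (cons (fin 908 4 844)
(mv 846 (cons (fin 910 5 845)
(mv 1104 (cons (fin 1103 0 1036)
(mv 847 (cons (fin 911 4 847)
(mv 845 (cons (cons (mv 779 (cons (fin 780 3 779)
(mv 783 (cons (fin 784 2 780)
(mv 843 (cons (fin 778 3 778)
(fin 782 2 779)))))))
(mv 783 (cons (fin 784 2 780)
(mv 843 (cons (fin 782 2 779)
(mv 778 (cons (fin 779 3 778)
(mv 842 (cons (fin 777 3 777)
(mv 906 (cons (fin 905 1 841)
(fin 907 1 842))))))))))))
(cons (mv 780 (cons (fin 779 3 779)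
(mv 848 (cons (fin 781 3 780)
(mv 785 (cons (fin 784 2 781)
(mv 849 (cons (fin 786 2 782)
(mv 913 (cons (fin 912 0 845)
(fin 914 0 846)))))))))))
(cons (mv 784 (cons (fin 783 2 780)
(mv 848 (cons (fin 785 2 781)
(mv 781 (cons (fin 780 3 780)
(mv 849 (cons (fin 782 3 781)
(mv 913 (cons (fin 912 0 845)
(fin 914 0 846)))))))))))
(mv 779 (cons (fin 780 3 779)
(mv 843 (cons (fin 778 3 778)
(mv 782 (cons (fin 783 2 779)
(mv 842 (cons (fin 781 2 778)
(mv 906 (cons (fin 905 1 841)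
(fin 907 1 842)))))))))))))))))))))))))))))))))))
(mv 973 (cons (fin 972 3 972)
(mv 974 (cons (fin 1041 3 973)
(mv 1101 (cons (fin 1100 1 1036)
(mv 910 (cons (fin 846 5 845)
(fin 1165 6 909)))))))))))))
(mv 1037 (cons (cons (mv 972 (cons (fin 973 3 972)
(mv 971 (cons (fin 1036 3 971)
(mv 977 (cons (fin 976 2 973)
(mv 1041 (cons (fin 978 2 974)
(mv 1101 (cons (fin 1100 1 1036)
(fin 1102 1 1037)))))))))))
(mv 972 (cons (fin 973 3 972)
(mv 1036 (cons (fin 971 3 971)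
(mv 1100 (cons (fin 1099 1 1035)
(fin 1101 1 1036))))))))
(cons (mv 972 (cons (fin 973 3 972)
(mv 976 (cons (fin 977 2 973)
(mv 1036 (cons (fin 971 3 971)
(fin 975 2 972)))))))
(cons (mv 976 (cons (fin 977 2 973)
(mv 975 (cons (fin 1036 2 972)
(mv 1101 (cons (fin 1100 1 1036)
(mv 1102 (cons (fin 1041 1 1037)
(mv 911 (cons (fin 847 5 846)
(mv 1166 (cons (fin 1103 5 910)
(fin 1230 6 974)))))))))))))
(mv 972 (cons (fin 973 3 972)
(mv 977 (cons (fin 976 2 973)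
(mv 1041 (cons (fin 978 2 974)
(mv 1101 (cons (fin 1100 1 1036)
(fin 1102 1 1037))))))))))))))
(cons (mv 1037 (cons (cons (mv 972 (cons (fin 973 3 972)
(mv 976 (cons (fin 977 2 973)
(mv 1036 (cons (fin 971 3 971)
(fin 975 2 972)))))))
(mv 972 (cons (fin 973 3 972)
(mv 1036 (cons (fin 971 3 971)
(mv 1100 (cons (fin 1099 1 1035)
(fin 1101 1 1036))))))))
(cons (mv 976 (cons (fin 977 2 973)
(mv 1036 (cons (fin 975 2 972)
(mv 1100 (cons (fin 1099 1 1035)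
(fin 1101 1 1036)))))))
(mv 973 (cons (fin 972 3 972)
(mv 974 (cons (fin 1041 3 973)
(mv 976 (cons (fin 977 2 973)
(mv 1101 (cons (fin 1100 1 1036)
(mv 910 (cons (fin 846 5 845)
(fin 1165 6 909))))))))))))))
(cons (mv 1041 (cons (cons (mv 973 (cons (fin 974 3 973)
(mv 972 (cons (fin 1037 3 972)
(mv 978 (cons (fin 977 2 974)
(mv 1042 (cons (fin 979 2 975)
(mv 1102 (cons (fin 1101 1 1037)
(fin 1103 1 1038)))))))))))
(mv 974 (cons (fin 973 3 973)
(mv 978 (cons (fin 977 2 974)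
(mv 1042 (cons (fin 975 3 974)
(fin 979 2 975))))))))
(cons (mv 978 (cons (fin 977 2 974)
(mv 1042 (cons (fin 979 2 975)
(mv 1102 (cons (fin 1101 1 1037)
(fin 1103 1 1038)))))))
(mv 973 (cons (fin 974 3 973)
(mv 1037 (cons (fin 972 3 972)
(mv 1101 (cons (fin 1100 1 1036)
(fin 1102 1 1037))))))))))
(mv 1037 (cons (cons (mv 972 (cons (fin 973 3 972)
(mv 971 (cons (fin 1036 3 971)
(mv 977 (cons (fin 976 2 973)
(mv 1041 (cons (fin 978 2 974)
(mv 1101 (cons (fin 1100 1 1036)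
(fin 1102 1 1037)))))))))))
(cons (mv 972 (cons (fin 973 3 972)
(mv 976 (cons (fin 977 2 973)
(mv 1036 (cons (fin 971 3 971)
(mv 1099 (cons (fin 1100 1 1035)
(mv 1035 (cons (fin 1098 1 1034)
(mv 1103 (cons (fin 1102 0 1035)
(fin 1104 0 1036)))))))))))))
(mv 976 (cons (fin 977 2 973)
(mv 1100 (cons (fin 1101 1 1036)
(mv 1036 (cons (fin 1099 1 1035)
(mv 971 (cons (fin 972 3 971)
(mv 1035 (cons (fin 970 3 970)
(mv 1103 (cons (fin 1102 0 1035)
(fin 1104 0 1036)))))))))))))))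
(cons (cons (mv 972 (cons (fin 973 3 972)
(mv 976 (cons (fin 977 2 973)
(mv 1036 (cons (fin 971 3 971)
(mv 1103 (cons (fin 1104 0 1036)
(mv 848 (cons (fin 912 5 847)
(mv 1102 (cons (fin 1035 0 1035)
(mv 1041 (cons (fin 1101 1 1037)
(fin 1042 1 1038)))))))))))))))
(mv 976 (cons (fin 977 2 973)
(mv 1100 (cons (fin 1101 1 1036)
(mv 1036 (cons (fin 1099 1 1035)
(mv 1103 (cons (fin 1104 0 1036)
(mv 848 (cons (fin 912 5 847)
(mv 1102 (cons (fin 1035 0 1035)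
(mv 1041 (cons (fin 1042 1 1038)
(mv 974 (cons (fin 973 3 973)
(mv 910 (cons (fin 846 4 846)
(fin 1167 4 910))))))))))))))))))))
(cons (mv 972 (cons (fin 973 3 972)
(mv 1036 (cons (fin 971 3 971)
(mv 1100 (cons (fin 1099 1 1035)
(fin 1101 1 1036)))))))
(mv 972 (cons (fin 973 3 972)
(mv 977 (cons (fin 976 2 973)
(mv 1041 (cons (fin 978 2 974)
(mv 1101 (cons (fin 1100 1 1036)
(fin 1102 1 1037))))))))))))))))))
(mv 1038 (cons (cons (mv 1037 (cons (cons (mv 972 (cons (fin 973 3 972)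
(mv 971 (cons (fin 1036 3 971)
(mv 977 (cons (fin 976 2 973)
(mv 1041 (cons (fin 978 2 974)
(mv 1101 (cons (fin 1100 1 1036)
(fin 1102 1 1037)))))))))))
(cons (mv 972 (cons (fin 973 3 972)
(mv 971 (cons (fin 1036 3 971)
(mv 1101 (cons (fin 1100 1 1036)
(mv 1041 (cons (fin 1102 1 1037)
(mv 978 (cons (fin 977 2 974)
(mv 1042 (cons (fin 979 2 975)
(mv 975 (cons (fin 974 3 974)
(mv 1104 (cons (fin 1105 0 1037)
(mv 911 (cons (fin 847 4 847)
(mv 1103 (cons (fin 1043 1 1039)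
(fin 1168 4 911)))))))))))))))))))))
(mv 976 (cons (fin 977 2 973)
(mv 975 (cons (fin 1036 2 972)
(mv 1100 (cons (fin 1101 1 1036)
(mv 1104 (cons (fin 1105 0 1037)
(mv 911 (cons (fin 1168 7 911)
(fin 847 4 847)))))))))))))
(cons (mv 972 (cons (fin 973 3 972)
(mv 976 (cons (fin 977 2 973)
(mv 1036 (cons (fin 971 3 971)
(fin 975 2 972)))))))
(cons (mv 972 (cons (fin 973 3 972)
(mv 1036 (cons (fin 971 3 971)
(mv 1100 (cons (fin 1099 1 1035)
(fin 1101 1 1036)))))))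
(mv 972 (cons (fin 973 3 972)
(mv 977 (cons (fin 976 2 973)
(mv 1041 (cons (fin 978 2 974)
(mv 1101 (cons (fin 1100 1 1036)
(fin 1102 1 1037)))))))))))))
(cons (mv 1041 (cons (cons (mv 973 (cons (fin 974 3 973)
(mv 978 (cons (fin 977 2 974)
(mv 1042 (cons (fin 979 2 975)
(mv 1102 (cons (fin 1101 1 1037)
(fin 1103 1 1038)))))))))
(mv 974 (cons (fin 973 3 973)
(mv 978 (cons (fin 977 2 974)
(mv 1042 (cons (fin 975 3 974)
(fin 979 2 975))))))))
(cons (mv 978 (cons (fin 977 2 974)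
(mv 1042 (cons (fin 979 2 975)
(mv 1102 (cons (fin 1101 1 1037)
(fin 1103 1 1038)))))))
(cons (mv 974 (cons (fin 973 3 973)
(mv 975 (cons (fin 1042 3 974)
(mv 1102 (cons (fin 1101 1 1037)
(mv 911 (cons (fin 847 5 846)
(fin 1166 6 910)))))))))
(mv 973 (cons (fin 974 3 973)
(mv 977 (cons (fin 978 2 974)
(mv 1102 (cons (fin 1101 1 1037)
(mv 913 (cons (cons (mv 849 (cons (fin 1104 5 848)
(mv 784 (cons (fin 848 7 784)
(mv 785 (cons (fin 720 7 720)
(fin 976 5 784)))))))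
(mv 849 (cons (mv 784 (cons (fin 848 7 784)
(mv 785 (cons (fin 720 7 720)
(fin 976 5 784)))))
(cons (mv 848 (cons (fin 784 7 784)
(mv 850 (cons (fin 786 6 785)
(mv 1105 (cons (fin 912 7 848)
(fin 914 6 849)))))))
(mv 785 (cons (fin 976 5 784)
(mv 786 (cons (fin 722 6 721)
(fin 850 6 785)))))))))
(cons (mv 1105 (cons (cons (mv 848 (cons (fin 912 7 848)
(mv 850 (cons (fin 914 6 849)
(mv 1168 (cons (fin 1104 5 912)
(mv 1169 (cons (fin 1232 5 976)
(mv 976 (cons (fin 1233 7 976)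
(mv 1170 (cons (fin 1234 4 977)
(mv 1167 (cons (fin 1103 3 1102)
(mv 1230 (cons (fin 1231 1 1166)
(mv 1166 (cons (fin 1229 1 1165)
(fin 975 6 974)))))))))))))))))))
(cons (mv 850 (cons (fin 914 6 849)
(mv 912 (cons (fin 848 7 848)
(mv 1169 (cons (fin 976 7 912)
(mv 1234 (cons (fin 1170 4 977)
(mv 1233 (cons (fin 1298 4 1041)
(mv 1296 (cons (fin 1232 5 1040)
(mv 1297 (cons (fin 1104 7 1040)
(fin 1360 5 1104)))))))))))))))
(mv 850 (cons (fin 914 6 849)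
(mv 912 (cons (fin 848 7 848)
(mv 1169 (cons (fin 976 7 912)
(mv 1168 (cons (fin 1232 5 976)
(mv 1170 (cons (fin 1234 4 977)
(mv 1167 (cons (fin 1103 3 1102)
(mv 1230 (cons (fin 1231 1 1166)
(mv 1166 (cons (fin 1229 1 1165)
(fin 975 6 974)))))))))))))))))))
(cons (cons (mv 850 (cons (fin 914 6 849)
(mv 1104 (cons (fin 1168 5 912)
(mv 1169 (cons (mv 1170 (cons (fin 1103 0 1102)
(fin 1234 4 977)))
(mv 1233 (cons (fin 976 7 976)
(fin 1297 7 1040)))))))))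
(mv 848 (cons (fin 912 7 848)
(mv 1168 (cons (fin 1104 5 912)
(mv 1169 (cons (fin 1232 5 976)
(mv 976 (cons (fin 1233 7 976)
(mv 1170 (cons (fin 1234 4 977)
(mv 1167 (cons (fin 1103 3 1102)
(mv 1230 (cons (fin 1231 1 1166)
(mv 1166 (cons (fin 1229 1 1165)
(fin 975 6 974))))))))))))))))))
(cons (mv 848 (cons (fin 912 7 848)
(mv 850 (cons (fin 914 6 849)
(mv 1168 (cons (fin 1104 5 912)
(mv 1169 (cons (fin 1232 5 976)
(mv 1170 (cons (fin 1234 4 977)
(mv 1167 (cons (fin 1103 3 1102)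
(mv 1230 (cons (fin 1231 1 1166)
(mv 1166 (cons (fin 1229 1 1165)
(fin 975 6 974)))))))))))))))))
(mv 912 (cons (fin 848 7 848)
(mv 914 (cons (fin 850 6 849)
(mv 1104 (cons (fin 1168 5 912)
(mv 915 (cons (mv 976 (cons (fin 975 1 911)
(fin 916 1 912)))
(cons (mv 852 (cons (fin 851 2 848)
(mv 916 (cons (fin 853 2 849)
(mv 980 (cons (fin 979 0 912)
(fin 981 0 913)))))))
(mv 851 (cons (fin 852 2 848)
(mv 975 (cons (fin 976 1 911)
(mv 911 (cons (fin 847 5 846)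
(mv 1166 (cons (fin 1103 5 910)
(fin 1230 6 974))))))))))))))))))))))
(cons (mv 849 (cons (fin 1104 5 848)
(mv 784 (cons (fin 848 7 784)
(mv 785 (cons (fin 720 7 720)
(mv 786 (cons (fin 722 6 721)
(fin 850 6 785)))))))))
(mv 849 (cons (fin 1104 5 848)
(mv 785 (cons (fin 976 5 784)
(mv 786 (cons (fin 722 6 721)
(fin 850 6 785)))))))))))))))))))))
(mv 1037 (cons (cons (mv 972 (cons (fin 973 3 972)
(mv 976 (cons (fin 977 2 973)
(mv 1036 (cons (fin 971 3 971)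
(fin 975 2 972)))))))
(mv 972 (cons (fin 973 3 972)
(mv 1036 (cons (fin 971 3 971)
(mv 1100 (cons (fin 1099 1 1035)
(fin 1101 1 1036))))))))
(cons (mv 976 (cons (fin 977 2 973)
(mv 975 (cons (fin 1036 2 972)
(mv 1100 (cons (fin 1101 1 1036)
(mv 1104 (cons (fin 1105 0 1037)
(mv 911 (cons (fin 1168 7 911)
(fin 847 4 847)))))))))))
(mv 972 (cons (fin 973 3 972)
(mv 976 (cons (fin 977 2 973)
(mv 1100 (cons (fin 1101 1 1036)
(mv 1104 (cons (fin 1105 0 1037)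
(mv 1168 (cons (mv 975 (cons (fin 911 7 911)
(fin 1232 7 975)))
(cons (mv 1167 (cons (fin 1231 5 975)
(mv 912 (cons (fin 1103 5 911)
(mv 847 (cons (fin 911 7 847)
(mv 848 (cons (fin 783 7 783)
(mv 849 (cons (fin 785 6 784)
(fin 913 6 848)))))))))))
(mv 975 (cons (fin 1232 7 975)
(mv 1167 (cons (fin 1231 5 975)
(mv 912 (cons (fin 1103 5 911)
(mv 848 (cons (fin 784 5 783)
(mv 849 (cons (fin 785 6 784)
(fin 913 6 848)))))))))))))))))))))))))))
(cons (cons (mv 1037 (cons (cons (mv 976 (cons (fin 977 2 973)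
(mv 975 (cons (fin 1036 2 972)
(mv 1100 (cons (fin 1101 1 1036)
(mv 1104 (cons (fin 1105 0 1037)
(mv 911 (cons (fin 1168 7 911)
(fin 847 4 847)))))))))))
(mv 1100 (cons (fin 1101 1 1036)
(mv 1036 (cons (fin 1099 1 1035)
(mv 1104 (cons (fin 1103 0 1036)
(fin 1105 0 1037))))))))
(cons (mv 976 (cons (fin 977 2 973)
(mv 975 (cons (fin 1036 2 972)
(mv 1104 (cons (fin 1105 0 1037)
(mv 911 (cons (fin 1168 7 911)
(fin 847 4 847)))))))))
(cons (mv 976 (cons (fin 977 2 973)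
(mv 975 (cons (fin 1036 2 972)
(mv 1101 (cons (fin 1100 1 1036)
(mv 1041 (cons (fin 1102 1 1037)
(mv 1042 (cons (fin 974 3 974)
(fin 1043 3 975)))))))))))
(mv 977 (cons (fin 976 2 973)
(mv 1041 (cons (fin 978 2 974)
(mv 1101 (cons (fin 1100 1 1036)
(fin 1102 1 1037)))))))))))
(mv 1037 (cons (cons (mv 972 (cons (fin 973 3 972)
(mv 1036 (cons (fin 971 3 971)
(mv 1100 (cons (fin 1099 1 1035)
(fin 1101 1 1036)))))))
(mv 1100 (cons (fin 1101 1 1036)
(mv 1036 (cons (fin 1099 1 1035)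
(mv 1104 (cons (fin 1103 0 1036)
(fin 1105 0 1037))))))))
(cons (mv 972 (cons (fin 973 3 972)
(mv 1036 (cons (fin 971 3 971)
(mv 1104 (cons (fin 1103 0 1036)
(fin 1105 0 1037)))))))
(mv 973 (cons (fin 972 3 972)
(mv 974 (cons (fin 1041 3 973)
(mv 1101 (cons (fin 1100 1 1036)
(mv 1165 (cons (fin 910 6 909)
(fin 1229 6 973)))))))))))))
(cons (mv 1037 (cons (cons (mv 972 (cons (fin 973 3 972)
(mv 976 (cons (fin 977 2 973)
(mv 1036 (cons (fin 971 3 971)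
(fin 975 2 972)))))))
(mv 972 (cons (fin 973 3 972)
(mv 1036 (cons (fin 971 3 971)
(mv 1104 (cons (fin 1103 0 1036)
(fin 1105 0 1037))))))))
(cons (mv 976 (cons (fin 977 2 973)
(mv 975 (cons (fin 1036 2 972)
(mv 1104 (cons (fin 1105 0 1037)
(mv 911 (cons (fin 1168 7 911)
(fin 847 4 847)))))))))
(mv 973 (cons (fin 972 3 972)
(mv 977 (cons (fin 976 2 973)
(mv 1041 (cons (fin 974 3 973)
(fin 978 2 974))))))))))
(mv 1037 (cons (cons (mv 972 (cons (fin 973 3 972)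
(mv 971 (cons (fin 1036 3 971)
(mv 977 (cons (fin 976 2 973)
(mv 1041 (cons (fin 978 2 974)
(mv 1101 (cons (fin 1100 1 1036)
(fin 1102 1 1037)))))))))))
(mv 976 (cons (fin 977 2 973)
(mv 975 (cons (fin 1036 2 972)
(mv 1101 (cons (fin 1100 1 1036)
(mv 1041 (cons (fin 1102 1 1037)
(mv 1042 (cons (fin 974 3 974)
(fin 1043 3 975))))))))))))
(cons (mv 972 (cons (fin 973 3 972)
(mv 1036 (cons (fin 971 3 971)
(mv 1100 (cons (fin 1099 1 1035)
(fin 1101 1 1036)))))))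
(cons (mv 972 (cons (fin 973 3 972)
(mv 976 (cons (fin 977 2 973)
(mv 1036 (cons (fin 971 3 971)
(fin 975 2 972)))))))
(mv 972 (cons (fin 973 3 972)
(mv 977 (cons (fin 976 2 973)
(mv 1041 (cons (fin 978 2 974)
(mv 1101 (cons (fin 1100 1 1036)
(fin 1102 1 1037))))))))))))))))))
(cons (mv 1038 (cons (cons (mv 1037 (cons (cons (mv 972 (cons (fin 973 3 972)
(mv 971 (cons (fin 1036 3 971)
(mv 977 (cons (fin 976 2 973)
(mv 1041 (cons (fin 978 2 974)
(mv 1101 (cons (fin 1100 1 1036)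
(fin 1102 1 1037)))))))))))
(cons (mv 972 (cons (fin 973 3 972)
(mv 971 (cons (fin 1036 3 971)
(mv 1101 (cons (fin 1100 1 1036)
(mv 1041 (cons (fin 1102 1 1037)
(mv 978 (cons (fin 977 2 974)
(mv 1042 (cons (fin 979 2 975)
(mv 975 (cons (fin 974 3 974)
(mv 1104 (cons (fin 1105 0 1037)
(mv 911 (cons (fin 847 4 847)
(mv 1103 (cons (fin 1043 1 1039)
(fin 1168 4 911)))))))))))))))))))))
(mv 976 (cons (fin 977 2 973)
(mv 975 (cons (fin 1036 2 972)
(mv 1100 (cons (fin 1101 1 1036)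
(mv 1104 (cons (fin 1105 0 1037)
(mv 911 (cons (fin 1168 7 911)
(fin 847 4 847)))))))))))))
(cons (mv 972 (cons (fin 973 3 972)
(mv 976 (cons (fin 977 2 973)
(mv 1036 (cons (fin 971 3 971)
(fin 975 2 972)))))))
(cons (mv 972 (cons (fin 973 3 972)
(mv 1036 (cons (fin 971 3 971)
(mv 1100 (cons (fin 1099 1 1035)
(fin 1101 1 1036)))))))
(mv 972 (cons (fin 973 3 972)
(mv 977 (cons (fin 976 2 973)
(mv 1041 (cons (fin 978 2 974)
(mv 1101 (cons (fin 1100 1 1036)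
(fin 1102 1 1037)))))))))))))
(cons (mv 1041 (cons (cons (mv 973 (cons (fin 974 3 973)
(mv 978 (cons (fin 977 2 974)
(mv 1042 (cons (fin 979 2 975)
(mv 1102 (cons (fin 1101 1 1037)
(fin 1103 1 1038)))))))))
(mv 974 (cons (fin 973 3 973)
(mv 978 (cons (fin 977 2 974)
(mv 1042 (cons (fin 975 3 974)
(fin 979 2 975))))))))
(cons (mv 978 (cons (fin 977 2 974)
(mv 1042 (cons (fin 979 2 975)
(mv 1102 (cons (fin 1101 1 1037)
(fin 1103 1 1038)))))))
(cons (mv 974 (cons (fin 973 3 973)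
(mv 975 (cons (fin 1042 3 974)
(mv 1102 (cons (fin 1101 1 1037)
(mv 911 (cons (fin 847 5 846)
(fin 1166 6 910)))))))))
(mv 973 (cons (fin 974 3 973)
(mv 977 (cons (fin 978 2 974)
(mv 1102 (cons (fin 1101 1 1037)
(mv 913 (cons (cons (mv 849 (cons (fin 1104 5 848)
(mv 784 (cons (fin 848 7 784)
(mv 785 (cons (fin 720 7 720)
(fin 976 5 784)))))))
(mv 849 (cons (cons (mv 784 (cons (fin 848 7 784)
(mv 785 (cons (fin 720 7 720)
(fin 976 5 784)))))
(mv 786 (cons (fin 850 6 785)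
(mv 848 (cons (fin 784 7 784)
(mv 912 (cons (fin 1105 7 848)
(mv 976 (cons (fin 1103 5 847)
(mv 847 (cons (fin 783 7 783)
(mv 846 (cons (fin 845 0 845)
(fin 914 0 846))))))))))))))
(cons (mv 785 (cons (fin 976 5 784)
(mv 786 (cons (fin 722 6 721)
(fin 850 6 785)))))
(mv 784 (cons (fin 848 7 784)
(mv 785 (cons (fin 720 7 720)
(mv 786 (cons (fin 722 6 721)
(fin 850 6 785)))))))))))
(cons (mv 1105 (cons (cons (mv 848 (cons (fin 912 7 848)
(mv 850 (cons (fin 914 6 849)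
(mv 1168 (cons (fin 1104 5 912)
(mv 1169 (cons (fin 1232 5 976)
(mv 976 (cons (fin 1233 7 976)
(mv 1170 (cons (fin 1234 4 977)
(mv 1167 (cons (fin 1103 3 1102)
(mv 1230 (cons (fin 1231 1 1166)
(mv 1166 (cons (fin 1229 1 1165)
(fin 975 6 974)))))))))))))))))))
(cons (mv 850 (cons (fin 914 6 849)
(mv 912 (cons (fin 848 7 848)
(mv 1169 (cons (fin 976 7 912)
(mv 1234 (cons (fin 1170 4 977)
(mv 1233 (cons (fin 1298 4 1041)
(mv 1296 (cons (fin 1232 5 1040)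
(mv 1297 (cons (fin 1104 7 1040)
(fin 1360 5 1104)))))))))))))))
(mv 850 (cons (fin 914 6 849)
(mv 912 (cons (fin 848 7 848)
(mv 1169 (cons (fin 976 7 912)
(mv 1168 (cons (fin 1232 5 976)
(mv 1170 (cons (fin 1234 4 977)
(mv 1167 (cons (fin 1103 3 1102)
(mv 1230 (cons (fin 1231 1 1166)
(mv 1166 (cons (fin 1229 1 1165)
(fin 975 6 974)))))))))))))))))))
(cons (cons (mv 850 (cons (fin 914 6 849)
(mv 1104 (cons (fin 1168 5 912)
(mv 1169 (cons (mv 1170 (cons (fin 1103 0 1102)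
(fin 1234 4 977)))
(mv 1233 (cons (fin 976 7 976)
(fin 1297 7 1040)))))))))
(mv 848 (cons (fin 912 7 848)
(mv 1168 (cons (fin 1104 5 912)
(mv 1169 (cons (fin 1232 5 976)
(mv 976 (cons (fin 1233 7 976)
(mv 1170 (cons (fin 1234 4 977)
(mv 1167 (cons (fin 1103 3 1102)
(mv 1230 (cons (fin 1231 1 1166)
(mv 1166 (cons (fin 1229 1 1165)
(fin 975 6 974))))))))))))))))))
(cons (mv 848 (cons (fin 912 7 848)
(mv 850 (cons (fin 914 6 849)
(mv 1168 (cons (fin 1104 5 912)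
(mv 1169 (cons (fin 1232 5 976)
(mv 1170 (cons (fin 1234 4 977)
(mv 1167 (cons (fin 1103 3 1102)
(mv 1230 (cons (fin 1231 1 1166)
(mv 1166 (cons (fin 1229 1 1165)
(fin 975 6 974)))))))))))))))))
(mv 912 (cons (fin 848 7 848)
(mv 914 (cons (fin 850 6 849)
(mv 1104 (cons (fin 1168 5 912)
(mv 915 (cons (mv 976 (cons (fin 975 1 911)
(fin 916 1 912)))
(cons (mv 852 (cons (fin 851 2 848)
(mv 916 (cons (fin 853 2 849)
(mv 980 (cons (fin 979 0 912)
(fin 981 0 913)))))))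
(mv 851 (cons (fin 852 2 848)
(mv 975 (cons (fin 976 1 911)
(mv 911 (cons (fin 847 5 846)
(mv 1166 (cons (fin 1103 5 910)
(fin 1230 6 974))))))))))))))))))))))
(cons (mv 849 (cons (fin 1104 5 848)
(mv 784 (cons (fin 848 7 784)
(mv 785 (cons (fin 720 7 720)
(mv 786 (cons (fin 722 6 721)
(fin 850 6 785)))))))))
(mv 849 (cons (fin 1104 5 848)
(mv 785 (cons (fin 976 5 784)
(mv 786 (cons (fin 722 6 721)
(fin 850 6 785)))))))))))))))))))))
(mv 1037 (cons (cons (mv 972 (cons (fin 973 3 972)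
(mv 976 (cons (fin 977 2 973)
(mv 1036 (cons (fin 971 3 971)
(fin 975 2 972)))))))
(mv 972 (cons (fin 973 3 972)
(mv 1036 (cons (fin 971 3 971)
(mv 1100 (cons (fin 1099 1 1035)
(fin 1101 1 1036))))))))
(cons (mv 976 (cons (fin 977 2 973)
(mv 975 (cons (fin 1036 2 972)
(mv 1100 (cons (fin 1101 1 1036)
(mv 1104 (cons (fin 1105 0 1037)
(mv 911 (cons (fin 1168 7 911)
(fin 847 4 847)))))))))))
(mv 972 (cons (fin 973 3 972)
(mv 976 (cons (fin 977 2 973)
(mv 1100 (cons (fin 1101 1 1036)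
(mv 1104 (cons (fin 1105 0 1037)
(mv 1168 (cons (mv 975 (cons (fin 911 7 911)
(fin 1232 7 975)))
(cons (mv 1167 (cons (fin 1231 5 975)
(mv 912 (cons (fin 1103 5 911)
(mv 847 (cons (fin 911 7 847)
(mv 848 (cons (fin 783 7 783)
(mv 849 (cons (fin 785 6 784)
(fin 913 6 848)))))))))))
(mv 975 (cons (fin 1232 7 975)
(mv 1167 (cons (fin 1231 5 975)
(mv 912 (cons (fin 1103 5 911)
(mv 848 (cons (fin 784 5 783)
(mv 849 (cons (fin 785 6 784)
(fin 913 6 848)))))))))))))))))))))))))))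
(cons (cons (mv 1037 (cons (cons (mv 976 (cons (fin 977 2 973)
(mv 975 (cons (fin 1036 2 972)
(mv 1100 (cons (fin 1101 1 1036)
(mv 1104 (cons (fin 1105 0 1037)
(mv 911 (cons (fin 1168 7 911)
(fin 847 4 847)))))))))))
(mv 1100 (cons (fin 1101 1 1036)
(mv 1036 (cons (fin 1099 1 1035)
(mv 1104 (cons (fin 1103 0 1036)
(fin 1105 0 1037))))))))
(cons (mv 976 (cons (fin 977 2 973)
(mv 975 (cons (fin 1036 2 972)
(mv 1104 (cons (fin 1105 0 1037)
(mv 911 (cons (fin 1168 7 911)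
(fin 847 4 847)))))))))
(cons (mv 976 (cons (fin 977 2 973)
(mv 975 (cons (fin 1036 2 972)
(mv 1101 (cons (fin 1100 1 1036)
(mv 1041 (cons (fin 1102 1 1037)
(mv 1042 (cons (fin 974 3 974)
(fin 1043 3 975)))))))))))
(mv 977 (cons (fin 976 2 973)
(mv 1041 (cons (fin 978 2 974)
(mv 1101 (cons (fin 1100 1 1036)
(fin 1102 1 1037)))))))))))
(mv 1037 (cons (cons (mv 972 (cons (fin 973 3 972)
(mv 1036 (cons (fin 971 3 971)
(mv 1100 (cons (fin 1099 1 1035)
(fin 1101 1 1036)))))))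
(mv 1100 (cons (fin 1101 1 1036)
(mv 1036 (cons (fin 1099 1 1035)
(mv 1104 (cons (fin 1103 0 1036)
(fin 1105 0 1037))))))))
(cons (mv 972 (cons (fin 973 3 972)
(mv 1036 (cons (fin 971 3 971)
(mv 1104 (cons (fin 1103 0 1036)
(fin 1105 0 1037)))))))
(mv 973 (cons (fin 972 3 972)
(mv 974 (cons (fin 1041 3 973)
(mv 1101 (cons (fin 1100 1 1036)
(mv 1104 (cons (fin 1105 0 1037)
(mv 1165 (cons (fin 1229 6 973)
(mv 1164 (cons (fin 1228 5 972)
(mv 1102 (cons (fin 1103 1 1100)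
(mv 909 (cons (fin 1166 7 909)
(fin 845 4 845)))))))))))))))))))))
(cons (mv 1037 (cons (cons (mv 972 (cons (fin 973 3 972)
(mv 976 (cons (fin 977 2 973)
(mv 1036 (cons (fin 971 3 971)
(fin 975 2 972)))))))
(mv 972 (cons (fin 973 3 972)
(mv 1036 (cons (fin 971 3 971)
(mv 1104 (cons (fin 1103 0 1036)
(fin 1105 0 1037))))))))
(cons (mv 976 (cons (fin 977 2 973)
(mv 975 (cons (fin 1036 2 972)
(mv 1104 (cons (fin 1105 0 1037)
(mv 911 (cons (fin 1168 7 911)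
(fin 847 4 847)))))))))
(mv 973 (cons (fin 972 3 972)
(mv 977 (cons (fin 976 2 973)
(mv 1041 (cons (fin 974 3 973)
(fin 978 2 974))))))))))
(mv 1037 (cons (cons (mv 972 (cons (fin 973 3 972)
(mv 971 (cons (fin 1036 3 971)
(mv 977 (cons (fin 976 2 973)
(mv 1041 (cons (fin 978 2 974)
(mv 1101 (cons (fin 1100 1 1036)
(fin 1102 1 1037)))))))))))
(mv 976 (cons (fin 977 2 973)
(mv 975 (cons (fin 1036 2 972)
(mv 1101 (cons (fin 1100 1 1036)
(mv 1041 (cons (fin 1102 1 1037)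
(mv 1042 (cons (fin 974 3 974)
(fin 1043 3 975))))))))))))
(cons (mv 972 (cons (fin 973 3 972)
(mv 1036 (cons (fin 971 3 971)
(mv 1100 (cons (fin 1099 1 1035)
(fin 1101 1 1036)))))))
(cons (mv 972 (cons (fin 973 3 972)
(mv 976 (cons (fin 977 2 973)
(mv 1036 (cons (fin 971 3 971)
(fin 975 2 972)))))))
(mv 972 (cons (fin 973 3 972)
(mv 977 (cons (fin 976 2 973)
(mv 1041 (cons (fin 978 2 974)
(mv 1101 (cons (fin 1100 1 1036)
(fin 1102 1 1037)))))))))))))))))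
(ref 3 0)))
(cons (cons (mv 1038 (cons (cons (mv 1037 (cons (cons (mv 972 (cons (fin 973 3 972)
(mv 971 (cons (fin 1036 3 971)
(mv 977 (cons (fin 976 2 973)
(mv 1041 (cons (fin 978 2 974)
(mv 1101 (cons (fin 1100 1 1036)
(fin 1102 1 1037)))))))))))
(cons (mv 976 (cons (fin 977 2 973)
(mv 975 (cons (fin 1036 2 972)
(mv 1100 (cons (fin 1101 1 1036)
(mv 1104 (cons (fin 1105 0 1037)
(mv 911 (cons (fin 1168 7 911)
(fin 847 4 847)))))))))))
(mv 972 (cons (fin 973 3 972)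
(mv 976 (cons (fin 977 2 973)
(mv 1036 (cons (fin 971 3 971)
(fin 975 2 972)))))))))
(cons (mv 972 (cons (fin 973 3 972)
(mv 971 (cons (fin 1036 3 971)
(mv 1101 (cons (fin 1100 1 1036)
(mv 1041 (cons (fin 1102 1 1037)
(mv 978 (cons (fin 977 2 974)
(mv 1042 (cons (fin 979 2 975)
(mv 975 (cons (fin 974 3 974)
(mv 1104 (cons (fin 1105 0 1037)
(mv 911 (cons (fin 847 4 847)
(mv 1103 (cons (fin 1043 1 1039)
(fin 1168 4 911)))))))))))))))))))))
(cons (mv 972 (cons (fin 973 3 972)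
(mv 1036 (cons (fin 971 3 971)
(mv 1100 (cons (fin 1099 1 1035)
(fin 1101 1 1036)))))))
(mv 972 (cons (fin 973 3 972)
(mv 977 (cons (fin 976 2 973)
(mv 1041 (cons (fin 978 2 974)
(mv 1101 (cons (fin 1100 1 1036)
(fin 1102 1 1037)))))))))))))
(cons (mv 1041 (cons (cons (mv 973 (cons (fin 974 3 973)
(mv 978 (cons (fin 977 2 974)
(mv 1042 (cons (fin 979 2 975)
(mv 1102 (cons (fin 1101 1 1037)
(fin 1103 1 1038)))))))))
(mv 978 (cons (fin 977 2 974)
(mv 1042 (cons (fin 979 2 975)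
(mv 1102 (cons (fin 1101 1 1037)
(fin 1103 1 1038))))))))
(cons (mv 974 (cons (fin 973 3 973)
(mv 978 (cons (fin 977 2 974)
(mv 1042 (cons (fin 975 3 974)
(fin 979 2 975)))))))
(cons (mv 974 (cons (fin 973 3 973)
(mv 975 (cons (fin 1042 3 974)
(mv 1102 (cons (fin 1101 1 1037)
(mv 911 (cons (fin 847 5 846)
(fin 1166 6 910)))))))))
(mv 974 (cons (fin 973 3 973)
(mv 977 (cons (fin 978 2 974)
(mv 1102 (cons (fin 1101 1 1037)
(mv 910 (cons (cons (mv 1103 (cons (fin 846 4 846)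
(fin 1167 4 910)))
(mv 845 (cons (fin 909 7 845)
(mv 781 (cons (fin 846 7 781)
(mv 911 (cons (fin 847 6 846)
(mv 1166 (cons (fin 975 6 910)
(mv 1167 (cons (fin 1231 4 974)
(mv 1229 (cons (fin 1165 5 973)
(mv 1230 (cons (fin 1293 5 1037)
(mv 1168 (cons (fin 1169 1 1165)
(mv 1104 (cons (fin 1232 6 976)
(mv 913 (cons (fin 1105 5 912)
(fin 976 6 912))))))))))))))))))))))
(cons (mv 845 (cons (fin 909 7 845)
(mv 847 (cons (fin 911 6 846)
(mv 1167 (cons (fin 1103 4 910)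
(mv 1166 (cons (fin 1231 4 974)
(mv 1229 (cons (fin 1165 5 973)
(mv 1230 (cons (fin 1293 5 1037)
(fin 975 6 974)))))))))))))
(mv 845 (cons (fin 909 7 845)
(mv 846 (cons (fin 781 7 781)
(fin 1103 4 846))))))))))))))))))
(mv 1037 (cons (cons (mv 972 (cons (fin 973 3 972)
(mv 976 (cons (fin 977 2 973)
(mv 1036 (cons (fin 971 3 971)
(fin 975 2 972)))))))
(mv 972 (cons (fin 973 3 972)
(mv 1036 (cons (fin 971 3 971)
(mv 1100 (cons (fin 1099 1 1035)
(fin 1101 1 1036))))))))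
(cons (mv 976 (cons (fin 977 2 973)
(mv 975 (cons (fin 1036 2 972)
(mv 1100 (cons (fin 1101 1 1036)
(mv 1104 (cons (fin 1105 0 1037)
(mv 911 (cons (fin 1168 7 911)
(fin 847 4 847)))))))))))
(mv 972 (cons (fin 973 3 972)
(mv 976 (cons (fin 977 2 973)
(mv 1100 (cons (fin 1101 1 1036)
(mv 1104 (cons (fin 1105 0 1037)
(mv 1168 (cons (mv 975 (cons (fin 911 7 911)
(fin 1232 7 975)))
(mv 1167 (cons (fin 1231 5 975)
(mv 1103 (cons (fin 912 5 911)
(mv 1169 (cons (fin 1233 4 976)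
(mv 1170 (cons (fin 1102 3 1102)
(fin 1171 3 1103))))))))))))))))))))))))
(cons (cons (mv 1037 (cons (cons (mv 976 (cons (fin 977 2 973)
(mv 975 (cons (fin 1036 2 972)
(mv 1100 (cons (fin 1101 1 1036)
(mv 1104 (cons (fin 1105 0 1037)
(mv 911 (cons (fin 1168 7 911)
(fin 847 4 847)))))))))))
(mv 1100 (cons (fin 1101 1 1036)
(mv 1036 (cons (fin 1099 1 1035)
(mv 1104 (cons (fin 1103 0 1036)
(fin 1105 0 1037))))))))
(cons (mv 976 (cons (fin 977 2 973)
(mv 975 (cons (fin 1036 2 972)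
(mv 1104 (cons (fin 1105 0 1037)
(mv 911 (cons (fin 1168 7 911)
(fin 847 4 847)))))))))
(cons (mv 976 (cons (fin 977 2 973)
(mv 975 (cons (fin 1036 2 972)
(mv 1101 (cons (fin 1100 1 1036)
(mv 1041 (cons (fin 1102 1 1037)
(mv 1042 (cons (fin 974 3 974)
(fin 1043 3 975)))))))))))
(mv 977 (cons (fin 976 2 973)
(mv 1041 (cons (fin 978 2 974)
(mv 1101 (cons (fin 1100 1 1036)
(fin 1102 1 1037)))))))))))
(mv 1037 (cons (cons (mv 972 (cons (fin 973 3 972)
(mv 976 (cons (fin 977 2 973)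
(mv 1036 (cons (fin 971 3 971)
(fin 975 2 972)))))))
(mv 972 (cons (fin 973 3 972)
(mv 1036 (cons (fin 971 3 971)
(mv 1104 (cons (fin 1103 0 1036)
(fin 1105 0 1037))))))))
(cons (mv 976 (cons (fin 977 2 973)
(mv 975 (cons (fin 1036 2 972)
(mv 1104 (cons (fin 1105 0 1037)
(mv 911 (cons (fin 1168 7 911)
(fin 847 4 847)))))))))
(mv 973 (cons (fin 972 3 972)
(mv 977 (cons (fin 976 2 973)
(mv 1041 (cons (fin 974 3 973)
(fin 978 2 974)))))))))))
(cons (mv 1037 (cons (cons (mv 972 (cons (fin 973 3 972)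
(mv 1036 (cons (fin 971 3 971)
(mv 1100 (cons (fin 1099 1 1035)
(fin 1101 1 1036)))))))
(mv 1100 (cons (fin 1101 1 1036)
(mv 1036 (cons (fin 1099 1 1035)
(mv 1104 (cons (fin 1103 0 1036)
(fin 1105 0 1037))))))))
(cons (mv 972 (cons (fin 973 3 972)
(mv 1036 (cons (fin 971 3 971)
(mv 1104 (cons (fin 1103 0 1036)
(fin 1105 0 1037)))))))
(mv 973 (cons (fin 972 3 972)
(mv 974 (cons (fin 1041 3 973)
(mv 1101 (cons (fin 1100 1 1036)
(mv 910 (cons (fin 846 5 845)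
(fin 1165 6 909))))))))))))
(mv 1037 (cons (cons (mv 972 (cons (fin 973 3 972)
(mv 971 (cons (fin 1036 3 971)
(mv 977 (cons (fin 976 2 973)
(mv 1041 (cons (fin 978 2 974)
(mv 1101 (cons (fin 1100 1 1036)
(fin 1102 1 1037)))))))))))
(mv 976 (cons (fin 977 2 973)
(mv 975 (cons (fin 1036 2 972)
(mv 1101 (cons (fin 1100 1 1036)
(mv 1041 (cons (fin 1102 1 1037)
(mv 1042 (cons (fin 974 3 974)
(fin 1043 3 975))))))))))))
(cons (mv 972 (cons (fin 973 3 972)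
(mv 976 (cons (fin 977 2 973)
(mv 1036 (cons (fin 971 3 971)
(fin 975 2 972)))))))
(cons (mv 972 (cons (fin 973 3 972)
(mv 1036 (cons (fin 971 3 971)
(mv 1100 (cons (fin 1099 1 1035)
(fin 1101 1 1036)))))))
(mv 972 (cons (fin 973 3 972)
(mv 977 (cons (fin 976 2 973)
(mv 1041 (cons (fin 978 2 974)
(mv 1101 (cons (fin 1100 1 1036)
(fin 1102 1 1037)))))))))))))))))
(mv 1038 (cons (cons (mv 1037 (cons (cons (mv 972 (cons (fin 973 3 972)
(mv 971 (cons (fin 1036 3 971)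
(mv 977 (cons (fin 976 2 973)
(mv 1041 (cons (fin 978 2 974)
(mv 1101 (cons (fin 1100 1 1036)
(fin 1102 1 1037)))))))))))
(cons (mv 972 (cons (fin 973 3 972)
(mv 976 (cons (fin 977 2 973)
(mv 1036 (cons (fin 971 3 971)
(fin 975 2 972)))))))
(mv 976 (cons (fin 977 2 973)
(mv 975 (cons (fin 1036 2 972)
(mv 1100 (cons (fin 1101 1 1036)
(mv 1104 (cons (fin 1105 0 1037)
(mv 911 (cons (fin 1168 7 911)
(fin 847 4 847)))))))))))))
(cons (mv 972 (cons (fin 973 3 972)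
(mv 971 (cons (fin 1036 3 971)
(mv 1101 (cons (fin 1100 1 1036)
(mv 1041 (cons (fin 1102 1 1037)
(mv 978 (cons (fin 977 2 974)
(mv 1042 (cons (fin 979 2 975)
(mv 975 (cons (fin 974 3 974)
(mv 1104 (cons (fin 1105 0 1037)
(mv 911 (cons (fin 847 4 847)
(mv 1103 (cons (fin 1043 1 1039)
(fin 1168 4 911)))))))))))))))))))))
(cons (mv 972 (cons (fin 973 3 972)
(mv 1036 (cons (fin 971 3 971)
(mv 1100 (cons (fin 1099 1 1035)
(fin 1101 1 1036)))))))
(mv 972 (cons (fin 973 3 972)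
(mv 977 (cons (fin 976 2 973)
(mv 1041 (cons (fin 978 2 974)
(mv 1101 (cons (fin 1100 1 1036)
(fin 1102 1 1037)))))))))))))
(cons (mv 1041 (cons (cons (mv 973 (cons (fin 974 3 973)
(mv 978 (cons (fin 977 2 974)
(mv 1042 (cons (fin 979 2 975)
(mv 1102 (cons (fin 1101 1 1037)
(fin 1103 1 1038)))))))))
(mv 974 (cons (fin 973 3 973)
(mv 978 (cons (fin 977 2 974)
(mv 1042 (cons (fin 975 3 974)
(fin 979 2 975))))))))
(cons (mv 978 (cons (fin 977 2 974)
(mv 1042 (cons (fin 979 2 975)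
(mv 1102 (cons (fin 1101 1 1037)
(fin 1103 1 1038)))))))
(cons (mv 974 (cons (fin 973 3 973)
(mv 975 (cons (fin 1042 3 974)
(mv 1102 (cons (fin 1101 1 1037)
(mv 911 (cons (fin 847 5 846)
(fin 1166 6 910)))))))))
(mv 974 (cons (fin 973 3 973)
(mv 977 (cons (fin 978 2 974)
(mv 1102 (cons (fin 1101 1 1037)
(mv 910 (cons (cons (mv 1103 (cons (fin 846 4 846)
(fin 1167 4 910)))
(mv 845 (cons (fin 909 7 845)
(mv 781 (cons (fin 846 7 781)
(mv 911 (cons (fin 847 6 846)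
(mv 1166 (cons (fin 975 6 910)
(mv 1229 (cons (fin 1165 5 973)
(mv 1230 (cons (fin 1293 5 1037)
(mv 1231 (cons (fin 1167 4 974)
(fin 1295 4 1038))))))))))))))))
(cons (mv 845 (cons (fin 909 7 845)
(mv 847 (cons (fin 911 6 846)
(mv 1167 (cons (fin 1103 4 910)
(mv 1166 (cons (fin 1231 4 974)
(mv 1229 (cons (fin 1165 5 973)
(mv 1230 (cons (fin 1293 5 1037)
(fin 975 6 974)))))))))))))
(mv 845 (cons (fin 909 7 845)
(mv 846 (cons (fin 781 7 781)
(fin 1103 4 846))))))))))))))))))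
(mv 1037 (cons (cons (mv 972 (cons (fin 973 3 972)
(mv 976 (cons (fin 977 2 973)
(mv 1036 (cons (fin 971 3 971)
(fin 975 2 972)))))))
(mv 972 (cons (fin 973 3 972)
(mv 1036 (cons (fin 971 3 971)
(mv 1100 (cons (fin 1099 1 1035)
(fin 1101 1 1036))))))))
(cons (mv 976 (cons (fin 977 2 973)
(mv 975 (cons (fin 1036 2 972)
(mv 1100 (cons (fin 1101 1 1036)
(mv 1104 (cons (fin 1105 0 1037)
(mv 911 (cons (fin 1168 7 911)
(fin 847 4 847)))))))))))
(mv 972 (cons (fin 973 3 972)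
(mv 976 (cons (fin 977 2 973)
(mv 1100 (cons (fin 1101 1 1036)
(mv 1104 (cons (fin 1105 0 1037)
(mv 1168 (cons (mv 975 (cons (fin 911 7 911)
(fin 1232 7 975)))
(mv 1167 (cons (fin 1231 5 975)
(mv 1103 (cons (fin 912 5 911)
(mv 1169 (cons (fin 1233 4 976)
(mv 1170 (cons (fin 1102 3 1102)
(fin 1171 3 1103))))))))))))))))))))))))
(cons (cons (mv 1037 (cons (cons (mv 972 (cons (fin 973 3 972)
(mv 976 (cons (fin 977 2 973)
(mv 1036 (cons (fin 971 3 971)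
(fin 975 2 972)))))))
(mv 972 (cons (fin 973 3 972)
(mv 1036 (cons (fin 971 3 971)
(mv 1104 (cons (fin 1103 0 1036)
(fin 1105 0 1037))))))))
(cons (mv 976 (cons (fin 977 2 973)
(mv 975 (cons (fin 1036 2 972)
(mv 1104 (cons (fin 1105 0 1037)
(mv 911 (cons (fin 1168 7 911)
(fin 847 4 847)))))))))
(mv 973 (cons (fin 972 3 972)
(mv 977 (cons (fin 976 2 973)
(mv 1041 (cons (fin 974 3 973)
(fin 978 2 974))))))))))
(mv 1037 (cons (cons (mv 976 (cons (fin 977 2 973)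
(mv 975 (cons (fin 1036 2 972)
(mv 1100 (cons (fin 1101 1 1036)
(mv 1104 (cons (fin 1105 0 1037)
(mv 911 (cons (fin 1168 7 911)
(fin 847 4 847)))))))))))
(mv 1100 (cons (fin 1101 1 1036)
(mv 1036 (cons (fin 1099 1 1035)
(mv 1104 (cons (fin 1103 0 1036)
(fin 1105 0 1037))))))))
(cons (mv 976 (cons (fin 977 2 973)
(mv 975 (cons (fin 1036 2 972)
(mv 1104 (cons (fin 1105 0 1037)
(mv 911 (cons (fin 1168 7 911)
(fin 847 4 847)))))))))
(cons (mv 976 (cons (fin 977 2 973)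
(mv 975 (cons (fin 1036 2 972)
(mv 1101 (cons (fin 1100 1 1036)
(mv 1041 (cons (fin 1102 1 1037)
(mv 1042 (cons (fin 974 3 974)
(fin 1043 3 975)))))))))))
(mv 977 (cons (fin 976 2 973)
(mv 1041 (cons (fin 978 2 974)
(mv 1101 (cons (fin 1100 1 1036)
(fin 1102 1 1037))))))))))))
(cons (mv 1037 (cons (cons (mv 972 (cons (fin 973 3 972)
(mv 1036 (cons (fin 971 3 971)
(mv 1100 (cons (fin 1099 1 1035)
(fin 1101 1 1036)))))))
(mv 972 (cons (fin 973 3 972)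
(mv 1036 (cons (fin 971 3 971)
(mv 1104 (cons (fin 1103 0 1036)
(fin 1105 0 1037))))))))
(cons (mv 1100 (cons (fin 1101 1 1036)
(mv 1036 (cons (fin 1099 1 1035)
(mv 1104 (cons (fin 1103 0 1036)
(fin 1105 0 1037)))))))
(mv 973 (cons (fin 972 3 972)
(mv 974 (cons (fin 1041 3 973)
(mv 1101 (cons (fin 1100 1 1036)
(mv 910 (cons (fin 846 5 845)
(fin 1165 6 909))))))))))))
(mv 1037 (cons (cons (mv 972 (cons (fin 973 3 972)
(mv 971 (cons (fin 1036 3 971)
(mv 977 (cons (fin 976 2 973)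
(mv 1041 (cons (fin 978 2 974)
(mv 1101 (cons (fin 1100 1 1036)
(fin 1102 1 1037)))))))))))
(mv 976 (cons (fin 977 2 973)
(mv 975 (cons (fin 1036 2 972)
(mv 1100 (cons (fin 1101 1 1036)
(mv 1104 (cons (fin 1105 0 1037)
(mv 911 (cons (fin 1168 7 911)
(fin 847 4 847))))))))))))
(cons (mv 972 (cons (fin 973 3 972)
(mv 976 (cons (fin 977 2 973)
(mv 1036 (cons (fin 971 3 971)
(fin 975 2 972)))))))
(cons (mv 972 (cons (fin 973 3 972)
(mv 1036 (cons (fin 971 3 971)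
(mv 1100 (cons (fin 1099 1 1035)
(fin 1101 1 1036)))))))
(mv 972 (cons (fin 973 3 972)
(mv 977 (cons (fin 976 2 973)
(mv 1041 (cons (fin 978 2 974)
(mv 1101 (cons (fin 1100 1 1036)
(fin 1102 1 1037))))))))))))))))))
(cons (mv 1038 (cons (cons (cons (mv 1037 (cons (cons (mv 972 (cons (fin 973 3 972)
(mv 976 (cons (fin 977 2 973)
(mv 975 (cons (fin 1036 2 972)
(mv 1100 (cons (fin 1101 1 1036)
(mv 1104 (cons (fin 1105 0 1037)
(mv 911 (cons (fin 1168 7 911)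
(fin 847 4 847)))))))))))))
(cons (mv 972 (cons (fin 973 3 972)
(mv 1100 (cons (fin 1101 1 1036)
(mv 1036 (cons (fin 1099 1 1035)
(mv 1104 (cons (fin 1103 0 1036)
(fin 1105 0 1037)))))))))
(mv 972 (cons (fin 973 3 972)
(mv 976 (cons (fin 977 2 973)
(mv 975 (cons (fin 1036 2 972)
(mv 1104 (cons (fin 1105 0 1037)
(mv 911 (cons (fin 1168 7 911)
(fin 847 4 847)))))))))))))
(cons (mv 976 (cons (fin 977 2 973)
(mv 975 (cons (fin 1036 2 972)
(mv 1100 (cons (fin 1101 1 1036)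
(mv 1104 (cons (fin 1105 0 1037)
(mv 911 (cons (fin 1168 7 911)
(fin 847 4 847)))))))))))
(cons (mv 972 (cons (fin 973 3 972)
(mv 976 (cons (fin 977 2 973)
(mv 975 (cons (fin 1036 2 972)
(mv 1101 (cons (fin 1100 1 1036)
(mv 1041 (cons (fin 1102 1 1037)
(mv 1042 (cons (fin 974 3 974)
(fin 1043 3 975)))))))))))))
(mv 972 (cons (fin 973 3 972)
(mv 977 (cons (fin 976 2 973)
(mv 1041 (cons (fin 978 2 974)
(mv 1101 (cons (fin 1100 1 1036)
(fin 1102 1 1037)))))))))))))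
(mv 1041 (cons (cons (mv 973 (cons (fin 974 3 973)
(mv 978 (cons (fin 977 2 974)
(mv 1042 (cons (fin 979 2 975)
(mv 1102 (cons (fin 1101 1 1037)
(fin 1103 1 1038)))))))))
(mv 974 (cons (fin 973 3 973)
(mv 978 (cons (fin 977 2 974)
(mv 1042 (cons (fin 975 3 974)
(fin 979 2 975))))))))
(cons (mv 978 (cons (fin 977 2 974)
(mv 1042 (cons (fin 979 2 975)
(mv 1102 (cons (fin 1101 1 1037)
(fin 1103 1 1038)))))))
(cons (mv 974 (cons (fin 973 3 973)
(mv 975 (cons (fin 1042 3 974)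
(mv 1102 (cons (fin 1101 1 1037)
(mv 911 (cons (fin 847 5 846)
(fin 1166 6 910)))))))))
(mv 973 (cons (fin 974 3 973)
(mv 977 (cons (fin 978 2 974)
(mv 1102 (cons (fin 1101 1 1037)
(mv 975 (cons (cons (mv 911 (cons (fin 847 5 846)
(mv 1166 (cons (fin 1103 5 910)
(fin 1230 6 974)))))
(mv 1166 (cons (fin 1230 6 974)
(mv 913 (cons (cons (mv 849 (cons (fin 1104 5 848)
(mv 784 (cons (fin 848 7 784)
(mv 785 (cons (fin 720 7 720)
(fin 976 5 784)))))))
(mv 849 (cons (cons (mv 784 (cons (fin 848 7 784)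
(mv 785 (cons (fin 720 7 720)
(fin 976 5 784)))))
(mv 786 (cons (fin 850 6 785)
(mv 848 (cons (fin 784 7 784)
(mv 912 (cons (fin 1105 7 848)
(mv 976 (cons (fin 1103 5 847)
(mv 847 (cons (fin 783 7 783)
(mv 846 (cons (fin 845 0 845)
(fin 914 0 846))))))))))))))
(cons (mv 785 (cons (fin 976 5 784)
(mv 786 (cons (fin 722 6 721)
(fin 850 6 785)))))
(mv 784 (cons (fin 848 7 784)
(mv 785 (cons (fin 720 7 720)
(mv 786 (cons (fin 722 6 721)
(fin 850 6 785)))))))))))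
(cons (mv 1105 (cons (cons (mv 848 (cons (fin 912 7 848)
(mv 850 (cons (fin 914 6 849)
(mv 1104 (cons (fin 1168 5 912)
(mv 1103 (cons (fin 1165 1 1101)
(mv 1169 (cons (fin 1170 0 1102)
(mv 1233 (cons (fin 976 7 976)
(fin 1297 7 1040)))))))))))))
(cons (mv 850 (cons (fin 914 6 849)
(mv 912 (cons (fin 848 7 848)
(mv 1169 (cons (fin 976 7 912)
(mv 1168 (cons (fin 1232 5 976)
(mv 1234 (cons (fin 1170 4 977)
(mv 1233 (cons (fin 1167 0 1166)
(fin 1298 4 1041)))))))))))))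
(mv 850 (cons (fin 914 6 849)
(mv 912 (cons (fin 848 7 848)
(mv 1169 (cons (fin 976 7 912)
(mv 1234 (cons (fin 1170 4 977)
(mv 1233 (cons (fin 1298 4 1041)
(mv 1296 (cons (fin 1232 5 1040)
(mv 1297 (cons (fin 1104 7 1040)
(fin 1360 5 1104)))))))))))))))))
(cons (cons (mv 850 (cons (fin 914 6 849)
(mv 1104 (cons (fin 1168 5 912)
(mv 1103 (cons (fin 1165 1 1101)
(mv 1169 (cons (fin 1170 0 1102)
(mv 1233 (cons (fin 976 7 976)
(fin 1297 7 1040)))))))))))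
(mv 848 (cons (fin 912 7 848)
(mv 1104 (cons (fin 1168 5 912)
(mv 1103 (cons (fin 1165 1 1101)
(mv 1169 (cons (fin 1170 0 1102)
(mv 1233 (cons (fin 976 7 976)
(fin 1297 7 1040))))))))))))
(cons (mv 848 (cons (fin 912 7 848)
(mv 850 (cons (fin 914 6 849)
(mv 1168 (cons (fin 1104 5 912)
(mv 1169 (cons (fin 1232 5 976)
(mv 1234 (cons (fin 1170 4 977)
(mv 1233 (cons (fin 1167 0 1166)
(fin 1298 4 1041)))))))))))))
(mv 912 (cons (fin 848 7 848)
(mv 914 (cons (fin 850 6 849)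
(mv 915 (cons (fin 976 1 911)
(mv 852 (cons (fin 851 2 848)
(mv 916 (cons (fin 853 2 849)
(mv 980 (cons (fin 979 0 912)
(fin 981 0 913)))))))))))))))))
(cons (mv 849 (cons (fin 1104 5 848)
(mv 784 (cons (fin 848 7 784)
(mv 785 (cons (fin 720 7 720)
(mv 786 (cons (fin 722 6 721)
(fin 850 6 785)))))))))
(mv 849 (cons (fin 1104 5 848)
(mv 785 (cons (fin 976 5 784)
(mv 786 (cons (fin 722 6 721)
(fin 850 6 785))))))))))))))
(cons (mv 911 (cons (fin 847 5 846)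
(mv 912 (cons (cons (mv 848 (cons (fin 1103 6 847)
(mv 784 (cons (fin 720 5 719)
(fin 976 5 783)))))
(mv 976 (cons (cons (mv 909 (cons (fin 910 0 909)
(mv 1103 (cons (fin 1167 6 911)
(mv 1104 (cons (fin 1168 7 911)
(mv 913 (cons (fin 849 5 848)
(mv 914 (cons (fin 915 1 911)
(mv 850 (cons (fin 851 2 847)
(fin 1105 6 849)))))))))))))
(mv 910 (cons (fin 909 0 909)
(mv 1103 (cons (fin 846 7 846)
(fin 1167 6 911))))))
(cons (mv 909 (cons (fin 910 0 909)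
(mv 1104 (cons (fin 1168 7 911)
(mv 913 (cons (fin 849 5 848)
(mv 914 (cons (fin 915 1 911)
(mv 850 (cons (fin 851 2 847)
(fin 1105 6 849)))))))))))
(mv 1103 (cons (fin 1167 6 911)
(mv 1104 (cons (fin 1168 7 911)
(mv 913 (cons (fin 849 5 848)
(mv 914 (cons (fin 915 1 911)
(mv 850 (cons (fin 851 2 847)
(fin 1105 6 849)))))))))))))))
(cons (mv 976 (cons (mv 848 (cons (fin 784 5 783)
(fin 1105 4 848)))
(cons (mv 909 (cons (fin 910 0 909)
(mv 1104 (cons (fin 1168 7 911)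
(mv 913 (cons (fin 849 5 848)
(mv 914 (cons (fin 915 1 911)
(mv 850 (cons (fin 851 2 847)
(fin 1105 6 849)))))))))))
(mv 848 (cons (fin 784 5 783)
(mv 849 (cons (fin 785 6 784)
(mv 1104 (cons (fin 1168 7 911)
(fin 913 5 848))))))))))
(mv 848 (cons (fin 1103 6 847)
(mv 720 (cons (fin 784 5 719)
(mv 913 (cons (fin 1105 7 848)
(mv 849 (cons (fin 1104 5 848)
(mv 850 (cons (fin 851 1 847)
(fin 910 2 846))))))))))))))))
(cons (mv 1166 (cons (fin 1230 6 974)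
(mv 911 (cons (fin 1103 5 910)
(mv 913 (cons (cons (mv 849 (cons (fin 1104 5 848)
(mv 784 (cons (fin 848 7 784)
(mv 785 (cons (fin 720 7 720)
(fin 976 5 784)))))))
(mv 849 (cons (mv 784 (cons (fin 848 7 784)
(mv 785 (cons (fin 720 7 720)
(fin 976 5 784)))))
(cons (mv 784 (cons (fin 848 7 784)
(mv 850 (cons (fin 786 6 785)
(mv 912 (cons (fin 910 2 846)
(mv 851 (cons (fin 852 1 848)
(fin 914 2 847)))))))))
(mv 785 (cons (fin 976 5 784)
(mv 786 (cons (fin 722 6 721)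
(fin 850 6 785)))))))))
(cons (mv 1105 (cons (cons (mv 848 (cons (fin 912 7 848)
(mv 850 (cons (fin 914 6 849)
(mv 1168 (cons (fin 1104 5 912)
(mv 1169 (cons (fin 1232 5 976)
(mv 1233 (cons (fin 976 7 976)
(mv 1234 (cons (fin 1167 0 1166)
(fin 1170 4 977)))))))))))))
(cons (mv 850 (cons (fin 914 6 849)
(mv 912 (cons (fin 848 7 848)
(mv 1169 (cons (fin 976 7 912)
(mv 1234 (cons (fin 1170 4 977)
(mv 1233 (cons (fin 1298 4 1041)
(mv 1296 (cons (fin 1232 5 1040)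
(mv 1297 (cons (fin 1104 7 1040)
(fin 1360 5 1104)))))))))))))))
(mv 850 (cons (fin 914 6 849)
(mv 912 (cons (fin 848 7 848)
(mv 1169 (cons (fin 976 7 912)
(mv 1168 (cons (fin 1232 5 976)
(mv 1234 (cons (fin 1170 4 977)
(mv 1233 (cons (fin 1167 0 1166)
(fin 1298 4 1041)))))))))))))))
(cons (cons (mv 850 (cons (fin 914 6 849)
(mv 1168 (cons (fin 1104 5 912)
(mv 1169 (cons (fin 1232 5 976)
(mv 1233 (cons (fin 976 7 976)
(mv 1234 (cons (fin 1167 0 1166)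
(fin 1170 4 977)))))))))))
(mv 848 (cons (fin 912 7 848)
(mv 1168 (cons (fin 1104 5 912)
(mv 1169 (cons (fin 1232 5 976)
(mv 1233 (cons (fin 976 7 976)
(mv 1234 (cons (fin 1167 0 1166)
(fin 1170 4 977))))))))))))
(cons (mv 848 (cons (fin 912 7 848)
(mv 850 (cons (fin 914 6 849)
(mv 1168 (cons (fin 1104 5 912)
(mv 1169 (cons (fin 1232 5 976)
(mv 1234 (cons (fin 1170 4 977)
(mv 1233 (cons (fin 1167 0 1166)
(fin 1298 4 1041)))))))))))))
(mv 912 (cons (fin 848 7 848)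
(mv 914 (cons (fin 850 6 849)
(mv 915 (cons (fin 976 1 911)
(mv 852 (cons (fin 851 2 848)
(mv 916 (cons (fin 853 2 849)
(mv 980 (cons (fin 979 0 912)
(fin 981 0 913)))))))))))))))))
(cons (mv 849 (cons (fin 1104 5 848)
(mv 784 (cons (fin 848 7 784)
(mv 720 (cons (fin 785 7 720)
(mv 850 (cons (fin 786 6 785)
(mv 912 (cons (fin 910 2 846)
(mv 851 (cons (fin 852 1 848)
(fin 914 2 847)))))))))))))
(mv 849 (cons (fin 1104 5 848)
(mv 785 (cons (fin 976 5 784)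
(mv 786 (cons (fin 722 6 721)
(fin 850 6 785)))))))))))))))
(mv 911 (cons (fin 847 5 846)
(mv 1166 (cons (fin 1230 6 974)
(mv 913 (cons (cons (mv 849 (cons (fin 1104 5 848)
(mv 784 (cons (fin 848 7 784)
(mv 785 (cons (fin 720 7 720)
(fin 976 5 784)))))))
(mv 849 (cons (mv 784 (cons (fin 848 7 784)
(mv 785 (cons (fin 720 7 720)
(fin 976 5 784)))))
(cons (mv 784 (cons (fin 848 7 784)
(mv 850 (cons (fin 786 6 785)
(mv 912 (cons (fin 910 2 846)
(mv 851 (cons (fin 852 1 848)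
(fin 914 2 847)))))))))
(mv 785 (cons (fin 976 5 784)
(mv 786 (cons (fin 722 6 721)
(fin 850 6 785)))))))))
(cons (mv 1105 (cons (cons (mv 848 (cons (fin 912 7 848)
(mv 850 (cons (fin 914 6 849)
(mv 1168 (cons (fin 1104 5 912)
(mv 1169 (cons (fin 1232 5 976)
(mv 1233 (cons (fin 976 7 976)
(mv 1234 (cons (fin 1167 0 1166)
(fin 1170 4 977)))))))))))))
(cons (mv 850 (cons (fin 914 6 849)
(mv 912 (cons (fin 848 7 848)
(mv 1169 (cons (fin 976 7 912)
(mv 1234 (cons (fin 1170 4 977)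
(mv 1233 (cons (fin 1298 4 1041)
(mv 1296 (cons (fin 1232 5 1040)
(mv 1297 (cons (fin 1104 7 1040)
(fin 1360 5 1104)))))))))))))))
(mv 850 (cons (fin 914 6 849)
(mv 912 (cons (fin 848 7 848)
(mv 1169 (cons (fin 976 7 912)
(mv 1168 (cons (fin 1232 5 976)
(mv 1234 (cons (fin 1170 4 977)
(mv 1233 (cons (fin 1167 0 1166)
(fin 1298 4 1041)))))))))))))))
(cons (cons (mv 850 (cons (fin 914 6 849)
(mv 1168 (cons (fin 1104 5 912)
(mv 1169 (cons (fin 1232 5 976)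
(mv 1233 (cons (fin 976 7 976)
(mv 1234 (cons (fin 1167 0 1166)
(fin 1170 4 977)))))))))))
(mv 848 (cons (fin 912 7 848)
(mv 1168 (cons (fin 1104 5 912)
(mv 1169 (cons (fin 1232 5 976)
(mv 1233 (cons (fin 976 7 976)
(mv 1234 (cons (fin 1167 0 1166)
(fin 1170 4 977))))))))))))
(cons (mv 848 (cons (fin 912 7 848)
(mv 850 (cons (fin 914 6 849)
(mv 1168 (cons (fin 1104 5 912)
(mv 1169 (cons (fin 1232 5 976)
(mv 1234 (cons (fin 1170 4 977)
(mv 1233 (cons (fin 1167 0 1166)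
(fin 1298 4 1041)))))))))))))
(mv 912 (cons (fin 848 7 848)
(mv 914 (cons (fin 850 6 849)
(mv 915 (cons (fin 976 1 911)
(mv 852 (cons (fin 851 2 848)
(mv 916 (cons (fin 853 2 849)
(mv 980 (cons (fin 979 0 912)
(fin 981 0 913)))))))))))))))))
(cons (mv 849 (cons (fin 1104 5 848)
(mv 784 (cons (fin 848 7 784)
(mv 720 (cons (fin 785 7 720)
(mv 850 (cons (fin 786 6 785)
(mv 912 (cons (fin 910 2 846)
(mv 851 (cons (fin 852 1 848)
(fin 914 2 847)))))))))))))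
(mv 849 (cons (fin 1104 5 848)
(mv 785 (cons (fin 976 5 784)
(mv 786 (cons (fin 722 6 721)
(fin 850 6 785))))))))))))))))))))))))))))))
(cons (mv 1037 (cons (cons (mv 972 (cons (fin 973 3 972)
(mv 976 (cons (fin 977 2 973)
(mv 975 (cons (fin 1036 2 972)
(mv 1100 (cons (fin 1101 1 1036)
(mv 1104 (cons (fin 1105 0 1037)
(mv 911 (cons (fin 1168 7 911)
(fin 847 4 847)))))))))))))
(cons (mv 972 (cons (fin 973 3 972)
(mv 1100 (cons (fin 1101 1 1036)
(mv 1036 (cons (fin 1099 1 1035)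
(mv 1104 (cons (fin 1103 0 1036)
(fin 1105 0 1037)))))))))
(mv 972 (cons (fin 973 3 972)
(mv 976 (cons (fin 977 2 973)
(mv 1036 (cons (fin 975 2 972)
(mv 1100 (cons (fin 1099 1 1035)
(fin 1101 1 1036)))))))))))
(cons (mv 972 (cons (fin 973 3 972)
(mv 976 (cons (fin 977 2 973)
(mv 975 (cons (fin 1036 2 972)
(mv 1104 (cons (fin 1105 0 1037)
(mv 911 (cons (fin 1168 7 911)
(fin 847 4 847)))))))))))
(cons (mv 976 (cons (fin 977 2 973)
(mv 975 (cons (fin 1036 2 972)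
(mv 1100 (cons (fin 1101 1 1036)
(mv 1104 (cons (fin 1105 0 1037)
(mv 911 (cons (fin 1168 7 911)
(fin 847 4 847)))))))))))
(mv 972 (cons (fin 973 3 972)
(mv 976 (cons (fin 977 2 973)
(mv 1100 (cons (fin 1101 1 1036)
(mv 1104 (cons (fin 1105 0 1037)
(mv 912 (cons (mv 1103 (cons (fin 848 5 847)
(fin 1167 5 911)))
(cons (mv 847 (cons (fin 911 7 847)
(mv 848 (cons (fin 783 7 783)
(mv 849 (cons (fin 785 6 784)
(fin 913 6 848)))))))
(mv 847 (cons (fin 911 7 847)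
(mv 849 (cons (fin 913 6 848)
(mv 1167 (cons (fin 1103 5 911)
(mv 1168 (cons (fin 1231 5 975)
(mv 1232 (cons (fin 975 7 975)
(mv 1233 (cons (fin 1169 4 976)
(fin 1297 4 1040))))))))))))))))))))))))))))
(mv 1037 (cons (cons (mv 972 (cons (fin 973 3 972)
(mv 976 (cons (fin 977 2 973)
(mv 975 (cons (fin 1036 2 972)
(mv 1104 (cons (fin 1105 0 1037)
(mv 911 (cons (fin 1168 7 911)
(fin 847 4 847)))))))))))
(mv 973 (cons (fin 972 3 972)
(mv 974 (cons (fin 1041 3 973)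
(mv 1104 (cons (fin 1105 0 1037)
(mv 1036 (cons (fin 1103 0 1036)
(mv 1035 (cons (fin 1034 2 970)
(fin 975 2 971))))))))))))
(cons (mv 973 (cons (fin 972 3 972)
(mv 974 (cons (fin 1041 3 973)
(mv 976 (cons (fin 977 2 973)
(mv 975 (cons (fin 1036 1 972)
(mv 908 (cons (fin 909 3 908)
(mv 912 (cons (fin 913 2 909)
(mv 848 (cons (fin 784 5 783)
(fin 1103 5 847)))))))))))))))
(cons (mv 976 (cons (fin 977 2 973)
(mv 975 (cons (fin 1036 2 972)
(mv 1104 (cons (fin 1105 0 1037)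
(mv 911 (cons (fin 1168 7 911)
(fin 847 4 847)))))))))
(mv 973 (cons (fin 972 3 972)
(mv 977 (cons (fin 976 2 973)
(mv 1041 (cons (fin 974 3 973)
(fin 978 2 974)))))))))))))
(cons (cons (mv 1037 (cons (cons (mv 972 (cons (fin 973 3 972)
(mv 1100 (cons (fin 1101 1 1036)
(mv 1036 (cons (fin 1099 1 1035)
(mv 1104 (cons (fin 1103 0 1036)
(fin 1105 0 1037)))))))))
(cons (mv 972 (cons (fin 973 3 972)
(mv 1104 (cons (fin 1105 0 1037)
(mv 1036 (cons (fin 1103 0 1036)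
(mv 975 (cons (fin 976 2 972)
(mv 847 (cons (fin 911 4 847)
(mv 1035 (cons (fin 974 2 971)
(mv 1099 (cons (fin 1098 1 1034)
(fin 1100 1 1035)))))))))))))))
(mv 1100 (cons (fin 1101 1 1036)
(mv 1036 (cons (fin 1099 1 1035)
(mv 1104 (cons (fin 1103 0 1036)
(fin 1105 0 1037)))))))))
(cons (mv 973 (cons (fin 972 3 972)
(mv 974 (cons (fin 1041 3 973)
(mv 1100 (cons (fin 1101 1 1036)
(mv 1036 (cons (fin 1099 1 1035)
(mv 975 (cons (fin 976 1 972)
(fin 1035 2 971)))))))))))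
(cons (mv 972 (cons (fin 973 3 972)
(mv 1104 (cons (fin 1105 0 1037)
(mv 1036 (cons (fin 1103 0 1036)
(mv 975 (cons (fin 976 2 972)
(mv 847 (cons (fin 911 4 847)
(mv 974 (cons (fin 1035 2 971)
(mv 1041 (cons (fin 1042 3 974)
(mv 1101 (cons (fin 1102 1 1037)
(mv 844 (cons (fin 908 4 844)
(mv 846 (cons (fin 910 5 845)
(mv 845 (cons (cons (mv 779 (cons (fin 780 3 779)
(mv 783 (cons (fin 784 2 780)
(mv 843 (cons (fin 778 3 778)
(fin 782 2 779)))))))
(mv 783 (cons (fin 784 2 780)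
(mv 843 (cons (fin 782 2 779)
(mv 778 (cons (fin 779 3 778)
(mv 842 (cons (fin 777 3 777)
(mv 906 (cons (fin 905 1 841)
(fin 907 1 842))))))))))))
(cons (mv 780 (cons (fin 779 3 779)
(mv 848 (cons (fin 781 3 780)
(mv 785 (cons (fin 784 2 781)
(mv 849 (cons (fin 786 2 782)
(mv 913 (cons (fin 912 0 845)
(fin 914 0 846)))))))))))
(cons (mv 784 (cons (fin 783 2 780)
(mv 848 (cons (fin 785 2 781)
(mv 781 (cons (fin 780 3 780)
(mv 849 (cons (fin 782 3 781)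
(mv 913 (cons (fin 912 0 845)
(fin 914 0 846)))))))))))
(mv 779 (cons (fin 780 3 779)
(mv 843 (cons (fin 778 3 778)
(mv 782 (cons (fin 783 2 779)
(mv 842 (cons (fin 781 2 778)
(mv 906 (cons (fin 905 1 841)
(fin 907 1 842)))))))))))))))))))))))))))))))))))
(mv 973 (cons (fin 972 3 972)
(mv 974 (cons (fin 1041 3 973)
(mv 1101 (cons (fin 1100 1 1036)
(mv 910 (cons (fin 846 5 845)
(fin 1165 6 909)))))))))))))
(mv 1037 (cons (cons (mv 976 (cons (fin 977 2 973)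
(mv 975 (cons (fin 1036 2 972)
(mv 1100 (cons (fin 1101 1 1036)
(mv 1104 (cons (fin 1105 0 1037)
(mv 911 (cons (fin 1168 7 911)
(fin 847 4 847)))))))))))
(mv 1100 (cons (fin 1101 1 1036)
(mv 1036 (cons (fin 1099 1 1035)
(mv 1104 (cons (fin 1103 0 1036)
(fin 1105 0 1037))))))))
(cons (mv 976 (cons (fin 977 2 973)
(mv 975 (cons (fin 1036 2 972)
(mv 1104 (cons (fin 1105 0 1037)
(mv 911 (cons (fin 1168 7 911)
(fin 847 4 847)))))))))
(cons (mv 976 (cons (fin 977 2 973)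
(mv 975 (cons (fin 1036 2 972)
(mv 1101 (cons (fin 1100 1 1036)
(mv 1041 (cons (fin 1102 1 1037)
(mv 1042 (cons (fin 974 3 974)
(fin 1043 3 975)))))))))))
(mv 977 (cons (fin 976 2 973)
(mv 1041 (cons (fin 978 2 974)
(mv 1101 (cons (fin 1100 1 1036)
(fin 1102 1 1037))))))))))))
(cons (mv 1041 (cons (cons (mv 973 (cons (fin 974 3 973)
(mv 972 (cons (fin 1037 3 972)
(mv 978 (cons (fin 977 2 974)
(mv 1042 (cons (fin 979 2 975)
(mv 1102 (cons (fin 1101 1 1037)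
(fin 1103 1 1038)))))))))))
(mv 973 (cons (fin 974 3 973)
(mv 977 (cons (fin 978 2 974)
(mv 1037 (cons (fin 972 3 972)
(mv 1100 (cons (fin 1101 1 1036)
(mv 1036 (cons (fin 1099 1 1035)
(mv 1104 (cons (fin 1103 0 1036)
(fin 1105 0 1037))))))))))))))
(cons (mv 978 (cons (fin 977 2 974)
(mv 1042 (cons (fin 979 2 975)
(mv 1102 (cons (fin 1101 1 1037)
(fin 1103 1 1038)))))))
(cons (mv 973 (cons (fin 974 3 973)
(mv 977 (cons (fin 978 2 974)
(mv 1037 (cons (fin 972 3 972)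
(mv 1104 (cons (fin 1105 0 1037)
(mv 849 (cons (fin 913 5 848)
(mv 1103 (cons (fin 1036 0 1036)
(mv 1042 (cons (fin 1102 1 1038)
(fin 1043 1 1039)))))))))))))))
(mv 973 (cons (fin 974 3 973)
(mv 1037 (cons (fin 972 3 972)
(mv 1101 (cons (fin 1100 1 1036)
(fin 1102 1 1037)))))))))))
(cons (mv 1041 (cons (cons (mv 973 (cons (fin 974 3 973)
(mv 972 (cons (fin 1037 3 972)
(mv 978 (cons (fin 977 2 974)
(mv 1042 (cons (fin 979 2 975)
(mv 1102 (cons (fin 1101 1 1037)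
(fin 1103 1 1038)))))))))))
(mv 977 (cons (fin 978 2 974)
(mv 976 (cons (fin 1037 2 973)
(mv 1102 (cons (fin 1101 1 1037)
(mv 1042 (cons (fin 1103 1 1038)
(mv 1043 (cons (fin 975 3 975)
(fin 1044 3 976))))))))))))
(cons (mv 973 (cons (fin 974 3 973)
(mv 977 (cons (fin 978 2 974)
(mv 1037 (cons (fin 972 3 972)
(fin 976 2 973)))))))
(cons (mv 973 (cons (fin 974 3 973)
(mv 1037 (cons (fin 972 3 972)
(mv 1101 (cons (fin 1100 1 1036)
(fin 1102 1 1037)))))))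
(mv 973 (cons (fin 974 3 973)
(mv 978 (cons (fin 977 2 974)
(mv 1042 (cons (fin 979 2 975)
(mv 1102 (cons (fin 1101 1 1037)
(fin 1103 1 1038)))))))))))))
(mv 1037 (cons (cons (mv 972 (cons (fin 973 3 972)
(mv 976 (cons (fin 977 2 973)
(mv 975 (cons (fin 1036 2 972)
(mv 1100 (cons (fin 1101 1 1036)
(mv 1104 (cons (fin 1105 0 1037)
(mv 911 (cons (fin 1168 7 911)
(fin 847 4 847)))))))))))))
(mv 972 (cons (fin 973 3 972)
(mv 976 (cons (fin 977 2 973)
(mv 975 (cons (fin 1036 2 972)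
(mv 1104 (cons (fin 1105 0 1037)
(mv 911 (cons (fin 1168 7 911)
(fin 847 4 847))))))))))))
(cons (mv 976 (cons (fin 977 2 973)
(mv 975 (cons (fin 1036 2 972)
(mv 1100 (cons (fin 1101 1 1036)
(mv 1104 (cons (fin 1105 0 1037)
(mv 911 (cons (fin 1168 7 911)
(fin 847 4 847)))))))))))
(cons (mv 973 (cons (fin 972 3 972)
(mv 974 (cons (fin 1041 3 973)
(mv 1100 (cons (fin 1101 1 1036)
(mv 1036 (cons (fin 1099 1 1035)
(mv 1035 (cons (fin 1034 2 970)
(fin 975 2 971)))))))))))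
(mv 972 (cons (fin 973 3 972)
(mv 977 (cons (fin 976 2 973)
(mv 1041 (cons (fin 978 2 974)
(mv 1101 (cons (fin 1100 1 1036)
(fin 1102 1 1037))))))))))))))))))
(mv 1038 (cons (cons (mv 1037 (cons (cons (mv 972 (cons (fin 973 3 972)
(mv 971 (cons (fin 1036 3 971)
(mv 977 (cons (fin 976 2 973)
(mv 1041 (cons (fin 978 2 974)
(mv 1101 (cons (fin 1100 1 1036)
(fin 1102 1 1037)))))))))))
(cons (mv 972 (cons (fin 973 3 972)
(mv 971 (cons (fin 1036 3 971)
(mv 1101 (cons (fin 1100 1 1036)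
(mv 1041 (cons (fin 1102 1 1037)
(mv 978 (cons (fin 977 2 974)
(mv 1042 (cons (fin 979 2 975)
(mv 975 (cons (fin 974 3 974)
(mv 1104 (cons (fin 1105 0 1037)
(mv 911 (cons (fin 847 4 847)
(mv 1103 (cons (fin 1043 1 1039)
(fin 1168 4 911)))))))))))))))))))))
(mv 976 (cons (fin 977 2 973)
(mv 975 (cons (fin 1036 2 972)
(mv 1100 (cons (fin 1101 1 1036)
(mv 1104 (cons (fin 1105 0 1037)
(mv 911 (cons (fin 1168 7 911)
(fin 847 4 847)))))))))))))
(cons (mv 972 (cons (fin 973 3 972)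
(mv 976 (cons (fin 977 2 973)
(mv 1036 (cons (fin 971 3 971)
(fin 975 2 972)))))))
(cons (mv 972 (cons (fin 973 3 972)
(mv 1036 (cons (fin 971 3 971)
(mv 1100 (cons (fin 1099 1 1035)
(fin 1101 1 1036)))))))
(mv 972 (cons (fin 973 3 972)
(mv 977 (cons (fin 976 2 973)
(mv 1041 (cons (fin 978 2 974)
(mv 1101 (cons (fin 1100 1 1036)
(fin 1102 1 1037)))))))))))))
(cons (mv 1041 (cons (cons (mv 973 (cons (fin 974 3 973)
(mv 978 (cons (fin 977 2 974)
(mv 1042 (cons (fin 979 2 975)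
(mv 1102 (cons (fin 1101 1 1037)
(fin 1103 1 1038)))))))))
(mv 978 (cons (fin 977 2 974)
(mv 1042 (cons (fin 979 2 975)
(mv 1102 (cons (fin 1101 1 1037)
(fin 1103 1 1038))))))))
(cons (mv 974 (cons (fin 973 3 973)
(mv 978 (cons (fin 977 2 974)
(mv 1042 (cons (fin 975 3 974)
(fin 979 2 975)))))))
(cons (mv 974 (cons (fin 973 3 973)
(mv 975 (cons (fin 1042 3 974)
(mv 1102 (cons (fin 1101 1 1037)
(mv 911 (cons (fin 847 5 846)
(fin 1166 6 910)))))))))
(mv 973 (cons (fin 974 3 973)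
(mv 977 (cons (fin 978 2 974)
(mv 1102 (cons (fin 1101 1 1037)
(mv 975 (cons (cons (mv 911 (cons (fin 847 5 846)
(mv 1166 (cons (fin 1103 5 910)
(fin 1230 6 974)))))
(mv 1166 (cons (fin 1230 6 974)
(mv 913 (cons (cons (mv 849 (cons (fin 1104 5 848)
(mv 784 (cons (fin 848 7 784)
(mv 785 (cons (fin 720 7 720)
(fin 976 5 784)))))))
(mv 849 (cons (cons (mv 784 (cons (fin 848 7 784)
(mv 785 (cons (fin 720 7 720)
(fin 976 5 784)))))
(mv 786 (cons (fin 850 6 785)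
(mv 848 (cons (fin 784 7 784)
(mv 912 (cons (fin 1105 7 848)
(mv 976 (cons (fin 1103 5 847)
(mv 847 (cons (fin 783 7 783)
(mv 846 (cons (fin 845 0 845)
(fin 914 0 846))))))))))))))
(cons (mv 785 (cons (fin 976 5 784)
(mv 786 (cons (fin 722 6 721)
(fin 850 6 785)))))
(mv 784 (cons (fin 848 7 784)
(mv 785 (cons (fin 720 7 720)
(mv 786 (cons (fin 722 6 721)
(fin 850 6 785)))))))))))
(cons (mv 1105 (cons (cons (mv 848 (cons (fin 912 7 848)
(mv 850 (cons (fin 914 6 849)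
(mv 1168 (cons (fin 1104 5 912)
(mv 1169 (cons (fin 1232 5 976)
(mv 1233 (cons (fin 976 7 976)
(mv 1234 (cons (fin 1167 0 1166)
(fin 1170 4 977)))))))))))))
(cons (mv 850 (cons (fin 914 6 849)
(mv 912 (cons (fin 848 7 848)
(mv 1169 (cons (fin 976 7 912)
(mv 1234 (cons (fin 1170 4 977)
(mv 1233 (cons (fin 1298 4 1041)
(mv 1296 (cons (fin 1232 5 1040)
(mv 1297 (cons (fin 1104 7 1040)
(fin 1360 5 1104)))))))))))))))
(mv 850 (cons (fin 914 6 849)
(mv 912 (cons (fin 848 7 848)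
(mv 1169 (cons (fin 976 7 912)
(mv 1168 (cons (fin 1232 5 976)
(mv 1234 (cons (fin 1170 4 977)
(mv 1233 (cons (fin 1167 0 1166)
(fin 1298 4 1041)))))))))))))))
(cons (cons (mv 850 (cons (fin 914 6 849)
(mv 1168 (cons (fin 1104 5 912)
(mv 1169 (cons (fin 1232 5 976)
(mv 1233 (cons (fin 976 7 976)
(mv 1234 (cons (fin 1167 0 1166)
(fin 1170 4 977)))))))))))
(mv 848 (cons (fin 912 7 848)
(mv 1168 (cons (fin 1104 5 912)
(mv 1169 (cons (fin 1232 5 976)
(mv 1233 (cons (fin 976 7 976)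
(mv 1234 (cons (fin 1167 0 1166)
(fin 1170 4 977))))))))))))
(cons (mv 848 (cons (fin 912 7 848)
(mv 850 (cons (fin 914 6 849)
(mv 1168 (cons (fin 1104 5 912)
(mv 1169 (cons (fin 1232 5 976)
(mv 1234 (cons (fin 1170 4 977)
(mv 1233 (cons (fin 1167 0 1166)
(fin 1298 4 1041)))))))))))))
(mv 912 (cons (fin 848 7 848)
(mv 914 (cons (fin 850 6 849)
(mv 915 (cons (fin 976 1 911)
(mv 852 (cons (fin 851 2 848)
(mv 916 (cons (fin 853 2 849)
(mv 980 (cons (fin 979 0 912)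
(fin 981 0 913)))))))))))))))))
(cons (mv 849 (cons (fin 1104 5 848)
(mv 784 (cons (fin 848 7 784)
(mv 785 (cons (fin 720 7 720)
(mv 786 (cons (fin 722 6 721)
(fin 850 6 785)))))))))
(mv 849 (cons (fin 1104 5 848)
(mv 785 (cons (fin 976 5 784)
(mv 786 (cons (fin 722 6 721)
(fin 850 6 785))))))))))))))
(cons (mv 911 (cons (fin 847 5 846)
(mv 912 (cons (cons (mv 848 (cons (fin 1103 6 847)
(mv 784 (cons (fin 720 5 719)
(fin 976 5 783)))))
(mv 976 (cons (cons (mv 909 (cons (fin 910 0 909)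
(mv 1103 (cons (fin 1167 6 911)
(mv 1104 (cons (fin 1168 7 911)
(mv 913 (cons (fin 849 5 848)
(mv 914 (cons (fin 915 1 911)
(mv 850 (cons (fin 851 2 847)
(fin 1105 6 849)))))))))))))
(mv 910 (cons (fin 909 0 909)
(mv 1103 (cons (fin 846 7 846)
(fin 1167 6 911))))))
(cons (mv 909 (cons (fin 910 0 909)
(mv 1104 (cons (fin 1168 7 911)
(mv 913 (cons (fin 849 5 848)
(mv 914 (cons (fin 915 1 911)
(mv 850 (cons (fin 851 2 847)
(fin 1105 6 849)))))))))))
(mv 1103 (cons (fin 1167 6 911)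
(mv 1104 (cons (fin 1168 7 911)
(mv 913 (cons (fin 849 5 848)
(mv 914 (cons (fin 915 1 911)
(mv 850 (cons (fin 851 2 847)
(fin 1105 6 849)))))))))))))))
(cons (mv 976 (cons (mv 848 (cons (fin 784 5 783)
(fin 1105 4 848)))
(cons (mv 909 (cons (fin 910 0 909)
(mv 1104 (cons (fin 1168 7 911)
(mv 913 (cons (fin 849 5 848)
(mv 914 (cons (fin 915 1 911)
(mv 850 (cons (fin 851 2 847)
(fin 1105 6 849)))))))))))
(mv 848 (cons (fin 784 5 783)
(mv 849 (cons (fin 785 6 784)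
(mv 1104 (cons (fin 1168 7 911)
(fin 913 5 848))))))))))
(mv 848 (cons (fin 1103 6 847)
(mv 720 (cons (fin 784 5 719)
(mv 913 (cons (fin 1105 7 848)
(mv 849 (cons (fin 1104 5 848)
(mv 850 (cons (fin 851 1 847)
(fin 910 2 846))))))))))))))))
(cons (mv 1166 (cons (fin 1230 6 974)
(mv 911 (cons (fin 1103 5 910)
(mv 913 (cons (cons (mv 849 (cons (fin 1104 5 848)
(mv 784 (cons (fin 848 7 784)
(mv 785 (cons (fin 720 7 720)
(fin 976 5 784)))))))
(mv 849 (cons (mv 784 (cons (fin 848 7 784)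
(mv 785 (cons (fin 720 7 720)
(fin 976 5 784)))))
(cons (mv 784 (cons (fin 848 7 784)
(mv 850 (cons (fin 786 6 785)
(mv 912 (cons (fin 910 2 846)
(mv 851 (cons (fin 852 1 848)
(fin 914 2 847)))))))))
(mv 785 (cons (fin 976 5 784)
(mv 786 (cons (fin 722 6 721)
(fin 850 6 785)))))))))
(cons (mv 1105 (cons (cons (mv 848 (cons (fin 912 7 848)
(mv 850 (cons (fin 914 6 849)
(mv 1168 (cons (fin 1104 5 912)
(mv 1169 (cons (fin 1232 5 976)
(mv 1233 (cons (fin 976 7 976)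
(mv 1234 (cons (fin 1167 0 1166)
(fin 1170 4 977)))))))))))))
(cons (mv 850 (cons (fin 914 6 849)
(mv 912 (cons (fin 848 7 848)
(mv 1169 (cons (fin 976 7 912)
(mv 1234 (cons (fin 1170 4 977)
(mv 1233 (cons (fin 1298 4 1041)
(mv 1296 (cons (fin 1232 5 1040)
(mv 1297 (cons (fin 1104 7 1040)
(fin 1360 5 1104)))))))))))))))
(mv 850 (cons (fin 914 6 849)
(mv 912 (cons (fin 848 7 848)
(mv 1169 (cons (fin 976 7 912)
(mv 1168 (cons (fin 1232 5 976)
(mv 1234 (cons (fin 1170 4 977)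
(mv 1233 (cons (fin 1167 0 1166)
(fin 1298 4 1041)))))))))))))))
(cons (cons (mv 850 (cons (fin 914 6 849)
(mv 1168 (cons (fin 1104 5 912)
(mv 1169 (cons (fin 1232 5 976)
(mv 1233 (cons (fin 976 7 976)
(mv 1234 (cons (fin 1167 0 1166)
(fin 1170 4 977)))))))))))
(mv 848 (cons (fin 912 7 848)
(mv 1168 (cons (fin 1104 5 912)
(mv 1169 (cons (fin 1232 5 976)
(mv 1233 (cons (fin 976 7 976)
(mv 1234 (cons (fin 1167 0 1166)
(fin 1170 4 977))))))))))))
(cons (mv 848 (cons (fin 912 7 848)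
(mv 850 (cons (fin 914 6 849)
(mv 1168 (cons (fin 1104 5 912)
(mv 1169 (cons (fin 1232 5 976)
(mv 1234 (cons (fin 1170 4 977)
(mv 1233 (cons (fin 1167 0 1166)
(fin 1298 4 1041)))))))))))))
(mv 912 (cons (fin 848 7 848)
(mv 914 (cons (fin 850 6 849)
(mv 915 (cons (fin 976 1 911)
(mv 852 (cons (fin 851 2 848)
(mv 916 (cons (fin 853 2 849)
(mv 980 (cons (fin 979 0 912)
(fin 981 0 913)))))))))))))))))
(cons (mv 849 (cons (fin 1104 5 848)
(mv 784 (cons (fin 848 7 784)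
(mv 720 (cons (fin 785 7 720)
(mv 850 (cons (fin 786 6 785)
(mv 912 (cons (fin 910 2 846)
(mv 851 (cons (fin 852 1 848)
(fin 914 2 847)))))))))))))
(mv 849 (cons (fin 1104 5 848)
(mv 785 (cons (fin 976 5 784)
(mv 786 (cons (fin 722 6 721)
(fin 850 6 785)))))))))))))))
(mv 911 (cons (fin 847 5 846)
(mv 1166 (cons (fin 1230 6 974)
(mv 913 (cons (cons (mv 849 (cons (fin 1104 5 848)
(mv 784 (cons (fin 848 7 784)
(mv 785 (cons (fin 720 7 720)
(fin 976 5 784)))))))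
(mv 849 (cons (mv 784 (cons (fin 848 7 784)
(mv 785 (cons (fin 720 7 720)
(fin 976 5 784)))))
(cons (mv 784 (cons (fin 848 7 784)
(mv 850 (cons (fin 786 6 785)
(mv 912 (cons (fin 910 2 846)
(mv 851 (cons (fin 852 1 848)
(fin 914 2 847)))))))))
(mv 785 (cons (fin 976 5 784)
(mv 786 (cons (fin 722 6 721)
(fin 850 6 785)))))))))
(cons (mv 1105 (cons (cons (mv 848 (cons (fin 912 7 848)
(mv 850 (cons (fin 914 6 849)
(mv 1168 (cons (fin 1104 5 912)
(mv 1169 (cons (fin 1232 5 976)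
(mv 1233 (cons (fin 976 7 976)
(mv 1234 (cons (fin 1167 0 1166)
(fin 1170 4 977)))))))))))))
(cons (mv 850 (cons (fin 914 6 849)
(mv 912 (cons (fin 848 7 848)
(mv 1169 (cons (fin 976 7 912)
(mv 1234 (cons (fin 1170 4 977)
(mv 1233 (cons (fin 1298 4 1041)
(mv 1296 (cons (fin 1232 5 1040)
(mv 1297 (cons (fin 1104 7 1040)
(fin 1360 5 1104)))))))))))))))
(mv 850 (cons (fin 914 6 849)
(mv 912 (cons (fin 848 7 848)
(mv 1169 (cons (fin 976 7 912)
(mv 1168 (cons (fin 1232 5 976)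
(mv 1234 (cons (fin 1170 4 977)
(mv 1233 (cons (fin 1167 0 1166)
(fin 1298 4 1041)))))))))))))))
(cons (cons (mv 850 (cons (fin 914 6 849)
(mv 1168 (cons (fin 1104 5 912)
(mv 1169 (cons (fin 1232 5 976)
(mv 1233 (cons (fin 976 7 976)
(mv 1234 (cons (fin 1167 0 1166)
(fin 1170 4 977)))))))))))
(mv 848 (cons (fin 912 7 848)
(mv 1168 (cons (fin 1104 5 912)
(mv 1169 (cons (fin 1232 5 976)
(mv 1233 (cons (fin 976 7 976)
(mv 1234 (cons (fin 1167 0 1166)
(fin 1170 4 977))))))))))))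
(cons (mv 848 (cons (fin 912 7 848)
(mv 850 (cons (fin 914 6 849)
(mv 1168 (cons (fin 1104 5 912)
(mv 1169 (cons (fin 1232 5 976)
(mv 1234 (cons (fin 1170 4 977)
(mv 1233 (cons (fin 1167 0 1166)
(fin 1298 4 1041)))))))))))))
(mv 912 (cons (fin 848 7 848)
(mv 914 (cons (fin 850 6 849)
(mv 915 (cons (fin 976 1 911)
(mv 852 (cons (fin 851 2 848)
(mv 916 (cons (fin 853 2 849)
(mv 980 (cons (fin 979 0 912)
(fin 981 0 913)))))))))))))))))
(cons (mv 849 (cons (fin 1104 5 848)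
(mv 784 (cons (fin 848 7 784)
(mv 720 (cons (fin 785 7 720)
(mv 850 (cons (fin 786 6 785)
(mv 912 (cons (fin 910 2 846)
(mv 851 (cons (fin 852 1 848)
(fin 914 2 847)))))))))))))
(mv 849 (cons (fin 1104 5 848)
(mv 785 (cons (fin 976 5 784)
(mv 786 (cons (fin 722 6 721)
(fin 850 6 785)))))))))))))))))))))))))))))
(mv 1037 (cons (cons (mv 972 (cons (fin 973 3 972)
(mv 976 (cons (fin 977 2 973)
(mv 1036 (cons (fin 971 3 971)
(fin 975 2 972)))))))
(mv 972 (cons (fin 973 3 972)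
(mv 1036 (cons (fin 971 3 971)
(mv 1100 (cons (fin 1099 1 1035)
(fin 1101 1 1036))))))))
(cons (mv 976 (cons (fin 977 2 973)
(mv 975 (cons (fin 1036 2 972)
(mv 1100 (cons (fin 1101 1 1036)
(mv 1104 (cons (fin 1105 0 1037)
(mv 911 (cons (fin 1168 7 911)
(fin 847 4 847)))))))))))
(mv 972 (cons (fin 973 3 972)
(mv 976 (cons (fin 977 2 973)
(mv 1100 (cons (fin 1101 1 1036)
(mv 1104 (cons (fin 1105 0 1037)
(mv 912 (cons (mv 1103 (cons (fin 848 5 847)
(fin 1167 5 911)))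
(cons (mv 847 (cons (fin 911 7 847)
(mv 848 (cons (fin 783 7 783)
(mv 849 (cons (fin 785 6 784)
(fin 913 6 848)))))))
(mv 847 (cons (fin 911 7 847)
(mv 849 (cons (fin 913 6 848)
(mv 1167 (cons (fin 1103 5 911)
(mv 1168 (cons (fin 1231 5 975)
(mv 1232 (cons (fin 975 7 975)
(mv 1233 (cons (fin 1169 4 976)
(fin 1297 4 1040)))))))))))))))))))))))))))))
(cons (cons (mv 1037 (cons (cons (mv 976 (cons (fin 977 2 973)
(mv 975 (cons (fin 1036 2 972)
(mv 1100 (cons (fin 1101 1 1036)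
(mv 1104 (cons (fin 1105 0 1037)
(mv 911 (cons (fin 1168 7 911)
(fin 847 4 847)))))))))))
(mv 1100 (cons (fin 1101 1 1036)
(mv 1036 (cons (fin 1099 1 1035)
(mv 1104 (cons (fin 1103 0 1036)
(fin 1105 0 1037))))))))
(cons (mv 976 (cons (fin 977 2 973)
(mv 975 (cons (fin 1036 2 972)
(mv 1104 (cons (fin 1105 0 1037)
(mv 911 (cons (fin 1168 7 911)
(fin 847 4 847)))))))))
(cons (mv 976 (cons (fin 977 2 973)
(mv 975 (cons (fin 1036 2 972)
(mv 1101 (cons (fin 1100 1 1036)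
(mv 1041 (cons (fin 1102 1 1037)
(mv 1042 (cons (fin 974 3 974)
(fin 1043 3 975)))))))))))
(mv 977 (cons (fin 976 2 973)
(mv 1041 (cons (fin 978 2 974)
(mv 1101 (cons (fin 1100 1 1036)
(fin 1102 1 1037)))))))))))
(mv 1037 (cons (cons (mv 972 (cons (fin 973 3 972)
(mv 1036 (cons (fin 971 3 971)
(mv 1100 (cons (fin 1099 1 1035)
(fin 1101 1 1036)))))))
(mv 1100 (cons (fin 1101 1 1036)
(mv 1036 (cons (fin 1099 1 1035)
(mv 1104 (cons (fin 1103 0 1036)
(fin 1105 0 1037))))))))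
(cons (mv 972 (cons (fin 973 3 972)
(mv 1036 (cons (fin 971 3 971)
(mv 1104 (cons (fin 1103 0 1036)
(fin 1105 0 1037)))))))
(mv 973 (cons (fin 972 3 972)
(mv 1041 (cons (fin 974 3 973)
(mv 1101 (cons (fin 1100 1 1036)
(fin 1102 1 1037)))))))))))
(cons (mv 1037 (cons (cons (mv 972 (cons (fin 973 3 972)
(mv 976 (cons (fin 977 2 973)
(mv 1036 (cons (fin 971 3 971)
(fin 975 2 972)))))))
(mv 972 (cons (fin 973 3 972)
(mv 1036 (cons (fin 971 3 971)
(mv 1104 (cons (fin 1103 0 1036)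
(fin 1105 0 1037))))))))
(cons (mv 976 (cons (fin 977 2 973)
(mv 975 (cons (fin 1036 2 972)
(mv 1104 (cons (fin 1105 0 1037)
(mv 911 (cons (fin 1168 7 911)
(fin 847 4 847)))))))))
(mv 973 (cons (fin 972 3 972)
(mv 977 (cons (fin 976 2 973)
(mv 1041 (cons (fin 974 3 973)
(fin 978 2 974))))))))))
(mv 1037 (cons (cons (mv 972 (cons (fin 973 3 972)
(mv 971 (cons (fin 1036 3 971)
(mv 977 (cons (fin 976 2 973)
(mv 1041 (cons (fin 978 2 974)
(mv 1101 (cons (fin 1100 1 1036)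
(fin 1102 1 1037)))))))))))
(mv 976 (cons (fin 977 2 973)
(mv 975 (cons (fin 1036 2 972)
(mv 1101 (cons (fin 1100 1 1036)
(mv 1041 (cons (fin 1102 1 1037)
(mv 1042 (cons (fin 974 3 974)
(fin 1043 3 975))))))))))))
(cons (mv 972 (cons (fin 973 3 972)
(mv 1036 (cons (fin 971 3 971)
(mv 1100 (cons (fin 1099 1 1035)
(fin 1101 1 1036)))))))
(cons (mv 972 (cons (fin 973 3 972)
(mv 976 (cons (fin 977 2 973)
(mv 1036 (cons (fin 971 3 971)
(fin 975 2 972)))))))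
(mv 972 (cons (fin 973 3 972)
(mv 977 (cons (fin 976 2 973)
(mv 1041 (cons (fin 978 2 974)
(mv 1101 (cons (fin 1100 1 1036)
(fin 1102 1 1037)))))))))))))))))))))))
def l63 : Lem := ⟨11781361728633673532894774498354952494238773929196300355071513798753168641589311119865182769801300280680127783231251635087526446289021607771691249214388576215221396663491984443067742263787264024212477244347842938066577043117995647400274369612403653814737339068225047641453182709824206687753689912418253153056587776, 2756242646511933366319686089422146566429898328187445460870654216946194113389986620987487919641412274711147538000535943060024263024257211304956919672537510766578738590929004275650350580957963989159666408757527775500545648702818801376973830573821058276697831664234193469813210516540903866749815706136044841403177096298325022354051206013805146948643714008713013114210815749893809575724412400504209606807960225558806530466701186695168,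 2756242646511933366319686089422146566429898328187445460870654216946194113389986620987487919641412274711147538000535943060024263024257211304956919672537510766578738590929004275650350580957963989159666408757527775500545648702818801376973830573821058276697831664234193469813210516540903866749815706136044841403177096298325022354051206013805146948643714008713013114210815749893809575724412400504209606807960225558806530466701186695168, 20, 33⟩
theorem l63_valid : l63.Valid :=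
  Lem.valid_of_chk t63 t63_valid [1040] c63 l63 (by decide +kernel)
end Crest.Agent.SnakyAux
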