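import Crest.Agent.S0047_aux.Checker

set_option autoImplicit false
set_option maxRecDepth 100000
namespace Crest.Agent.SnakyAux
open Cert
def t72 : Tbl := Tbl.nil
theorem t72_valid : t72.Valid := Tbl.valid_nil
def c72 : Cert :=
(mv 847 (cons (cons (cons (cons (mv 783 (cons (cons (mv 911 (cons (fin 975 4 783)
(mv 912 (cons (fin 848 7 783)
(fin 719 4 719)))))
(mv 848 (cons (fin 912 7 783)
(mv 782 (cons (cons (mv 781 (cons (fin 780 0 780)
(mv 849 (cons (fin 846 3 781)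
(fin 850 3 782)))))
(mv 849 (cons (fin 850 3 782)
(mv 846 (cons (mv 785 (cons (fin 786 2 782)
(mv 913 (cons (fin 914 0 846)
(fin 977 5 784)))))
(mv 909 (cons (fin 910 1 845)
(mv 845 (cons (fin 908 1 844)
(mv 844 (cons (fin 843 2 779)
(fin 784 2 780))))))))))))
(cons (mv 781 (cons (fin 780 0 780)
(mv 784 (cons (cons (mv 716 (cons (fin 717 3 716)
(mv 720 (cons (fin 721 2 717)
(mv 592 (cons (fin 656 5 591)
(mv 845 (cons (fin 844 1 780)
(mv 846 (cons (fin 785 1 781)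
(mv 909 (cons (fin 908 1 844)
(mv 718 (cons (fin 654 5 653)
(fin 973 6 717)))))))))))))))
(cons (mv 716 (cons (fin 717 3 716)
(mv 721 (cons (fin 720 2 717)
(mv 785 (cons (fin 722 2 718)
(mv 786 (cons (fin 846 1 782)
(fin 787 1 783)))))))))
(mv 720 (cons (fin 721 2 717)
(mv 592 (cons (fin 656 5 591)
(mv 845 (cons (fin 844 1 780)
(mv 846 (cons (fin 785 1 781)
(mv 909 (cons (fin 908 1 844)
(mv 718 (cons (fin 654 5 653)
(fin 973 6 717)))))))))))))))
(cons (cons (mv 716 (cons (fin 717 3 716)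
(mv 845 (cons (fin 844 1 780)
(mv 785 (cons (fin 846 1 781)
(mv 722 (cons (fin 721 2 718)
(mv 786 (cons (fin 787 1 783)
(fin 723 2 719)))))))))))
(mv 716 (cons (fin 717 3 716)
(mv 845 (cons (fin 844 1 780)
(mv 846 (cons (fin 785 1 781)
(mv 909 (cons (fin 908 1 844)
(mv 718 (cons (fin 654 5 653)
(fin 973 6 717))))))))))))
(cons (mv 717 (cons (fin 716 3 716)
(mv 720 (cons (fin 721 2 717)
(mv 656 (cons (fin 592 5 591)
(mv 591 (cons (fin 655 7 591)
(mv 657 (cons (fin 593 6 592)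
(mv 718 (cons (fin 719 2 653)
(mv 590 (cons (fin 654 4 590)
(mv 845 (cons (fin 844 1 780)
(mv 909 (cons (fin 973 6 717)
(mv 908 (cons (fin 846 1 844)
(fin 972 5 716)))))))))))))))))))))
(mv 717 (cons (fin 716 3 716)
(mv 718 (cons (fin 785 3 717)
(mv 590 (cons (fin 654 4 590)
(mv 720 (cons (fin 721 2 717)
(mv 656 (cons (fin 592 5 591)
(mv 657 (cons (fin 719 2 653)
(fin 593 6 592)))))))))))))))))))
(mv 781 (cons (fin 780 0 780)
(mv 849 (cons (fin 850 3 782)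
(fin 784 0 781)))))))))))
(cons (mv 911 (cons (fin 975 4 783)
(mv 719 (cons (cons (mv 654 (cons (fin 718 7 654)
(mv 655 (cons (fin 590 7 590)
(mv 656 (cons (fin 592 6 591)
(fin 720 6 655)))))))
(mv 656 (cons (fin 720 6 655)
(mv 655 (cons (fin 592 6 591)
(mv 910 (cons (fin 846 5 654)
(fin 974 5 718))))))))
(cons (mv 654 (cons (fin 718 7 654)
(mv 655 (cons (fin 590 7 590)
(mv 910 (cons (fin 846 5 654)
(fin 974 5 718)))))))
(mv 718 (cons (fin 654 7 654)
(mv 720 (cons (fin 656 6 655)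
(mv 910 (cons (fin 974 5 718)
(mv 717 (cons (cons (mv 784 (cons (fin 716 0 716)
(fin 785 0 717)))
(mv 652 (cons (fin 653 3 652)
(mv 651 (cons (fin 716 3 651)
(mv 781 (cons (fin 780 1 716)
(mv 721 (cons (fin 782 1 717)
(mv 658 (cons (fin 657 2 654)
(mv 722 (cons (fin 659 2 655)
(mv 786 (cons (fin 785 0 718)
(fin 787 0 719))))))))))))))))
(cons (mv 652 (cons (fin 653 3 652)
(mv 780 (cons (fin 781 1 716)
(mv 785 (cons (fin 784 0 717)
(mv 721 (cons (fin 786 0 718)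
(mv 658 (cons (fin 657 2 654)
(mv 722 (cons (fin 782 1 718)
(fin 659 2 655)))))))))))))
(mv 652 (cons (fin 653 3 652)
(mv 716 (cons (fin 651 3 651)
(fin 784 0 716)))))))))))))))))))
(mv 848 (cons (fin 912 7 783)
(mv 911 (cons (fin 975 4 783)
(mv 849 (cons (cons (mv 850 (cons (fin 782 3 782)
(fin 910 1 846)))
(mv 846 (cons (mv 781 (cons (fin 782 3 781)
(mv 780 (cons (fin 845 3 780)
(mv 785 (cons (fin 786 2 782)
(mv 913 (cons (fin 914 0 846)
(fin 977 5 784)))))))))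
(cons (mv 785 (cons (fin 786 2 782)
(mv 913 (cons (fin 914 0 846)
(fin 977 5 784)))))
(mv 781 (cons (fin 782 3 781)
(mv 845 (cons (fin 780 3 780)
(mv 909 (cons (fin 908 1 844)
(fin 910 1 845)))))))))))
(cons (mv 850 (cons (fin 910 1 846)
(mv 784 (cons (fin 851 3 783)
(mv 656 (cons (fin 720 5 655)
(mv 786 (cons (fin 787 2 783)
(mv 785 (cons (fin 846 1 782)
(mv 722 (cons (fin 723 2 719)
(mv 658 (cons (fin 594 5 593)
(fin 913 5 657)))))))))))))))
(mv 782 (cons (fin 850 3 782)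
(mv 781 (cons (fin 846 3 781)
(fin 780 0 780)))))))))))))))
(mv 975 (cons (cons (cons (cons (mv 1041 (cons (cons (mv 974 (cons (fin 973 0 973)
(mv 1042 (cons (fin 1039 3 974)
(fin 1043 3 975)))))
(mv 1042 (cons (fin 1043 3 975)
(mv 1039 (cons (cons (mv 978 (cons (fin 979 2 975)
(mv 977 (cons (fin 1038 1 974)
(mv 910 (cons (fin 911 3 910)
(mv 914 (cons (fin 915 2 911)
(mv 786 (cons (fin 850 5 785)
(mv 1102 (cons (fin 1103 1 1038)
(mv 1106 (cons (fin 1107 0 1039)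
(mv 913 (cons (fin 849 7 849)
(fin 1170 7 913)))))))))))))))))
(mv 978 (cons (fin 979 2 975)
(mv 977 (cons (fin 1038 1 974)
(mv 910 (cons (fin 911 3 910)
(mv 914 (cons (fin 915 2 911)
(mv 786 (cons (fin 850 5 785)
(mv 1106 (cons (fin 1107 0 1039)
(mv 913 (cons (fin 849 7 849)
(fin 1170 7 913))))))))))))))))
(cons (mv 1102 (cons (fin 1103 1 1038)
(mv 1038 (cons (fin 1101 1 1037)
(fin 911 5 846)))))
(mv 978 (cons (fin 979 2 975)
(mv 1103 (cons (fin 1102 1 1038)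
(mv 912 (cons (fin 848 5 847)
(fin 1167 6 911)))))))))))))
(cons (mv 974 (cons (fin 973 0 973)
(mv 977 (cons (cons (mv 909 (cons (fin 910 3 909)
(mv 913 (cons (fin 914 2 910)
(mv 785 (cons (fin 849 5 784)
(mv 1038 (cons (fin 1037 1 973)
(mv 1039 (cons (fin 978 1 974)
(mv 1102 (cons (fin 1101 1 1037)
(fin 911 5 846)))))))))))))
(cons (mv 909 (cons (fin 910 3 909)
(mv 914 (cons (fin 913 2 910)
(mv 978 (cons (fin 915 2 911)
(mv 979 (cons (fin 1039 1 975)
(fin 980 1 976)))))))))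
(mv 913 (cons (fin 914 2 910)
(mv 785 (cons (fin 849 5 784)
(mv 1038 (cons (fin 1037 1 973)
(mv 1039 (cons (fin 978 1 974)
(mv 1102 (cons (fin 1101 1 1037)
(fin 911 5 846)))))))))))))
(cons (cons (mv 909 (cons (fin 910 3 909)
(mv 1038 (cons (fin 1037 1 973)
(mv 978 (cons (fin 1039 1 974)
(mv 915 (cons (fin 914 2 911)
(mv 979 (cons (fin 980 1 976)
(fin 916 2 912)))))))))))
(mv 909 (cons (fin 910 3 909)
(mv 1038 (cons (fin 1037 1 973)
(mv 1039 (cons (fin 978 1 974)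
(mv 1102 (cons (fin 1101 1 1037)
(fin 911 5 846))))))))))
(cons (mv 910 (cons (fin 909 3 909)
(mv 913 (cons (fin 914 2 910)
(mv 785 (cons (fin 849 5 784)
(mv 1038 (cons (fin 1037 1 973)
(mv 1102 (cons (fin 911 6 846)
(mv 1101 (cons (fin 1039 1 1037)
(fin 1165 5 909)))))))))))))
(mv 910 (cons (fin 909 3 909)
(mv 911 (cons (fin 978 3 910)
(mv 1038 (cons (fin 1037 1 973)
(fin 1102 6 846)))))))))))))
(mv 974 (cons (fin 973 0 973)
(mv 1042 (cons (fin 1043 3 975)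
(fin 977 0 974))))))))
(mv 977 (cons (cons (cons (mv 978 (cons (mv 1039 (cons (fin 1038 1 974)
(fin 979 1 975)))
(cons (mv 910 (cons (fin 911 3 910)
(mv 909 (cons (fin 974 3 909)
(mv 915 (cons (fin 914 2 911)
(mv 979 (cons (fin 916 2 912)
(mv 1043 (cons (fin 1042 0 975)
(fin 1044 0 976)))))))))))
(mv 910 (cons (fin 911 3 910)
(mv 914 (cons (fin 915 2 911)
(mv 974 (cons (fin 909 3 909)
(fin 913 2 910))))))))))
(mv 974 (cons (cons (mv 909 (cons (fin 910 3 909)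
(mv 913 (cons (fin 914 2 910)
(mv 973 (cons (fin 908 3 908)
(fin 912 2 909)))))))
(mv 909 (cons (fin 910 3 909)
(mv 973 (cons (fin 908 3 908)
(mv 1037 (cons (fin 1036 1 972)
(fin 1038 1 973))))))))
(cons (mv 913 (cons (fin 914 2 910)
(mv 785 (cons (fin 849 5 784)
(mv 973 (cons (fin 912 2 909)
(mv 1037 (cons (fin 1036 1 972)
(fin 1038 1 973)))))))))
(mv 910 (cons (fin 909 3 909)
(mv 913 (cons (fin 914 2 910)
(mv 785 (cons (fin 849 5 784)
(mv 1038 (cons (fin 1037 1 973)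
(mv 1102 (cons (fin 911 6 846)
(mv 1101 (cons (fin 1165 5 909)
(mv 1103 (cons (fin 1167 4 910)
(mv 1039 (cons (fin 1100 2 1036)
(fin 846 4 846)))))))))))))))))))))
(cons (mv 978 (cons (cons (mv 910 (cons (fin 911 3 910)
(mv 909 (cons (fin 974 3 909)
(mv 915 (cons (fin 914 2 911)
(mv 979 (cons (fin 916 2 912)
(mv 1043 (cons (fin 1042 0 975)
(fin 1044 0 976)))))))))))
(mv 911 (cons (fin 910 3 910)
(mv 979 (cons (fin 912 3 911)
(mv 1043 (cons (fin 1042 0 975)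
(fin 1044 0 976))))))))
(cons (mv 914 (cons (fin 915 2 911)
(mv 913 (cons (fin 974 2 910)
(mv 785 (cons (fin 849 5 784)
(mv 1043 (cons (fin 1042 0 975)
(mv 979 (cons (fin 1044 0 976)
(mv 980 (cons (fin 912 3 912)
(fin 981 3 913)))))))))))))
(mv 910 (cons (fin 911 3 910)
(mv 914 (cons (fin 915 2 911)
(mv 974 (cons (fin 909 3 909)
(fin 913 2 910))))))))))
(mv 978 (cons (mv 1039 (cons (fin 1038 1 974)
(fin 979 1 975)))
(cons (mv 910 (cons (fin 911 3 910)
(mv 915 (cons (fin 914 2 911)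
(mv 979 (cons (fin 916 2 912)
(mv 1043 (cons (fin 1042 0 975)
(fin 1044 0 976)))))))))
(mv 911 (cons (fin 910 3 910)
(mv 914 (cons (fin 915 2 911)
(mv 1039 (cons (fin 1038 1 974)
(mv 782 (cons (fin 846 7 782)
(mv 848 (cons (fin 784 6 783)
(mv 912 (cons (fin 1103 5 847)
(mv 849 (cons (fin 785 6 784)
(mv 850 (cons (fin 851 1 847)
(mv 786 (cons (fin 787 2 783)
(mv 722 (cons (fin 913 5 721)
(mv 657 (cons (fin 721 7 657)
(mv 658 (cons (fin 593 7 593)
(mv 659 (cons (fin 595 6 594)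
(fin 723 6 658))))))))))))))))))))))))))))))))
(cons (cons (mv 978 (cons (mv 1039 (cons (fin 1038 1 974)
(fin 979 1 975)))
(cons (mv 910 (cons (fin 911 3 910)
(mv 909 (cons (fin 974 3 909)
(mv 915 (cons (fin 914 2 911)
(mv 979 (cons (fin 916 2 912)
(mv 1043 (cons (fin 1042 0 975)
(fin 1044 0 976)))))))))))
(mv 910 (cons (fin 911 3 910)
(mv 914 (cons (fin 915 2 911)
(mv 974 (cons (fin 909 3 909)
(mv 1038 (cons (fin 1037 1 973)
(fin 1039 1 974))))))))))))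
(mv 978 (cons (mv 1039 (cons (fin 1038 1 974)
(fin 979 1 975)))
(cons (mv 914 (cons (fin 915 2 911)
(mv 913 (cons (fin 974 2 910)
(mv 785 (cons (fin 849 5 784)
(mv 1043 (cons (fin 1042 0 975)
(mv 979 (cons (fin 1044 0 976)
(mv 912 (cons (fin 911 3 911)
(fin 980 3 912)))))))))))))
(mv 914 (cons (fin 915 2 911)
(mv 913 (cons (fin 974 2 910)
(mv 849 (cons (fin 785 5 784)
(mv 1042 (cons (fin 1043 0 975)
(fin 1106 7 849)))))))))))))
(cons (mv 978 (cons (mv 1039 (cons (fin 1038 1 974)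
(fin 979 1 975)))
(cons (mv 911 (cons (fin 910 3 910)
(mv 979 (cons (fin 912 3 911)
(mv 1043 (cons (fin 1042 0 975)
(fin 1044 0 976)))))))
(mv 910 (cons (fin 911 3 910)
(mv 974 (cons (fin 909 3 909)
(mv 1038 (cons (fin 1037 1 973)
(fin 1039 1 974))))))))))
(mv 978 (cons (mv 1039 (cons (fin 1038 1 974)
(fin 979 1 975)))
(cons (mv 914 (cons (fin 915 2 911)
(mv 913 (cons (fin 974 2 910)
(mv 785 (cons (fin 849 5 784)
(mv 1043 (cons (fin 1042 0 975)
(mv 979 (cons (fin 1044 0 976)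
(mv 980 (cons (fin 912 3 912)
(fin 981 3 913)))))))))))))
(mv 914 (cons (fin 915 2 911)
(mv 913 (cons (fin 974 2 910)
(mv 849 (cons (fin 785 5 784)
(mv 1042 (cons (fin 1043 0 975)
(fin 1106 7 849)))))))))))))))))
(cons (mv 848 (cons (cons (mv 1039 (cons (cons (mv 784 (cons (fin 912 5 783)
(fin 911 6 783)))
(mv 911 (cons (fin 784 6 783)
(mv 782 (cons (fin 846 7 782)
(mv 1038 (cons (fin 1102 5 846)
(mv 977 (cons (fin 978 1 974)
(fin 1037 2 973))))))))))
(cons (mv 1103 (cons (fin 912 5 847)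
(mv 1167 (cons (fin 1231 6 975)
(mv 1166 (cons (fin 1230 5 974)
(mv 911 (cons (fin 1102 5 910)
(mv 846 (cons (fin 782 7 782)
(fin 910 7 846)))))))))))
(mv 912 (cons (fin 784 5 783)
(fin 1103 5 847))))))
(cons (mv 849 (cons (cons (mv 785 (cons (fin 912 6 784)
(mv 786 (cons (fin 846 2 782)
(mv 787 (cons (fin 784 1 783)
(fin 788 1 784)))))))
(mv 850 (cons (cons (mv 786 (cons (fin 787 2 783)
(mv 910 (cons (fin 911 1 846)
(mv 846 (cons (fin 909 1 845)
(mv 914 (cons (fin 913 0 846)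
(fin 915 0 847)))))))))
(mv 786 (cons (fin 787 2 783)
(mv 914 (cons (fin 915 0 847)
(mv 846 (cons (fin 913 0 846)
(mv 781 (cons (fin 782 3 781)
(mv 845 (cons (fin 780 3 780)
(mv 909 (cons (fin 908 1 844)
(fin 910 1 845))))))))))))))
(cons (mv 787 (cons (fin 786 2 783)
(mv 851 (cons (fin 788 2 784)
(mv 911 (cons (fin 910 1 846)
(fin 912 1 847)))))))
(cons (mv 786 (cons (fin 787 2 783)
(mv 914 (cons (fin 915 0 847)
(mv 913 (cons (fin 846 0 846)
(mv 722 (cons (fin 658 5 657)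
(fin 977 5 721)))))))))
(mv 910 (cons (fin 911 1 846)
(mv 846 (cons (fin 909 1 845)
(mv 914 (cons (fin 913 0 846)
(fin 915 0 847))))))))))))
(cons (mv 846 (cons (cons (mv 781 (cons (fin 782 3 781)
(mv 780 (cons (fin 845 3 780)
(mv 785 (cons (fin 786 2 782)
(mv 913 (cons (fin 914 0 846)
(fin 977 5 784)))))))))
(mv 781 (cons (fin 782 3 781)
(mv 780 (cons (fin 845 3 780)
(mv 910 (cons (fin 909 1 845)
(mv 850 (cons (fin 911 1 846)
(mv 914 (cons (fin 913 0 846)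
(fin 915 0 847))))))))))))
(cons (mv 781 (cons (fin 782 3 781)
(mv 780 (cons (fin 845 3 780)
(mv 785 (cons (fin 786 2 782)
(mv 910 (cons (fin 909 1 845)
(mv 850 (cons (fin 911 1 846)
(mv 915 (cons (fin 914 0 847)
(mv 851 (cons (fin 916 0 848)
(mv 788 (cons (fin 787 2 784)
(mv 852 (cons (fin 784 3 784)
(fin 789 2 785)))))))))))))))))))
(cons (mv 781 (cons (fin 782 3 781)
(mv 780 (cons (fin 845 3 780)
(mv 785 (cons (fin 786 2 782)
(mv 910 (cons (fin 909 1 845)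
(mv 911 (cons (fin 850 1 846)
(mv 977 (cons (fin 978 3 910)
(fin 913 5 784)))))))))))))
(mv 785 (cons (fin 786 2 782)
(mv 913 (cons (fin 914 0 846)
(fin 977 5 784)))))))))
(cons (mv 785 (cons (fin 912 6 784)
(mv 913 (cons (fin 977 5 784)
(mv 850 (cons (cons (mv 786 (cons (fin 787 2 783)
(mv 658 (cons (fin 722 5 657)
(mv 910 (cons (fin 911 1 846)
(mv 914 (cons (fin 915 0 847)
(mv 721 (cons (fin 978 7 721)
(fin 657 4 657)))))))))))
(mv 787 (cons (fin 786 2 783)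
(mv 851 (cons (fin 788 2 784)
(mv 852 (cons (fin 784 3 784)
(mv 916 (cons (fin 915 0 848)
(fin 917 0 849))))))))))
(cons (mv 910 (cons (fin 911 1 846)
(mv 914 (cons (fin 915 0 847)
(mv 721 (cons (fin 657 4 657)
(fin 978 4 721)))))))
(mv 787 (cons (fin 786 2 783)
(mv 851 (cons (fin 788 2 784)
(mv 852 (cons (fin 784 3 784)
(mv 853 (cons (fin 914 1 849)
(mv 917 (cons (fin 916 0 849)
(fin 918 0 850))))))))))))))))))
(mv 785 (cons (fin 912 6 784)
(mv 913 (cons (fin 977 5 784)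
(mv 846 (cons (fin 914 0 846)
(mv 781 (cons (fin 782 3 781)
(mv 845 (cons (fin 780 3 780)
(fin 784 2 781)))))))))))))))
(mv 849 (cons (cons (cons (mv 846 (cons (cons (mv 781 (cons (fin 782 3 781)
(mv 780 (cons (fin 845 3 780)
(mv 785 (cons (fin 786 2 782)
(mv 913 (cons (fin 914 0 846)
(fin 977 5 784)))))))))
(mv 781 (cons (fin 782 3 781)
(mv 780 (cons (fin 845 3 780)
(mv 910 (cons (fin 909 1 845)
(mv 850 (cons (fin 911 1 846)
(mv 914 (cons (fin 913 0 846)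
(fin 915 0 847))))))))))))
(cons (mv 781 (cons (fin 782 3 781)
(mv 780 (cons (fin 845 3 780)
(mv 785 (cons (fin 786 2 782)
(mv 910 (cons (fin 909 1 845)
(mv 850 (cons (fin 911 1 846)
(mv 915 (cons (fin 914 0 847)
(mv 851 (cons (fin 916 0 848)
(mv 788 (cons (fin 787 2 784)
(mv 852 (cons (fin 784 3 784)
(fin 789 2 785)))))))))))))))))))
(cons (mv 785 (cons (fin 786 2 782)
(mv 913 (cons (fin 914 0 846)
(fin 977 5 784)))))
(mv 781 (cons (fin 782 3 781)
(mv 780 (cons (fin 845 3 780)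
(mv 785 (cons (fin 786 2 782)
(mv 910 (cons (fin 909 1 845)
(mv 911 (cons (fin 850 1 846)
(mv 977 (cons (fin 978 3 910)
(fin 913 5 784)))))))))))))))))
(mv 850 (cons (cons (mv 786 (cons (fin 787 2 783)
(mv 910 (cons (fin 911 1 846)
(mv 915 (cons (fin 914 0 847)
(mv 851 (cons (fin 916 0 848)
(mv 658 (cons (fin 722 4 658)
(mv 1043 (cons (fin 979 7 786)
(mv 1042 (cons (fin 1041 3 975)
(mv 977 (cons (fin 978 0 975)
(mv 785 (cons (fin 913 5 784)
(mv 852 (cons (fin 784 3 784)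
(fin 853 3 785)))))))))))))))))))))
(cons (mv 786 (cons (fin 787 2 783)
(mv 915 (cons (fin 914 0 847)
(mv 851 (cons (fin 916 0 848)
(mv 658 (cons (fin 722 4 658)
(mv 1043 (cons (fin 979 7 786)
(mv 1042 (cons (fin 1041 3 975)
(mv 977 (cons (fin 978 0 975)
(mv 785 (cons (fin 913 5 784)
(mv 852 (cons (fin 784 3 784)
(fin 853 3 785)))))))))))))))))))
(mv 786 (cons (fin 787 2 783)
(mv 911 (cons (fin 910 1 846)
(mv 1039 (cons (fin 784 6 783)
(mv 1038 (cons (fin 1102 5 846)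
(mv 977 (cons (fin 978 1 974)
(fin 1037 2 973)))))))))))))
(cons (mv 911 (cons (fin 910 1 846)
(mv 914 (cons (fin 915 0 847)
(mv 1039 (cons (fin 784 6 783)
(mv 1038 (cons (fin 1102 5 846)
(mv 977 (cons (fin 978 1 974)
(fin 1037 2 973)))))))))))
(cons (mv 786 (cons (fin 787 2 783)
(mv 911 (cons (fin 910 1 846)
(mv 914 (cons (fin 915 0 847)
(mv 1039 (cons (fin 784 6 783)
(mv 1102 (cons (fin 1038 5 846)
(mv 1103 (cons (fin 1166 5 910)
(mv 1042 (cons (fin 1041 1 1038)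
(mv 978 (cons (fin 785 7 785)
(mv 1043 (cons (fin 979 4 786)
(fin 1107 4 850)))))))))))))))))))
(mv 787 (cons (fin 786 2 783)
(mv 851 (cons (fin 788 2 784)
(mv 915 (cons (fin 914 0 847)
(fin 916 0 848))))))))))))
(cons (mv 846 (cons (mv 781 (cons (fin 782 3 781)
(mv 780 (cons (fin 845 3 780)
(mv 785 (cons (fin 786 2 782)
(mv 913 (cons (fin 914 0 846)
(fin 977 5 784)))))))))
(cons (mv 781 (cons (fin 782 3 781)
(mv 845 (cons (fin 780 3 780)
(mv 909 (cons (fin 908 1 844)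
(fin 910 1 845)))))))
(mv 785 (cons (fin 786 2 782)
(mv 913 (cons (fin 914 0 846)
(fin 977 5 784))))))))
(mv 846 (cons (cons (mv 781 (cons (fin 782 3 781)
(mv 780 (cons (fin 845 3 780)
(mv 910 (cons (fin 909 1 845)
(mv 850 (cons (fin 911 1 846)
(mv 914 (cons (fin 913 0 846)
(fin 915 0 847)))))))))))
(mv 782 (cons (fin 781 3 781)
(mv 914 (cons (fin 913 0 846)
(mv 850 (cons (fin 915 0 847)
(mv 787 (cons (fin 786 2 783)
(mv 851 (cons (fin 788 2 784)
(mv 659 (cons (fin 723 5 658)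
(mv 978 (cons (fin 1042 6 786)
(mv 1039 (cons (fin 911 7 782)
(mv 977 (cons (fin 1038 1 974)
(fin 979 1 975))))))))))))))))))))
(cons (mv 910 (cons (fin 909 1 845)
(mv 850 (cons (fin 911 1 846)
(mv 914 (cons (fin 913 0 846)
(fin 915 0 847)))))))
(cons (mv 781 (cons (fin 782 3 781)
(mv 780 (cons (fin 845 3 780)
(mv 910 (cons (fin 909 1 845)
(mv 911 (cons (fin 850 1 846)
(mv 1039 (cons (fin 1103 7 846)
(fin 784 6 783)))))))))))
(mv 781 (cons (fin 782 3 781)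
(mv 845 (cons (fin 780 3 780)
(mv 909 (cons (fin 908 1 844)
(fin 910 1 845)))))))))))))
(cons (cons (mv 846 (cons (cons (mv 781 (cons (fin 782 3 781)
(mv 780 (cons (fin 845 3 780)
(mv 785 (cons (fin 786 2 782)
(mv 910 (cons (fin 909 1 845)
(mv 850 (cons (fin 911 1 846)
(mv 915 (cons (fin 914 0 847)
(mv 851 (cons (fin 916 0 848)
(mv 788 (cons (fin 787 2 784)
(mv 852 (cons (fin 784 3 784)
(fin 789 2 785)))))))))))))))))))
(cons (mv 781 (cons (fin 782 3 781)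
(mv 785 (cons (fin 786 2 782)
(mv 845 (cons (fin 780 3 780)
(fin 784 2 781)))))))
(mv 785 (cons (fin 786 2 782)
(mv 784 (cons (fin 845 2 781)
(mv 910 (cons (fin 909 1 845)
(mv 911 (cons (fin 850 1 846)
(fin 1039 6 783)))))))))))
(cons (mv 781 (cons (fin 782 3 781)
(mv 780 (cons (fin 845 3 780)
(mv 910 (cons (fin 909 1 845)
(mv 850 (cons (fin 911 1 846)
(mv 787 (cons (fin 786 2 783)
(mv 851 (cons (fin 788 2 784)
(mv 915 (cons (fin 914 0 847)
(fin 916 0 848)))))))))))))))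
(cons (mv 781 (cons (fin 782 3 781)
(mv 780 (cons (fin 845 3 780)
(mv 910 (cons (fin 909 1 845)
(mv 911 (cons (fin 850 1 846)
(mv 1039 (cons (fin 1103 7 846)
(fin 784 6 783)))))))))))
(mv 781 (cons (fin 782 3 781)
(mv 785 (cons (fin 786 2 782)
(mv 910 (cons (fin 909 1 845)
(mv 850 (cons (fin 911 1 846)
(mv 915 (cons (fin 914 0 847)
(mv 851 (cons (fin 916 0 848)
(mv 788 (cons (fin 787 2 784)
(mv 852 (cons (fin 784 3 784)
(fin 789 2 785)))))))))))))))))))))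
(mv 846 (cons (cons (mv 781 (cons (fin 782 3 781)
(mv 780 (cons (fin 845 3 780)
(mv 785 (cons (fin 786 2 782)
(mv 913 (cons (fin 914 0 846)
(fin 977 5 784)))))))))
(mv 782 (cons (fin 781 3 781)
(mv 914 (cons (fin 913 0 846)
(mv 850 (cons (fin 915 0 847)
(mv 787 (cons (fin 786 2 783)
(mv 851 (cons (fin 788 2 784)
(mv 659 (cons (fin 723 5 658)
(mv 978 (cons (fin 1042 6 786)
(mv 1039 (cons (fin 911 7 782)
(mv 977 (cons (fin 1038 1 974)
(fin 979 1 975))))))))))))))))))))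
(cons (mv 781 (cons (fin 782 3 781)
(mv 785 (cons (fin 786 2 782)
(mv 845 (cons (fin 780 3 780)
(fin 784 2 781)))))))
(cons (mv 781 (cons (fin 782 3 781)
(mv 780 (cons (fin 845 3 780)
(mv 913 (cons (fin 914 0 846)
(mv 977 (cons (fin 785 5 784)
(mv 784 (cons (fin 1041 7 784)
(mv 656 (cons (fin 720 4 656)
(mv 1039 (cons (fin 911 6 783)
(mv 978 (cons (fin 1038 1 974)
(fin 979 1 975)))))))))))))))))
(mv 785 (cons (fin 786 2 782)
(mv 913 (cons (fin 914 0 846)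
(fin 977 5 784))))))))))
(cons (mv 846 (cons (cons (mv 781 (cons (fin 782 3 781)
(mv 780 (cons (fin 845 3 780)
(mv 785 (cons (fin 786 2 782)
(mv 910 (cons (fin 909 1 845)
(mv 911 (cons (fin 850 1 846)
(mv 977 (cons (fin 978 3 910)
(fin 913 5 784)))))))))))))
(mv 781 (cons (fin 782 3 781)
(mv 780 (cons (fin 845 3 780)
(mv 910 (cons (fin 909 1 845)
(mv 911 (cons (fin 850 1 846)
(mv 1039 (cons (fin 1103 7 846)
(fin 784 6 783))))))))))))
(cons (mv 781 (cons (fin 782 3 781)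
(mv 785 (cons (fin 786 2 782)
(mv 845 (cons (fin 780 3 780)
(fin 784 2 781)))))))
(cons (mv 785 (cons (fin 786 2 782)
(mv 784 (cons (fin 845 2 781)
(mv 909 (cons (fin 910 1 845)
(mv 977 (cons (fin 913 5 784)
(mv 1039 (cons (fin 911 6 783)
(mv 978 (cons (fin 1038 1 974)
(fin 979 1 975)))))))))))))
(mv 781 (cons (fin 782 3 781)
(mv 785 (cons (fin 786 2 782)
(mv 910 (cons (fin 909 1 845)
(mv 911 (cons (fin 850 1 846)
(mv 977 (cons (fin 978 3 910)
(fin 913 5 784)))))))))))))))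
(mv 846 (cons (cons (cons (mv 781 (cons (fin 782 3 781)
(mv 780 (cons (fin 845 3 780)
(mv 909 (cons (fin 910 1 845)
(mv 913 (cons (fin 914 0 846)
(mv 977 (cons (fin 785 5 784)
(mv 784 (cons (fin 1041 7 784)
(mv 656 (cons (fin 720 4 656)
(mv 1039 (cons (fin 911 6 783)
(mv 978 (cons (fin 1038 1 974)
(fin 979 1 975)))))))))))))))))))
(mv 781 (cons (fin 782 3 781)
(mv 780 (cons (fin 845 3 780)
(mv 913 (cons (fin 914 0 846)
(mv 977 (cons (fin 785 5 784)
(mv 784 (cons (fin 1041 7 784)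
(mv 656 (cons (fin 720 4 656)
(mv 1039 (cons (fin 911 6 783)
(mv 978 (cons (fin 1038 1 974)
(fin 979 1 975))))))))))))))))))
(cons (mv 909 (cons (fin 910 1 845)
(mv 845 (cons (fin 908 1 844)
(mv 780 (cons (fin 781 3 780)
(mv 779 (cons (fin 844 3 779)
(mv 784 (cons (fin 785 2 781)
(mv 913 (cons (fin 914 0 846)
(mv 656 (cons (fin 720 4 656)
(mv 977 (cons (fin 1041 7 784)
(mv 1039 (cons (fin 911 6 783)
(mv 978 (cons (fin 1038 1 974)
(fin 979 1 975)))))))))))))))))))))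
(mv 781 (cons (fin 782 3 781)
(mv 780 (cons (fin 845 3 780)
(mv 910 (cons (fin 909 1 845)
(mv 911 (cons (fin 850 1 846)
(mv 1039 (cons (fin 1103 7 846)
(fin 784 6 783)))))))))))))
(cons (cons (mv 909 (cons (fin 910 1 845)
(mv 845 (cons (fin 908 1 844)
(mv 784 (cons (fin 785 2 781)
(mv 913 (cons (fin 914 0 846)
(mv 656 (cons (fin 720 4 656)
(mv 977 (cons (fin 1041 7 784)
(mv 1039 (cons (fin 911 6 783)
(mv 978 (cons (fin 1038 1 974)
(fin 979 1 975)))))))))))))))))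
(mv 781 (cons (fin 782 3 781)
(mv 780 (cons (fin 845 3 780)
(mv 909 (cons (fin 910 1 845)
(mv 913 (cons (fin 914 0 846)
(mv 977 (cons (fin 785 5 784)
(mv 1041 (cons (fin 784 7 784)
(mv 1042 (cons (fin 1043 3 975)
(fin 1106 4 849))))))))))))))))
(cons (mv 781 (cons (fin 782 3 781)
(mv 909 (cons (fin 910 1 845)
(mv 913 (cons (fin 914 0 846)
(mv 977 (cons (fin 785 5 784)
(mv 784 (cons (fin 1041 7 784)
(mv 656 (cons (fin 720 4 656)
(mv 1039 (cons (fin 911 6 783)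
(mv 978 (cons (fin 1038 1 974)
(fin 979 1 975)))))))))))))))))
(mv 781 (cons (fin 782 3 781)
(mv 780 (cons (fin 845 3 780)
(mv 910 (cons (fin 909 1 845)
(mv 850 (cons (fin 911 1 846)
(mv 914 (cons (fin 913 0 846)
(fin 915 0 847)))))))))))))))))))))
(cons (mv 912 (cons (cons (mv 785 (cons (fin 849 6 784)
(mv 1039 (cons (fin 1103 5 847)
(mv 1038 (cons (mv 977 (cons (fin 978 1 974)
(fin 1037 2 973)))
(mv 911 (cons (fin 1102 5 846)
(mv 846 (cons (fin 782 7 782)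
(mv 845 (cons (fin 844 0 844)
(fin 913 0 845)))))))))))))
(cons (mv 849 (cons (fin 785 6 784)
(mv 850 (cons (mv 911 (cons (fin 910 1 846)
(fin 851 1 847)))
(cons (mv 786 (cons (fin 787 2 783)
(mv 914 (cons (fin 915 0 847)
(mv 846 (cons (fin 913 0 846)
(mv 781 (cons (fin 782 3 781)
(mv 845 (cons (fin 780 3 780)
(mv 909 (cons (fin 908 1 844)
(fin 910 1 845)))))))))))))
(mv 786 (cons (fin 787 2 783)
(mv 851 (cons (fin 911 1 847)
(mv 915 (cons (fin 914 0 847)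
(fin 916 0 848))))))))))))
(mv 1039 (cons (fin 1103 5 847)
(mv 1038 (cons (mv 977 (cons (fin 978 1 974)
(fin 1037 2 973)))
(mv 911 (cons (fin 1102 5 846)
(mv 846 (cons (fin 782 7 782)
(mv 845 (cons (fin 844 0 844)
(fin 913 0 845)))))))))))))
(cons (mv 785 (cons (fin 849 6 784)
(mv 1039 (cons (fin 1103 5 847)
(mv 1038 (cons (mv 977 (cons (fin 978 1 974)
(fin 1037 2 973)))
(cons (mv 911 (cons (fin 1102 5 846)
(mv 846 (cons (fin 782 7 782)
(mv 844 (cons (fin 845 0 844)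
(mv 1037 (cons (fin 1036 2 972)
(mv 973 (cons (fin 972 3 972)
(mv 1101 (cons (fin 1100 1 1036)
(mv 909 (cons (fin 908 7 844)
(fin 910 6 845)))))))))))))))
(mv 911 (cons (fin 1102 5 846)
(mv 846 (cons (fin 782 7 782)
(mv 845 (cons (fin 844 0 844)
(mv 780 (cons (fin 781 3 780)
(mv 909 (cons (fin 908 1 844)
(mv 977 (cons (fin 978 1 974)
(fin 910 0 909))))))))))))))))))))
(cons (mv 849 (cons (fin 785 6 784)
(mv 1039 (cons (fin 1103 5 847)
(mv 914 (cons (mv 913 (cons (fin 915 3 847)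
(fin 846 0 846)))
(cons (mv 846 (cons (fin 913 0 846)
(mv 781 (cons (fin 782 3 781)
(mv 845 (cons (fin 780 3 780)
(mv 909 (cons (fin 908 1 844)
(fin 910 1 845)))))))))
(mv 850 (cons (fin 915 0 847)
(mv 787 (cons (fin 786 2 783)
(mv 851 (cons (fin 788 2 784)
(mv 659 (cons (fin 723 5 658)
(mv 978 (cons (fin 1042 6 786)
(mv 977 (cons (fin 1038 1 974)
(fin 979 1 975))))))))))))))))))))
(mv 785 (cons (fin 849 6 784)
(mv 1039 (cons (fin 1103 5 847)
(mv 1038 (cons (mv 977 (cons (fin 978 1 974)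
(fin 1037 2 973)))
(cons (mv 1037 (cons (fin 1036 2 972)
(mv 972 (cons (fin 973 3 972)
(mv 1101 (cons (fin 1100 1 1036)
(mv 1102 (cons (fin 1041 1 1037)
(fin 911 5 846)))))))))
(mv 978 (cons (fin 977 1 974)
(mv 1102 (cons (fin 911 5 846)
(mv 1041 (cons (fin 1101 1 1037)
(mv 1042 (cons (fin 1043 3 975)
(fin 979 2 975))))))))))))))))))))
(cons (mv 912 (cons (mv 1039 (cons (fin 784 5 783)
(fin 1103 5 847)))
(mv 849 (cons (fin 785 6 784)
(mv 850 (cons (cons (mv 786 (cons (fin 787 2 783)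
(mv 914 (cons (fin 915 0 847)
(mv 846 (cons (fin 913 0 846)
(mv 781 (cons (fin 782 3 781)
(mv 845 (cons (fin 780 3 780)
(mv 909 (cons (fin 908 1 844)
(fin 910 1 845)))))))))))))
(mv 787 (cons (fin 786 2 783)
(mv 851 (cons (fin 788 2 784)
(mv 852 (cons (fin 913 1 848)
(mv 916 (cons (fin 915 0 848)
(fin 917 0 849))))))))))
(cons (mv 787 (cons (fin 786 2 783)
(mv 851 (cons (fin 788 2 784)
(mv 913 (cons (fin 852 1 848)
(mv 846 (cons (fin 845 0 845)
(fin 914 0 846)))))))))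
(cons (mv 914 (cons (fin 915 0 847)
(mv 846 (cons (fin 913 0 846)
(mv 781 (cons (fin 782 3 781)
(mv 845 (cons (fin 780 3 780)
(mv 909 (cons (fin 908 1 844)
(fin 910 1 845)))))))))))
(mv 787 (cons (fin 786 2 783)
(mv 851 (cons (fin 788 2 784)
(mv 915 (cons (fin 914 0 847)
(fin 916 0 848)))))))))))))))
(mv 1039 (cons (cons (mv 784 (cons (fin 912 5 783)
(fin 911 6 783)))
(mv 911 (cons (fin 784 6 783)
(mv 1038 (cons (fin 1102 5 846)
(mv 977 (cons (fin 978 1 974)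
(fin 1037 2 973))))))))
(cons (mv 1103 (cons (fin 912 5 847)
(mv 1167 (cons (fin 1231 6 975)
(mv 1166 (cons (fin 1230 5 974)
(mv 1102 (cons (fin 911 5 910)
(mv 1041 (cons (fin 1042 1 1038)
(mv 1101 (cons (fin 1038 1 1037)
(fin 1100 2 1036)))))))))))))
(mv 912 (cons (fin 784 5 783)
(fin 1103 5 847))))))))))
(mv 1041 (cons (cons (mv 1042 (cons (fin 1043 3 975)
(mv 974 (cons (fin 1039 3 974)
(fin 977 0 974)))))
(mv 977 (cons (cons (mv 978 (cons (mv 979 (cons (fin 1039 1 975)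
(fin 980 1 976)))
(cons (mv 910 (cons (fin 911 3 910)
(mv 909 (cons (fin 974 3 909)
(mv 915 (cons (fin 914 2 911)
(mv 979 (cons (fin 980 1 976)
(fin 916 2 912)))))))))
(mv 910 (cons (fin 911 3 910)
(mv 914 (cons (fin 915 2 911)
(mv 974 (cons (fin 909 3 909)
(fin 913 2 910))))))))))
(mv 913 (cons (cons (mv 785 (cons (fin 849 5 784)
(mv 914 (cons (fin 974 2 910)
(mv 915 (cons (fin 912 1 911)
(fin 916 1 912)))))))
(mv 914 (cons (fin 974 2 910)
(mv 915 (cons (fin 912 1 911)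
(fin 916 1 912))))))
(cons (mv 849 (cons (fin 785 5 784)
(mv 848 (cons (fin 784 7 784)
(mv 850 (cons (fin 786 6 785)
(mv 910 (cons (fin 911 1 846)
(mv 909 (cons (fin 974 3 909)
(fin 846 1 845)))))))))))
(mv 849 (cons (fin 785 5 784)
(mv 786 (cons (fin 850 6 785)
(mv 848 (cons (fin 784 7 784)
(mv 846 (cons (fin 914 0 846)
(mv 781 (cons (fin 782 3 781)
(mv 845 (cons (fin 780 3 780)
(fin 912 0 845)))))))))))))))))
(cons (mv 978 (cons (mv 979 (cons (fin 1039 1 975)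
(fin 980 1 976)))
(cons (mv 910 (cons (fin 911 3 910)
(mv 915 (cons (fin 914 2 911)
(mv 979 (cons (fin 980 1 976)
(fin 916 2 912)))))))
(mv 911 (cons (fin 910 3 910)
(mv 914 (cons (fin 915 2 911)
(mv 786 (cons (fin 850 5 785)
(mv 1039 (cons (fin 1038 1 974)
(mv 782 (cons (fin 846 7 782)
(mv 848 (cons (fin 784 6 783)
(mv 1103 (cons (fin 912 5 847)
(mv 1166 (cons (fin 1102 5 910)
(mv 1167 (cons (fin 1230 5 974)
(fin 1231 6 975))))))))))))))))))))))
(cons (mv 978 (cons (mv 979 (cons (fin 1039 1 975)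
(fin 980 1 976)))
(cons (mv 911 (cons (fin 910 3 910)
(mv 979 (cons (fin 912 3 911)
(fin 980 1 976)))))
(mv 910 (cons (fin 911 3 910)
(mv 974 (cons (fin 909 3 909)
(mv 1038 (cons (fin 1037 1 973)
(fin 1039 1 974))))))))))
(mv 978 (cons (mv 979 (cons (fin 1039 1 975)
(fin 980 1 976)))
(mv 914 (cons (fin 915 2 911)
(mv 786 (cons (fin 850 5 785)
(mv 913 (cons (fin 974 2 910)
(mv 849 (cons (fin 785 5 784)
(mv 848 (cons (fin 846 0 846)
(fin 784 7 784))))))))))))))))))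
(cons (mv 1042 (cons (fin 1043 3 975)
(mv 1039 (cons (cons (mv 978 (cons (fin 979 2 975)
(mv 977 (cons (fin 1038 1 974)
(mv 910 (cons (fin 911 3 910)
(mv 914 (cons (fin 915 2 911)
(mv 786 (cons (fin 850 5 785)
(mv 1102 (cons (fin 1103 1 1038)
(mv 1106 (cons (fin 1107 0 1039)
(mv 913 (cons (fin 849 7 849)
(fin 1170 7 913)))))))))))))))))
(mv 978 (cons (fin 979 2 975)
(mv 977 (cons (fin 1038 1 974)
(mv 910 (cons (fin 911 3 910)
(mv 914 (cons (fin 915 2 911)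
(mv 786 (cons (fin 850 5 785)
(mv 1106 (cons (fin 1107 0 1039)
(mv 913 (cons (fin 849 7 849)
(fin 1170 7 913))))))))))))))))
(cons (mv 1102 (cons (fin 1103 1 1038)
(mv 1038 (cons (fin 1101 1 1037)
(fin 911 5 846)))))
(mv 978 (cons (fin 979 2 975)
(mv 1103 (cons (fin 1102 1 1038)
(mv 912 (cons (fin 848 5 847)
(fin 1167 6 911))))))))))))
(cons (mv 1042 (cons (fin 1043 3 975)
(mv 977 (cons (fin 974 0 974)
(mv 978 (cons (mv 910 (cons (fin 911 3 910)
(mv 914 (cons (fin 915 2 911)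
(mv 850 (cons (fin 786 5 785)
(mv 787 (cons (fin 851 6 786)
(mv 849 (cons (fin 785 7 785)
(mv 913 (cons (fin 1106 7 849)
(mv 848 (cons (fin 846 0 846)
(fin 784 7 784)))))))))))))))
(cons (mv 911 (cons (fin 910 3 910)
(mv 979 (cons (fin 912 3 911)
(fin 980 1 976)))))
(mv 914 (cons (fin 915 2 911)
(mv 850 (cons (fin 786 5 785)
(mv 787 (cons (fin 851 6 786)
(mv 849 (cons (fin 785 7 785)
(mv 913 (cons (fin 1106 7 849)
(mv 848 (cons (fin 846 0 846)
(fin 784 7 784))))))))))))))))))))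
(mv 1042 (cons (fin 1043 3 975)
(mv 1039 (cons (fin 974 3 974)
(mv 978 (cons (fin 979 2 975)
(mv 1102 (cons (fin 1103 1 1038)
(mv 1038 (cons (fin 1101 1 1037)
(fin 911 5 846)))))))))))))))))
(cons (cons (mv 974 (cons (cons (mv 973 (cons (fin 1041 0 973)
(mv 908 (cons (fin 909 3 908)
(mv 972 (cons (fin 907 3 907)
(fin 1039 0 972)))))))
(mv 977 (cons (cons (cons (mv 909 (cons (fin 910 3 909)
(mv 913 (cons (fin 914 2 910)
(mv 785 (cons (fin 849 5 784)
(mv 1038 (cons (fin 1037 1 973)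
(mv 1039 (cons (fin 978 1 974)
(mv 911 (cons (fin 1102 5 846)
(mv 846 (cons (fin 782 7 782)
(mv 848 (cons (fin 784 6 783)
(mv 845 (cons (fin 908 1 844)
(fin 912 0 845)))))))))))))))))))
(mv 909 (cons (fin 910 3 909)
(mv 914 (cons (fin 913 2 910)
(mv 978 (cons (fin 915 2 911)
(mv 979 (cons (fin 1039 1 975)
(mv 911 (cons (fin 912 3 911)
(mv 980 (cons (fin 1041 1 976)
(mv 1044 (cons (fin 1043 0 976)
(fin 1045 0 977))))))))))))))))
(cons (mv 913 (cons (fin 914 2 910)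
(mv 785 (cons (fin 849 5 784)
(mv 1038 (cons (fin 1037 1 973)
(mv 1039 (cons (fin 978 1 974)
(mv 911 (cons (fin 1102 5 846)
(mv 846 (cons (fin 782 7 782)
(mv 848 (cons (fin 784 6 783)
(mv 912 (cons (fin 845 0 845)
(fin 1103 5 847)))))))))))))))))
(mv 909 (cons (fin 910 3 909)
(mv 1038 (cons (fin 1037 1 973)
(mv 978 (cons (fin 1039 1 974)
(mv 915 (cons (fin 914 2 911)
(mv 979 (cons (fin 916 2 912)
(mv 911 (cons (fin 912 3 911)
(mv 980 (cons (fin 1041 1 976)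
(mv 1044 (cons (fin 1043 0 976)
(fin 1045 0 977)))))))))))))))))))
(cons (cons (mv 909 (cons (fin 910 3 909)
(mv 1038 (cons (fin 1037 1 973)
(mv 1039 (cons (fin 978 1 974)
(mv 911 (cons (fin 1102 5 846)
(mv 846 (cons (fin 782 7 782)
(mv 848 (cons (fin 784 6 783)
(mv 845 (cons (fin 908 1 844)
(mv 912 (cons (fin 844 0 844)
(fin 913 0 845)))))))))))))))))
(mv 910 (cons (fin 909 3 909)
(mv 913 (cons (fin 914 2 910)
(mv 785 (cons (fin 849 5 784)
(mv 1038 (cons (fin 1037 1 973)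
(mv 1102 (cons (fin 911 6 846)
(mv 1101 (cons (fin 1165 5 909)
(mv 1039 (cons (fin 1041 1 1037)
(mv 846 (cons (fin 782 4 782)
(fin 1103 4 846))))))))))))))))))
(cons (mv 910 (cons (fin 909 3 909)
(mv 911 (cons (fin 978 3 910)
(mv 1038 (cons (fin 1037 1 973)
(fin 1102 6 846)))))))
(mv 909 (cons (fin 910 3 909)
(mv 914 (cons (fin 913 2 910)
(mv 978 (cons (fin 915 2 911)
(mv 1038 (cons (fin 1037 1 973)
(fin 1039 1 974))))))))))))))
(cons (mv 973 (cons (mv 908 (cons (fin 909 3 908)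
(mv 972 (cons (fin 907 3 907)
(fin 1039 0 972)))))
(cons (mv 908 (cons (fin 909 3 908)
(mv 913 (cons (fin 912 2 909)
(mv 977 (cons (fin 914 2 910)
(mv 1037 (cons (fin 1036 1 972)
(fin 1038 1 973)))))))))
(mv 912 (cons (fin 913 2 909)
(mv 972 (cons (fin 911 2 908)
(fin 1039 0 972))))))))
(cons (mv 973 (cons (fin 1041 0 973)
(mv 912 (cons (fin 913 2 909)
(mv 972 (cons (fin 911 2 908)
(fin 1039 0 972)))))))
(mv 973 (cons (fin 1041 0 973)
(mv 908 (cons (fin 909 3 908)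
(mv 907 (cons (fin 972 3 907)
(mv 913 (cons (fin 912 2 909)
(mv 977 (cons (fin 914 2 910)
(mv 1037 (cons (fin 1036 1 972)
(fin 1038 1 973)))))))))))))))))
(mv 974 (cons (cons (mv 973 (cons (fin 1041 0 973)
(mv 908 (cons (fin 909 3 908)
(mv 972 (cons (fin 907 3 907)
(fin 1039 0 972)))))))
(mv 977 (cons (cons (mv 909 (cons (fin 910 3 909)
(mv 913 (cons (fin 914 2 910)
(mv 785 (cons (fin 849 5 784)
(mv 1038 (cons (fin 1037 1 973)
(mv 1039 (cons (fin 978 1 974)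
(mv 911 (cons (fin 1102 5 846)
(mv 846 (cons (fin 782 7 782)
(mv 848 (cons (fin 784 6 783)
(mv 845 (cons (fin 908 1 844)
(fin 912 0 845)))))))))))))))))))
(cons (mv 909 (cons (fin 910 3 909)
(mv 914 (cons (fin 913 2 910)
(mv 978 (cons (fin 915 2 911)
(mv 979 (cons (fin 1039 1 975)
(mv 1041 (cons (fin 980 1 976)
(fin 1042 0 974)))))))))))
(mv 913 (cons (fin 914 2 910)
(mv 785 (cons (fin 849 5 784)
(mv 1038 (cons (fin 1037 1 973)
(mv 1039 (cons (fin 978 1 974)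
(mv 911 (cons (fin 1102 5 846)
(mv 846 (cons (fin 782 7 782)
(mv 848 (cons (fin 784 6 783)
(mv 912 (cons (fin 845 0 845)
(fin 1103 5 847)))))))))))))))))))
(cons (cons (mv 909 (cons (fin 910 3 909)
(mv 1038 (cons (fin 1037 1 973)
(mv 978 (cons (fin 1039 1 974)
(mv 915 (cons (fin 914 2 911)
(mv 979 (cons (fin 916 2 912)
(mv 1041 (cons (fin 980 1 976)
(fin 1042 0 974)))))))))))))
(mv 909 (cons (fin 910 3 909)
(mv 1038 (cons (fin 1037 1 973)
(mv 1039 (cons (fin 978 1 974)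
(mv 911 (cons (fin 1102 5 846)
(mv 782 (cons (fin 846 7 782)
(mv 848 (cons (fin 784 6 783)
(mv 912 (cons (fin 1103 5 847)
(mv 849 (cons (fin 785 6 784)
(mv 850 (cons (fin 851 1 847)
(mv 786 (cons (fin 787 2 783)
(mv 1041 (cons (fin 1042 3 974)
(fin 913 6 785))))))))))))))))))))))))
(cons (mv 910 (cons (fin 909 3 909)
(mv 911 (cons (fin 978 3 910)
(mv 1038 (cons (fin 1037 1 973)
(fin 1102 6 846)))))))
(mv 910 (cons (fin 909 3 909)
(mv 913 (cons (fin 914 2 910)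
(mv 785 (cons (fin 849 5 784)
(mv 1038 (cons (fin 1037 1 973)
(mv 1041 (cons (fin 1042 0 974)
(mv 1102 (cons (fin 911 6 846)
(mv 1101 (cons (fin 1039 1 1037)
(fin 1165 5 909))))))))))))))))))))
(cons (mv 973 (cons (mv 908 (cons (fin 909 3 908)
(mv 972 (cons (fin 907 3 907)
(fin 1039 0 972)))))
(cons (mv 908 (cons (fin 909 3 908)
(mv 913 (cons (fin 912 2 909)
(mv 977 (cons (fin 914 2 910)
(mv 1037 (cons (fin 1036 1 972)
(fin 1038 1 973)))))))))
(mv 912 (cons (fin 913 2 909)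
(mv 972 (cons (fin 911 2 908)
(fin 1039 0 972))))))))
(cons (mv 973 (cons (fin 1041 0 973)
(mv 908 (cons (fin 909 3 908)
(mv 907 (cons (fin 972 3 907)
(mv 913 (cons (fin 912 2 909)
(mv 977 (cons (fin 914 2 910)
(mv 1037 (cons (fin 1036 1 972)
(fin 1038 1 973)))))))))))))
(mv 973 (cons (fin 1041 0 973)
(mv 912 (cons (fin 913 2 909)
(mv 972 (cons (fin 911 2 908)
(fin 1039 0 972))))))))))))
(cons (mv 974 (cons (cons (mv 973 (cons (fin 1041 0 973)
(mv 908 (cons (fin 909 3 908)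
(mv 907 (cons (fin 972 3 907)
(mv 913 (cons (fin 912 2 909)
(mv 977 (cons (fin 914 2 910)
(mv 1037 (cons (fin 1036 1 972)
(fin 1038 1 973)))))))))))))
(cons (mv 977 (cons (cons (mv 909 (cons (fin 910 3 909)
(mv 914 (cons (fin 913 2 910)
(mv 978 (cons (fin 915 2 911)
(mv 1042 (cons (fin 1041 0 974)
(fin 1043 0 975)))))))))
(mv 910 (cons (fin 909 3 909)
(mv 911 (cons (fin 978 3 910)
(mv 1038 (cons (fin 1037 1 973)
(fin 1102 6 846))))))))
(cons (mv 914 (cons (fin 913 2 910)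
(mv 978 (cons (fin 915 2 911)
(mv 1042 (cons (fin 1041 0 974)
(fin 1043 0 975)))))))
(mv 910 (cons (fin 909 3 909)
(mv 913 (cons (fin 914 2 910)
(mv 785 (cons (fin 849 5 784)
(mv 1038 (cons (fin 1037 1 973)
(mv 1041 (cons (fin 1042 0 974)
(mv 1102 (cons (fin 911 6 846)
(mv 1165 (cons (fin 1101 5 909)
(mv 1166 (cons (fin 1229 5 973)
(mv 1167 (cons (fin 1103 4 910)
(fin 1231 4 974))))))))))))))))))))))
(mv 977 (cons (cons (mv 909 (cons (fin 910 3 909)
(mv 913 (cons (fin 914 2 910)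
(mv 973 (cons (fin 908 3 908)
(fin 912 2 909)))))))
(mv 909 (cons (fin 910 3 909)
(mv 973 (cons (fin 908 3 908)
(mv 1037 (cons (fin 1036 1 972)
(fin 1038 1 973))))))))
(cons (mv 913 (cons (fin 914 2 910)
(mv 785 (cons (fin 849 5 784)
(mv 973 (cons (fin 912 2 909)
(mv 1037 (cons (fin 1036 1 972)
(fin 1038 1 973)))))))))
(mv 910 (cons (fin 909 3 909)
(mv 911 (cons (fin 978 3 910)
(mv 1038 (cons (fin 1037 1 973)
(fin 1102 6 846))))))))))))
(cons (mv 973 (cons (fin 1041 0 973)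
(mv 908 (cons (fin 909 3 908)
(mv 912 (cons (fin 913 2 909)
(mv 972 (cons (fin 907 3 907)
(fin 911 2 908)))))))))
(cons (mv 973 (cons (fin 1041 0 973)
(mv 908 (cons (fin 909 3 908)
(mv 972 (cons (fin 907 3 907)
(mv 1036 (cons (fin 1035 1 971)
(fin 1037 1 972)))))))))
(mv 973 (cons (fin 1041 0 973)
(mv 912 (cons (fin 913 2 909)
(mv 911 (cons (fin 972 2 908)
(mv 1037 (cons (fin 1036 1 972)
(mv 977 (cons (fin 1038 1 973)
(mv 978 (cons (fin 910 3 910)
(fin 979 3 911)))))))))))))))))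
(cons (mv 1039 (cons (cons (mv 1103 (cons (mv 912 (cons (fin 848 5 847)
(fin 1167 6 911)))
(cons (mv 848 (cons (fin 912 5 847)
(mv 911 (cons (fin 784 6 783)
(mv 846 (cons (fin 782 7 782)
(fin 910 7 846)))))))
(mv 1167 (cons (fin 1231 6 975)
(mv 910 (cons (fin 974 7 910)
(mv 911 (cons (fin 846 7 846)
(mv 1102 (cons (fin 1038 5 846)
(fin 1166 5 910))))))))))))
(cons (mv 1038 (cons (cons (cons (mv 911 (cons (fin 1102 5 846)
(mv 782 (cons (fin 846 7 782)
(mv 784 (cons (fin 848 6 783)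
(mv 1037 (cons (fin 1036 2 972)
(mv 973 (cons (fin 972 3 972)
(mv 974 (cons (fin 1041 3 973)
(mv 908 (cons (fin 909 3 908)
(mv 912 (cons (fin 913 2 909)
(mv 1101 (cons (fin 1100 1 1036)
(mv 1165 (cons (fin 910 6 909)
(fin 1229 6 973)))))))))))))))))))))
(mv 1102 (cons (fin 911 5 846)
(mv 1041 (cons (fin 1101 1 1037)
(mv 974 (cons (fin 973 3 973)
(fin 1042 3 974))))))))
(cons (mv 1037 (cons (fin 1036 2 972)
(mv 972 (cons (fin 973 3 972)
(mv 1101 (cons (fin 1100 1 1036)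
(mv 1041 (cons (fin 1102 1 1037)
(mv 1042 (cons (fin 974 3 974)
(fin 1043 3 975)))))))))))
(mv 1037 (cons (fin 1036 2 972)
(mv 973 (cons (fin 972 3 972)
(mv 974 (cons (fin 1041 3 973)
(mv 908 (cons (fin 909 3 908)
(mv 912 (cons (fin 913 2 909)
(mv 784 (cons (fin 848 5 783)
(mv 1101 (cons (fin 1100 1 1036)
(mv 910 (cons (fin 846 5 845)
(fin 1165 6 909)))))))))))))))))))
(cons (cons (mv 911 (cons (fin 1102 5 846)
(mv 784 (cons (fin 848 6 783)
(mv 846 (cons (fin 782 7 782)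
(mv 1037 (cons (fin 1036 2 972)
(mv 973 (cons (fin 972 3 972)
(mv 1101 (cons (fin 1100 1 1036)
(mv 910 (cons (fin 974 5 845)
(fin 909 6 845)))))))))))))))
(mv 911 (cons (fin 1102 5 846)
(mv 784 (cons (fin 848 6 783)
(mv 846 (cons (fin 782 7 782)
(mv 1037 (cons (fin 1036 2 972)
(mv 973 (cons (fin 972 3 972)
(mv 1101 (cons (fin 1100 1 1036)
(mv 909 (cons (fin 910 6 845)
(mv 844 (cons (fin 908 7 844)
(mv 845 (cons (fin 912 0 844)
(fin 780 7 780))))))))))))))))))))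
(cons (mv 911 (cons (fin 1102 5 846)
(mv 846 (cons (fin 782 7 782)
(mv 848 (cons (fin 784 6 783)
(mv 1037 (cons (fin 1036 2 972)
(mv 1101 (cons (fin 1100 1 1036)
(mv 910 (cons (fin 974 5 845)
(mv 849 (cons (fin 909 1 845)
(fin 850 1 846)))))))))))))))
(mv 911 (cons (fin 1102 5 846)
(mv 782 (cons (fin 846 7 782)
(mv 784 (cons (fin 848 6 783)
(mv 1037 (cons (fin 1036 2 972)
(mv 973 (cons (fin 972 3 972)
(mv 974 (cons (fin 1041 3 973)
(mv 909 (cons (fin 908 3 908)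
(mv 845 (cons (fin 781 4 781)
(mv 844 (cons (fin 780 7 780)
(mv 912 (cons (fin 910 3 844)
(fin 913 2 909)))))))))))))))))))))))))
(mv 1103 (cons (mv 912 (cons (fin 848 5 847)
(fin 1167 6 911)))
(cons (mv 848 (cons (fin 912 5 847)
(mv 911 (cons (fin 784 6 783)
(mv 846 (cons (fin 782 7 782)
(fin 910 7 846)))))))
(mv 1167 (cons (fin 1231 6 975)
(mv 1166 (cons (fin 1230 5 974)
(mv 911 (cons (fin 1102 5 910)
(mv 846 (cons (fin 782 7 782)
(fin 910 7 846))))))))))))))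
(cons (mv 1041 (cons (mv 974 (cons (fin 1042 3 974)
(fin 973 0 973)))
(cons (mv 1038 (cons (mv 973 (cons (fin 974 3 973)
(mv 1037 (cons (fin 972 3 972)
(fin 1036 2 972)))))
(cons (mv 1037 (cons (fin 1036 2 972)
(mv 1101 (cons (fin 1100 1 1036)
(fin 1102 1 1037)))))
(mv 974 (cons (fin 973 3 973)
(mv 1102 (cons (fin 1101 1 1037)
(mv 1166 (cons (fin 1230 6 974)
(mv 1165 (cons (fin 1229 5 973)
(mv 1167 (cons (fin 1231 4 974)
(mv 1103 (cons (fin 910 7 910)
(fin 912 6 911))))))))))))))))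
(mv 1042 (cons (fin 1043 3 975)
(mv 978 (cons (fin 979 2 975)
(mv 1103 (cons (fin 1102 1 1038)
(mv 912 (cons (fin 848 5 847)
(fin 1167 6 911))))))))))))
(cons (mv 1041 (cons (mv 974 (cons (fin 1042 3 974)
(fin 973 0 973)))
(cons (mv 973 (cons (fin 974 0 973)
(mv 1038 (cons (mv 1037 (cons (fin 972 3 972)
(fin 1036 2 972)))
(mv 1102 (cons (fin 1101 1 1037)
(fin 911 5 846)))))))
(mv 1042 (cons (fin 1043 3 975)
(mv 978 (cons (fin 979 2 975)
(mv 1102 (cons (fin 1103 1 1038)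
(mv 1038 (cons (fin 1101 1 1037)
(fin 911 5 846))))))))))))
(mv 974 (cons (mv 973 (cons (fin 972 0 972)
(fin 1041 0 973)))
(cons (mv 1041 (cons (fin 1042 3 974)
(mv 1103 (cons (mv 912 (cons (fin 848 5 847)
(fin 1167 6 911)))
(cons (mv 848 (cons (fin 912 5 847)
(mv 911 (cons (fin 784 6 783)
(mv 846 (cons (fin 782 7 782)
(fin 910 7 846)))))))
(mv 1167 (cons (fin 910 7 910)
(fin 1231 6 975))))))))
(mv 973 (cons (fin 972 0 972)
(mv 908 (cons (fin 909 3 908)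
(mv 912 (cons (fin 913 2 909)
(mv 848 (cons (fin 784 5 783)
(fin 1103 5 847))))))))))))))))
(mv 1041 (cons (cons (mv 974 (cons (fin 973 0 973)
(mv 1042 (cons (fin 1039 3 974)
(fin 1043 3 975)))))
(mv 1042 (cons (fin 1043 3 975)
(mv 1039 (cons (cons (mv 978 (cons (fin 979 2 975)
(mv 977 (cons (fin 1038 1 974)
(mv 910 (cons (fin 911 3 910)
(mv 914 (cons (fin 915 2 911)
(mv 786 (cons (fin 850 5 785)
(mv 1102 (cons (fin 1103 1 1038)
(mv 1106 (cons (fin 1107 0 1039)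
(mv 913 (cons (fin 849 7 849)
(fin 1170 7 913)))))))))))))))))
(mv 1102 (cons (fin 1103 1 1038)
(mv 1038 (cons (fin 1101 1 1037)
(fin 911 5 846))))))
(cons (mv 978 (cons (fin 979 2 975)
(mv 977 (cons (fin 1038 1 974)
(mv 910 (cons (fin 911 3 910)
(mv 914 (cons (fin 915 2 911)
(mv 786 (cons (fin 850 5 785)
(mv 1106 (cons (fin 1107 0 1039)
(mv 913 (cons (fin 849 7 849)
(fin 1170 7 913)))))))))))))))
(mv 978 (cons (fin 979 2 975)
(mv 1102 (cons (fin 1103 1 1038)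
(mv 1106 (cons (fin 1107 0 1039)
(mv 914 (cons (mv 915 (cons (fin 977 2 911)
(fin 851 6 850)))
(cons (mv 849 (cons (fin 913 7 849)
(mv 850 (cons (fin 785 7 785)
(mv 786 (cons (fin 977 5 785)
(mv 787 (cons (fin 848 2 783)
(fin 723 6 722)))))))))
(mv 849 (cons (fin 913 7 849)
(mv 850 (cons (fin 785 7 785)
(mv 851 (cons (fin 787 6 786)
(fin 915 6 850))))))))))))))))))))))
(cons (mv 974 (cons (fin 973 0 973)
(mv 977 (cons (cons (mv 909 (cons (fin 910 3 909)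
(mv 913 (cons (fin 914 2 910)
(mv 785 (cons (fin 849 5 784)
(mv 1038 (cons (fin 1037 1 973)
(mv 1039 (cons (fin 978 1 974)
(mv 1102 (cons (fin 1101 1 1037)
(fin 911 5 846)))))))))))))
(cons (mv 909 (cons (fin 910 3 909)
(mv 914 (cons (fin 913 2 910)
(mv 978 (cons (fin 915 2 911)
(mv 979 (cons (fin 1039 1 975)
(fin 980 1 976)))))))))
(mv 913 (cons (fin 914 2 910)
(mv 785 (cons (fin 849 5 784)
(mv 1038 (cons (fin 1037 1 973)
(mv 1039 (cons (fin 978 1 974)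
(mv 1102 (cons (fin 1101 1 1037)
(fin 911 5 846)))))))))))))
(cons (cons (mv 909 (cons (fin 910 3 909)
(mv 1038 (cons (fin 1037 1 973)
(mv 978 (cons (fin 1039 1 974)
(mv 915 (cons (fin 914 2 911)
(mv 979 (cons (fin 980 1 976)
(fin 916 2 912)))))))))))
(mv 909 (cons (fin 910 3 909)
(mv 1038 (cons (fin 1037 1 973)
(mv 1039 (cons (fin 978 1 974)
(mv 1102 (cons (fin 1101 1 1037)
(fin 911 5 846))))))))))
(cons (mv 910 (cons (fin 909 3 909)
(mv 913 (cons (fin 914 2 910)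
(mv 785 (cons (fin 849 5 784)
(mv 1038 (cons (fin 1037 1 973)
(mv 1102 (cons (fin 911 6 846)
(mv 1101 (cons (fin 1039 1 1037)
(fin 1165 5 909)))))))))))))
(mv 910 (cons (fin 909 3 909)
(mv 911 (cons (fin 978 3 910)
(mv 1038 (cons (fin 1037 1 973)
(fin 1102 6 846)))))))))))))
(mv 974 (cons (fin 973 0 973)
(mv 1042 (cons (fin 1043 3 975)
(fin 977 0 974))))))))))))
(cons (cons (cons (mv 974 (cons (cons (mv 973 (cons (fin 1041 0 973)
(mv 908 (cons (fin 909 3 908)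
(mv 972 (cons (fin 907 3 907)
(fin 1039 0 972)))))))
(mv 977 (cons (cons (cons (mv 909 (cons (fin 910 3 909)
(mv 913 (cons (fin 914 2 910)
(mv 785 (cons (fin 849 5 784)
(mv 1037 (cons (fin 1038 1 973)
(mv 1042 (cons (fin 1041 0 974)
(mv 978 (cons (fin 1043 0 975)
(mv 979 (cons (fin 1039 1 975)
(mv 916 (cons (fin 915 2 912)
(mv 980 (cons (fin 912 3 912)
(fin 917 2 913)))))))))))))))))))
(mv 909 (cons (fin 910 3 909)
(mv 914 (cons (fin 913 2 910)
(mv 978 (cons (fin 915 2 911)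
(mv 1038 (cons (fin 1037 1 973)
(fin 1039 1 974))))))))))
(cons (mv 909 (cons (fin 910 3 909)
(mv 913 (cons (fin 914 2 910)
(mv 785 (cons (fin 849 5 784)
(mv 1042 (cons (fin 1041 0 974)
(mv 978 (cons (fin 1043 0 975)
(mv 979 (cons (fin 1039 1 975)
(mv 916 (cons (fin 915 2 912)
(mv 980 (cons (fin 912 3 912)
(fin 917 2 913)))))))))))))))))
(mv 909 (cons (fin 910 3 909)
(mv 1037 (cons (fin 1038 1 973)
(mv 1042 (cons (fin 1041 0 974)
(mv 978 (cons (fin 1043 0 975)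
(mv 915 (cons (fin 914 2 911)
(mv 979 (cons (fin 1039 1 975)
(fin 916 2 912)))))))))))))))
(cons (cons (mv 909 (cons (fin 910 3 909)
(mv 1038 (cons (fin 1037 1 973)
(mv 978 (cons (fin 1039 1 974)
(mv 1042 (cons (fin 1041 0 974)
(fin 1043 0 975)))))))))
(mv 913 (cons (fin 914 2 910)
(mv 785 (cons (fin 849 5 784)
(mv 1037 (cons (fin 1038 1 973)
(mv 1042 (cons (fin 1041 0 974)
(mv 978 (cons (fin 1043 0 975)
(mv 979 (cons (fin 1039 1 975)
(mv 916 (cons (fin 915 2 912)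
(mv 980 (cons (fin 912 3 912)
(fin 917 2 913))))))))))))))))))
(cons (mv 909 (cons (fin 910 3 909)
(mv 914 (cons (fin 913 2 910)
(mv 978 (cons (fin 915 2 911)
(mv 1042 (cons (fin 1041 0 974)
(fin 1043 0 975)))))))))
(mv 910 (cons (fin 909 3 909)
(mv 913 (cons (fin 914 2 910)
(mv 785 (cons (fin 849 5 784)
(mv 1038 (cons (fin 1037 1 973)
(mv 1041 (cons (fin 1042 0 974)
(mv 1039 (cons (mv 846 (cons (fin 782 4 782)
(fin 1103 4 846)))
(cons (mv 846 (cons (fin 782 4 782)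
(mv 845 (cons (fin 781 7 781)
(mv 848 (cons (fin 784 2 781)
(fin 912 0 845)))))))
(mv 1102 (cons (fin 1101 1 1037)
(mv 1166 (cons (fin 1230 6 974)
(mv 1167 (cons (fin 1103 7 910)
(fin 1231 4 974)))))))))))))))))))))))))
(cons (mv 973 (cons (mv 908 (cons (fin 909 3 908)
(mv 972 (cons (fin 907 3 907)
(fin 1039 0 972)))))
(cons (mv 908 (cons (fin 909 3 908)
(mv 913 (cons (fin 912 2 909)
(mv 977 (cons (fin 914 2 910)
(mv 1037 (cons (fin 1036 1 972)
(fin 1038 1 973)))))))))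
(mv 912 (cons (fin 913 2 909)
(mv 972 (cons (fin 1039 0 972)
(mv 1036 (cons (fin 1035 1 971)
(fin 1037 1 972))))))))))
(cons (mv 973 (cons (fin 1041 0 973)
(mv 908 (cons (fin 909 3 908)
(mv 907 (cons (fin 972 3 907)
(mv 913 (cons (fin 912 2 909)
(mv 977 (cons (fin 914 2 910)
(mv 1037 (cons (fin 1036 1 972)
(fin 1038 1 973)))))))))))))
(mv 973 (cons (fin 1041 0 973)
(mv 912 (cons (fin 913 2 909)
(mv 972 (cons (fin 1039 0 972)
(mv 1036 (cons (fin 1035 1 971)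
(fin 1037 1 972)))))))))))))
(mv 1041 (cons (cons (mv 974 (cons (fin 973 0 973)
(mv 1042 (cons (fin 1039 3 974)
(fin 1043 3 975)))))
(mv 974 (cons (fin 973 0 973)
(mv 977 (cons (cons (mv 909 (cons (fin 910 3 909)
(mv 914 (cons (fin 913 2 910)
(mv 978 (cons (fin 915 2 911)
(mv 979 (cons (fin 1039 1 975)
(fin 980 1 976)))))))))
(mv 910 (cons (fin 909 3 909)
(mv 978 (cons (fin 911 3 910)
(mv 979 (cons (fin 1039 1 975)
(fin 980 1 976))))))))
(cons (mv 914 (cons (fin 913 2 910)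
(mv 978 (cons (fin 915 2 911)
(mv 979 (cons (fin 1039 1 975)
(fin 980 1 976)))))))
(mv 910 (cons (fin 909 3 909)
(mv 913 (cons (fin 914 2 910)
(mv 849 (cons (fin 785 5 784)
(mv 848 (cons (fin 784 7 784)
(mv 850 (cons (fin 911 1 846)
(fin 786 6 785)))))))))))))))))
(cons (mv 1042 (cons (fin 1043 3 975)
(mv 1039 (cons (cons (mv 978 (cons (fin 979 2 975)
(mv 1103 (cons (fin 1102 1 1038)
(mv 912 (cons (fin 848 5 847)
(fin 1167 6 911)))))))
(mv 978 (cons (fin 979 2 975)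
(mv 1106 (cons (fin 1107 0 1039)
(mv 977 (cons (mv 913 (cons (fin 1170 7 913)
(fin 849 4 849)))
(cons (mv 911 (cons (fin 910 3 910)
(mv 782 (cons (fin 846 7 782)
(mv 848 (cons (fin 784 6 783)
(mv 914 (cons (fin 915 2 911)
(mv 850 (cons (fin 786 5 785)
(mv 849 (cons (fin 785 7 785)
(mv 851 (cons (fin 912 1 847)
(fin 787 6 786)))))))))))))))
(mv 1170 (cons (fin 913 7 913)
(fin 1234 7 977)))))))))))
(cons (mv 1103 (cons (fin 1102 1 1038)
(mv 912 (cons (fin 848 5 847)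
(fin 1167 6 911)))))
(cons (mv 978 (cons (fin 979 2 975)
(mv 1102 (cons (fin 1103 1 1038)
(mv 1106 (cons (fin 1107 0 1039)
(mv 914 (cons (mv 915 (cons (fin 977 2 911)
(fin 851 6 850)))
(cons (mv 849 (cons (fin 913 7 849)
(mv 850 (cons (fin 785 7 785)
(mv 786 (cons (fin 977 5 785)
(mv 787 (cons (fin 848 2 783)
(fin 723 6 722)))))))))
(mv 849 (cons (fin 913 7 849)
(mv 850 (cons (fin 785 7 785)
(mv 851 (cons (fin 787 6 786)
(fin 915 6 850))))))))))))))))
(mv 978 (cons (fin 979 2 975)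
(mv 1103 (cons (fin 1102 1 1038)
(mv 1167 (cons (fin 912 6 911)
(fin 1231 6 975)))))))))))))
(mv 974 (cons (fin 973 0 973)
(mv 1042 (cons (fin 1043 3 975)
(fin 977 0 974)))))))))
(cons (mv 1041 (cons (cons (mv 974 (cons (fin 973 0 973)
(mv 1042 (cons (fin 1039 3 974)
(fin 1043 3 975)))))
(mv 1042 (cons (fin 1043 3 975)
(mv 1039 (cons (cons (mv 1102 (cons (fin 1103 1 1038)
(mv 1038 (cons (fin 1101 1 1037)
(fin 911 5 846)))))
(mv 1106 (cons (fin 1107 0 1039)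
(mv 1038 (cons (mv 1037 (cons (fin 1036 2 972)
(fin 977 2 973)))
(mv 1102 (cons (fin 1101 1 1037)
(fin 911 5 846))))))))
(cons (mv 1106 (cons (fin 1107 0 1039)
(mv 848 (cons (mv 784 (cons (fin 912 5 783)
(fin 911 6 783)))
(cons (mv 911 (cons (fin 784 6 783)
(mv 846 (cons (fin 782 7 782)
(mv 910 (cons (fin 1103 7 846)
(mv 849 (cons (fin 909 1 845)
(fin 850 1 846)))))))))
(mv 912 (cons (fin 1103 5 847)
(mv 849 (cons (fin 785 6 784)
(mv 913 (cons (fin 977 4 849)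
(mv 846 (cons (fin 845 0 845)
(fin 914 0 846))))))))))))))
(mv 1102 (cons (fin 1103 1 1038)
(mv 1038 (cons (fin 1101 1 1037)
(mv 1037 (cons (fin 1036 2 972)
(fin 977 2 973)))))))))))))
(cons (mv 974 (cons (fin 973 0 973)
(mv 977 (cons (cons (mv 910 (cons (fin 909 3 909)
(mv 913 (cons (fin 914 2 910)
(mv 785 (cons (fin 849 5 784)
(mv 1038 (cons (fin 1037 1 973)
(mv 1102 (cons (fin 911 6 846)
(mv 1101 (cons (fin 1039 1 1037)
(fin 1165 5 909)))))))))))))
(mv 910 (cons (fin 909 3 909)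
(mv 913 (cons (fin 914 2 910)
(mv 849 (cons (fin 785 5 784)
(mv 848 (cons (fin 784 7 784)
(mv 850 (cons (fin 911 1 846)
(fin 786 6 785))))))))))))
(cons (mv 910 (cons (fin 909 3 909)
(mv 1038 (cons (fin 1037 1 973)
(mv 1102 (cons (fin 911 6 846)
(mv 1101 (cons (fin 1039 1 1037)
(fin 1165 5 909)))))))))
(cons (mv 913 (cons (fin 914 2 910)
(mv 849 (cons (fin 785 5 784)
(mv 848 (cons (fin 784 7 784)
(mv 850 (cons (fin 786 6 785)
(mv 1038 (cons (fin 1037 1 973)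
(mv 851 (cons (mv 912 (cons (fin 911 1 847)
(fin 852 1 848)))
(cons (mv 788 (cons (fin 787 2 784)
(mv 852 (cons (fin 789 2 785)
(mv 916 (cons (fin 915 0 848)
(fin 917 0 849)))))))
(mv 787 (cons (fin 788 2 784)
(mv 911 (cons (fin 912 1 847)
(mv 1102 (cons (fin 1039 5 846)
(fin 1166 6 910))))))))))))))))))))
(mv 910 (cons (fin 909 3 909)
(mv 913 (cons (fin 914 2 910)
(mv 785 (cons (fin 849 5 784)
(mv 1038 (cons (fin 1037 1 973)
(mv 1039 (cons (mv 846 (cons (fin 782 4 782)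
(fin 1103 4 846)))
(cons (mv 846 (cons (fin 782 4 782)
(mv 845 (cons (fin 781 7 781)
(mv 848 (cons (fin 784 2 781)
(fin 912 0 845)))))))
(mv 1102 (cons (fin 1101 1 1037)
(mv 1166 (cons (fin 1230 6 974)
(mv 1167 (cons (fin 1103 7 910)
(fin 1231 4 974))))))))))))))))))))))))
(mv 974 (cons (fin 973 0 973)
(mv 1042 (cons (fin 1043 3 975)
(fin 977 0 974))))))))
(mv 1041 (cons (cons (mv 974 (cons (fin 973 0 973)
(mv 1042 (cons (fin 1039 3 974)
(fin 1043 3 975)))))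
(mv 974 (cons (fin 973 0 973)
(mv 977 (cons (cons (mv 909 (cons (fin 910 3 909)
(mv 1038 (cons (fin 1037 1 973)
(mv 978 (cons (fin 1039 1 974)
(mv 915 (cons (fin 914 2 911)
(mv 979 (cons (fin 980 1 976)
(fin 916 2 912)))))))))))
(mv 910 (cons (fin 909 3 909)
(mv 978 (cons (fin 911 3 910)
(mv 979 (cons (fin 1039 1 975)
(fin 980 1 976))))))))
(cons (mv 1038 (cons (fin 1037 1 973)
(mv 978 (cons (fin 1039 1 974)
(mv 915 (cons (fin 914 2 911)
(mv 979 (cons (fin 980 1 976)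
(fin 916 2 912)))))))))
(cons (mv 910 (cons (fin 909 3 909)
(mv 1038 (cons (fin 1037 1 973)
(mv 1102 (cons (fin 911 6 846)
(mv 1101 (cons (fin 1039 1 1037)
(fin 1165 5 909)))))))))
(mv 910 (cons (fin 909 3 909)
(mv 911 (cons (fin 978 3 910)
(mv 1038 (cons (fin 1037 1 973)
(fin 1102 6 846))))))))))))))
(cons (mv 1042 (cons (fin 1043 3 975)
(mv 1039 (cons (cons (mv 978 (cons (fin 979 2 975)
(mv 977 (cons (fin 1038 1 974)
(mv 910 (cons (fin 911 3 910)
(mv 914 (cons (fin 915 2 911)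
(mv 786 (cons (fin 850 5 785)
(mv 1103 (cons (fin 1102 1 1038)
(mv 912 (cons (fin 848 5 847)
(fin 1167 6 911)))))))))))))))
(mv 978 (cons (fin 979 2 975)
(mv 977 (cons (fin 1038 1 974)
(mv 911 (cons (fin 910 3 910)
(mv 782 (cons (fin 846 7 782)
(mv 848 (cons (fin 784 6 783)
(mv 914 (cons (fin 915 2 911)
(mv 850 (cons (fin 786 5 785)
(mv 849 (cons (fin 785 7 785)
(mv 851 (cons (fin 912 1 847)
(fin 787 6 786))))))))))))))))))))
(cons (mv 1102 (cons (fin 1103 1 1038)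
(mv 1038 (cons (fin 1101 1 1037)
(fin 911 5 846)))))
(mv 978 (cons (fin 979 2 975)
(mv 1103 (cons (fin 1102 1 1038)
(mv 912 (cons (fin 848 5 847)
(fin 1167 6 911))))))))))))
(mv 974 (cons (fin 973 0 973)
(mv 1042 (cons (fin 1043 3 975)
(fin 977 0 974))))))))))
(cons (cons (mv 974 (cons (cons (mv 973 (cons (fin 1041 0 973)
(mv 908 (cons (fin 909 3 908)
(mv 972 (cons (fin 907 3 907)
(fin 1039 0 972)))))))
(mv 977 (cons (cons (mv 913 (cons (fin 914 2 910)
(mv 785 (cons (fin 849 5 784)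
(mv 1037 (cons (fin 1038 1 973)
(mv 1042 (cons (fin 1041 0 974)
(mv 978 (cons (fin 1043 0 975)
(mv 979 (cons (fin 1039 1 975)
(mv 912 (cons (fin 911 3 911)
(fin 980 3 912)))))))))))))))
(cons (mv 913 (cons (fin 914 2 910)
(mv 785 (cons (fin 849 5 784)
(mv 1038 (cons (fin 1037 1 973)
(mv 1039 (cons (fin 978 1 974)
(mv 911 (cons (fin 1102 5 846)
(mv 846 (cons (fin 782 7 782)
(mv 848 (cons (fin 784 6 783)
(mv 912 (cons (fin 845 0 845)
(fin 1103 5 847)))))))))))))))))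
(mv 913 (cons (fin 914 2 910)
(mv 785 (cons (fin 849 5 784)
(mv 1042 (cons (fin 1041 0 974)
(mv 978 (cons (fin 1043 0 975)
(mv 979 (cons (fin 1039 1 975)
(mv 912 (cons (fin 911 3 911)
(fin 980 3 912)))))))))))))))
(cons (cons (mv 1037 (cons (fin 1038 1 973)
(mv 1042 (cons (fin 1041 0 974)
(mv 978 (cons (fin 1043 0 975)
(mv 915 (cons (fin 914 2 911)
(mv 979 (cons (fin 1039 1 975)
(fin 916 2 912)))))))))))
(mv 1037 (cons (fin 1038 1 973)
(mv 1042 (cons (fin 1041 0 974)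
(mv 978 (cons (fin 1043 0 975)
(mv 979 (cons (fin 1039 1 975)
(mv 912 (cons (fin 911 3 911)
(mv 916 (cons (fin 915 2 912)
(mv 980 (cons (fin 913 3 912)
(fin 917 2 913))))))))))))))))
(cons (mv 914 (cons (fin 913 2 910)
(mv 978 (cons (fin 915 2 911)
(mv 1042 (cons (fin 1041 0 974)
(fin 1043 0 975)))))))
(mv 913 (cons (fin 914 2 910)
(mv 849 (cons (fin 785 5 784)
(mv 1041 (cons (fin 1042 0 974)
(mv 848 (cons (fin 784 7 784)
(mv 850 (cons (fin 786 6 785)
(mv 1038 (cons (fin 1037 1 973)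
(mv 851 (cons (mv 912 (cons (fin 911 1 847)
(fin 852 1 848)))
(cons (mv 788 (cons (fin 787 2 784)
(mv 852 (cons (fin 789 2 785)
(mv 916 (cons (fin 915 0 848)
(fin 917 0 849)))))))
(mv 787 (cons (fin 788 2 784)
(mv 911 (cons (fin 912 1 847)
(mv 1102 (cons (fin 1039 5 846)
(fin 1166 6 910)))))))))))))))))))))))))))
(cons (mv 973 (cons (mv 908 (cons (fin 909 3 908)
(mv 972 (cons (fin 907 3 907)
(fin 1039 0 972)))))
(cons (mv 908 (cons (fin 909 3 908)
(mv 913 (cons (fin 912 2 909)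
(mv 977 (cons (fin 914 2 910)
(mv 1037 (cons (fin 1036 1 972)
(fin 1038 1 973)))))))))
(mv 912 (cons (fin 913 2 909)
(mv 972 (cons (fin 911 2 908)
(fin 1039 0 972))))))))
(mv 973 (cons (fin 1041 0 973)
(mv 908 (cons (fin 909 3 908)
(mv 907 (cons (fin 972 3 907)
(mv 913 (cons (fin 912 2 909)
(mv 977 (cons (fin 914 2 910)
(mv 1037 (cons (fin 1036 1 972)
(fin 1038 1 973))))))))))))))))
(mv 974 (cons (cons (mv 973 (cons (fin 1041 0 973)
(mv 908 (cons (fin 909 3 908)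
(mv 972 (cons (fin 907 3 907)
(fin 1039 0 972)))))))
(mv 977 (cons (cons (cons (mv 909 (cons (fin 910 3 909)
(mv 913 (cons (fin 914 2 910)
(mv 785 (cons (fin 849 5 784)
(mv 1037 (cons (fin 1038 1 973)
(mv 1042 (cons (fin 1041 0 974)
(mv 978 (cons (fin 1043 0 975)
(mv 979 (cons (fin 1039 1 975)
(mv 912 (cons (fin 911 3 911)
(fin 980 3 912)))))))))))))))))
(mv 909 (cons (fin 910 3 909)
(mv 913 (cons (fin 914 2 910)
(mv 785 (cons (fin 849 5 784)
(mv 1038 (cons (fin 1037 1 973)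
(mv 1039 (cons (fin 978 1 974)
(mv 911 (cons (fin 1102 5 846)
(mv 846 (cons (fin 782 7 782)
(mv 848 (cons (fin 784 6 783)
(mv 845 (cons (fin 908 1 844)
(fin 912 0 845))))))))))))))))))))
(cons (mv 909 (cons (fin 910 3 909)
(mv 913 (cons (fin 914 2 910)
(mv 785 (cons (fin 849 5 784)
(mv 1042 (cons (fin 1041 0 974)
(mv 978 (cons (fin 1043 0 975)
(mv 979 (cons (fin 1039 1 975)
(mv 912 (cons (fin 911 3 911)
(fin 980 3 912)))))))))))))))
(mv 913 (cons (fin 914 2 910)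
(mv 785 (cons (fin 849 5 784)
(mv 1037 (cons (fin 1038 1 973)
(mv 1042 (cons (fin 1041 0 974)
(mv 978 (cons (fin 1043 0 975)
(mv 979 (cons (fin 1039 1 975)
(mv 912 (cons (fin 911 3 911)
(fin 980 3 912)))))))))))))))))
(cons (cons (mv 909 (cons (fin 910 3 909)
(mv 1037 (cons (fin 1038 1 973)
(mv 1042 (cons (fin 1041 0 974)
(mv 978 (cons (fin 1043 0 975)
(mv 915 (cons (fin 914 2 911)
(mv 979 (cons (fin 1039 1 975)
(fin 916 2 912)))))))))))))
(mv 909 (cons (fin 910 3 909)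
(mv 1037 (cons (fin 1038 1 973)
(mv 1042 (cons (fin 1041 0 974)
(mv 978 (cons (fin 1043 0 975)
(mv 979 (cons (fin 1039 1 975)
(mv 912 (cons (fin 911 3 911)
(mv 916 (cons (fin 915 2 912)
(mv 980 (cons (fin 913 3 912)
(fin 917 2 913))))))))))))))))))
(cons (mv 910 (cons (fin 909 3 909)
(mv 913 (cons (fin 914 2 910)
(mv 785 (cons (fin 849 5 784)
(mv 1038 (cons (fin 1037 1 973)
(mv 1041 (cons (fin 1042 0 974)
(mv 1102 (cons (fin 911 6 846)
(mv 1101 (cons (fin 1039 1 1037)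
(fin 1165 5 909)))))))))))))))
(mv 909 (cons (fin 910 3 909)
(mv 914 (cons (fin 913 2 910)
(mv 978 (cons (fin 915 2 911)
(mv 1042 (cons (fin 1041 0 974)
(fin 1043 0 975))))))))))))))
(cons (mv 973 (cons (mv 908 (cons (fin 909 3 908)
(mv 972 (cons (fin 907 3 907)
(fin 1039 0 972)))))
(cons (mv 908 (cons (fin 909 3 908)
(mv 913 (cons (fin 912 2 909)
(mv 977 (cons (fin 914 2 910)
(mv 1037 (cons (fin 1036 1 972)
(fin 1038 1 973)))))))))
(mv 912 (cons (fin 913 2 909)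
(mv 972 (cons (fin 911 2 908)
(fin 1039 0 972))))))))
(cons (mv 973 (cons (fin 1041 0 973)
(mv 908 (cons (fin 909 3 908)
(mv 907 (cons (fin 972 3 907)
(mv 913 (cons (fin 912 2 909)
(mv 977 (cons (fin 914 2 910)
(mv 1037 (cons (fin 1036 1 972)
(fin 1038 1 973)))))))))))))
(mv 973 (cons (fin 1041 0 973)
(mv 912 (cons (fin 913 2 909)
(mv 972 (cons (fin 911 2 908)
(fin 1039 0 972))))))))))))
(cons (mv 1041 (cons (cons (mv 974 (cons (fin 973 0 973)
(mv 1042 (cons (fin 1039 3 974)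
(fin 1043 3 975)))))
(mv 974 (cons (fin 973 0 973)
(mv 977 (cons (cons (mv 913 (cons (fin 914 2 910)
(mv 785 (cons (fin 849 5 784)
(mv 1038 (cons (fin 1037 1 973)
(mv 978 (cons (fin 1039 1 974)
(mv 911 (cons (fin 910 3 910)
(mv 979 (cons (fin 912 3 911)
(fin 980 1 976)))))))))))))
(cons (mv 913 (cons (fin 914 2 910)
(mv 849 (cons (fin 785 5 784)
(mv 848 (cons (fin 784 7 784)
(mv 850 (cons (fin 786 6 785)
(mv 911 (cons (fin 910 1 846)
(mv 851 (cons (fin 912 1 847)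
(mv 788 (cons (fin 787 2 784)
(mv 852 (cons (fin 789 2 785)
(mv 916 (cons (fin 915 0 848)
(fin 917 0 849)))))))))))))))))))
(mv 1038 (cons (fin 1037 1 973)
(mv 978 (cons (fin 1039 1 974)
(mv 910 (cons (fin 911 3 910)
(mv 915 (cons (fin 914 2 911)
(mv 979 (cons (fin 980 1 976)
(fin 916 2 912)))))))))))))
(cons (mv 1038 (cons (fin 1037 1 973)
(mv 978 (cons (fin 1039 1 974)
(mv 911 (cons (fin 910 3 910)
(mv 979 (cons (fin 912 3 911)
(fin 980 1 976)))))))))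
(cons (mv 913 (cons (fin 914 2 910)
(mv 785 (cons (fin 849 5 784)
(mv 1038 (cons (fin 1037 1 973)
(mv 1039 (cons (fin 978 1 974)
(mv 1102 (cons (fin 1101 1 1037)
(mv 1166 (cons (fin 1230 6 974)
(mv 1165 (cons (fin 1229 5 973)
(mv 1167 (cons (fin 1231 4 974)
(mv 1103 (cons (fin 910 7 910)
(fin 912 6 911)))))))))))))))))))
(mv 913 (cons (fin 914 2 910)
(mv 785 (cons (fin 849 5 784)
(mv 1038 (cons (fin 1037 1 973)
(mv 1039 (cons (fin 978 1 974)
(mv 1102 (cons (fin 1101 1 1037)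
(fin 911 5 846))))))))))))))))))
(cons (mv 1042 (cons (fin 1043 3 975)
(mv 1039 (cons (cons (mv 978 (cons (fin 979 2 975)
(mv 977 (cons (fin 1038 1 974)
(mv 910 (cons (fin 911 3 910)
(mv 914 (cons (fin 915 2 911)
(mv 786 (cons (fin 850 5 785)
(mv 1102 (cons (fin 1103 1 1038)
(mv 1106 (cons (fin 1107 0 1039)
(mv 913 (cons (fin 849 7 849)
(fin 1170 7 913)))))))))))))))))
(mv 978 (cons (fin 979 2 975)
(mv 977 (cons (fin 1038 1 974)
(mv 910 (cons (fin 911 3 910)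
(mv 914 (cons (fin 915 2 911)
(mv 786 (cons (fin 850 5 785)
(mv 1106 (cons (fin 1107 0 1039)
(mv 913 (cons (fin 849 7 849)
(fin 1170 7 913))))))))))))))))
(cons (mv 1102 (cons (fin 1103 1 1038)
(mv 1038 (cons (fin 1101 1 1037)
(fin 911 5 846)))))
(mv 978 (cons (fin 979 2 975)
(mv 1103 (cons (fin 1102 1 1038)
(mv 912 (cons (fin 848 5 847)
(fin 1167 6 911))))))))))))
(mv 974 (cons (fin 973 0 973)
(mv 1042 (cons (fin 1043 3 975)
(fin 977 0 974))))))))
(cons (mv 1041 (cons (cons (mv 974 (cons (fin 973 0 973)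
(mv 1042 (cons (fin 1039 3 974)
(fin 1043 3 975)))))
(mv 1042 (cons (fin 1043 3 975)
(mv 1039 (cons (cons (mv 978 (cons (fin 979 2 975)
(mv 977 (cons (fin 1038 1 974)
(mv 910 (cons (fin 911 3 910)
(mv 914 (cons (fin 915 2 911)
(mv 786 (cons (fin 850 5 785)
(mv 1102 (cons (fin 1103 1 1038)
(mv 1106 (cons (fin 1107 0 1039)
(mv 1170 (cons (fin 913 7 913)
(fin 1234 7 977)))))))))))))))))
(mv 978 (cons (fin 979 2 975)
(mv 977 (cons (fin 1038 1 974)
(mv 910 (cons (fin 911 3 910)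
(mv 914 (cons (fin 915 2 911)
(mv 786 (cons (fin 850 5 785)
(mv 1106 (cons (fin 1107 0 1039)
(mv 1170 (cons (fin 913 7 913)
(fin 1234 7 977))))))))))))))))
(cons (mv 1102 (cons (fin 1103 1 1038)
(mv 1038 (cons (fin 1101 1 1037)
(fin 911 5 846)))))
(mv 978 (cons (fin 979 2 975)
(mv 1103 (cons (fin 1102 1 1038)
(mv 912 (cons (fin 848 5 847)
(fin 1167 6 911)))))))))))))
(cons (mv 974 (cons (fin 973 0 973)
(mv 977 (cons (cons (mv 909 (cons (fin 910 3 909)
(mv 913 (cons (fin 914 2 910)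
(mv 1038 (cons (fin 1037 1 973)
(mv 1039 (cons (fin 978 1 974)
(mv 1102 (cons (fin 1101 1 1037)
(fin 911 5 846)))))))))))
(cons (mv 909 (cons (fin 910 3 909)
(mv 914 (cons (fin 913 2 910)
(mv 978 (cons (fin 915 2 911)
(mv 979 (cons (fin 1039 1 975)
(fin 980 1 976)))))))))
(mv 913 (cons (fin 914 2 910)
(mv 1038 (cons (fin 1037 1 973)
(mv 1039 (cons (fin 978 1 974)
(mv 1102 (cons (fin 1101 1 1037)
(fin 911 5 846)))))))))))
(cons (mv 909 (cons (fin 910 3 909)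
(mv 1038 (cons (fin 1037 1 973)
(mv 1039 (cons (fin 978 1 974)
(mv 1102 (cons (fin 1101 1 1037)
(fin 911 5 846)))))))))
(cons (mv 910 (cons (fin 909 3 909)
(mv 913 (cons (fin 914 2 910)
(mv 1038 (cons (fin 1037 1 973)
(mv 1102 (cons (fin 911 6 846)
(mv 1101 (cons (fin 1039 1 1037)
(fin 1165 5 909)))))))))))
(mv 910 (cons (fin 909 3 909)
(mv 911 (cons (fin 978 3 910)
(mv 1038 (cons (fin 1037 1 973)
(fin 1102 6 846)))))))))))))
(mv 974 (cons (fin 973 0 973)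
(mv 1042 (cons (fin 1043 3 975)
(fin 977 0 974))))))))
(mv 1041 (cons (cons (mv 974 (cons (fin 973 0 973)
(mv 1042 (cons (fin 1039 3 974)
(fin 1043 3 975)))))
(mv 1042 (cons (fin 1043 3 975)
(mv 1039 (cons (cons (cons (mv 978 (cons (fin 979 2 975)
(mv 977 (cons (fin 1038 1 974)
(mv 910 (cons (fin 911 3 910)
(mv 914 (cons (fin 915 2 911)
(mv 786 (cons (fin 850 5 785)
(mv 1106 (cons (fin 1107 0 1039)
(mv 913 (cons (fin 849 7 849)
(fin 1170 7 913)))))))))))))))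
(mv 1106 (cons (fin 1107 0 1039)
(mv 848 (cons (mv 784 (cons (fin 912 5 783)
(fin 911 6 783)))
(cons (mv 911 (cons (fin 784 6 783)
(mv 846 (cons (fin 782 7 782)
(mv 910 (cons (fin 1103 7 846)
(mv 849 (cons (fin 909 1 845)
(fin 850 1 846)))))))))
(mv 912 (cons (fin 1103 5 847)
(mv 849 (cons (fin 785 6 784)
(mv 913 (cons (fin 977 4 849)
(mv 846 (cons (fin 845 0 845)
(fin 914 0 846)))))))))))))))
(cons (mv 978 (cons (fin 979 2 975)
(mv 977 (cons (fin 1038 1 974)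
(mv 911 (cons (fin 910 3 910)
(mv 782 (cons (fin 846 7 782)
(mv 848 (cons (fin 784 6 783)
(mv 912 (cons (fin 1103 5 847)
(mv 785 (cons (fin 849 6 784)
(mv 914 (cons (fin 915 2 911)
(mv 850 (cons (fin 786 5 785)
(mv 851 (cons (fin 913 2 847)
(fin 787 6 786)))))))))))))))))))))
(mv 978 (cons (fin 979 2 975)
(mv 1106 (cons (fin 1107 0 1039)
(mv 848 (cons (cons (mv 784 (cons (fin 912 5 783)
(fin 911 6 783)))
(mv 911 (cons (fin 784 6 783)
(mv 846 (cons (fin 782 7 782)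
(mv 910 (cons (fin 1103 7 846)
(mv 849 (cons (fin 909 1 845)
(fin 850 1 846))))))))))
(cons (mv 912 (cons (fin 1103 5 847)
(mv 849 (cons (fin 785 6 784)
(mv 913 (cons (fin 914 7 849)
(mv 846 (cons (fin 845 0 845)
(mv 782 (cons (fin 781 3 781)
(fin 911 7 782)))))))))))
(mv 912 (cons (fin 784 5 783)
(fin 1103 5 847))))))))))))
(cons (cons (mv 978 (cons (fin 979 2 975)
(mv 977 (cons (fin 1038 1 974)
(mv 914 (cons (fin 915 2 911)
(mv 786 (cons (fin 850 5 785)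
(mv 1106 (cons (fin 1107 0 1039)
(mv 913 (cons (fin 849 7 849)
(fin 1170 7 913)))))))))))))
(mv 978 (cons (fin 979 2 975)
(mv 977 (cons (fin 1038 1 974)
(mv 910 (cons (fin 911 3 910)
(mv 914 (cons (fin 915 2 911)
(mv 786 (cons (fin 850 5 785)
(mv 1106 (cons (fin 1107 0 1039)
(mv 1170 (cons (fin 913 7 913)
(fin 1234 7 977))))))))))))))))
(cons (mv 978 (cons (fin 979 2 975)
(mv 977 (cons (fin 1038 1 974)
(mv 911 (cons (fin 910 3 910)
(mv 782 (cons (fin 846 7 782)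
(mv 848 (cons (fin 784 6 783)
(mv 912 (cons (fin 1103 5 847)
(mv 849 (cons (fin 785 6 784)
(mv 850 (cons (fin 851 1 847)
(mv 786 (cons (fin 787 2 783)
(fin 914 5 785)))))))))))))))))))
(mv 978 (cons (fin 979 2 975)
(mv 977 (cons (fin 1038 1 974)
(mv 910 (cons (fin 911 3 910)
(mv 1106 (cons (fin 1107 0 1039)
(mv 913 (cons (fin 1170 7 913)
(fin 849 4 849))))))))))))))))))
(cons (mv 974 (cons (fin 973 0 973)
(mv 977 (cons (cons (mv 909 (cons (fin 910 3 909)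
(mv 913 (cons (fin 914 2 910)
(mv 849 (cons (fin 785 5 784)
(mv 786 (cons (fin 850 6 785)
(mv 848 (cons (fin 784 7 784)
(mv 1038 (cons (fin 1037 1 973)
(mv 1039 (cons (fin 978 1 974)
(mv 912 (cons (fin 1103 5 847)
(mv 846 (cons (fin 845 0 845)
(mv 782 (cons (fin 781 3 781)
(fin 911 7 782)))))))))))))))))))))
(cons (mv 909 (cons (fin 910 3 909)
(mv 914 (cons (fin 913 2 910)
(mv 978 (cons (fin 915 2 911)
(mv 979 (cons (fin 1039 1 975)
(fin 980 1 976)))))))))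
(mv 913 (cons (fin 914 2 910)
(mv 849 (cons (fin 785 5 784)
(mv 786 (cons (fin 850 6 785)
(mv 848 (cons (fin 784 7 784)
(mv 1038 (cons (fin 1037 1 973)
(mv 1039 (cons (fin 978 1 974)
(mv 912 (cons (fin 1103 5 847)
(mv 846 (cons (fin 845 0 845)
(mv 782 (cons (fin 781 3 781)
(fin 911 7 782)))))))))))))))))))))
(cons (mv 909 (cons (fin 910 3 909)
(mv 1038 (cons (fin 1037 1 973)
(mv 978 (cons (fin 1039 1 974)
(mv 915 (cons (fin 914 2 911)
(mv 979 (cons (fin 980 1 976)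
(fin 916 2 912)))))))))))
(cons (mv 910 (cons (fin 909 3 909)
(mv 978 (cons (fin 911 3 910)
(mv 979 (cons (fin 1039 1 975)
(fin 980 1 976)))))))
(mv 910 (cons (fin 909 3 909)
(mv 913 (cons (fin 914 2 910)
(mv 849 (cons (fin 785 5 784)
(mv 848 (cons (fin 784 7 784)
(mv 850 (cons (fin 911 1 846)
(fin 786 6 785)))))))))))))))))
(mv 974 (cons (fin 973 0 973)
(mv 1042 (cons (fin 1043 3 975)
(fin 977 0 974)))))))))))))))
(cons (mv 975 (cons (cons (cons (mv 783 (cons (fin 911 4 783)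
(mv 974 (cons (cons (mv 973 (cons (fin 1041 0 973)
(mv 908 (cons (fin 909 3 908)
(mv 972 (cons (fin 907 3 907)
(fin 1039 0 972)))))))
(mv 977 (cons (cons (mv 909 (cons (fin 910 3 909)
(mv 913 (cons (fin 914 2 910)
(mv 785 (cons (fin 849 5 784)
(mv 1038 (cons (fin 1037 1 973)
(mv 978 (cons (fin 1039 1 974)
(mv 1042 (cons (fin 1041 0 974)
(fin 1043 0 975)))))))))))))
(cons (mv 909 (cons (fin 910 3 909)
(mv 913 (cons (fin 914 2 910)
(mv 849 (cons (fin 785 5 784)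
(mv 1041 (cons (fin 1042 0 974)
(mv 848 (cons (fin 784 7 784)
(mv 850 (cons (fin 782 3 782)
(fin 786 6 785)))))))))))))
(mv 909 (cons (fin 910 3 909)
(mv 914 (cons (fin 913 2 910)
(mv 978 (cons (fin 915 2 911)
(mv 1038 (cons (fin 1037 1 973)
(fin 1039 1 974)))))))))))
(cons (mv 913 (cons (fin 914 2 910)
(mv 785 (cons (fin 849 5 784)
(mv 1038 (cons (fin 1037 1 973)
(mv 978 (cons (fin 1039 1 974)
(mv 1042 (cons (fin 1041 0 974)
(fin 1043 0 975)))))))))))
(cons (mv 909 (cons (fin 910 3 909)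
(mv 1037 (cons (fin 1038 1 973)
(mv 1042 (cons (fin 1041 0 974)
(mv 978 (cons (fin 1043 0 975)
(mv 915 (cons (fin 914 2 911)
(mv 979 (cons (fin 1039 1 975)
(fin 916 2 912)))))))))))))
(mv 909 (cons (fin 910 3 909)
(mv 1038 (cons (fin 1037 1 973)
(mv 978 (cons (fin 1039 1 974)
(mv 1042 (cons (fin 1041 0 974)
(fin 1043 0 975))))))))))))))
(cons (mv 977 (cons (cons (mv 909 (cons (fin 910 3 909)
(mv 908 (cons (fin 973 3 908)
(mv 914 (cons (fin 913 2 910)
(mv 978 (cons (fin 915 2 911)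
(mv 1038 (cons (fin 1037 1 973)
(fin 1039 1 974)))))))))))
(cons (mv 909 (cons (fin 910 3 909)
(mv 908 (cons (fin 973 3 908)
(mv 914 (cons (fin 913 2 910)
(mv 978 (cons (fin 915 2 911)
(mv 979 (cons (fin 1039 1 975)
(mv 1043 (cons (fin 1042 0 975)
(fin 1044 0 976)))))))))))))
(mv 913 (cons (fin 914 2 910)
(mv 785 (cons (fin 849 5 784)
(mv 1037 (cons (fin 1038 1 973)
(mv 973 (cons (fin 1036 1 972)
(mv 908 (cons (fin 909 3 908)
(mv 972 (cons (fin 907 3 907)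
(fin 1039 0 972)))))))))))))))
(cons (mv 913 (cons (fin 914 2 910)
(mv 785 (cons (fin 849 5 784)
(mv 1038 (cons (fin 1037 1 973)
(mv 846 (cons (fin 910 6 782)
(mv 784 (cons (fin 786 1 782)
(mv 845 (cons (fin 782 1 781)
(fin 844 2 780)))))))))))))
(cons (mv 909 (cons (fin 910 3 909)
(mv 908 (cons (fin 973 3 908)
(mv 1038 (cons (fin 1037 1 973)
(mv 978 (cons (fin 1039 1 974)
(mv 915 (cons (fin 914 2 911)
(mv 979 (cons (fin 916 2 912)
(mv 1043 (cons (fin 1042 0 975)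
(fin 1044 0 976)))))))))))))))
(mv 909 (cons (fin 910 3 909)
(mv 973 (cons (fin 908 3 908)
(mv 1037 (cons (fin 1036 1 972)
(fin 1038 1 973)))))))))))
(cons (mv 973 (cons (fin 1041 0 973)
(mv 908 (cons (fin 909 3 908)
(mv 972 (cons (fin 907 3 907)
(mv 1036 (cons (fin 1035 1 971)
(fin 1037 1 972)))))))))
(mv 973 (cons (fin 1041 0 973)
(mv 972 (cons (fin 1039 0 972)
(mv 1036 (cons (fin 1035 1 971)
(fin 1037 1 972)))))))))))))
(mv 974 (cons (cons (mv 973 (cons (fin 1041 0 973)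
(mv 908 (cons (fin 909 3 908)
(mv 972 (cons (fin 907 3 907)
(fin 1039 0 972)))))))
(mv 977 (cons (cons (mv 909 (cons (fin 910 3 909)
(mv 913 (cons (fin 914 2 910)
(mv 785 (cons (fin 849 5 784)
(mv 1038 (cons (fin 1037 1 973)
(mv 978 (cons (fin 1039 1 974)
(mv 1042 (cons (fin 1041 0 974)
(fin 1043 0 975)))))))))))))
(cons (mv 909 (cons (fin 910 3 909)
(mv 914 (cons (fin 913 2 910)
(mv 978 (cons (fin 915 2 911)
(mv 1038 (cons (fin 1037 1 973)
(fin 1039 1 974)))))))))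
(mv 909 (cons (fin 910 3 909)
(mv 914 (cons (fin 913 2 910)
(mv 978 (cons (fin 915 2 911)
(mv 1042 (cons (fin 1041 0 974)
(fin 1043 0 975)))))))))))
(cons (cons (mv 909 (cons (fin 910 3 909)
(mv 1037 (cons (fin 1038 1 973)
(mv 1042 (cons (fin 1041 0 974)
(mv 978 (cons (fin 1043 0 975)
(mv 915 (cons (fin 914 2 911)
(mv 979 (cons (fin 1039 1 975)
(fin 916 2 912)))))))))))))
(mv 909 (cons (fin 910 3 909)
(mv 1038 (cons (fin 1037 1 973)
(mv 978 (cons (fin 1039 1 974)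
(mv 1042 (cons (fin 1041 0 974)
(fin 1043 0 975))))))))))
(cons (mv 913 (cons (fin 914 2 910)
(mv 785 (cons (fin 849 5 784)
(mv 1038 (cons (fin 1037 1 973)
(mv 978 (cons (fin 1039 1 974)
(mv 1042 (cons (fin 1041 0 974)
(fin 1043 0 975)))))))))))
(mv 910 (cons (fin 909 3 909)
(mv 913 (cons (fin 914 2 910)
(mv 785 (cons (fin 849 5 784)
(mv 1038 (cons (fin 1037 1 973)
(mv 846 (cons (fin 783 6 782)
(mv 1039 (cons (fin 782 4 782)
(fin 1103 4 846))))))))))))))))))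
(cons (mv 977 (cons (cons (mv 909 (cons (fin 910 3 909)
(mv 908 (cons (fin 973 3 908)
(mv 914 (cons (fin 913 2 910)
(mv 978 (cons (fin 915 2 911)
(mv 1038 (cons (fin 1037 1 973)
(fin 1039 1 974)))))))))))
(mv 909 (cons (fin 910 3 909)
(mv 908 (cons (fin 973 3 908)
(mv 914 (cons (fin 913 2 910)
(mv 978 (cons (fin 915 2 911)
(mv 979 (cons (fin 1039 1 975)
(mv 1043 (cons (fin 1042 0 975)
(fin 1044 0 976))))))))))))))
(cons (mv 914 (cons (fin 913 2 910)
(mv 978 (cons (fin 915 2 911)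
(mv 1038 (cons (fin 1037 1 973)
(fin 1039 1 974)))))))
(cons (mv 909 (cons (fin 910 3 909)
(mv 908 (cons (fin 973 3 908)
(mv 1038 (cons (fin 1037 1 973)
(mv 978 (cons (fin 1039 1 974)
(mv 915 (cons (fin 914 2 911)
(mv 979 (cons (fin 916 2 912)
(mv 1043 (cons (fin 1042 0 975)
(fin 1044 0 976)))))))))))))))
(mv 909 (cons (fin 910 3 909)
(mv 973 (cons (fin 908 3 908)
(mv 1037 (cons (fin 1036 1 972)
(fin 1038 1 973)))))))))))
(cons (mv 973 (cons (fin 1041 0 973)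
(mv 908 (cons (fin 909 3 908)
(mv 972 (cons (fin 907 3 907)
(mv 1036 (cons (fin 1035 1 971)
(fin 1037 1 972)))))))))
(mv 973 (cons (fin 1041 0 973)
(mv 972 (cons (fin 1039 0 972)
(mv 1036 (cons (fin 1035 1 971)
(fin 1037 1 972))))))))))))
(cons (mv 1041 (cons (cons (mv 974 (cons (fin 973 0 973)
(mv 1042 (cons (fin 1039 3 974)
(fin 1043 3 975)))))
(mv 1042 (cons (fin 1043 3 975)
(mv 1039 (cons (cons (mv 978 (cons (fin 979 2 975)
(mv 977 (cons (fin 1038 1 974)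
(mv 910 (cons (fin 911 3 910)
(mv 914 (cons (fin 915 2 911)
(mv 786 (cons (fin 850 5 785)
(mv 1102 (cons (fin 1103 1 1038)
(mv 1106 (cons (fin 1107 0 1039)
(mv 913 (cons (fin 849 7 849)
(fin 1170 7 913)))))))))))))))))
(mv 1102 (cons (fin 1103 1 1038)
(mv 1038 (cons (fin 1101 1 1037)
(fin 911 5 846))))))
(cons (mv 978 (cons (fin 979 2 975)
(mv 977 (cons (fin 1038 1 974)
(mv 910 (cons (fin 911 3 910)
(mv 914 (cons (fin 915 2 911)
(mv 786 (cons (fin 850 5 785)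
(mv 1106 (cons (fin 1107 0 1039)
(mv 913 (cons (fin 849 7 849)
(fin 1170 7 913)))))))))))))))
(mv 978 (cons (fin 979 2 975)
(mv 1102 (cons (fin 1103 1 1038)
(mv 1106 (cons (fin 1107 0 1039)
(mv 914 (cons (mv 915 (cons (fin 977 2 911)
(fin 851 6 850)))
(cons (mv 849 (cons (fin 913 7 849)
(mv 850 (cons (fin 785 7 785)
(mv 786 (cons (fin 977 5 785)
(mv 787 (cons (fin 848 2 783)
(fin 723 6 722)))))))))
(mv 849 (cons (fin 913 7 849)
(mv 850 (cons (fin 785 7 785)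
(mv 851 (cons (fin 787 6 786)
(fin 915 6 850))))))))))))))))))))))
(cons (mv 974 (cons (fin 973 0 973)
(mv 977 (cons (cons (mv 909 (cons (fin 910 3 909)
(mv 913 (cons (fin 914 2 910)
(mv 785 (cons (fin 849 5 784)
(mv 1038 (cons (fin 1037 1 973)
(mv 1039 (cons (fin 978 1 974)
(mv 1102 (cons (fin 1101 1 1037)
(fin 911 5 846)))))))))))))
(cons (mv 909 (cons (fin 910 3 909)
(mv 914 (cons (fin 913 2 910)
(mv 978 (cons (fin 915 2 911)
(mv 979 (cons (fin 1039 1 975)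
(fin 980 1 976)))))))))
(mv 913 (cons (fin 914 2 910)
(mv 785 (cons (fin 849 5 784)
(mv 1038 (cons (fin 1037 1 973)
(mv 1039 (cons (fin 978 1 974)
(mv 1102 (cons (fin 1101 1 1037)
(fin 911 5 846)))))))))))))
(cons (cons (mv 909 (cons (fin 910 3 909)
(mv 1038 (cons (fin 1037 1 973)
(mv 978 (cons (fin 1039 1 974)
(mv 915 (cons (fin 914 2 911)
(mv 979 (cons (fin 980 1 976)
(fin 916 2 912)))))))))))
(mv 909 (cons (fin 910 3 909)
(mv 1038 (cons (fin 1037 1 973)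
(mv 1039 (cons (fin 978 1 974)
(mv 1102 (cons (fin 1101 1 1037)
(fin 911 5 846))))))))))
(cons (mv 910 (cons (fin 909 3 909)
(mv 913 (cons (fin 914 2 910)
(mv 785 (cons (fin 849 5 784)
(mv 1038 (cons (fin 1037 1 973)
(mv 1102 (cons (fin 911 6 846)
(mv 1101 (cons (fin 1039 1 1037)
(fin 1165 5 909)))))))))))))
(mv 910 (cons (fin 909 3 909)
(mv 911 (cons (fin 978 3 910)
(mv 1038 (cons (fin 1037 1 973)
(fin 1102 6 846)))))))))))))
(mv 974 (cons (fin 973 0 973)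
(mv 1042 (cons (fin 1043 3 975)
(fin 977 0 974))))))))
(cons (mv 911 (cons (fin 783 4 783)
(mv 1039 (cons (cons (mv 782 (cons (fin 846 7 782)
(mv 784 (cons (fin 848 6 783)
(mv 1038 (cons (fin 1102 5 846)
(mv 977 (cons (fin 978 1 974)
(fin 1037 2 973)))))))))
(mv 784 (cons (fin 848 6 783)
(mv 846 (cons (fin 782 7 782)
(mv 910 (cons (fin 1103 7 846)
(mv 909 (cons (fin 908 0 908)
(mv 977 (cons (fin 974 3 909)
(fin 978 3 910))))))))))))
(cons (mv 784 (cons (fin 848 6 783)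
(mv 1038 (cons (fin 1102 5 846)
(mv 977 (cons (fin 978 1 974)
(fin 1037 2 973)))))))
(cons (mv 782 (cons (fin 846 7 782)
(mv 1038 (cons (fin 1102 5 846)
(mv 977 (cons (fin 978 1 974)
(fin 1037 2 973)))))))
(mv 784 (cons (fin 848 6 783)
(mv 846 (cons (fin 782 7 782)
(mv 910 (cons (fin 1103 7 846)
(mv 908 (cons (fin 909 0 908)
(mv 1038 (cons (fin 1102 5 846)
(mv 1037 (cons (fin 1036 2 972)
(mv 1101 (cons (fin 1100 1 1036)
(fin 974 5 845)))))))))))))))))))))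
(mv 911 (cons (fin 783 4 783)
(mv 1039 (cons (cons (mv 782 (cons (fin 846 7 782)
(mv 784 (cons (fin 848 6 783)
(mv 1038 (cons (fin 1102 5 846)
(mv 977 (cons (fin 978 1 974)
(fin 1037 2 973)))))))))
(mv 784 (cons (fin 848 6 783)
(mv 846 (cons (fin 782 7 782)
(mv 1103 (cons (fin 910 7 846)
(mv 1166 (cons (fin 1102 5 910)
(mv 1167 (cons (fin 1230 5 974)
(fin 1231 6 975))))))))))))
(cons (mv 846 (cons (fin 782 7 782)
(mv 848 (cons (fin 784 6 783)
(mv 910 (cons (fin 1103 7 846)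
(mv 849 (cons (fin 909 1 845)
(fin 850 1 846)))))))))
(cons (mv 784 (cons (fin 848 6 783)
(mv 1038 (cons (fin 1102 5 846)
(mv 977 (cons (fin 978 1 974)
(fin 1037 2 973)))))))
(mv 782 (cons (fin 846 7 782)
(mv 1038 (cons (fin 1102 5 846)
(mv 977 (cons (fin 978 1 974)
(fin 1037 2 973))))))))))))))))
(cons (cons (mv 911 (cons (fin 783 4 783)
(mv 1039 (cons (cons (mv 782 (cons (fin 846 7 782)
(mv 784 (cons (fin 848 6 783)
(mv 1038 (cons (fin 1102 5 846)
(mv 1037 (cons (fin 1036 2 972)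
(mv 973 (cons (fin 972 3 972)
(mv 974 (cons (fin 1041 3 973)
(mv 908 (cons (fin 909 3 908)
(mv 1101 (cons (fin 1100 1 1036)
(mv 1165 (cons (fin 910 6 909)
(fin 1229 6 973)))))))))))))))))))
(cons (mv 784 (cons (fin 848 6 783)
(mv 846 (cons (fin 782 7 782)
(mv 1103 (cons (fin 910 7 846)
(mv 1166 (cons (fin 1102 5 910)
(mv 1167 (cons (fin 1230 5 974)
(fin 1231 6 975)))))))))))
(mv 846 (cons (fin 782 7 782)
(mv 848 (cons (fin 784 6 783)
(mv 910 (cons (fin 1103 7 846)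
(mv 849 (cons (fin 909 1 845)
(fin 850 1 846)))))))))))
(cons (mv 784 (cons (fin 848 6 783)
(mv 1038 (cons (fin 1102 5 846)
(mv 1037 (cons (fin 1036 2 972)
(mv 973 (cons (fin 972 3 972)
(mv 974 (cons (fin 1041 3 973)
(mv 908 (cons (fin 909 3 908)
(mv 1101 (cons (fin 1100 1 1036)
(mv 1165 (cons (fin 910 6 909)
(fin 1229 6 973)))))))))))))))))
(cons (mv 782 (cons (fin 846 7 782)
(mv 1038 (cons (fin 1102 5 846)
(mv 1037 (cons (fin 1036 2 972)
(mv 973 (cons (fin 972 3 972)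
(mv 974 (cons (fin 1041 3 973)
(mv 908 (cons (fin 909 3 908)
(mv 1101 (cons (fin 1100 1 1036)
(mv 1165 (cons (fin 910 6 909)
(fin 1229 6 973)))))))))))))))))
(mv 782 (cons (fin 846 7 782)
(mv 784 (cons (fin 848 6 783)
(mv 1041 (cons (mv 974 (cons (fin 1042 3 974)
(fin 973 0 973)))
(cons (mv 973 (cons (fin 974 0 973)
(mv 1038 (cons (fin 1102 5 846)
(mv 1037 (cons (fin 972 3 972)
(fin 1036 2 972)))))))
(mv 1042 (cons (fin 1043 3 975)
(mv 1102 (cons (fin 1103 1 1038)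
(fin 1038 5 846))))))))))))))))))
(cons (mv 783 (cons (fin 911 4 783)
(mv 974 (cons (cons (mv 973 (cons (fin 1041 0 973)
(mv 908 (cons (fin 909 3 908)
(mv 972 (cons (fin 907 3 907)
(mv 1036 (cons (fin 1035 1 971)
(fin 1037 1 972)))))))))
(mv 977 (cons (cons (mv 909 (cons (fin 910 3 909)
(mv 913 (cons (fin 914 2 910)
(mv 849 (cons (fin 785 5 784)
(mv 1037 (cons (fin 1038 1 973)
(mv 1041 (cons (fin 1042 0 974)
(mv 848 (cons (fin 784 7 784)
(mv 850 (cons (fin 782 3 782)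
(fin 786 6 785)))))))))))))))
(mv 910 (cons (fin 909 3 909)
(mv 1038 (cons (fin 1037 1 973)
(fin 846 6 782))))))
(cons (mv 913 (cons (fin 914 2 910)
(mv 849 (cons (fin 785 5 784)
(mv 1037 (cons (fin 1038 1 973)
(mv 1041 (cons (fin 1042 0 974)
(mv 848 (cons (fin 784 7 784)
(mv 850 (cons (fin 782 3 782)
(fin 786 6 785)))))))))))))
(mv 909 (cons (fin 910 3 909)
(mv 913 (cons (fin 914 2 910)
(mv 849 (cons (fin 785 5 784)
(mv 1041 (cons (fin 1042 0 974)
(mv 848 (cons (fin 784 7 784)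
(mv 850 (cons (fin 782 3 782)
(fin 786 6 785)))))))))))))))))
(cons (mv 910 (cons (mv 846 (cons (fin 1038 6 782)
(mv 719 (cons (fin 655 5 654)
(fin 782 6 718)))))
(mv 909 (cons (fin 977 3 909)
(mv 908 (cons (fin 973 3 908)
(fin 907 0 907)))))))
(mv 1041 (cons (fin 973 0 973)
(mv 1042 (cons (fin 1043 3 975)
(fin 977 0 974))))))))))
(mv 783 (cons (fin 911 4 783)
(mv 974 (cons (cons (mv 973 (cons (fin 1041 0 973)
(mv 908 (cons (fin 909 3 908)
(mv 972 (cons (fin 907 3 907)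
(fin 1039 0 972)))))))
(mv 977 (cons (cons (mv 909 (cons (fin 910 3 909)
(mv 913 (cons (fin 914 2 910)
(mv 849 (cons (fin 785 5 784)
(mv 1041 (cons (fin 1042 0 974)
(mv 848 (cons (fin 784 7 784)
(mv 850 (cons (fin 782 3 782)
(fin 786 6 785)))))))))))))
(cons (mv 909 (cons (fin 910 3 909)
(mv 914 (cons (fin 913 2 910)
(mv 978 (cons (fin 915 2 911)
(mv 979 (cons (fin 1039 1 975)
(mv 980 (cons (fin 1041 1 976)
(mv 1044 (cons (fin 1043 0 976)
(fin 1045 0 977)))))))))))))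
(mv 909 (cons (fin 910 3 909)
(mv 914 (cons (fin 913 2 910)
(mv 978 (cons (fin 915 2 911)
(mv 979 (cons (fin 1039 1 975)
(mv 1043 (cons (fin 1042 0 975)
(fin 1044 0 976)))))))))))))
(cons (mv 909 (cons (fin 910 3 909)
(mv 1042 (cons (fin 1041 0 974)
(mv 978 (cons (fin 1043 0 975)
(mv 915 (cons (fin 914 2 911)
(mv 979 (cons (fin 1039 1 975)
(fin 916 2 912)))))))))))
(cons (mv 909 (cons (fin 910 3 909)
(mv 978 (cons (cons (mv 1042 (cons (fin 1041 0 974)
(fin 1043 0 975)))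
(mv 979 (cons (fin 1039 1 975)
(mv 915 (cons (fin 916 2 912)
(mv 980 (cons (fin 1041 1 976)
(mv 1044 (cons (fin 1043 0 976)
(fin 1045 0 977))))))))))
(cons (mv 979 (cons (fin 1039 1 975)
(mv 1043 (cons (fin 1042 0 975)
(fin 1044 0 976)))))
(mv 979 (cons (fin 1039 1 975)
(mv 1041 (cons (fin 980 1 976)
(fin 1042 0 974))))))))))
(mv 913 (cons (fin 914 2 910)
(mv 849 (cons (fin 785 5 784)
(mv 1041 (cons (fin 1042 0 974)
(mv 848 (cons (fin 784 7 784)
(mv 850 (cons (fin 782 3 782)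
(fin 786 6 785))))))))))))))))
(cons (mv 973 (cons (mv 908 (cons (fin 909 3 908)
(mv 972 (cons (fin 907 3 907)
(fin 1039 0 972)))))
(cons (mv 909 (cons (fin 908 3 908)
(mv 910 (cons (fin 977 3 909)
(mv 1037 (cons (fin 1036 1 972)
(mv 846 (cons (fin 782 5 781)
(fin 1101 6 845)))))))))
(mv 972 (cons (fin 1039 0 972)
(mv 1036 (cons (fin 1035 1 971)
(fin 1037 1 972))))))))
(cons (mv 973 (cons (fin 1041 0 973)
(mv 908 (cons (fin 909 3 908)
(mv 972 (cons (fin 907 3 907)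
(mv 1036 (cons (fin 1035 1 971)
(fin 1037 1 972)))))))))
(mv 973 (cons (fin 1041 0 973)
(mv 972 (cons (fin 1039 0 972)
(mv 1036 (cons (fin 1035 1 971)
(fin 1037 1 972)))))))))))))))
(cons (mv 783 (cons (fin 911 4 783)
(mv 974 (cons (cons (mv 973 (cons (fin 1041 0 973)
(mv 908 (cons (fin 909 3 908)
(mv 972 (cons (fin 907 3 907)
(fin 1039 0 972)))))))
(mv 910 (cons (mv 846 (cons (fin 1038 6 782)
(mv 719 (cons (fin 655 5 654)
(fin 782 6 718)))))
(mv 909 (cons (fin 977 3 909)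
(mv 908 (cons (fin 973 3 908)
(fin 907 0 907))))))))
(cons (mv 977 (cons (cons (mv 909 (cons (fin 910 3 909)
(mv 913 (cons (fin 914 2 910)
(mv 785 (cons (fin 849 5 784)
(mv 1042 (cons (fin 1041 0 974)
(mv 978 (cons (fin 1043 0 975)
(mv 1039 (cons (fin 1038 1 974)
(fin 979 1 975)))))))))))))
(mv 909 (cons (fin 910 3 909)
(mv 914 (cons (fin 913 2 910)
(mv 978 (cons (fin 915 2 911)
(mv 1039 (cons (fin 1038 1 974)
(fin 979 1 975))))))))))
(cons (mv 913 (cons (fin 914 2 910)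
(mv 785 (cons (fin 849 5 784)
(mv 1042 (cons (fin 1041 0 974)
(mv 978 (cons (fin 1043 0 975)
(mv 1039 (cons (fin 1038 1 974)
(fin 979 1 975)))))))))))
(cons (mv 909 (cons (fin 910 3 909)
(mv 1042 (cons (fin 1041 0 974)
(mv 978 (cons (fin 1043 0 975)
(mv 1039 (cons (fin 1038 1 974)
(fin 979 1 975)))))))))
(mv 909 (cons (fin 910 3 909)
(mv 913 (cons (fin 914 2 910)
(mv 849 (cons (fin 785 5 784)
(mv 1041 (cons (fin 1042 0 974)
(mv 848 (cons (fin 784 7 784)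
(mv 850 (cons (fin 782 3 782)
(fin 786 6 785)))))))))))))))))
(mv 973 (cons (fin 1041 0 973)
(mv 972 (cons (fin 1039 0 972)
(mv 907 (cons (fin 908 3 907)
(mv 971 (cons (fin 906 3 906)
(mv 1035 (cons (fin 1034 1 970)
(fin 1036 1 971))))))))))))))))
(cons (mv 783 (cons (fin 911 4 783)
(mv 974 (cons (cons (mv 973 (cons (fin 1041 0 973)
(mv 908 (cons (fin 909 3 908)
(mv 972 (cons (fin 907 3 907)
(fin 1039 0 972)))))))
(mv 977 (cons (cons (mv 913 (cons (fin 914 2 910)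
(mv 785 (cons (fin 849 5 784)
(mv 1038 (cons (fin 1037 1 973)
(mv 978 (cons (fin 1039 1 974)
(mv 1042 (cons (fin 1041 0 974)
(fin 1043 0 975)))))))))))
(mv 914 (cons (fin 913 2 910)
(mv 978 (cons (fin 915 2 911)
(mv 1038 (cons (fin 1037 1 973)
(fin 1039 1 974))))))))
(cons (mv 913 (cons (fin 914 2 910)
(mv 849 (cons (fin 785 5 784)
(mv 1041 (cons (fin 1042 0 974)
(mv 848 (cons (fin 784 7 784)
(mv 850 (cons (fin 782 3 782)
(fin 786 6 785)))))))))))
(cons (mv 1037 (cons (fin 1038 1 973)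
(mv 1042 (cons (fin 1041 0 974)
(mv 978 (cons (fin 1043 0 975)
(mv 915 (cons (fin 914 2 911)
(mv 979 (cons (fin 1039 1 975)
(fin 916 2 912)))))))))))
(mv 1038 (cons (fin 1037 1 973)
(mv 978 (cons (fin 1039 1 974)
(mv 1042 (cons (fin 1041 0 974)
(fin 1043 0 975))))))))))))
(cons (mv 973 (cons (cons (mv 908 (cons (fin 909 3 908)
(mv 972 (cons (fin 907 3 907)
(fin 1039 0 972)))))
(mv 908 (cons (fin 909 3 908)
(mv 1037 (cons (fin 1036 1 972)
(mv 977 (cons (fin 1038 1 973)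
(mv 914 (cons (fin 913 2 910)
(mv 978 (cons (fin 915 2 911)
(mv 979 (cons (fin 1039 1 975)
(mv 1043 (cons (fin 1042 0 975)
(fin 1044 0 976))))))))))))))))
(cons (mv 972 (cons (fin 1039 0 972)
(mv 1036 (cons (fin 1035 1 971)
(fin 1037 1 972)))))
(mv 908 (cons (fin 909 3 908)
(mv 972 (cons (fin 907 3 907)
(mv 1036 (cons (fin 1035 1 971)
(fin 1037 1 972))))))))))
(mv 973 (cons (fin 1041 0 973)
(mv 908 (cons (fin 909 3 908)
(mv 972 (cons (fin 907 3 907)
(mv 1036 (cons (fin 1035 1 971)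
(fin 1037 1 972))))))))))))))
(mv 783 (cons (fin 911 4 783)
(mv 974 (cons (mv 973 (cons (fin 1041 0 973)
(mv 972 (cons (fin 1039 0 972)
(mv 1036 (cons (fin 1035 1 971)
(fin 1037 1 972)))))))
(cons (mv 977 (cons (cons (mv 913 (cons (fin 914 2 910)
(mv 785 (cons (fin 849 5 784)
(mv 1038 (cons (fin 1037 1 973)
(mv 846 (cons (fin 910 6 782)
(mv 784 (cons (fin 786 1 782)
(mv 845 (cons (fin 782 1 781)
(fin 844 2 780)))))))))))))
(mv 914 (cons (fin 913 2 910)
(mv 978 (cons (fin 915 2 911)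
(mv 979 (cons (fin 1039 1 975)
(mv 1043 (cons (fin 1042 0 975)
(fin 1044 0 976))))))))))
(cons (mv 1038 (cons (fin 1037 1 973)
(mv 846 (cons (fin 910 6 782)
(mv 978 (cons (fin 1039 1 974)
(mv 915 (cons (fin 914 2 911)
(mv 979 (cons (fin 916 2 912)
(mv 1043 (cons (fin 1042 0 975)
(fin 1044 0 976)))))))))))))
(mv 1038 (cons (fin 1037 1 973)
(mv 846 (cons (fin 910 6 782)
(mv 978 (cons (fin 1039 1 974)
(mv 1043 (cons (fin 1042 0 975)
(mv 979 (cons (fin 1044 0 976)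
(mv 915 (cons (fin 916 2 912)
(mv 786 (cons (mv 784 (cons (fin 785 1 782)
(mv 844 (cons (fin 845 2 780)
(mv 851 (cons (fin 850 7 786)
(mv 787 (cons (fin 722 7 722)
(mv 788 (cons (fin 724 6 723)
(fin 852 6 787)))))))))))
(cons (mv 851 (cons (fin 850 7 786)
(mv 787 (cons (fin 722 7 722)
(mv 788 (cons (fin 724 6 723)
(fin 852 6 787)))))))
(mv 785 (cons (fin 784 1 782)
(mv 849 (cons (fin 848 2 782)
(fin 913 5 784)))))))))))))))))))))))
(mv 1041 (cons (fin 973 0 973)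
(mv 1042 (cons (fin 1043 3 975)
(fin 977 0 974)))))))))))))))
(cons (mv 848 (cons (cons (cons (mv 912 (cons (fin 783 7 783)
(mv 785 (cons (fin 849 6 784)
(mv 784 (cons (fin 721 6 720)
(mv 786 (cons (fin 787 1 783)
(mv 845 (cons (fin 846 2 781)
(mv 977 (cons (fin 1041 4 784)
(mv 720 (cons (fin 913 4 720)
(mv 655 (cons (fin 719 7 655)
(mv 656 (cons (fin 591 7 591)
(fin 911 5 655)))))))))))))))))))
(mv 849 (cons (cons (cons (mv 850 (cons (cons (mv 782 (cons (fin 783 3 782)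
(mv 781 (cons (fin 846 3 781)
(mv 787 (cons (fin 786 2 783)
(mv 851 (cons (fin 788 2 784)
(mv 915 (cons (fin 914 0 847)
(fin 916 0 848)))))))))))
(cons (mv 782 (cons (fin 783 3 782)
(mv 781 (cons (fin 846 3 781)
(mv 915 (cons (fin 914 0 847)
(mv 851 (cons (fin 916 0 848)
(mv 788 (cons (fin 787 2 784)
(mv 852 (cons (fin 789 2 785)
(mv 785 (cons (fin 784 3 784)
(mv 977 (cons (fin 913 5 784)
(mv 979 (cons (fin 1043 6 787)
(mv 978 (cons (fin 1039 1 975)
(mv 980 (cons (fin 1041 1 976)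
(mv 1045 (cons (fin 1044 0 977)
(mv 981 (cons (fin 1046 0 978)
(mv 917 (cons (fin 918 2 914)
(fin 853 7 788)))))))))))))))))))))))))))))
(mv 782 (cons (fin 783 3 782)
(mv 786 (cons (fin 787 2 783)
(mv 846 (cons (fin 781 3 781)
(fin 785 2 782)))))))))
(cons (mv 786 (cons (fin 787 2 783)
(mv 785 (cons (fin 846 2 782)
(mv 910 (cons (fin 911 1 846)
(mv 913 (cons (fin 977 5 784)
(mv 658 (cons (fin 722 5 657)
(mv 914 (cons (fin 915 0 847)
(mv 721 (cons (fin 978 7 721)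
(fin 657 4 657)))))))))))))))
(cons (mv 782 (cons (fin 783 3 782)
(mv 846 (cons (fin 781 3 781)
(mv 910 (cons (fin 909 1 845)
(fin 911 1 846)))))))
(mv 782 (cons (fin 783 3 782)
(mv 787 (cons (fin 786 2 783)
(mv 851 (cons (fin 788 2 784)
(mv 915 (cons (fin 914 0 847)
(fin 916 0 848)))))))))))))
(mv 846 (cons (mv 781 (cons (fin 782 3 781)
(mv 780 (cons (fin 845 3 780)
(mv 785 (cons (fin 786 2 782)
(mv 913 (cons (fin 914 0 846)
(fin 977 5 784)))))))))
(cons (mv 781 (cons (fin 782 3 781)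
(mv 845 (cons (fin 780 3 780)
(mv 909 (cons (fin 908 1 844)
(fin 910 1 845)))))))
(mv 785 (cons (fin 786 2 782)
(mv 913 (cons (fin 914 0 846)
(fin 977 5 784)))))))))
(cons (mv 850 (cons (cons (mv 782 (cons (fin 783 3 782)
(mv 787 (cons (fin 786 2 783)
(mv 851 (cons (fin 788 2 784)
(mv 915 (cons (fin 914 0 847)
(fin 916 0 848)))))))))
(mv 787 (cons (fin 786 2 783)
(mv 851 (cons (fin 788 2 784)
(mv 915 (cons (fin 914 0 847)
(fin 916 0 848))))))))
(cons (mv 783 (cons (fin 782 3 782)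
(mv 851 (cons (fin 784 3 783)
(mv 915 (cons (fin 914 0 847)
(fin 916 0 848)))))))
(cons (mv 783 (cons (fin 782 3 782)
(mv 787 (cons (fin 786 2 783)
(mv 851 (cons (fin 784 3 783)
(fin 788 2 784)))))))
(mv 782 (cons (fin 783 3 782)
(mv 786 (cons (fin 787 2 783)
(mv 910 (cons (fin 911 1 846)
(mv 914 (cons (fin 915 0 847)
(mv 913 (cons (mv 722 (cons (fin 658 5 657)
(fin 977 5 721)))
(cons (mv 722 (cons (fin 658 5 657)
(mv 659 (cons (fin 723 6 658)
(mv 721 (cons (fin 657 7 657)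
(mv 978 (cons (fin 785 7 721)
(mv 1042 (cons (fin 1106 7 849)
(mv 1043 (cons (fin 979 4 786)
(fin 1107 4 850)))))))))))))
(mv 977 (cons (fin 785 5 784)
(fin 1041 6 785))))))))))))))))))
(mv 850 (cons (cons (mv 782 (cons (fin 783 3 782)
(mv 781 (cons (fin 846 3 781)
(mv 787 (cons (fin 786 2 783)
(mv 851 (cons (fin 788 2 784)
(mv 915 (cons (fin 914 0 847)
(fin 916 0 848)))))))))))
(mv 782 (cons (fin 783 3 782)
(mv 786 (cons (fin 787 2 783)
(mv 846 (cons (fin 781 3 781)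
(mv 910 (cons (fin 909 1 845)
(fin 911 1 846))))))))))
(cons (mv 786 (cons (fin 787 2 783)
(mv 910 (cons (fin 911 1 846)
(mv 846 (cons (fin 909 1 845)
(mv 914 (cons (fin 913 0 846)
(fin 915 0 847)))))))))
(cons (mv 782 (cons (fin 783 3 782)
(mv 846 (cons (fin 781 3 781)
(mv 910 (cons (fin 909 1 845)
(fin 911 1 846)))))))
(mv 782 (cons (fin 783 3 782)
(mv 787 (cons (fin 786 2 783)
(mv 851 (cons (fin 788 2 784)
(mv 915 (cons (fin 914 0 847)
(fin 916 0 848)))))))))))))))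
(cons (cons (mv 850 (cons (cons (mv 782 (cons (fin 783 3 782)
(mv 781 (cons (fin 846 3 781)
(mv 787 (cons (fin 786 2 783)
(mv 851 (cons (fin 788 2 784)
(mv 915 (cons (fin 914 0 847)
(fin 916 0 848)))))))))))
(mv 782 (cons (fin 783 3 782)
(mv 846 (cons (fin 781 3 781)
(mv 910 (cons (fin 909 1 845)
(fin 911 1 846))))))))
(cons (mv 786 (cons (fin 787 2 783)
(mv 785 (cons (fin 846 2 782)
(mv 910 (cons (fin 911 1 846)
(mv 914 (cons (fin 915 0 847)
(mv 721 (cons (fin 978 7 721)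
(fin 657 4 657)))))))))))
(mv 782 (cons (fin 783 3 782)
(mv 787 (cons (fin 786 2 783)
(mv 851 (cons (fin 788 2 784)
(mv 915 (cons (fin 914 0 847)
(fin 916 0 848))))))))))))
(mv 846 (cons (cons (mv 781 (cons (fin 782 3 781)
(mv 780 (cons (fin 845 3 780)
(mv 909 (cons (fin 910 1 845)
(mv 913 (cons (fin 914 0 846)
(mv 977 (cons (fin 785 5 784)
(mv 1041 (cons (fin 784 7 784)
(mv 1042 (cons (fin 1106 4 849)
(mv 1043 (cons (fin 1044 3 976)
(mv 979 (cons (fin 980 2 976)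
(mv 1039 (cons (fin 978 1 975)
(mv 1038 (cons (fin 1037 2 973)
(mv 1102 (cons (fin 1101 1 1037)
(fin 1103 1 1038)))))))))))))))))))))))))
(cons (mv 909 (cons (fin 910 1 845)
(mv 845 (cons (fin 908 1 844)
(mv 780 (cons (fin 781 3 780)
(mv 779 (cons (fin 844 3 779)
(mv 785 (cons (fin 784 2 781)
(mv 913 (cons (fin 914 0 846)
(fin 977 5 784)))))))))))))
(mv 781 (cons (fin 782 3 781)
(mv 780 (cons (fin 845 3 780)
(mv 913 (cons (fin 914 0 846)
(mv 977 (cons (fin 785 5 784)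
(mv 1041 (cons (fin 784 7 784)
(mv 1042 (cons (fin 1106 4 849)
(mv 1043 (cons (fin 1044 3 976)
(mv 979 (cons (fin 980 2 976)
(mv 1039 (cons (fin 978 1 975)
(mv 1038 (cons (fin 1037 2 973)
(mv 1102 (cons (fin 1101 1 1037)
(fin 1103 1 1038)))))))))))))))))))))))))
(cons (cons (mv 781 (cons (fin 782 3 781)
(mv 780 (cons (fin 845 3 780)
(mv 910 (cons (fin 909 1 845)
(mv 850 (cons (fin 911 1 846)
(mv 915 (cons (fin 914 0 847)
(mv 851 (cons (fin 916 0 848)
(mv 784 (cons (fin 783 3 783)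
(mv 788 (cons (fin 787 2 784)
(mv 852 (cons (fin 785 3 784)
(fin 789 2 785)))))))))))))))))))
(mv 909 (cons (fin 910 1 845)
(mv 845 (cons (fin 908 1 844)
(mv 784 (cons (fin 785 2 781)
(mv 783 (cons (fin 844 2 780)
(mv 850 (cons (fin 782 3 782)
(fin 851 3 783))))))))))))
(cons (mv 781 (cons (fin 782 3 781)
(mv 909 (cons (fin 910 1 845)
(mv 913 (cons (fin 914 0 846)
(mv 977 (cons (fin 785 5 784)
(mv 1041 (cons (fin 784 7 784)
(mv 1042 (cons (fin 1106 4 849)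
(mv 1043 (cons (fin 1044 3 976)
(mv 979 (cons (fin 980 2 976)
(mv 1039 (cons (fin 978 1 975)
(mv 1038 (cons (fin 1037 2 973)
(mv 1102 (cons (fin 1101 1 1037)
(fin 1103 1 1038)))))))))))))))))))))))
(mv 781 (cons (fin 782 3 781)
(mv 780 (cons (fin 845 3 780)
(mv 910 (cons (fin 909 1 845)
(mv 850 (cons (fin 911 1 846)
(mv 914 (cons (fin 913 0 846)
(fin 915 0 847))))))))))))))))
(cons (mv 850 (cons (cons (mv 786 (cons (fin 787 2 783)
(mv 785 (cons (fin 846 2 782)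
(mv 910 (cons (fin 911 1 846)
(mv 913 (cons (fin 977 5 784)
(mv 658 (cons (fin 722 5 657)
(mv 914 (cons (fin 915 0 847)
(mv 721 (cons (fin 978 7 721)
(fin 657 4 657)))))))))))))))
(mv 910 (cons (fin 911 1 846)
(mv 846 (cons (fin 909 1 845)
(mv 914 (cons (fin 913 0 846)
(fin 915 0 847))))))))
(cons (mv 786 (cons (fin 787 2 783)
(mv 846 (cons (fin 785 2 782)
(mv 910 (cons (fin 909 1 845)
(fin 911 1 846)))))))
(cons (mv 786 (cons (fin 787 2 783)
(mv 785 (cons (fin 846 2 782)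
(mv 913 (cons (fin 977 5 784)
(mv 658 (cons (fin 722 5 657)
(mv 914 (cons (fin 915 0 847)
(mv 721 (cons (fin 978 7 721)
(fin 657 4 657)))))))))))))
(mv 787 (cons (fin 786 2 783)
(mv 851 (cons (fin 788 2 784)
(mv 915 (cons (fin 914 0 847)
(fin 916 0 848)))))))))))
(cons (mv 846 (cons (cons (mv 781 (cons (fin 782 3 781)
(mv 780 (cons (fin 845 3 780)
(mv 786 (cons (fin 785 2 782)
(mv 850 (cons (fin 787 2 783)
(mv 910 (cons (fin 909 1 845)
(fin 911 1 846)))))))))))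
(mv 781 (cons (fin 782 3 781)
(mv 845 (cons (fin 780 3 780)
(mv 909 (cons (fin 908 1 844)
(fin 910 1 845))))))))
(cons (mv 785 (cons (fin 786 2 782)
(mv 784 (cons (fin 845 2 781)
(mv 910 (cons (fin 909 1 845)
(mv 850 (cons (fin 911 1 846)
(mv 851 (cons (fin 783 3 783)
(fin 852 3 784)))))))))))
(cons (mv 781 (cons (fin 782 3 781)
(mv 785 (cons (fin 786 2 782)
(mv 845 (cons (fin 780 3 780)
(fin 784 2 781)))))))
(mv 781 (cons (fin 782 3 781)
(mv 786 (cons (fin 785 2 782)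
(mv 850 (cons (fin 787 2 783)
(mv 910 (cons (fin 909 1 845)
(fin 911 1 846)))))))))))))
(mv 850 (cons (cons (mv 782 (cons (fin 783 3 782)
(mv 781 (cons (fin 846 3 781)
(mv 787 (cons (fin 786 2 783)
(mv 851 (cons (fin 788 2 784)
(mv 915 (cons (fin 914 0 847)
(fin 916 0 848)))))))))))
(cons (mv 782 (cons (fin 783 3 782)
(mv 781 (cons (fin 846 3 781)
(mv 915 (cons (fin 914 0 847)
(mv 851 (cons (fin 916 0 848)
(mv 788 (cons (fin 787 2 784)
(mv 852 (cons (fin 789 2 785)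
(mv 785 (cons (fin 784 3 784)
(mv 977 (cons (fin 913 5 784)
(mv 979 (cons (fin 1043 6 787)
(mv 978 (cons (fin 1039 1 975)
(mv 980 (cons (fin 1041 1 976)
(mv 1045 (cons (fin 1044 0 977)
(mv 981 (cons (fin 1046 0 978)
(mv 917 (cons (fin 918 2 914)
(fin 853 7 788)))))))))))))))))))))))))))))
(mv 782 (cons (fin 783 3 782)
(mv 786 (cons (fin 787 2 783)
(mv 846 (cons (fin 781 3 781)
(fin 785 2 782)))))))))
(cons (mv 786 (cons (fin 787 2 783)
(mv 785 (cons (fin 846 2 782)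
(mv 913 (cons (fin 977 5 784)
(mv 658 (cons (fin 722 5 657)
(mv 914 (cons (fin 915 0 847)
(mv 721 (cons (fin 978 7 721)
(fin 657 4 657)))))))))))))
(cons (mv 782 (cons (fin 783 3 782)
(mv 846 (cons (fin 781 3 781)
(mv 914 (cons (fin 913 0 846)
(fin 915 0 847)))))))
(mv 782 (cons (fin 783 3 782)
(mv 787 (cons (fin 786 2 783)
(mv 851 (cons (fin 788 2 784)
(mv 915 (cons (fin 914 0 847)
(fin 916 0 848)))))))))))))))))))
(cons (mv 849 (cons (cons (mv 785 (cons (fin 912 6 784)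
(mv 786 (cons (fin 846 2 782)
(mv 787 (cons (fin 784 1 783)
(fin 788 1 784)))))))
(mv 850 (cons (cons (mv 786 (cons (fin 787 2 783)
(mv 910 (cons (fin 911 1 846)
(mv 846 (cons (fin 909 1 845)
(mv 914 (cons (fin 913 0 846)
(fin 915 0 847)))))))))
(cons (mv 786 (cons (fin 787 2 783)
(mv 914 (cons (fin 915 0 847)
(mv 846 (cons (fin 913 0 846)
(mv 781 (cons (fin 782 3 781)
(mv 845 (cons (fin 780 3 780)
(mv 909 (cons (fin 908 1 844)
(fin 910 1 845)))))))))))))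
(mv 786 (cons (fin 787 2 783)
(mv 910 (cons (fin 911 1 846)
(mv 846 (cons (fin 909 1 845)
(mv 781 (cons (fin 782 3 781)
(mv 845 (cons (fin 780 3 780)
(mv 653 (cons (fin 717 4 653)
(mv 912 (cons (fin 913 0 845)
(mv 1038 (cons (fin 974 7 781)
(mv 1039 (cons (fin 1103 5 847)
(mv 977 (cons (fin 1037 2 973)
(mv 978 (cons (fin 979 1 975)
(fin 1041 2 974)))))))))))))))))))))))))
(cons (mv 786 (cons (fin 787 2 783)
(mv 914 (cons (fin 915 0 847)
(mv 913 (cons (fin 846 0 846)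
(mv 722 (cons (fin 658 5 657)
(fin 977 5 721)))))))))
(cons (mv 910 (cons (fin 911 1 846)
(mv 846 (cons (fin 909 1 845)
(mv 914 (cons (fin 913 0 846)
(fin 915 0 847)))))))
(mv 786 (cons (fin 787 2 783)
(mv 911 (cons (fin 910 1 846)
(mv 851 (cons (fin 912 1 847)
(mv 915 (cons (fin 914 0 847)
(fin 916 0 848))))))))))))))
(cons (mv 846 (cons (cons (mv 781 (cons (fin 782 3 781)
(mv 780 (cons (fin 845 3 780)
(mv 785 (cons (fin 786 2 782)
(mv 913 (cons (fin 914 0 846)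
(fin 977 5 784)))))))))
(mv 781 (cons (fin 782 3 781)
(mv 780 (cons (fin 845 3 780)
(mv 910 (cons (fin 909 1 845)
(mv 850 (cons (fin 911 1 846)
(mv 914 (cons (fin 913 0 846)
(fin 915 0 847))))))))))))
(cons (mv 781 (cons (fin 782 3 781)
(mv 780 (cons (fin 845 3 780)
(mv 785 (cons (fin 786 2 782)
(mv 910 (cons (fin 909 1 845)
(mv 850 (cons (fin 911 1 846)
(mv 915 (cons (fin 914 0 847)
(mv 851 (cons (fin 916 0 848)
(mv 788 (cons (fin 787 2 784)
(mv 852 (cons (fin 784 3 784)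
(fin 789 2 785)))))))))))))))))))
(cons (mv 781 (cons (fin 782 3 781)
(mv 780 (cons (fin 845 3 780)
(mv 786 (cons (fin 785 2 782)
(mv 850 (cons (fin 787 2 783)
(mv 910 (cons (fin 909 1 845)
(fin 911 1 846)))))))))))
(mv 785 (cons (fin 786 2 782)
(mv 913 (cons (fin 914 0 846)
(fin 977 5 784)))))))))
(cons (mv 785 (cons (fin 912 6 784)
(mv 913 (cons (fin 977 5 784)
(mv 850 (cons (cons (mv 786 (cons (fin 787 2 783)
(mv 658 (cons (fin 722 5 657)
(mv 910 (cons (fin 911 1 846)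
(mv 914 (cons (fin 915 0 847)
(mv 721 (cons (fin 978 7 721)
(fin 657 4 657)))))))))))
(mv 787 (cons (fin 786 2 783)
(mv 851 (cons (fin 788 2 784)
(mv 852 (cons (fin 784 3 784)
(mv 916 (cons (fin 915 0 848)
(fin 917 0 849))))))))))
(cons (mv 910 (cons (fin 911 1 846)
(mv 914 (cons (fin 915 0 847)
(mv 721 (cons (fin 657 4 657)
(fin 978 4 721)))))))
(mv 787 (cons (fin 786 2 783)
(mv 851 (cons (fin 788 2 784)
(mv 852 (cons (fin 784 3 784)
(mv 853 (cons (fin 914 1 849)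
(mv 917 (cons (fin 916 0 849)
(fin 918 0 850))))))))))))))))))
(mv 785 (cons (fin 912 6 784)
(mv 913 (cons (fin 977 5 784)
(mv 846 (cons (fin 914 0 846)
(mv 781 (cons (fin 782 3 781)
(mv 845 (cons (fin 780 3 780)
(fin 784 2 781)))))))))))))))
(cons (mv 912 (cons (fin 783 7 783)
(mv 1039 (cons (fin 1103 5 847)
(mv 784 (cons (cons (mv 721 (cons (fin 785 6 720)
(mv 720 (cons (fin 657 6 656)
(mv 977 (cons (fin 913 4 720)
(fin 1041 4 784)))))))
(mv 721 (cons (fin 785 6 720)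
(mv 720 (cons (fin 657 6 656)
(mv 655 (cons (fin 719 7 655)
(mv 656 (cons (fin 591 7 591)
(fin 911 5 655))))))))))
(cons (mv 977 (cons (fin 1041 4 784)
(mv 720 (cons (fin 913 4 720)
(mv 655 (cons (fin 719 7 655)
(mv 656 (cons (fin 591 7 591)
(fin 911 5 655)))))))))
(mv 785 (cons (fin 721 6 720)
(mv 786 (cons (fin 787 1 783)
(mv 845 (cons (fin 846 2 781)
(mv 1038 (cons (cons (mv 977 (cons (fin 1037 2 973)
(fin 1041 4 784)))
(mv 973 (cons (mv 972 (cons (fin 1037 3 972)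
(mv 974 (cons (fin 1041 3 973)
(fin 971 0 971)))))
(cons (mv 974 (cons (fin 1041 3 973)
(mv 909 (cons (fin 781 4 781)
(mv 1102 (cons (fin 910 7 845)
(fin 1166 7 909)))))))
(mv 1037 (cons (fin 972 3 972)
(mv 909 (cons (fin 1102 4 845)
(mv 1100 (cons (fin 1101 1 1036)
(fin 1036 5 844)))))))))))
(cons (mv 1037 (cons (fin 977 2 973)
(mv 972 (cons (fin 973 3 972)
(mv 1036 (cons (fin 971 3 971)
(mv 1100 (cons (fin 1099 1 1035)
(fin 1101 1 1036)))))))))
(mv 1041 (cons (fin 977 4 784)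
(mv 974 (cons (fin 973 3 973)
(mv 1102 (cons (fin 1101 1 1037)
(mv 910 (cons (fin 909 7 845)
(fin 911 6 846)))))))))))))))))))))))))
(mv 912 (cons (fin 783 7 783)
(mv 1039 (cons (fin 1103 5 847)
(mv 977 (cons (mv 784 (cons (fin 1041 4 784)
(mv 720 (cons (fin 913 4 720)
(mv 655 (cons (fin 719 7 655)
(mv 656 (cons (fin 591 7 591)
(fin 911 5 655)))))))))
(cons (mv 978 (cons (fin 979 1 975)
(mv 1037 (cons (fin 1038 2 973)
(mv 913 (cons (cons (mv 720 (cons (fin 784 4 720)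
(mv 845 (cons (fin 846 0 845)
(mv 911 (cons (fin 910 0 910)
(mv 914 (cons (fin 915 3 847)
(mv 850 (cons (fin 851 2 847)
(mv 786 (cons (fin 722 5 721)
(mv 787 (cons (fin 849 2 783)
(fin 723 6 722)))))))))))))))
(cons (mv 720 (cons (fin 784 4 720)
(mv 846 (cons (fin 845 0 845)
(mv 910 (cons (fin 911 0 910)
(mv 909 (cons (fin 849 1 845)
(mv 907 (cons (fin 908 2 843)
(mv 973 (cons (fin 1101 6 845)
(mv 782 (cons (fin 718 5 717)
(fin 974 5 781)))))))))))))))
(mv 720 (cons (fin 784 4 720)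
(mv 846 (cons (fin 845 0 845)
(mv 914 (cons (fin 915 3 847)
(fin 849 0 846)))))))))
(cons (mv 720 (cons (fin 784 4 720)
(mv 911 (cons (fin 910 0 910)
(mv 914 (cons (fin 915 3 847)
(mv 850 (cons (fin 851 2 847)
(mv 786 (cons (fin 722 5 721)
(mv 787 (cons (fin 849 2 783)
(fin 723 6 722)))))))))))))
(cons (mv 845 (cons (fin 846 0 845)
(mv 911 (cons (fin 910 0 910)
(mv 914 (cons (fin 915 3 847)
(mv 850 (cons (fin 851 2 847)
(mv 786 (cons (fin 722 5 721)
(mv 787 (cons (fin 849 2 783)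
(fin 723 6 722)))))))))))))
(mv 720 (cons (fin 784 4 720)
(mv 846 (cons (fin 845 0 845)
(mv 911 (cons (fin 914 3 846)
(fin 910 0 910)))))))))))))))
(mv 978 (cons (fin 979 1 975)
(mv 1038 (cons (fin 1037 2 973)
(fin 1041 2 974)))))))))))))))
(cons (cons (mv 912 (cons (fin 783 7 783)
(mv 785 (cons (fin 849 6 784)
(mv 784 (cons (fin 721 6 720)
(mv 786 (cons (fin 787 1 783)
(mv 977 (cons (fin 1041 4 784)
(mv 720 (cons (fin 913 4 720)
(mv 655 (cons (fin 719 7 655)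
(mv 656 (cons (fin 591 7 591)
(fin 911 5 655)))))))))))))))))
(cons (mv 783 (cons (fin 912 7 783)
(mv 849 (cons (cons (mv 782 (cons (fin 850 3 782)
(mv 781 (cons (fin 846 3 781)
(fin 780 0 780)))))
(mv 846 (cons (mv 781 (cons (fin 782 3 781)
(mv 780 (cons (fin 845 3 780)
(mv 785 (cons (fin 786 2 782)
(mv 913 (cons (fin 914 0 846)
(fin 977 5 784)))))))))
(cons (mv 785 (cons (fin 786 2 782)
(mv 913 (cons (fin 914 0 846)
(fin 977 5 784)))))
(mv 781 (cons (fin 782 3 781)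
(mv 780 (cons (fin 845 3 780)
(mv 910 (cons (fin 909 1 845)
(mv 719 (cons (fin 655 5 654)
(mv 974 (cons (fin 911 5 718)
(fin 1038 6 782)))))))))))))))
(cons (mv 846 (cons (mv 785 (cons (fin 786 2 782)
(mv 913 (cons (fin 914 0 846)
(fin 977 5 784)))))
(cons (mv 910 (cons (fin 909 1 845)
(mv 655 (cons (fin 719 5 654)
(mv 850 (cons (fin 911 1 846)
(mv 914 (cons (fin 913 0 846)
(fin 915 0 847)))))))))
(mv 785 (cons (fin 786 2 782)
(mv 910 (cons (fin 909 1 845)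
(mv 719 (cons (fin 655 5 654)
(mv 911 (cons (fin 850 1 846)
(fin 974 5 718))))))))))))
(mv 850 (cons (fin 782 3 782)
(mv 787 (cons (fin 786 2 783)
(mv 851 (cons (fin 788 2 784)
(mv 915 (cons (fin 914 0 847)
(fin 916 0 848))))))))))))))
(mv 783 (cons (fin 912 7 783)
(mv 782 (cons (cons (mv 781 (cons (fin 780 0 780)
(mv 849 (cons (fin 846 3 781)
(fin 850 3 782)))))
(mv 849 (cons (fin 850 3 782)
(mv 846 (cons (mv 785 (cons (fin 786 2 782)
(mv 913 (cons (fin 914 0 846)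
(fin 977 5 784)))))
(mv 909 (cons (fin 910 1 845)
(mv 845 (cons (fin 908 1 844)
(mv 844 (cons (fin 843 2 779)
(fin 784 2 780))))))))))))
(cons (mv 781 (cons (fin 780 0 780)
(mv 784 (cons (cons (mv 716 (cons (fin 717 3 716)
(mv 720 (cons (fin 721 2 717)
(mv 592 (cons (fin 656 5 591)
(mv 845 (cons (fin 844 1 780)
(mv 846 (cons (fin 785 1 781)
(mv 909 (cons (fin 908 1 844)
(mv 718 (cons (fin 654 5 653)
(fin 973 6 717)))))))))))))))
(cons (mv 716 (cons (fin 717 3 716)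
(mv 721 (cons (fin 720 2 717)
(mv 785 (cons (fin 722 2 718)
(mv 786 (cons (fin 846 1 782)
(fin 787 1 783)))))))))
(mv 720 (cons (fin 721 2 717)
(mv 592 (cons (fin 656 5 591)
(mv 845 (cons (fin 844 1 780)
(mv 846 (cons (fin 785 1 781)
(mv 909 (cons (fin 908 1 844)
(mv 718 (cons (fin 654 5 653)
(fin 973 6 717)))))))))))))))
(cons (cons (mv 716 (cons (fin 717 3 716)
(mv 845 (cons (fin 844 1 780)
(mv 785 (cons (fin 846 1 781)
(mv 722 (cons (fin 721 2 718)
(mv 786 (cons (fin 787 1 783)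
(fin 723 2 719)))))))))))
(mv 716 (cons (fin 717 3 716)
(mv 845 (cons (fin 844 1 780)
(mv 846 (cons (fin 785 1 781)
(mv 909 (cons (fin 908 1 844)
(mv 718 (cons (fin 654 5 653)
(fin 973 6 717))))))))))))
(cons (mv 717 (cons (fin 716 3 716)
(mv 720 (cons (fin 721 2 717)
(mv 656 (cons (fin 592 5 591)
(mv 591 (cons (fin 655 7 591)
(mv 657 (cons (fin 593 6 592)
(mv 718 (cons (fin 719 2 653)
(mv 590 (cons (fin 654 4 590)
(mv 845 (cons (fin 844 1 780)
(mv 909 (cons (fin 973 6 717)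
(mv 908 (cons (fin 846 1 844)
(fin 972 5 716)))))))))))))))))))))
(mv 717 (cons (fin 716 3 716)
(mv 718 (cons (fin 785 3 717)
(mv 590 (cons (fin 654 4 590)
(mv 720 (cons (fin 721 2 717)
(mv 656 (cons (fin 592 5 591)
(mv 657 (cons (fin 719 2 653)
(fin 593 6 592)))))))))))))))))))
(mv 781 (cons (fin 780 0 780)
(mv 849 (cons (fin 850 3 782)
(fin 784 0 781))))))))))))
(cons (mv 783 (cons (fin 912 7 783)
(mv 782 (cons (cons (mv 781 (cons (fin 780 0 780)
(mv 849 (cons (fin 846 3 781)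
(fin 850 3 782)))))
(mv 849 (cons (fin 850 3 782)
(mv 846 (cons (cons (mv 785 (cons (fin 786 2 782)
(mv 784 (cons (fin 845 1 781)
(mv 717 (cons (fin 718 3 717)
(mv 721 (cons (fin 722 2 718)
(mv 593 (cons (fin 657 5 592)
(mv 910 (cons (fin 909 1 845)
(mv 719 (cons (fin 655 5 654)
(fin 974 6 718)))))))))))))))
(mv 785 (cons (fin 786 2 782)
(mv 784 (cons (fin 845 1 781)
(mv 717 (cons (fin 718 3 717)
(mv 721 (cons (fin 722 2 718)
(mv 657 (cons (fin 593 5 592)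
(mv 594 (cons (fin 658 6 593)
(mv 656 (cons (fin 592 7 592)
(mv 720 (cons (fin 913 7 656)
(fin 911 5 655))))))))))))))))))
(cons (mv 909 (cons (fin 910 1 845)
(mv 845 (cons (fin 908 1 844)
(mv 844 (cons (fin 843 2 779)
(fin 784 2 780)))))))
(mv 785 (cons (fin 786 2 782)
(mv 910 (cons (fin 909 1 845)
(mv 719 (cons (fin 655 5 654)
(fin 974 6 718)))))))))))))
(cons (mv 781 (cons (fin 780 0 780)
(mv 784 (cons (cons (mv 716 (cons (fin 717 3 716)
(mv 720 (cons (fin 721 2 717)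
(mv 656 (cons (fin 592 5 591)
(fin 911 5 655)))))))
(mv 716 (cons (fin 717 3 716)
(mv 845 (cons (fin 844 1 780)
(mv 785 (cons (fin 846 1 781)
(mv 722 (cons (fin 721 2 718)
(mv 786 (cons (fin 787 1 783)
(fin 723 2 719))))))))))))
(cons (mv 720 (cons (fin 721 2 717)
(mv 656 (cons (fin 592 5 591)
(fin 911 5 655)))))
(mv 716 (cons (fin 717 3 716)
(mv 845 (cons (fin 844 1 780)
(mv 846 (cons (fin 785 1 781)
(mv 909 (cons (fin 908 1 844)
(mv 718 (cons (fin 654 5 653)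
(fin 973 6 717))))))))))))))))
(mv 781 (cons (fin 780 0 780)
(mv 849 (cons (fin 850 3 782)
(fin 784 0 781))))))))))
(cons (mv 783 (cons (fin 912 7 783)
(mv 782 (cons (cons (mv 781 (cons (fin 780 0 780)
(mv 849 (cons (fin 846 3 781)
(fin 850 3 782)))))
(mv 849 (cons (fin 850 3 782)
(mv 846 (cons (cons (mv 785 (cons (fin 786 2 782)
(mv 784 (cons (fin 845 1 781)
(mv 717 (cons (fin 718 3 717)
(mv 721 (cons (fin 722 2 718)
(mv 593 (cons (fin 657 5 592)
(mv 910 (cons (fin 909 1 845)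
(mv 719 (cons (fin 655 5 654)
(fin 974 6 718)))))))))))))))
(mv 785 (cons (fin 786 2 782)
(mv 784 (cons (fin 845 1 781)
(mv 717 (cons (fin 718 3 717)
(mv 721 (cons (fin 722 2 718)
(mv 657 (cons (fin 593 5 592)
(mv 594 (cons (fin 658 6 593)
(mv 656 (cons (fin 592 7 592)
(mv 720 (cons (fin 911 5 655)
(mv 655 (cons (fin 591 7 591)
(mv 654 (cons (fin 653 0 653)
(mv 590 (cons (fin 589 3 589)
(fin 719 7 590))))))))))))))))))))))))
(cons (mv 909 (cons (fin 910 1 845)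
(mv 845 (cons (fin 908 1 844)
(mv 844 (cons (fin 843 2 779)
(fin 784 2 780)))))))
(mv 785 (cons (fin 786 2 782)
(mv 910 (cons (fin 909 1 845)
(mv 719 (cons (fin 655 5 654)
(fin 974 6 718)))))))))))))
(cons (mv 781 (cons (fin 780 0 780)
(mv 784 (cons (cons (mv 716 (cons (fin 717 3 716)
(mv 720 (cons (fin 721 2 717)
(mv 656 (cons (fin 592 5 591)
(fin 911 5 655)))))))
(mv 716 (cons (fin 717 3 716)
(mv 845 (cons (fin 844 1 780)
(mv 785 (cons (fin 846 1 781)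
(mv 722 (cons (fin 721 2 718)
(mv 786 (cons (fin 787 1 783)
(fin 723 2 719))))))))))))
(cons (mv 720 (cons (fin 721 2 717)
(mv 656 (cons (fin 592 5 591)
(fin 911 5 655)))))
(mv 716 (cons (fin 717 3 716)
(mv 845 (cons (fin 844 1 780)
(mv 846 (cons (fin 785 1 781)
(mv 909 (cons (fin 908 1 844)
(mv 718 (cons (fin 654 5 653)
(fin 973 6 717))))))))))))))))
(mv 781 (cons (fin 780 0 780)
(mv 849 (cons (fin 850 3 782)
(fin 784 0 781))))))))))
(mv 912 (cons (fin 783 7 783)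
(mv 785 (cons (fin 849 6 784)
(mv 784 (cons (fin 721 6 720)
(mv 845 (cons (fin 846 2 781)
(mv 977 (cons (fin 1041 4 784)
(mv 720 (cons (fin 913 4 720)
(mv 655 (cons (fin 719 7 655)
(mv 656 (cons (fin 591 7 591)
(fin 911 5 655))))))))))))))))))))))
(mv 975 (cons (cons (cons (mv 783 (cons (fin 911 4 783)
(mv 1041 (cons (cons (mv 974 (cons (fin 973 0 973)
(mv 1042 (cons (fin 1039 3 974)
(fin 1043 3 975)))))
(mv 1042 (cons (fin 1043 3 975)
(mv 1039 (cons (cons (mv 978 (cons (fin 979 2 975)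
(mv 977 (cons (fin 1038 1 974)
(mv 914 (cons (fin 915 2 911)
(mv 786 (cons (fin 850 5 785)
(mv 1102 (cons (fin 1103 1 1038)
(mv 1106 (cons (fin 1107 0 1039)
(mv 913 (cons (fin 849 7 849)
(fin 1170 7 913)))))))))))))))
(mv 1102 (cons (fin 1103 1 1038)
(mv 1038 (cons (fin 1101 1 1037)
(mv 1037 (cons (fin 1036 2 972)
(fin 977 2 973))))))))
(cons (mv 978 (cons (fin 979 2 975)
(mv 977 (cons (fin 1038 1 974)
(mv 914 (cons (fin 915 2 911)
(mv 786 (cons (fin 850 5 785)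
(mv 1106 (cons (fin 1107 0 1039)
(mv 913 (cons (fin 849 7 849)
(fin 1170 7 913)))))))))))))
(mv 978 (cons (fin 979 2 975)
(mv 1103 (cons (fin 1102 1 1038)
(mv 1167 (cons (fin 912 6 911)
(fin 1231 6 975)))))))))))))
(cons (mv 974 (cons (fin 973 0 973)
(mv 977 (cons (cons (mv 909 (cons (fin 910 3 909)
(mv 914 (cons (fin 913 2 910)
(mv 978 (cons (fin 915 2 911)
(mv 979 (cons (fin 1039 1 975)
(fin 980 1 976)))))))))
(mv 914 (cons (fin 913 2 910)
(mv 978 (cons (fin 915 2 911)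
(mv 979 (cons (fin 1039 1 975)
(fin 980 1 976))))))))
(cons (mv 909 (cons (fin 910 3 909)
(mv 1038 (cons (fin 1037 1 973)
(mv 978 (cons (fin 1039 1 974)
(mv 915 (cons (fin 914 2 911)
(mv 979 (cons (fin 980 1 976)
(fin 916 2 912)))))))))))
(mv 910 (cons (fin 909 3 909)
(mv 1038 (cons (fin 1037 1 973)
(fin 846 6 782))))))))))
(mv 974 (cons (fin 973 0 973)
(mv 1042 (cons (fin 1043 3 975)
(fin 977 0 974))))))))))
(mv 1041 (cons (cons (mv 974 (cons (fin 973 0 973)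
(mv 1042 (cons (fin 1039 3 974)
(fin 1043 3 975)))))
(mv 1042 (cons (fin 1043 3 975)
(mv 1039 (cons (cons (mv 978 (cons (fin 979 2 975)
(mv 977 (cons (fin 1038 1 974)
(mv 914 (cons (fin 915 2 911)
(mv 786 (cons (fin 850 5 785)
(mv 1102 (cons (fin 1103 1 1038)
(mv 1106 (cons (fin 1107 0 1039)
(mv 913 (cons (fin 849 7 849)
(fin 1170 7 913)))))))))))))))
(mv 1102 (cons (fin 1103 1 1038)
(mv 1038 (cons (fin 1101 1 1037)
(mv 1037 (cons (fin 1036 2 972)
(fin 977 2 973))))))))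
(cons (mv 978 (cons (fin 979 2 975)
(mv 977 (cons (fin 1038 1 974)
(mv 914 (cons (fin 915 2 911)
(mv 786 (cons (fin 850 5 785)
(mv 1106 (cons (fin 1107 0 1039)
(mv 913 (cons (fin 849 7 849)
(fin 1170 7 913)))))))))))))
(mv 978 (cons (fin 979 2 975)
(mv 1103 (cons (fin 1102 1 1038)
(mv 1167 (cons (fin 912 6 911)
(fin 1231 6 975)))))))))))))
(cons (mv 974 (cons (fin 973 0 973)
(mv 910 (cons (cons (mv 977 (cons (fin 909 3 909)
(mv 913 (cons (fin 914 2 910)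
(mv 785 (cons (fin 849 5 784)
(mv 1038 (cons (fin 1037 1 973)
(mv 783 (cons (fin 846 6 782)
(mv 1039 (cons (fin 978 1 974)
(mv 1102 (cons (fin 1101 1 1037)
(mv 1166 (cons (fin 1230 6 974)
(mv 1167 (cons (fin 1103 7 910)
(fin 1231 4 974)))))))))))))))))))
(mv 846 (cons (cons (mv 782 (cons (fin 1039 4 782)
(mv 783 (cons (fin 719 6 718)
(fin 1038 6 782)))))
(mv 782 (cons (fin 1039 4 782)
(mv 717 (cons (fin 781 7 717)
(mv 718 (cons (fin 653 7 653)
(mv 719 (cons (fin 655 6 654)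
(fin 783 6 718))))))))))
(cons (mv 783 (cons (fin 1038 6 782)
(mv 719 (cons (fin 655 5 654)
(fin 782 6 718)))))
(cons (mv 1038 (cons (fin 783 6 782)
(mv 781 (cons (fin 845 7 781)
(mv 1037 (cons (fin 1101 5 845)
(mv 1036 (cons (fin 1035 2 971)
(fin 1039 2 972)))))))))
(mv 1039 (cons (fin 782 4 782)
(mv 1103 (cons (fin 1167 7 910)
(fin 1038 4 846))))))))))
(cons (mv 977 (cons (fin 909 3 909)
(mv 914 (cons (fin 913 2 910)
(mv 978 (cons (fin 915 2 911)
(mv 979 (cons (fin 1039 1 975)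
(fin 980 1 976)))))))))
(mv 1038 (cons (cons (mv 977 (cons (fin 909 3 909)
(fin 1037 1 973)))
(mv 846 (cons (fin 783 6 782)
(mv 845 (cons (fin 781 7 781)
(mv 1101 (cons (fin 1037 5 845)
(mv 1102 (cons (fin 909 7 845)
(fin 1165 5 909))))))))))
(cons (mv 846 (cons (fin 783 6 782)
(mv 1037 (cons (fin 977 1 973)
(fin 1101 5 845)))))
(mv 783 (cons (fin 846 6 782)
(mv 909 (cons (fin 977 3 909)
(mv 907 (cons (fin 908 0 907)
(mv 1102 (cons (fin 845 7 845)
(mv 1165 (cons (fin 1101 5 909)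
(mv 1166 (cons (fin 1229 5 973)
(mv 1167 (cons (fin 1103 4 910)
(fin 1231 4 974)))))))))))))))))))))))
(mv 974 (cons (fin 973 0 973)
(mv 1042 (cons (fin 1043 3 975)
(fin 977 0 974)))))))))
(cons (mv 1041 (cons (cons (mv 974 (cons (fin 973 0 973)
(mv 1042 (cons (fin 1039 3 974)
(fin 1043 3 975)))))
(mv 1042 (cons (fin 1043 3 975)
(mv 1039 (cons (cons (mv 978 (cons (fin 979 2 975)
(mv 977 (cons (fin 1038 1 974)
(mv 910 (cons (fin 911 3 910)
(mv 914 (cons (fin 915 2 911)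
(mv 786 (cons (fin 850 5 785)
(mv 1102 (cons (fin 1103 1 1038)
(mv 1106 (cons (fin 1107 0 1039)
(mv 913 (cons (fin 849 7 849)
(fin 1170 7 913)))))))))))))))))
(mv 1102 (cons (fin 1103 1 1038)
(mv 1038 (cons (fin 1101 1 1037)
(fin 911 5 846))))))
(cons (mv 978 (cons (fin 979 2 975)
(mv 977 (cons (fin 1038 1 974)
(mv 910 (cons (fin 911 3 910)
(mv 914 (cons (fin 915 2 911)
(mv 786 (cons (fin 850 5 785)
(mv 1106 (cons (fin 1107 0 1039)
(mv 913 (cons (fin 849 7 849)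
(fin 1170 7 913)))))))))))))))
(mv 978 (cons (fin 979 2 975)
(mv 1103 (cons (fin 1102 1 1038)
(mv 1167 (cons (fin 912 6 911)
(fin 1231 6 975)))))))))))))
(cons (mv 974 (cons (fin 973 0 973)
(mv 977 (cons (cons (mv 909 (cons (fin 910 3 909)
(mv 913 (cons (fin 914 2 910)
(mv 785 (cons (fin 849 5 784)
(mv 1038 (cons (fin 1037 1 973)
(mv 1039 (cons (fin 978 1 974)
(mv 1102 (cons (fin 1101 1 1037)
(fin 911 5 846)))))))))))))
(cons (mv 909 (cons (fin 910 3 909)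
(mv 914 (cons (fin 913 2 910)
(mv 978 (cons (fin 915 2 911)
(mv 979 (cons (fin 1039 1 975)
(fin 980 1 976)))))))))
(mv 913 (cons (fin 914 2 910)
(mv 785 (cons (fin 849 5 784)
(mv 1038 (cons (fin 1037 1 973)
(mv 1039 (cons (fin 978 1 974)
(mv 1102 (cons (fin 1101 1 1037)
(fin 911 5 846)))))))))))))
(cons (cons (mv 909 (cons (fin 910 3 909)
(mv 1038 (cons (fin 1037 1 973)
(mv 978 (cons (fin 1039 1 974)
(mv 915 (cons (fin 914 2 911)
(mv 979 (cons (fin 980 1 976)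
(fin 916 2 912)))))))))))
(mv 909 (cons (fin 910 3 909)
(mv 1038 (cons (fin 1037 1 973)
(mv 1039 (cons (fin 978 1 974)
(mv 1102 (cons (fin 1101 1 1037)
(fin 911 5 846))))))))))
(cons (mv 910 (cons (fin 909 3 909)
(mv 913 (cons (fin 914 2 910)
(mv 785 (cons (fin 849 5 784)
(mv 1038 (cons (fin 1037 1 973)
(mv 1102 (cons (fin 911 6 846)
(mv 1101 (cons (fin 1039 1 1037)
(fin 1165 5 909)))))))))))))
(mv 910 (cons (fin 909 3 909)
(mv 911 (cons (fin 978 3 910)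
(mv 1038 (cons (fin 1037 1 973)
(fin 1102 6 846)))))))))))))
(mv 974 (cons (fin 973 0 973)
(mv 1042 (cons (fin 1043 3 975)
(fin 977 0 974))))))))
(cons (mv 911 (cons (fin 783 4 783)
(mv 1039 (cons (cons (mv 782 (cons (fin 846 7 782)
(mv 1038 (cons (fin 1102 5 846)
(mv 977 (cons (fin 978 1 974)
(fin 1037 2 973)))))))
(mv 846 (cons (fin 782 7 782)
(mv 910 (cons (fin 1103 7 846)
(mv 909 (cons (fin 908 0 908)
(mv 977 (cons (fin 974 3 909)
(fin 978 3 910))))))))))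
(cons (mv 1038 (cons (fin 1102 5 846)
(mv 977 (cons (fin 978 1 974)
(fin 1037 2 973)))))
(mv 782 (cons (fin 846 7 782)
(mv 1102 (cons (fin 1038 5 846)
(mv 1103 (cons (fin 1166 5 910)
(mv 1167 (cons (fin 912 6 911)
(fin 1231 6 975))))))))))))))
(mv 911 (cons (fin 783 4 783)
(mv 1039 (cons (cons (mv 782 (cons (fin 846 7 782)
(mv 1038 (cons (fin 1102 5 846)
(mv 977 (cons (fin 978 1 974)
(fin 1037 2 973)))))))
(mv 846 (cons (fin 782 7 782)
(mv 910 (cons (fin 1103 7 846)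
(mv 909 (cons (fin 908 0 908)
(mv 977 (cons (fin 978 3 910)
(fin 912 0 909))))))))))
(cons (mv 1038 (cons (fin 1102 5 846)
(mv 977 (cons (fin 978 1 974)
(fin 1037 2 973)))))
(mv 782 (cons (fin 846 7 782)
(mv 1102 (cons (fin 1038 5 846)
(mv 1103 (cons (fin 1166 5 910)
(mv 1167 (cons (fin 912 6 911)
(fin 1231 6 975)))))))))))))))))
(cons (cons (mv 911 (cons (fin 783 4 783)
(mv 1039 (cons (cons (mv 782 (cons (fin 846 7 782)
(mv 1038 (cons (fin 1102 5 846)
(mv 1037 (cons (fin 1036 2 972)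
(mv 973 (cons (fin 972 3 972)
(mv 974 (cons (fin 1041 3 973)
(mv 908 (cons (fin 909 3 908)
(mv 912 (cons (fin 913 2 909)
(mv 1101 (cons (fin 1100 1 1036)
(mv 1165 (cons (fin 910 6 909)
(fin 1229 6 973)))))))))))))))))))
(mv 846 (cons (fin 782 7 782)
(mv 1103 (cons (fin 910 7 846)
(mv 1167 (cons (fin 912 6 911)
(fin 1231 6 975))))))))
(cons (mv 1038 (cons (fin 1102 5 846)
(mv 1037 (cons (fin 1036 2 972)
(mv 973 (cons (fin 972 3 972)
(mv 974 (cons (fin 1041 3 973)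
(mv 908 (cons (fin 909 3 908)
(mv 912 (cons (fin 913 2 909)
(mv 1101 (cons (fin 1100 1 1036)
(mv 1165 (cons (fin 910 6 909)
(fin 1229 6 973)))))))))))))))))
(cons (mv 782 (cons (fin 846 7 782)
(mv 1102 (cons (fin 1038 5 846)
(mv 1103 (cons (fin 1166 5 910)
(mv 1167 (cons (fin 912 6 911)
(fin 1231 6 975)))))))))
(mv 782 (cons (fin 846 7 782)
(mv 1038 (cons (fin 1102 5 846)
(mv 1037 (cons (fin 1036 2 972)
(mv 973 (cons (fin 972 3 972)
(mv 974 (cons (fin 1041 3 973)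
(mv 908 (cons (fin 909 3 908)
(mv 1101 (cons (fin 1100 1 1036)
(mv 1165 (cons (fin 910 6 909)
(fin 1229 6 973)))))))))))))))))))))))
(cons (mv 783 (cons (fin 911 4 783)
(mv 974 (cons (cons (mv 973 (cons (fin 1041 0 973)
(mv 908 (cons (fin 909 3 908)
(mv 907 (cons (fin 972 3 907)
(mv 913 (cons (fin 912 2 909)
(mv 977 (cons (fin 914 2 910)
(mv 1037 (cons (fin 1036 1 972)
(fin 1038 1 973)))))))))))))
(cons (mv 977 (cons (mv 909 (cons (fin 910 3 909)
(mv 914 (cons (fin 913 2 910)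
(mv 978 (cons (fin 915 2 911)
(mv 1042 (cons (fin 1041 0 974)
(fin 1043 0 975)))))))))
(cons (mv 910 (cons (fin 909 3 909)
(mv 1038 (cons (fin 1037 1 973)
(fin 846 6 782)))))
(mv 914 (cons (fin 913 2 910)
(mv 978 (cons (fin 915 2 911)
(mv 1042 (cons (fin 1041 0 974)
(fin 1043 0 975))))))))))
(mv 977 (cons (cons (mv 909 (cons (fin 910 3 909)
(mv 913 (cons (fin 914 2 910)
(mv 973 (cons (fin 908 3 908)
(fin 912 2 909)))))))
(mv 909 (cons (fin 910 3 909)
(mv 973 (cons (fin 908 3 908)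
(mv 1037 (cons (fin 1036 1 972)
(fin 1038 1 973))))))))
(cons (mv 913 (cons (fin 914 2 910)
(mv 785 (cons (fin 849 5 784)
(mv 973 (cons (fin 912 2 909)
(mv 1037 (cons (fin 1036 1 972)
(fin 1038 1 973)))))))))
(mv 910 (cons (fin 909 3 909)
(mv 1038 (cons (fin 1037 1 973)
(fin 846 6 782))))))))))
(cons (cons (mv 973 (cons (fin 1041 0 973)
(mv 908 (cons (fin 909 3 908)
(mv 912 (cons (fin 913 2 909)
(mv 972 (cons (fin 907 3 907)
(mv 1036 (cons (fin 1035 1 971)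
(fin 1037 1 972)))))))))))
(mv 973 (cons (fin 1041 0 973)
(mv 908 (cons (fin 909 3 908)
(mv 972 (cons (fin 907 3 907)
(mv 1036 (cons (fin 1035 1 971)
(fin 1037 1 972))))))))))
(cons (mv 973 (cons (fin 1041 0 973)
(mv 913 (cons (fin 912 2 909)
(mv 977 (cons (fin 914 2 910)
(mv 1037 (cons (fin 1036 1 972)
(fin 1038 1 973)))))))))
(mv 973 (cons (fin 1041 0 973)
(mv 909 (cons (fin 908 3 908)
(mv 910 (cons (fin 977 3 909)
(mv 846 (cons (fin 1038 6 782)
(mv 719 (cons (fin 655 5 654)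
(fin 782 6 718)))))))))))))))))
(mv 911 (cons (fin 783 4 783)
(mv 910 (cons (cons (mv 909 (cons (fin 908 0 908)
(mv 977 (cons (fin 974 3 909)
(fin 978 3 910)))))
(mv 909 (cons (fin 908 0 908)
(mv 846 (cons (mv 782 (cons (fin 1039 7 782)
(fin 718 4 718)))
(cons (mv 1039 (cons (fin 1103 7 846)
(mv 912 (cons (mv 845 (cons (fin 844 3 844)
(fin 913 3 845)))
(cons (mv 913 (cons (fin 914 3 846)
(mv 973 (cons (fin 972 1 908)
(fin 974 1 909)))))
(mv 844 (cons (fin 845 3 844)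
(mv 973 (cons (fin 972 1 908)
(mv 974 (cons (fin 1041 0 973)
(mv 1037 (cons (fin 1036 1 972)
(fin 1101 6 845))))))))))))))
(mv 718 (cons (fin 782 4 718)
(mv 912 (cons (mv 845 (cons (fin 844 3 844)
(fin 913 3 845)))
(cons (mv 913 (cons (fin 914 3 846)
(mv 973 (cons (fin 972 1 908)
(fin 974 1 909)))))
(mv 844 (cons (fin 845 3 844)
(mv 973 (cons (fin 972 1 908)
(mv 974 (cons (fin 1041 0 973)
(mv 1037 (cons (fin 1036 1 972)
(fin 1101 6 845))))))))))))))))))))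
(cons (mv 977 (cons (fin 978 3 910)
(mv 974 (cons (mv 1041 (cons (fin 973 0 973)
(fin 1042 0 974)))
(cons (mv 913 (cons (fin 914 2 910)
(mv 785 (cons (fin 849 5 784)
(mv 912 (cons (fin 973 1 909)
(mv 846 (cons (fin 845 3 845)
(mv 782 (cons (fin 1039 7 782)
(fin 718 4 718)))))))))))
(mv 913 (cons (fin 914 2 910)
(mv 849 (cons (fin 785 5 784)
(mv 850 (cons (fin 912 2 846)
(mv 1041 (cons (fin 1042 0 974)
(fin 786 6 785))))))))))))))
(mv 909 (cons (fin 908 0 908)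
(mv 977 (cons (fin 978 3 910)
(fin 912 0 909))))))))))))
(cons (mv 783 (cons (fin 911 4 783)
(mv 974 (cons (cons (mv 973 (cons (fin 1041 0 973)
(mv 908 (cons (fin 909 3 908)
(mv 972 (cons (fin 907 3 907)
(fin 1039 0 972)))))))
(mv 977 (cons (cons (mv 909 (cons (fin 910 3 909)
(mv 913 (cons (fin 914 2 910)
(mv 785 (cons (fin 849 5 784)
(mv 1038 (cons (fin 1037 1 973)
(mv 978 (cons (fin 1039 1 974)
(mv 1042 (cons (fin 1041 0 974)
(fin 1043 0 975)))))))))))))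
(cons (mv 909 (cons (fin 910 3 909)
(mv 914 (cons (fin 913 2 910)
(mv 978 (cons (fin 915 2 911)
(mv 1042 (cons (fin 1041 0 974)
(fin 1043 0 975)))))))))
(mv 909 (cons (fin 910 3 909)
(mv 914 (cons (fin 913 2 910)
(mv 978 (cons (fin 915 2 911)
(mv 1038 (cons (fin 1037 1 973)
(fin 1039 1 974)))))))))))
(cons (cons (mv 913 (cons (fin 914 2 910)
(mv 785 (cons (fin 849 5 784)
(mv 1038 (cons (fin 1037 1 973)
(mv 978 (cons (fin 1039 1 974)
(mv 1042 (cons (fin 1041 0 974)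
(fin 1043 0 975)))))))))))
(mv 909 (cons (fin 910 3 909)
(mv 1037 (cons (fin 1038 1 973)
(mv 1042 (cons (fin 1041 0 974)
(mv 978 (cons (fin 1043 0 975)
(mv 915 (cons (fin 914 2 911)
(mv 979 (cons (fin 1039 1 975)
(fin 916 2 912))))))))))))))
(cons (mv 909 (cons (fin 910 3 909)
(mv 1038 (cons (fin 1037 1 973)
(mv 978 (cons (fin 1039 1 974)
(mv 1042 (cons (fin 1041 0 974)
(fin 1043 0 975)))))))))
(mv 910 (cons (fin 909 3 909)
(mv 1038 (cons (fin 1037 1 973)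
(fin 846 6 782))))))))))
(cons (mv 977 (cons (cons (mv 909 (cons (fin 910 3 909)
(mv 908 (cons (fin 973 3 908)
(mv 914 (cons (fin 913 2 910)
(mv 978 (cons (fin 915 2 911)
(mv 1038 (cons (fin 1037 1 973)
(fin 1039 1 974)))))))))))
(cons (mv 909 (cons (fin 910 3 909)
(mv 908 (cons (fin 973 3 908)
(mv 914 (cons (fin 913 2 910)
(mv 978 (cons (fin 915 2 911)
(mv 979 (cons (fin 1039 1 975)
(mv 1043 (cons (fin 1042 0 975)
(fin 1044 0 976)))))))))))))
(mv 913 (cons (fin 914 2 910)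
(mv 785 (cons (fin 849 5 784)
(mv 1037 (cons (fin 1038 1 973)
(mv 973 (cons (fin 1036 1 972)
(mv 908 (cons (fin 909 3 908)
(mv 972 (cons (fin 907 3 907)
(fin 1039 0 972)))))))))))))))
(cons (mv 913 (cons (fin 914 2 910)
(mv 785 (cons (fin 849 5 784)
(mv 1038 (cons (fin 1037 1 973)
(mv 846 (cons (fin 910 6 782)
(mv 784 (cons (fin 786 1 782)
(mv 845 (cons (fin 782 1 781)
(fin 844 2 780)))))))))))))
(cons (mv 909 (cons (fin 910 3 909)
(mv 908 (cons (fin 973 3 908)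
(mv 1038 (cons (fin 1037 1 973)
(mv 978 (cons (fin 1039 1 974)
(mv 915 (cons (fin 914 2 911)
(mv 979 (cons (fin 916 2 912)
(mv 1043 (cons (fin 1042 0 975)
(fin 1044 0 976)))))))))))))))
(mv 909 (cons (fin 910 3 909)
(mv 973 (cons (fin 908 3 908)
(mv 1037 (cons (fin 1036 1 972)
(fin 1038 1 973)))))))))))
(cons (mv 973 (cons (fin 1041 0 973)
(mv 908 (cons (fin 909 3 908)
(mv 972 (cons (fin 907 3 907)
(mv 1036 (cons (fin 1035 1 971)
(fin 1037 1 972)))))))))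
(mv 973 (cons (fin 1041 0 973)
(mv 972 (cons (fin 1039 0 972)
(mv 1036 (cons (fin 1035 1 971)
(fin 1037 1 972)))))))))))))
(cons (mv 783 (cons (fin 911 4 783)
(mv 1041 (cons (cons (mv 974 (cons (fin 973 0 973)
(mv 1042 (cons (fin 1039 3 974)
(fin 1043 3 975)))))
(mv 974 (cons (fin 973 0 973)
(mv 977 (cons (mv 909 (cons (fin 910 3 909)
(mv 914 (cons (fin 913 2 910)
(mv 978 (cons (fin 915 2 911)
(mv 979 (cons (fin 1039 1 975)
(fin 980 1 976)))))))))
(cons (mv 914 (cons (fin 913 2 910)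
(mv 978 (cons (fin 915 2 911)
(mv 979 (cons (fin 1039 1 975)
(fin 980 1 976)))))))
(mv 910 (cons (fin 909 3 909)
(mv 846 (cons (fin 1038 6 782)
(mv 719 (cons (fin 655 5 654)
(fin 782 6 718)))))))))))))
(cons (mv 1042 (cons (fin 1043 3 975)
(mv 1039 (cons (mv 978 (cons (fin 979 2 975)
(mv 977 (cons (fin 1038 1 974)
(mv 914 (cons (fin 915 2 911)
(mv 786 (cons (fin 850 5 785)
(mv 1102 (cons (fin 1103 1 1038)
(mv 1106 (cons (fin 1107 0 1039)
(mv 913 (cons (fin 849 7 849)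
(fin 1170 7 913)))))))))))))))
(cons (mv 1103 (cons (fin 1102 1 1038)
(mv 1167 (cons (fin 912 6 911)
(fin 1231 6 975)))))
(mv 978 (cons (fin 979 2 975)
(mv 977 (cons (fin 1038 1 974)
(mv 914 (cons (fin 915 2 911)
(mv 786 (cons (fin 850 5 785)
(mv 1106 (cons (fin 1107 0 1039)
(mv 913 (cons (fin 849 7 849)
(fin 1170 7 913))))))))))))))))))
(mv 974 (cons (fin 973 0 973)
(mv 1042 (cons (fin 1043 3 975)
(fin 977 0 974))))))))))
(mv 911 (cons (fin 783 4 783)
(mv 1041 (cons (cons (mv 974 (cons (fin 973 0 973)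
(mv 1042 (cons (fin 1039 3 974)
(fin 1043 3 975)))))
(mv 1042 (cons (fin 1043 3 975)
(mv 1039 (cons (mv 1102 (cons (fin 1103 1 1038)
(fin 1038 5 846)))
(cons (mv 782 (cons (fin 846 7 782)
(mv 978 (cons (fin 979 2 975)
(mv 977 (cons (fin 1038 1 974)
(mv 914 (cons (fin 915 2 911)
(mv 786 (cons (fin 850 5 785)
(mv 1106 (cons (fin 1107 0 1039)
(mv 913 (cons (fin 849 7 849)
(fin 1170 7 913)))))))))))))))
(mv 782 (cons (fin 846 7 782)
(mv 978 (cons (fin 979 2 975)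
(mv 1103 (cons (fin 1102 1 1038)
(mv 1167 (cons (fin 912 6 911)
(fin 1231 6 975)))))))))))))))
(cons (mv 974 (cons (fin 973 0 973)
(mv 1038 (cons (mv 1102 (cons (fin 1039 5 846)
(fin 1166 6 910)))
(cons (mv 977 (cons (fin 1037 1 973)
(mv 913 (cons (fin 914 2 910)
(mv 785 (cons (fin 849 5 784)
(mv 978 (cons (fin 1039 1 974)
(mv 979 (cons (fin 912 3 911)
(fin 980 1 976)))))))))))
(mv 977 (cons (fin 1037 1 973)
(mv 914 (cons (fin 913 2 910)
(mv 978 (cons (fin 915 2 911)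
(mv 979 (cons (fin 912 3 911)
(fin 980 1 976))))))))))))))
(mv 974 (cons (fin 973 0 973)
(mv 1042 (cons (fin 1043 3 975)
(fin 977 0 974))))))))))))))))))
(cons (cons (mv 848 (cons (cons (mv 783 (cons (fin 912 7 783)
(mv 782 (cons (cons (mv 781 (cons (fin 780 0 780)
(mv 849 (cons (fin 846 3 781)
(fin 850 3 782)))))
(mv 849 (cons (fin 850 3 782)
(mv 846 (cons (mv 785 (cons (fin 786 2 782)
(mv 913 (cons (fin 914 0 846)
(fin 977 5 784)))))
(mv 909 (cons (fin 910 1 845)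
(mv 845 (cons (fin 908 1 844)
(mv 844 (cons (fin 843 2 779)
(fin 784 2 780))))))))))))
(cons (mv 781 (cons (fin 780 0 780)
(mv 784 (cons (cons (mv 716 (cons (fin 717 3 716)
(mv 720 (cons (fin 721 2 717)
(mv 592 (cons (fin 656 5 591)
(mv 845 (cons (fin 844 1 780)
(mv 846 (cons (fin 785 1 781)
(mv 909 (cons (fin 908 1 844)
(mv 718 (cons (fin 654 5 653)
(fin 973 6 717)))))))))))))))
(cons (mv 716 (cons (fin 717 3 716)
(mv 721 (cons (fin 720 2 717)
(mv 785 (cons (fin 722 2 718)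
(mv 786 (cons (fin 846 1 782)
(fin 787 1 783)))))))))
(mv 720 (cons (fin 721 2 717)
(mv 592 (cons (fin 656 5 591)
(mv 845 (cons (fin 844 1 780)
(mv 846 (cons (fin 785 1 781)
(mv 909 (cons (fin 908 1 844)
(mv 718 (cons (fin 654 5 653)
(fin 973 6 717)))))))))))))))
(cons (cons (mv 716 (cons (fin 717 3 716)
(mv 845 (cons (fin 844 1 780)
(mv 785 (cons (fin 846 1 781)
(mv 722 (cons (fin 721 2 718)
(mv 786 (cons (fin 787 1 783)
(fin 723 2 719)))))))))))
(mv 716 (cons (fin 717 3 716)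
(mv 845 (cons (fin 844 1 780)
(mv 846 (cons (fin 785 1 781)
(mv 909 (cons (fin 908 1 844)
(mv 718 (cons (fin 654 5 653)
(fin 973 6 717))))))))))))
(cons (mv 717 (cons (fin 716 3 716)
(mv 720 (cons (fin 721 2 717)
(mv 656 (cons (fin 592 5 591)
(mv 591 (cons (fin 655 7 591)
(mv 657 (cons (fin 593 6 592)
(mv 718 (cons (fin 719 2 653)
(mv 590 (cons (fin 654 4 590)
(mv 845 (cons (fin 844 1 780)
(mv 909 (cons (fin 973 6 717)
(mv 908 (cons (fin 846 1 844)
(fin 972 5 716)))))))))))))))))))))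
(mv 717 (cons (fin 716 3 716)
(mv 718 (cons (fin 785 3 717)
(mv 590 (cons (fin 654 4 590)
(mv 720 (cons (fin 721 2 717)
(mv 656 (cons (fin 592 5 591)
(mv 657 (cons (fin 719 2 653)
(fin 593 6 592)))))))))))))))))))
(mv 781 (cons (fin 780 0 780)
(mv 849 (cons (fin 850 3 782)
(fin 784 0 781))))))))))
(cons (mv 849 (cons (cons (mv 846 (cons (mv 781 (cons (fin 782 3 781)
(mv 780 (cons (fin 845 3 780)
(mv 785 (cons (fin 786 2 782)
(mv 913 (cons (fin 914 0 846)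
(fin 977 5 784)))))))))
(cons (mv 781 (cons (fin 782 3 781)
(mv 845 (cons (fin 780 3 780)
(mv 909 (cons (fin 908 1 844)
(fin 910 1 845)))))))
(mv 785 (cons (fin 786 2 782)
(mv 913 (cons (fin 914 0 846)
(fin 977 5 784))))))))
(cons (mv 850 (cons (cons (mv 782 (cons (fin 783 3 782)
(mv 787 (cons (fin 786 2 783)
(mv 851 (cons (fin 788 2 784)
(mv 915 (cons (fin 914 0 847)
(fin 916 0 848)))))))))
(mv 787 (cons (fin 786 2 783)
(mv 851 (cons (fin 788 2 784)
(mv 915 (cons (fin 914 0 847)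
(fin 916 0 848))))))))
(cons (mv 783 (cons (fin 782 3 782)
(mv 851 (cons (fin 784 3 783)
(mv 915 (cons (fin 914 0 847)
(fin 916 0 848)))))))
(cons (mv 783 (cons (fin 782 3 782)
(mv 787 (cons (fin 786 2 783)
(mv 851 (cons (fin 784 3 783)
(fin 788 2 784)))))))
(mv 782 (cons (fin 783 3 782)
(mv 786 (cons (fin 787 2 783)
(mv 914 (cons (fin 915 0 847)
(mv 913 (cons (mv 722 (cons (fin 658 5 657)
(fin 977 5 721)))
(cons (mv 722 (cons (fin 658 5 657)
(mv 659 (cons (fin 723 6 658)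
(mv 721 (cons (fin 657 7 657)
(mv 978 (cons (fin 785 7 721)
(mv 1042 (cons (fin 1106 7 849)
(mv 1043 (cons (fin 979 4 786)
(fin 1107 4 850)))))))))))))
(mv 977 (cons (fin 785 5 784)
(fin 1041 6 785))))))))))))))))
(mv 850 (cons (cons (mv 782 (cons (fin 783 3 782)
(mv 781 (cons (fin 846 3 781)
(mv 787 (cons (fin 786 2 783)
(mv 851 (cons (fin 788 2 784)
(mv 915 (cons (fin 914 0 847)
(fin 916 0 848)))))))))))
(mv 783 (cons (fin 782 3 782)
(mv 787 (cons (fin 786 2 783)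
(mv 851 (cons (fin 784 3 783)
(fin 788 2 784))))))))
(cons (mv 786 (cons (fin 787 2 783)
(mv 914 (cons (fin 915 0 847)
(mv 846 (cons (fin 913 0 846)
(mv 781 (cons (fin 782 3 781)
(mv 845 (cons (fin 780 3 780)
(mv 909 (cons (fin 908 1 844)
(fin 910 1 845)))))))))))))
(cons (mv 786 (cons (fin 787 2 783)
(mv 914 (cons (fin 915 0 847)
(mv 913 (cons (fin 846 0 846)
(mv 722 (cons (fin 658 5 657)
(fin 977 5 721)))))))))
(mv 782 (cons (fin 783 3 782)
(mv 846 (cons (fin 781 3 781)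
(mv 914 (cons (fin 913 0 846)
(fin 915 0 847)))))))))))))
(cons (mv 846 (cons (cons (mv 781 (cons (fin 782 3 781)
(mv 785 (cons (fin 786 2 782)
(mv 845 (cons (fin 780 3 780)
(fin 784 2 781)))))))
(mv 785 (cons (fin 786 2 782)
(mv 845 (cons (fin 784 2 781)
(mv 909 (cons (fin 908 1 844)
(fin 910 1 845))))))))
(cons (mv 781 (cons (fin 782 3 781)
(mv 845 (cons (fin 780 3 780)
(mv 909 (cons (fin 908 1 844)
(fin 910 1 845)))))))
(mv 782 (cons (fin 781 3 781)
(mv 783 (cons (fin 850 3 782)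
(mv 785 (cons (fin 786 2 782)
(mv 910 (cons (fin 909 1 845)
(mv 719 (cons (fin 655 5 654)
(fin 974 6 718))))))))))))))
(cons (mv 846 (cons (cons (mv 781 (cons (fin 782 3 781)
(mv 780 (cons (fin 845 3 780)
(mv 909 (cons (fin 910 1 845)
(mv 913 (cons (fin 914 0 846)
(mv 977 (cons (fin 785 5 784)
(mv 1041 (cons (fin 784 7 784)
(mv 1042 (cons (fin 1106 4 849)
(mv 975 (cons (fin 1043 3 975)
(fin 974 0 974)))))))))))))))))
(cons (mv 909 (cons (fin 910 1 845)
(mv 845 (cons (fin 908 1 844)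
(mv 780 (cons (fin 781 3 780)
(mv 779 (cons (fin 844 3 779)
(mv 785 (cons (fin 784 2 781)
(mv 913 (cons (fin 914 0 846)
(fin 977 5 784)))))))))))))
(mv 781 (cons (fin 782 3 781)
(mv 845 (cons (fin 780 3 780)
(mv 909 (cons (fin 908 1 844)
(fin 910 1 845)))))))))
(cons (mv 909 (cons (fin 910 1 845)
(mv 845 (cons (fin 908 1 844)
(mv 784 (cons (fin 785 2 781)
(mv 783 (cons (fin 844 2 780)
(mv 850 (cons (fin 782 3 782)
(fin 851 3 783)))))))))))
(cons (mv 781 (cons (fin 782 3 781)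
(mv 780 (cons (fin 845 3 780)
(mv 913 (cons (fin 914 0 846)
(mv 977 (cons (fin 785 5 784)
(mv 1041 (cons (fin 784 7 784)
(mv 1042 (cons (fin 1106 4 849)
(mv 975 (cons (fin 1043 3 975)
(fin 974 0 974)))))))))))))))
(mv 781 (cons (fin 782 3 781)
(mv 909 (cons (fin 910 1 845)
(mv 913 (cons (fin 914 0 846)
(mv 977 (cons (fin 785 5 784)
(mv 1041 (cons (fin 784 7 784)
(mv 1042 (cons (fin 1106 4 849)
(mv 975 (cons (fin 1043 3 975)
(fin 974 0 974)))))))))))))))))))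
(mv 785 (cons (mv 786 (cons (fin 846 2 782)
(mv 787 (cons (fin 784 1 783)
(fin 788 1 784)))))
(cons (mv 913 (cons (fin 977 5 784)
(mv 846 (cons (fin 914 0 846)
(mv 845 (cons (fin 784 2 781)
(mv 909 (cons (fin 908 1 844)
(fin 910 1 845)))))))))
(mv 913 (cons (fin 977 5 784)
(mv 721 (cons (cons (mv 656 (cons (fin 720 7 656)
(mv 592 (cons (fin 657 7 592)
(mv 658 (cons (fin 722 6 657)
(mv 914 (cons (fin 978 4 721)
(mv 915 (cons (fin 916 3 848)
(fin 850 0 847)))))))))))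
(mv 656 (cons (fin 720 7 656)
(mv 657 (cons (fin 592 7 592)
(mv 658 (cons (fin 594 6 593)
(fin 722 6 657))))))))
(cons (mv 658 (cons (fin 722 6 657)
(mv 594 (cons (fin 657 6 593)
(mv 914 (cons (fin 978 4 721)
(mv 915 (cons (fin 916 3 848)
(fin 850 0 847)))))))))
(cons (mv 656 (cons (fin 720 7 656)
(mv 592 (cons (fin 657 7 592)
(mv 914 (cons (fin 978 4 721)
(mv 915 (cons (fin 916 3 848)
(fin 850 0 847)))))))))
(mv 656 (cons (fin 720 7 656)
(mv 658 (cons (fin 722 6 657)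
(mv 914 (cons (fin 978 4 721)
(mv 915 (cons (fin 916 3 848)
(fin 850 0 847))))))))))))))))))))))
(mv 912 (cons (cons (mv 785 (cons (fin 849 6 784)
(mv 784 (cons (fin 721 6 720)
(mv 1039 (cons (fin 975 5 783)
(fin 1103 5 847)))))))
(mv 1039 (cons (fin 1103 5 847)
(mv 784 (cons (fin 975 5 783)
(mv 977 (cons (fin 1041 4 784)
(mv 720 (cons (fin 913 4 720)
(mv 655 (cons (fin 719 7 655)
(mv 656 (cons (fin 591 7 591)
(mv 657 (cons (fin 593 6 592)
(fin 721 6 656))))))))))))))))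
(cons (mv 785 (cons (fin 849 6 784)
(mv 784 (cons (fin 721 6 720)
(mv 787 (cons (fin 786 1 783)
(mv 845 (cons (fin 846 2 781)
(mv 977 (cons (fin 1041 4 784)
(mv 913 (cons (fin 720 4 720)
(mv 915 (cons (fin 914 3 847)
(mv 979 (cons (cons (mv 978 (cons (fin 980 3 912)
(fin 916 2 912)))
(mv 851 (cons (cons (mv 724 (cons (fin 788 6 723)
(mv 723 (cons (fin 660 6 659)
(mv 980 (cons (fin 916 4 723)
(fin 1044 4 787)))))))
(mv 980 (cons (fin 1044 4 787)
(mv 723 (cons (fin 916 4 723)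
(mv 658 (cons (fin 722 7 658)
(mv 659 (cons (fin 594 7 594)
(mv 660 (cons (fin 596 6 595)
(fin 724 6 659))))))))))))
(cons (mv 788 (cons (fin 724 6 723)
(mv 1043 (cons (fin 852 6 787)
(mv 1106 (cons (fin 1042 5 850)
(mv 1107 (cons (fin 1170 5 914)
(mv 1108 (cons (fin 1044 4 851)
(fin 1172 4 915)))))))))))
(cons (mv 1044 (cons (fin 980 4 787)
(mv 1043 (cons (fin 1108 4 851)
(mv 852 (cons (fin 788 6 787)
(mv 1106 (cons (fin 1042 5 850)
(mv 1107 (cons (fin 1170 5 914)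
(fin 916 6 851)))))))))))
(mv 724 (cons (fin 788 6 723)
(mv 723 (cons (fin 660 6 659)
(mv 658 (cons (fin 722 7 658)
(mv 659 (cons (fin 594 7 594)
(mv 916 (cons (fin 852 4 659)
(fin 980 4 723))))))))))))))))
(cons (mv 978 (cons (fin 916 2 912)
(mv 851 (cons (fin 1042 5 786)
(mv 788 (cons (fin 724 6 723)
(mv 1043 (cons (fin 1044 0 976)
(fin 852 6 787)))))))))
(mv 978 (cons (fin 980 3 912)
(mv 851 (cons (fin 1042 5 786)
(mv 788 (cons (fin 724 6 723)
(mv 1043 (cons (fin 1044 0 976)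
(fin 852 6 787))))))))))))))))))))))))))
(mv 849 (cons (fin 785 6 784)
(mv 1039 (cons (fin 1103 5 847)
(mv 846 (cons (mv 913 (cons (fin 845 0 845)
(fin 914 0 846)))
(cons (mv 781 (cons (fin 782 3 781)
(mv 845 (cons (fin 780 3 780)
(mv 909 (cons (fin 908 1 844)
(fin 910 1 845)))))))
(mv 781 (cons (fin 782 3 781)
(mv 909 (cons (fin 910 1 845)
(mv 914 (cons (fin 913 0 846)
(mv 850 (cons (fin 915 0 847)
(mv 787 (cons (fin 786 2 783)
(mv 851 (cons (fin 788 2 784)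
(mv 659 (cons (fin 723 5 658)
(mv 978 (cons (fin 1042 6 786)
(mv 977 (cons (fin 979 1 975)
(mv 1038 (cons (fin 975 1 974)
(fin 1037 2 973)))))))))))))))))))))))))))))))))
(cons (cons (mv 912 (cons (fin 783 7 783)
(mv 1039 (cons (fin 1103 5 847)
(mv 784 (cons (fin 975 5 783)
(mv 721 (cons (fin 785 6 720)
(mv 720 (cons (fin 657 6 656)
(mv 977 (cons (fin 913 4 720)
(fin 1041 4 784)))))))))))))
(mv 912 (cons (fin 783 7 783)
(mv 1039 (cons (fin 1103 5 847)
(mv 784 (cons (fin 975 5 783)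
(mv 977 (cons (fin 1041 4 784)
(mv 720 (cons (fin 913 4 720)
(mv 655 (cons (fin 719 7 655)
(mv 656 (cons (fin 591 7 591)
(mv 657 (cons (fin 593 6 592)
(fin 721 6 656))))))))))))))))))
(cons (mv 912 (cons (fin 783 7 783)
(mv 849 (cons (fin 785 6 784)
(mv 1039 (cons (fin 1103 5 847)
(mv 846 (cons (mv 913 (cons (fin 845 0 845)
(fin 914 0 846)))
(cons (mv 781 (cons (fin 782 3 781)
(mv 845 (cons (fin 780 3 780)
(mv 909 (cons (fin 908 1 844)
(fin 910 1 845)))))))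
(mv 781 (cons (fin 782 3 781)
(mv 909 (cons (fin 910 1 845)
(mv 914 (cons (fin 913 0 846)
(mv 850 (cons (fin 915 0 847)
(mv 787 (cons (fin 786 2 783)
(mv 851 (cons (fin 788 2 784)
(mv 659 (cons (fin 723 5 658)
(mv 978 (cons (fin 1042 6 786)
(mv 977 (cons (fin 979 1 975)
(mv 1038 (cons (fin 975 1 974)
(fin 1037 2 973))))))))))))))))))))))))))))))
(mv 912 (cons (fin 783 7 783)
(mv 785 (cons (fin 849 6 784)
(mv 784 (cons (fin 721 6 720)
(mv 1039 (cons (fin 975 5 783)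
(fin 1103 5 847)))))))))))))
(mv 783 (cons (cons (mv 911 (cons (fin 975 4 783)
(mv 912 (cons (fin 848 7 783)
(fin 719 4 719)))))
(mv 848 (cons (fin 912 7 783)
(mv 782 (cons (cons (mv 781 (cons (fin 780 0 780)
(mv 849 (cons (fin 846 3 781)
(fin 850 3 782)))))
(mv 849 (cons (fin 850 3 782)
(mv 846 (cons (cons (mv 785 (cons (fin 786 2 782)
(mv 784 (cons (fin 845 1 781)
(mv 717 (cons (fin 718 3 717)
(mv 721 (cons (fin 722 2 718)
(mv 593 (cons (fin 657 5 592)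
(mv 910 (cons (fin 909 1 845)
(mv 719 (cons (fin 655 5 654)
(fin 974 6 718)))))))))))))))
(mv 785 (cons (fin 786 2 782)
(mv 784 (cons (fin 845 1 781)
(mv 717 (cons (fin 718 3 717)
(mv 721 (cons (fin 722 2 718)
(mv 657 (cons (fin 593 5 592)
(mv 594 (cons (fin 658 6 593)
(mv 656 (cons (fin 592 7 592)
(mv 913 (cons (fin 914 0 846)
(fin 720 7 656))))))))))))))))))
(cons (mv 909 (cons (fin 910 1 845)
(mv 845 (cons (fin 908 1 844)
(mv 844 (cons (fin 843 2 779)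
(fin 784 2 780)))))))
(mv 785 (cons (fin 786 2 782)
(mv 910 (cons (fin 909 1 845)
(mv 719 (cons (fin 655 5 654)
(fin 974 6 718)))))))))))))
(cons (mv 781 (cons (fin 780 0 780)
(mv 784 (cons (cons (mv 716 (cons (fin 717 3 716)
(mv 720 (cons (fin 721 2 717)
(mv 592 (cons (fin 656 5 591)
(mv 845 (cons (fin 844 1 780)
(mv 846 (cons (fin 785 1 781)
(mv 909 (cons (fin 908 1 844)
(mv 718 (cons (fin 654 5 653)
(fin 973 6 717)))))))))))))))
(cons (mv 716 (cons (fin 717 3 716)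
(mv 721 (cons (fin 720 2 717)
(mv 785 (cons (fin 722 2 718)
(mv 786 (cons (fin 846 1 782)
(fin 787 1 783)))))))))
(mv 720 (cons (fin 721 2 717)
(mv 592 (cons (fin 656 5 591)
(mv 845 (cons (fin 844 1 780)
(mv 846 (cons (fin 785 1 781)
(mv 909 (cons (fin 908 1 844)
(mv 718 (cons (fin 654 5 653)
(fin 973 6 717)))))))))))))))
(cons (cons (mv 716 (cons (fin 717 3 716)
(mv 845 (cons (fin 844 1 780)
(mv 785 (cons (fin 846 1 781)
(mv 722 (cons (fin 721 2 718)
(mv 786 (cons (fin 787 1 783)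
(fin 723 2 719)))))))))))
(mv 716 (cons (fin 717 3 716)
(mv 845 (cons (fin 844 1 780)
(mv 846 (cons (fin 785 1 781)
(mv 909 (cons (fin 908 1 844)
(mv 718 (cons (fin 654 5 653)
(fin 973 6 717))))))))))))
(cons (mv 717 (cons (fin 716 3 716)
(mv 720 (cons (fin 721 2 717)
(mv 656 (cons (fin 592 5 591)
(mv 591 (cons (fin 655 7 591)
(mv 657 (cons (fin 593 6 592)
(mv 718 (cons (fin 719 2 653)
(mv 590 (cons (fin 654 4 590)
(mv 845 (cons (fin 844 1 780)
(mv 909 (cons (fin 973 6 717)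
(mv 908 (cons (fin 846 1 844)
(fin 972 5 716)))))))))))))))))))))
(mv 717 (cons (fin 716 3 716)
(mv 718 (cons (fin 785 3 717)
(mv 590 (cons (fin 654 4 590)
(mv 720 (cons (fin 721 2 717)
(mv 656 (cons (fin 592 5 591)
(mv 657 (cons (fin 719 2 653)
(fin 593 6 592)))))))))))))))))))
(mv 781 (cons (fin 780 0 780)
(mv 849 (cons (fin 850 3 782)
(fin 784 0 781)))))))))))
(cons (mv 911 (cons (fin 975 4 783)
(mv 719 (cons (cons (mv 654 (cons (fin 718 7 654)
(mv 655 (cons (fin 590 7 590)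
(mv 656 (cons (fin 592 6 591)
(fin 720 6 655)))))))
(mv 656 (cons (fin 720 6 655)
(mv 655 (cons (fin 592 6 591)
(mv 910 (cons (fin 846 5 654)
(fin 974 5 718))))))))
(cons (mv 654 (cons (fin 718 7 654)
(mv 655 (cons (fin 590 7 590)
(mv 910 (cons (fin 846 5 654)
(fin 974 5 718)))))))
(mv 718 (cons (fin 654 7 654)
(mv 720 (cons (fin 656 6 655)
(mv 910 (cons (fin 974 5 718)
(mv 717 (cons (cons (mv 784 (cons (fin 716 0 716)
(fin 785 0 717)))
(mv 652 (cons (fin 653 3 652)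
(mv 651 (cons (fin 716 3 651)
(mv 781 (cons (fin 780 1 716)
(mv 721 (cons (fin 782 1 717)
(mv 658 (cons (fin 657 2 654)
(mv 722 (cons (fin 659 2 655)
(mv 786 (cons (fin 785 0 718)
(fin 787 0 719))))))))))))))))
(cons (mv 652 (cons (fin 653 3 652)
(mv 780 (cons (fin 781 1 716)
(mv 785 (cons (fin 784 0 717)
(mv 721 (cons (fin 786 0 718)
(mv 658 (cons (fin 657 2 654)
(mv 722 (cons (fin 782 1 718)
(fin 659 2 655)))))))))))))
(mv 652 (cons (fin 653 3 652)
(mv 716 (cons (fin 651 3 651)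
(fin 784 0 716)))))))))))))))))))
(mv 848 (cons (fin 912 7 783)
(mv 911 (cons (fin 975 4 783)
(mv 849 (cons (cons (mv 850 (cons (fin 782 3 782)
(fin 910 1 846)))
(mv 846 (cons (cons (mv 781 (cons (fin 782 3 781)
(mv 785 (cons (fin 786 2 782)
(mv 845 (cons (fin 780 3 780)
(fin 784 2 781)))))))
(mv 785 (cons (fin 786 2 782)
(mv 845 (cons (fin 784 2 781)
(mv 909 (cons (fin 908 1 844)
(fin 910 1 845))))))))
(cons (mv 781 (cons (fin 782 3 781)
(mv 845 (cons (fin 780 3 780)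
(mv 909 (cons (fin 908 1 844)
(fin 910 1 845)))))))
(mv 782 (cons (fin 781 3 781)
(mv 718 (cons (fin 654 4 654)
(mv 785 (cons (fin 786 2 782)
(mv 717 (cons (fin 784 3 717)
(mv 910 (cons (fin 909 1 845)
(fin 653 7 653)))))))))))))))
(cons (mv 850 (cons (fin 910 1 846)
(mv 784 (cons (fin 851 3 783)
(mv 656 (cons (fin 720 5 655)
(mv 786 (cons (fin 787 2 783)
(mv 785 (cons (fin 846 1 782)
(mv 722 (cons (fin 723 2 719)
(mv 658 (cons (fin 594 5 593)
(fin 913 5 657)))))))))))))))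
(mv 782 (cons (fin 850 3 782)
(mv 781 (cons (fin 846 3 781)
(fin 780 0 780))))))))))))))))
(cons (mv 912 (cons (cons (mv 783 (cons (fin 848 7 783)
(mv 911 (cons (fin 719 4 719)
(fin 975 4 783)))))
(mv 1039 (cons (cons (mv 848 (cons (fin 1103 5 847)
(mv 784 (cons (fin 975 5 783)
(mv 721 (cons (fin 785 6 720)
(mv 720 (cons (fin 657 6 656)
(mv 977 (cons (fin 913 4 720)
(fin 1041 4 784)))))))))))
(mv 1038 (cons (cons (mv 977 (cons (fin 1037 2 973)
(mv 978 (cons (fin 975 1 974)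
(fin 979 1 975)))))
(mv 975 (cons (cons (mv 784 (cons (fin 848 5 783)
(mv 911 (cons (fin 1102 5 846)
(mv 782 (cons (fin 846 7 782)
(mv 1037 (cons (fin 1036 2 972)
(mv 973 (cons (fin 972 3 972)
(mv 974 (cons (fin 1041 3 973)
(fin 913 2 909)))))))))))))
(mv 784 (cons (fin 848 5 783)
(mv 1037 (cons (fin 1036 2 972)
(mv 972 (cons (fin 973 3 972)
(mv 1101 (cons (fin 1100 1 1036)
(mv 1041 (cons (fin 1102 1 1037)
(mv 1042 (cons (fin 974 3 974)
(fin 1043 3 975))))))))))))))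
(cons (mv 784 (cons (fin 848 5 783)
(mv 911 (cons (fin 1102 5 846)
(mv 846 (cons (fin 782 7 782)
(mv 845 (cons (fin 844 0 844)
(mv 913 (cons (fin 910 3 845)
(fin 914 3 846)))))))))))
(cons (mv 784 (cons (fin 848 5 783)
(mv 1037 (cons (fin 1036 2 972)
(mv 973 (cons (fin 972 3 972)
(mv 974 (cons (fin 1041 3 973)
(fin 913 2 909)))))))))
(mv 911 (cons (fin 1102 5 846)
(mv 782 (cons (fin 846 7 782)
(mv 1037 (cons (fin 1036 2 972)
(mv 973 (cons (fin 972 3 972)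
(mv 974 (cons (fin 1041 3 973)
(fin 913 2 909))))))))))))))))
(cons (mv 1041 (cons (cons (mv 973 (cons (fin 974 3 973)
(mv 978 (cons (fin 977 2 974)
(mv 1042 (cons (fin 979 2 975)
(mv 975 (cons (fin 1043 3 975)
(mv 1102 (cons (fin 1101 1 1037)
(fin 911 5 846)))))))))))
(mv 974 (cons (fin 973 3 973)
(mv 975 (cons (fin 1042 3 974)
(mv 1102 (cons (fin 1101 1 1037)
(fin 911 5 846))))))))
(cons (mv 978 (cons (fin 977 2 974)
(mv 1042 (cons (fin 979 2 975)
(mv 975 (cons (fin 1043 3 975)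
(mv 1102 (cons (fin 1101 1 1037)
(fin 911 5 846)))))))))
(cons (mv 973 (cons (fin 974 3 973)
(mv 978 (cons (fin 977 2 974)
(mv 1042 (cons (fin 979 2 975)
(mv 1043 (cons (fin 975 3 975)
(mv 1107 (cons (fin 1106 0 1039)
(fin 1108 0 1040)))))))))))
(mv 974 (cons (fin 973 3 973)
(mv 977 (cons (fin 978 2 974)
(mv 848 (cons (fin 784 4 784)
(mv 1102 (cons (fin 1101 1 1037)
(mv 910 (cons (fin 911 6 846)
(mv 845 (cons (fin 909 7 845)
(mv 846 (cons (fin 913 0 845)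
(fin 781 7 781)))))))))))))))))))
(mv 977 (cons (fin 1037 2 973)
(mv 978 (cons (fin 979 1 975)
(fin 1041 2 974)))))))))
(cons (mv 977 (cons (cons (mv 978 (cons (fin 979 1 975)
(mv 1038 (cons (fin 975 1 974)
(fin 1037 2 973)))))
(mv 1038 (cons (fin 1037 2 973)
(mv 1041 (cons (cons (mv 973 (cons (fin 974 3 973)
(mv 1102 (cons (fin 1101 1 1037)
(mv 911 (cons (fin 975 5 846)
(mv 909 (cons (fin 910 0 909)
(mv 1042 (cons (fin 1103 1 1038)
(mv 1043 (cons (fin 1044 3 976)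
(mv 1107 (cons (fin 1106 0 1039)
(fin 1108 0 1040)))))))))))))))
(mv 1102 (cons (fin 1101 1 1037)
(mv 911 (cons (fin 975 5 846)
(mv 909 (cons (fin 910 0 909)
(mv 1042 (cons (fin 1103 1 1038)
(mv 1043 (cons (fin 1044 3 976)
(mv 1107 (cons (fin 1106 0 1039)
(fin 1108 0 1040))))))))))))))
(cons (mv 974 (cons (fin 973 3 973)
(mv 975 (cons (fin 1042 3 974)
(mv 910 (cons (fin 909 3 909)
(mv 846 (cons (fin 782 4 782)
(fin 1103 4 846)))))))))
(cons (mv 973 (cons (fin 974 3 973)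
(mv 1102 (cons (fin 1101 1 1037)
(mv 1042 (cons (fin 1103 1 1038)
(mv 1043 (cons (fin 1044 3 976)
(mv 1107 (cons (fin 1106 0 1039)
(fin 1108 0 1040)))))))))))
(mv 974 (cons (fin 973 3 973)
(mv 1102 (cons (fin 1101 1 1037)
(mv 911 (cons (fin 975 5 846)
(fin 910 6 846))))))))))))))
(cons (mv 978 (cons (fin 979 1 975)
(mv 975 (cons (cons (mv 910 (cons (fin 911 3 910)
(mv 909 (cons (fin 974 3 909)
(mv 914 (cons (fin 915 2 911)
(mv 1042 (cons (fin 1043 0 975)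
(mv 1103 (cons (fin 1167 6 911)
(mv 1041 (cons (fin 1102 1 1038)
(mv 786 (cons (fin 850 5 785)
(mv 1106 (cons (fin 1107 0 1039)
(mv 1170 (cons (fin 913 7 913)
(fin 1234 7 977)))))))))))))))))))
(cons (mv 914 (cons (fin 915 2 911)
(mv 913 (cons (fin 974 2 910)
(mv 1042 (cons (fin 1043 0 975)
(mv 1103 (cons (fin 1167 6 911)
(mv 1041 (cons (fin 1102 1 1038)
(mv 1106 (cons (fin 1107 0 1039)
(fin 1170 7 913)))))))))))))
(mv 910 (cons (fin 911 3 910)
(mv 914 (cons (fin 915 2 911)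
(mv 974 (cons (fin 909 3 909)
(fin 913 2 910)))))))))
(cons (mv 910 (cons (fin 911 3 910)
(mv 909 (cons (fin 974 3 909)
(mv 1042 (cons (fin 1043 0 975)
(mv 1103 (cons (fin 1167 6 911)
(mv 1041 (cons (fin 1102 1 1038)
(mv 1106 (cons (fin 1107 0 1039)
(mv 1170 (cons (fin 913 7 913)
(fin 1234 7 977)))))))))))))))
(cons (mv 910 (cons (fin 911 3 910)
(mv 914 (cons (fin 915 2 911)
(mv 1042 (cons (fin 1043 0 975)
(mv 1103 (cons (fin 1167 6 911)
(mv 1041 (cons (fin 1102 1 1038)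
(mv 786 (cons (fin 850 5 785)
(mv 1106 (cons (fin 1107 0 1039)
(mv 1170 (cons (fin 913 7 913)
(fin 1234 7 977)))))))))))))))))
(mv 910 (cons (fin 911 3 910)
(mv 914 (cons (fin 915 2 911)
(mv 974 (cons (fin 909 3 909)
(mv 973 (cons (fin 972 0 972)
(fin 1041 0 973)))))))))))))))
(mv 978 (cons (fin 979 1 975)
(mv 1038 (cons (fin 1037 2 973)
(fin 1041 2 974))))))))
(cons (mv 848 (cons (fin 1103 5 847)
(mv 784 (cons (cons (mv 721 (cons (fin 785 6 720)
(mv 720 (cons (fin 657 6 656)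
(mv 977 (cons (fin 913 4 720)
(fin 1041 4 784)))))))
(mv 721 (cons (fin 785 6 720)
(mv 720 (cons (fin 657 6 656)
(mv 655 (cons (fin 719 7 655)
(mv 656 (cons (fin 591 7 591)
(fin 911 5 655))))))))))
(cons (mv 977 (cons (fin 1041 4 784)
(mv 720 (cons (fin 913 4 720)
(mv 655 (cons (fin 719 7 655)
(mv 656 (cons (fin 591 7 591)
(fin 911 5 655)))))))))
(mv 785 (cons (fin 721 6 720)
(mv 786 (cons (fin 787 1 783)
(mv 845 (cons (fin 846 2 781)
(mv 1038 (cons (cons (mv 977 (cons (fin 1037 2 973)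
(fin 1041 4 784)))
(mv 973 (cons (mv 972 (cons (fin 1037 3 972)
(mv 974 (cons (fin 1041 3 973)
(fin 971 0 971)))))
(cons (mv 974 (cons (fin 1041 3 973)
(mv 909 (cons (fin 781 4 781)
(mv 1102 (cons (fin 910 7 845)
(fin 1166 7 909)))))))
(mv 1037 (cons (fin 972 3 972)
(mv 909 (cons (fin 1102 4 845)
(mv 1100 (cons (fin 1101 1 1036)
(fin 1036 5 844)))))))))))
(cons (mv 1037 (cons (fin 977 2 973)
(mv 972 (cons (fin 973 3 972)
(mv 1036 (cons (fin 971 3 971)
(mv 1100 (cons (fin 1099 1 1035)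
(fin 1101 1 1036)))))))))
(mv 1041 (cons (fin 977 4 784)
(mv 974 (cons (fin 973 3 973)
(mv 1102 (cons (fin 1101 1 1037)
(mv 910 (cons (fin 909 7 845)
(fin 911 6 846)))))))))))))))))))))))
(mv 848 (cons (fin 1103 5 847)
(mv 784 (cons (fin 975 5 783)
(mv 721 (cons (fin 785 6 720)
(mv 720 (cons (fin 657 6 656)
(mv 655 (cons (fin 719 7 655)
(mv 656 (cons (fin 591 7 591)
(fin 911 5 655))))))))))))))))))
(cons (mv 911 (cons (mv 783 (cons (fin 719 4 719)
(fin 975 4 783)))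
(cons (mv 977 (cons (cons (mv 910 (cons (fin 909 0 909)
(mv 978 (cons (fin 975 3 910)
(fin 979 3 911)))))
(mv 910 (cons (fin 909 0 909)
(mv 913 (cons (mv 846 (cons (fin 845 3 845)
(fin 914 3 846)))
(cons (mv 974 (cons (fin 973 1 909)
(mv 914 (cons (fin 975 1 910)
(mv 851 (cons (fin 850 2 847)
(mv 915 (cons (fin 916 1 912)
(fin 852 2 848)))))))))
(mv 845 (cons (fin 846 3 845)
(mv 974 (cons (fin 973 1 909)
(mv 1038 (cons (fin 1102 6 846)
(mv 1037 (cons (fin 975 1 973)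
(fin 1039 2 973)))))))))))))))
(cons (mv 978 (cons (fin 979 3 911)
(mv 975 (cons (cons (mv 914 (cons (fin 915 2 911)
(mv 913 (cons (fin 846 3 846)
(fin 974 1 910)))))
(mv 1038 (cons (fin 1039 1 974)
(mv 974 (cons (fin 1037 1 973)
(mv 973 (cons (fin 972 2 908)
(fin 913 2 909))))))))
(cons (mv 914 (cons (fin 915 2 911)
(mv 846 (cons (fin 913 3 846)
(mv 1039 (cons (fin 1038 1 974)
(fin 782 7 782)))))))
(mv 914 (cons (fin 915 2 911)
(mv 1038 (cons (fin 1039 1 974)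
(mv 974 (cons (fin 1037 1 973)
(mv 973 (cons (fin 972 2 908)
(fin 1041 0 973))))))))))))))
(mv 910 (cons (fin 909 0 909)
(mv 978 (cons (fin 979 3 911)
(fin 913 0 910))))))))
(mv 783 (cons (fin 719 4 719)
(mv 910 (cons (cons (mv 909 (cons (fin 977 0 909)
(mv 844 (cons (fin 845 3 844)
(mv 843 (cons (fin 908 3 843)
(mv 973 (cons (fin 972 1 908)
(mv 913 (cons (fin 974 1 909)
(mv 914 (cons (fin 846 3 846)
(mv 851 (cons (fin 850 2 847)
(mv 915 (cons (fin 852 2 848)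
(mv 979 (cons (fin 978 0 911)
(fin 980 0 912)))))))))))))))))))
(cons (mv 974 (cons (mv 1038 (cons (fin 846 6 782)
(fin 1102 6 846)))
(cons (mv 913 (cons (fin 973 1 909)
(mv 846 (cons (fin 845 3 845)
(fin 914 3 846)))))
(mv 973 (cons (fin 913 1 909)
(mv 971 (cons (fin 972 2 907)
(mv 1038 (cons (fin 1102 6 846)
(mv 1039 (cons (fin 1041 3 973)
(mv 1037 (cons (fin 977 2 973)
(mv 1101 (cons (fin 1100 1 1036)
(fin 1165 6 909))))))))))))))))
(mv 974 (cons (mv 1038 (cons (fin 846 6 782)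
(fin 1102 6 846)))
(cons (mv 913 (cons (fin 973 1 909)
(mv 846 (cons (fin 845 3 845)
(fin 914 3 846)))))
(mv 973 (cons (fin 913 1 909)
(mv 972 (cons (fin 909 1 908)
(fin 971 2 907))))))))))
(cons (cons (mv 909 (cons (fin 977 0 909)
(mv 844 (cons (fin 845 3 844)
(mv 908 (cons (fin 843 3 843)
(mv 972 (cons (fin 971 1 907)
(fin 973 1 908)))))))))
(mv 909 (cons (fin 977 0 909)
(mv 972 (cons (fin 973 1 908)
(mv 908 (cons (fin 971 1 907)
(mv 843 (cons (fin 844 3 843)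
(mv 907 (cons (fin 842 3 842)
(fin 846 2 843))))))))))))
(cons (mv 909 (cons (fin 977 0 909)
(mv 844 (cons (fin 845 3 844)
(mv 908 (cons (fin 843 3 843)
(mv 907 (cons (fin 846 2 843)
(mv 971 (cons (fin 970 1 906)
(fin 972 1 907)))))))))))
(mv 909 (cons (fin 977 0 909)
(mv 844 (cons (fin 845 3 844)
(mv 908 (cons (fin 843 3 843)
(mv 846 (cons (fin 907 2 843)
(mv 913 (cons (fin 914 3 846)
(mv 974 (cons (fin 973 1 909)
(fin 1038 6 782))))))))))))))))))))))
(cons (mv 848 (cons (fin 783 7 783)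
(mv 1039 (cons (fin 1103 5 847)
(mv 784 (cons (fin 975 5 783)
(mv 721 (cons (fin 785 6 720)
(mv 720 (cons (fin 657 6 656)
(mv 977 (cons (fin 913 4 720)
(fin 1041 4 784)))))))))))))
(mv 783 (cons (fin 848 7 783)
(mv 911 (cons (fin 719 4 719)
(mv 910 (cons (cons (mv 909 (cons (fin 977 0 909)
(mv 844 (cons (fin 845 3 844)
(mv 843 (cons (fin 908 3 843)
(mv 973 (cons (fin 972 1 908)
(mv 913 (cons (fin 974 1 909)
(mv 914 (cons (fin 846 3 846)
(mv 851 (cons (fin 850 2 847)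
(mv 915 (cons (fin 852 2 848)
(mv 979 (cons (fin 978 0 911)
(fin 980 0 912)))))))))))))))))))
(cons (mv 974 (cons (mv 1038 (cons (fin 846 6 782)
(fin 1102 6 846)))
(cons (mv 913 (cons (fin 973 1 909)
(mv 846 (cons (fin 845 3 845)
(fin 914 3 846)))))
(mv 973 (cons (fin 913 1 909)
(mv 971 (cons (fin 972 2 907)
(mv 1038 (cons (fin 1102 6 846)
(mv 1039 (cons (fin 1041 3 973)
(mv 1037 (cons (fin 977 2 973)
(mv 1101 (cons (fin 1100 1 1036)
(fin 1165 6 909))))))))))))))))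
(mv 974 (cons (mv 1038 (cons (fin 846 6 782)
(fin 1102 6 846)))
(cons (mv 913 (cons (fin 973 1 909)
(mv 846 (cons (fin 845 3 845)
(fin 914 3 846)))))
(mv 973 (cons (fin 913 1 909)
(mv 972 (cons (fin 909 1 908)
(fin 971 2 907))))))))))
(cons (cons (mv 909 (cons (fin 977 0 909)
(mv 844 (cons (fin 845 3 844)
(mv 908 (cons (fin 843 3 843)
(mv 972 (cons (fin 971 1 907)
(fin 973 1 908)))))))))
(mv 909 (cons (fin 977 0 909)
(mv 972 (cons (fin 973 1 908)
(mv 908 (cons (fin 971 1 907)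
(mv 843 (cons (fin 844 3 843)
(mv 907 (cons (fin 842 3 842)
(fin 846 2 843))))))))))))
(cons (mv 909 (cons (fin 977 0 909)
(mv 844 (cons (fin 845 3 844)
(mv 908 (cons (fin 843 3 843)
(mv 907 (cons (fin 846 2 843)
(mv 971 (cons (fin 970 1 906)
(fin 972 1 907)))))))))))
(mv 909 (cons (fin 977 0 909)
(mv 844 (cons (fin 845 3 844)
(mv 908 (cons (fin 843 3 843)
(mv 846 (cons (fin 907 2 843)
(mv 913 (cons (fin 914 3 846)
(mv 974 (cons (fin 973 1 909)
(fin 1038 6 782)))))))))))))))))))))))))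
(cons (mv 783 (cons (cons (mv 911 (cons (fin 975 4 783)
(mv 912 (cons (fin 848 7 783)
(fin 719 4 719)))))
(mv 848 (cons (fin 912 7 783)
(mv 849 (cons (cons (mv 782 (cons (fin 850 3 782)
(mv 781 (cons (fin 846 3 781)
(fin 780 0 780)))))
(mv 846 (cons (cons (mv 781 (cons (fin 782 3 781)
(mv 845 (cons (fin 780 3 780)
(mv 909 (cons (fin 908 1 844)
(fin 910 1 845)))))))
(cons (mv 909 (cons (fin 910 1 845)
(mv 845 (cons (fin 908 1 844)
(mv 844 (cons (fin 784 2 780)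
(mv 779 (cons (fin 780 3 779)
(mv 843 (cons (fin 778 3 778)
(fin 782 2 779)))))))))))
(mv 909 (cons (fin 910 1 845)
(mv 845 (cons (fin 908 1 844)
(mv 780 (cons (fin 781 3 780)
(mv 844 (cons (fin 779 3 779)
(fin 784 2 780)))))))))))
(cons (mv 781 (cons (fin 782 3 781)
(mv 845 (cons (fin 780 3 780)
(mv 844 (cons (fin 784 2 780)
(mv 908 (cons (fin 907 1 843)
(fin 909 1 844)))))))))
(cons (mv 913 (cons (fin 914 0 846)
(mv 845 (cons (cons (mv 781 (cons (fin 780 3 780)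
(fin 782 3 781)))
(mv 844 (cons (fin 784 2 780)
(mv 779 (cons (fin 780 3 779)
(mv 843 (cons (fin 778 3 778)
(fin 782 2 779))))))))
(cons (mv 780 (cons (fin 781 3 780)
(mv 844 (cons (fin 779 3 779)
(fin 784 2 780)))))
(mv 782 (cons (fin 781 3 781)
(mv 844 (cons (fin 843 2 779)
(fin 784 2 780))))))))))
(mv 782 (cons (fin 781 3 781)
(mv 910 (cons (fin 909 1 845)
(mv 719 (cons (fin 655 5 654)
(fin 974 6 718))))))))))))
(cons (mv 850 (cons (cons (mv 784 (cons (fin 851 3 783)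
(mv 786 (cons (fin 787 2 783)
(mv 914 (cons (fin 915 0 847)
(mv 846 (cons (fin 913 0 846)
(mv 845 (cons (fin 844 2 780)
(mv 909 (cons (fin 908 1 844)
(fin 910 1 845)))))))))))))
(mv 786 (cons (fin 787 2 783)
(mv 914 (cons (fin 915 0 847)
(mv 846 (cons (fin 913 0 846)
(mv 909 (cons (fin 910 1 845)
(mv 845 (cons (fin 908 1 844)
(mv 780 (cons (fin 781 3 780)
(mv 844 (cons (fin 779 3 779)
(fin 784 2 780))))))))))))))))
(cons (mv 787 (cons (fin 786 2 783)
(mv 851 (cons (fin 784 3 783)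
(fin 788 2 784)))))
(cons (mv 784 (cons (fin 851 3 783)
(mv 914 (cons (fin 915 0 847)
(mv 846 (cons (fin 913 0 846)
(mv 845 (cons (fin 844 2 780)
(mv 909 (cons (fin 908 1 844)
(fin 910 1 845)))))))))))
(mv 786 (cons (fin 787 2 783)
(mv 914 (cons (fin 915 0 847)
(mv 913 (cons (fin 846 0 846)
(mv 722 (cons (fin 658 5 657)
(fin 977 5 721)))))))))))))
(cons (mv 782 (cons (fin 850 3 782)
(mv 781 (cons (fin 780 0 780)
(fin 784 0 781)))))
(mv 850 (cons (fin 782 3 782)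
(mv 784 (cons (fin 851 3 783)
(mv 786 (cons (fin 787 2 783)
(mv 914 (cons (fin 915 0 847)
(mv 846 (cons (fin 913 0 846)
(mv 845 (cons (fin 844 2 780)
(mv 909 (cons (fin 908 1 844)
(fin 910 1 845))))))))))))))))))))))
(cons (mv 911 (cons (fin 975 4 783)
(mv 719 (cons (cons (mv 654 (cons (fin 718 7 654)
(mv 655 (cons (fin 590 7 590)
(mv 656 (cons (fin 592 6 591)
(fin 720 6 655)))))))
(mv 656 (cons (fin 720 6 655)
(mv 655 (cons (fin 592 6 591)
(mv 910 (cons (fin 846 5 654)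
(fin 974 5 718))))))))
(cons (mv 654 (cons (fin 718 7 654)
(mv 655 (cons (fin 590 7 590)
(mv 910 (cons (fin 846 5 654)
(fin 974 5 718)))))))
(mv 718 (cons (fin 654 7 654)
(mv 720 (cons (fin 656 6 655)
(mv 910 (cons (fin 974 5 718)
(mv 782 (cons (mv 721 (cons (fin 781 1 717)
(fin 722 1 718)))
(cons (mv 721 (cons (fin 722 1 718)
(mv 657 (cons (fin 658 2 654)
(mv 717 (cons (mv 653 (cons (fin 652 3 652)
(fin 846 7 653)))
(mv 716 (cons (fin 715 0 715)
(fin 784 0 716)))))))))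
(mv 780 (cons (fin 781 2 716)
(mv 717 (cons (mv 653 (cons (fin 652 3 652)
(fin 846 7 653)))
(mv 716 (cons (fin 779 1 715)
(fin 715 0 715)))))))))))))))))))))
(mv 848 (cons (fin 912 7 783)
(mv 975 (cons (fin 911 4 783)
(mv 782 (cons (cons (mv 781 (cons (fin 780 0 780)
(mv 849 (cons (fin 846 3 781)
(fin 850 3 782)))))
(mv 849 (cons (fin 850 3 782)
(mv 846 (cons (mv 909 (cons (fin 910 1 845)
(mv 845 (cons (fin 908 1 844)
(mv 844 (cons (fin 843 2 779)
(fin 784 2 780)))))))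
(cons (mv 913 (cons (fin 914 0 846)
(mv 845 (cons (mv 844 (cons (fin 843 2 779)
(fin 784 2 780)))
(cons (mv 909 (cons (fin 908 1 844)
(mv 654 (cons (fin 718 5 653)
(mv 973 (cons (fin 1037 6 781)
(mv 1041 (cons (fin 974 0 973)
(mv 977 (cons (fin 784 7 784)
(mv 1042 (cons (fin 1043 3 975)
(fin 1106 4 849)))))))))))))
(mv 844 (cons (fin 843 2 779)
(mv 908 (cons (fin 907 1 843)
(fin 909 1 844))))))))))
(mv 913 (cons (fin 914 0 846)
(mv 974 (cons (mv 910 (cons (fin 1038 6 782)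
(fin 1039 4 782)))
(cons (mv 973 (cons (fin 1041 0 973)
(mv 972 (cons (fin 1039 0 972)
(mv 1036 (cons (fin 1035 1 971)
(fin 1037 1 972)))))))
(mv 910 (cons (fin 1038 6 782)
(mv 973 (cons (fin 1041 0 973)
(fin 1037 5 781))))))))))))))))
(cons (mv 780 (cons (fin 781 0 780)
(mv 974 (cons (cons (mv 973 (cons (fin 1041 0 973)
(mv 908 (cons (fin 909 3 908)
(mv 972 (cons (fin 907 3 907)
(fin 1039 0 972)))))))
(mv 977 (cons (cons (mv 909 (cons (fin 910 3 909)
(mv 913 (cons (fin 914 2 910)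
(mv 1038 (cons (fin 1037 1 973)
(mv 978 (cons (fin 1039 1 974)
(mv 1042 (cons (fin 1041 0 974)
(fin 1043 0 975)))))))))))
(cons (mv 909 (cons (fin 910 3 909)
(mv 914 (cons (fin 913 2 910)
(mv 978 (cons (fin 915 2 911)
(mv 1042 (cons (fin 1041 0 974)
(fin 1043 0 975)))))))))
(mv 909 (cons (fin 910 3 909)
(mv 914 (cons (fin 913 2 910)
(mv 978 (cons (fin 915 2 911)
(mv 1038 (cons (fin 1037 1 973)
(fin 1039 1 974)))))))))))
(cons (mv 913 (cons (fin 914 2 910)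
(mv 1038 (cons (fin 1037 1 973)
(mv 978 (cons (fin 1039 1 974)
(mv 1042 (cons (fin 1041 0 974)
(fin 1043 0 975)))))))))
(cons (mv 909 (cons (fin 910 3 909)
(mv 1038 (cons (fin 1037 1 973)
(mv 978 (cons (fin 1039 1 974)
(mv 1042 (cons (fin 1041 0 974)
(fin 1043 0 975)))))))))
(mv 910 (cons (fin 909 3 909)
(mv 846 (cons (fin 1038 6 782)
(fin 1039 4 782))))))))))
(cons (mv 977 (cons (cons (mv 909 (cons (fin 910 3 909)
(mv 908 (cons (fin 973 3 908)
(mv 845 (cons (fin 846 1 844)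
(mv 914 (cons (fin 913 2 910)
(mv 978 (cons (fin 915 2 911)
(mv 1038 (cons (fin 1037 1 973)
(fin 1039 1 974)))))))))))))
(cons (mv 909 (cons (fin 910 3 909)
(mv 908 (cons (fin 973 3 908)
(mv 845 (cons (fin 846 1 844)
(mv 914 (cons (fin 913 2 910)
(mv 978 (cons (fin 915 2 911)
(mv 979 (cons (fin 1039 1 975)
(mv 1043 (cons (fin 1042 0 975)
(fin 1044 0 976)))))))))))))))
(mv 913 (cons (fin 914 2 910)
(mv 1037 (cons (fin 1038 1 973)
(mv 973 (cons (fin 1036 1 972)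
(mv 908 (cons (fin 909 3 908)
(mv 972 (cons (fin 907 3 907)
(fin 1039 0 972)))))))))))))
(cons (mv 913 (cons (fin 914 2 910)
(mv 1037 (cons (fin 1038 1 973)
(mv 973 (cons (fin 1036 1 972)
(mv 846 (cons (fin 910 5 781)
(mv 972 (cons (fin 1039 0 972)
(mv 908 (cons (fin 907 3 907)
(fin 844 4 780)))))))))))))
(cons (mv 909 (cons (fin 910 3 909)
(mv 973 (cons (fin 908 3 908)
(mv 1037 (cons (fin 1036 1 972)
(fin 1038 1 973)))))))
(mv 909 (cons (fin 910 3 909)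
(mv 914 (cons (fin 913 2 910)
(mv 978 (cons (fin 915 2 911)
(mv 1038 (cons (fin 1037 1 973)
(fin 1039 1 974)))))))))))))
(cons (mv 973 (cons (fin 1041 0 973)
(mv 908 (cons (fin 909 3 908)
(mv 907 (cons (fin 972 3 907)
(mv 1037 (cons (fin 1036 1 972)
(mv 846 (cons (fin 910 5 781)
(mv 844 (cons (fin 845 1 843)
(mv 716 (cons (fin 971 5 715)
(mv 651 (cons (fin 715 7 651)
(mv 652 (cons (fin 587 7 587)
(fin 843 5 651)))))))))))))))))))
(mv 973 (cons (fin 1041 0 973)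
(mv 972 (cons (fin 1039 0 972)
(mv 1036 (cons (fin 1035 1 971)
(fin 1037 1 972)))))))))))))
(mv 781 (cons (fin 780 0 780)
(mv 849 (cons (fin 850 3 782)
(fin 784 0 781)))))))))))))))
(mv 783 (cons (cons (mv 848 (cons (fin 912 7 783)
(mv 975 (cons (fin 911 4 783)
(mv 782 (cons (cons (mv 781 (cons (fin 780 0 780)
(mv 849 (cons (fin 846 3 781)
(fin 850 3 782)))))
(mv 849 (cons (fin 850 3 782)
(mv 846 (cons (mv 785 (cons (fin 786 2 782)
(mv 913 (cons (fin 914 0 846)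
(fin 977 5 784)))))
(mv 909 (cons (fin 910 1 845)
(mv 845 (cons (fin 908 1 844)
(mv 844 (cons (fin 843 2 779)
(fin 784 2 780))))))))))))
(cons (mv 781 (cons (fin 780 0 780)
(mv 784 (cons (cons (mv 716 (cons (fin 717 3 716)
(mv 720 (cons (fin 721 2 717)
(mv 592 (cons (fin 656 5 591)
(mv 845 (cons (fin 844 1 780)
(mv 846 (cons (fin 785 1 781)
(mv 909 (cons (fin 908 1 844)
(mv 718 (cons (fin 654 5 653)
(fin 973 6 717)))))))))))))))
(cons (mv 716 (cons (fin 717 3 716)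
(mv 721 (cons (fin 720 2 717)
(mv 785 (cons (fin 722 2 718)
(mv 786 (cons (fin 846 1 782)
(fin 787 1 783)))))))))
(mv 716 (cons (fin 717 3 716)
(mv 845 (cons (fin 844 1 780)
(mv 785 (cons (fin 846 1 781)
(mv 722 (cons (fin 721 2 718)
(mv 786 (cons (fin 787 1 783)
(fin 723 2 719)))))))))))))
(cons (cons (mv 720 (cons (fin 721 2 717)
(mv 592 (cons (fin 656 5 591)
(mv 845 (cons (fin 844 1 780)
(mv 846 (cons (fin 785 1 781)
(mv 909 (cons (fin 908 1 844)
(mv 718 (cons (fin 654 5 653)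
(fin 973 6 717)))))))))))))
(mv 716 (cons (fin 717 3 716)
(mv 845 (cons (fin 844 1 780)
(mv 846 (cons (fin 785 1 781)
(mv 909 (cons (fin 908 1 844)
(mv 718 (cons (fin 654 5 653)
(fin 973 6 717))))))))))))
(cons (mv 717 (cons (fin 716 3 716)
(mv 720 (cons (fin 721 2 717)
(mv 656 (cons (fin 592 5 591)
(mv 591 (cons (fin 655 7 591)
(mv 657 (cons (fin 593 6 592)
(mv 718 (cons (fin 719 2 653)
(mv 590 (cons (fin 654 4 590)
(mv 845 (cons (fin 844 1 780)
(mv 909 (cons (fin 973 6 717)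
(mv 908 (cons (fin 846 1 844)
(fin 972 5 716)))))))))))))))))))))
(mv 717 (cons (fin 716 3 716)
(mv 718 (cons (fin 785 3 717)
(mv 590 (cons (fin 654 4 590)
(mv 720 (cons (fin 721 2 717)
(mv 656 (cons (fin 592 5 591)
(mv 657 (cons (fin 719 2 653)
(fin 593 6 592)))))))))))))))))))
(mv 781 (cons (fin 780 0 780)
(mv 849 (cons (fin 850 3 782)
(fin 784 0 781))))))))))))
(cons (mv 848 (cons (fin 912 7 783)
(mv 782 (cons (cons (mv 781 (cons (fin 780 0 780)
(mv 849 (cons (fin 846 3 781)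
(fin 850 3 782)))))
(mv 849 (cons (fin 850 3 782)
(mv 846 (cons (mv 785 (cons (fin 786 2 782)
(mv 913 (cons (fin 914 0 846)
(fin 977 5 784)))))
(mv 909 (cons (fin 910 1 845)
(mv 845 (cons (fin 908 1 844)
(mv 844 (cons (fin 843 2 779)
(fin 784 2 780))))))))))))
(cons (mv 781 (cons (fin 780 0 780)
(mv 784 (cons (cons (mv 716 (cons (fin 717 3 716)
(mv 720 (cons (fin 721 2 717)
(mv 592 (cons (fin 656 5 591)
(mv 845 (cons (fin 844 1 780)
(mv 846 (cons (fin 785 1 781)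
(mv 909 (cons (fin 908 1 844)
(mv 718 (cons (fin 654 5 653)
(fin 973 6 717)))))))))))))))
(cons (mv 716 (cons (fin 717 3 716)
(mv 721 (cons (fin 720 2 717)
(mv 785 (cons (fin 722 2 718)
(mv 786 (cons (fin 846 1 782)
(fin 787 1 783)))))))))
(mv 716 (cons (fin 717 3 716)
(mv 845 (cons (fin 844 1 780)
(mv 785 (cons (fin 846 1 781)
(mv 722 (cons (fin 721 2 718)
(mv 786 (cons (fin 787 1 783)
(fin 723 2 719)))))))))))))
(cons (cons (mv 720 (cons (fin 721 2 717)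
(mv 592 (cons (fin 656 5 591)
(mv 845 (cons (fin 844 1 780)
(mv 846 (cons (fin 785 1 781)
(mv 909 (cons (fin 908 1 844)
(mv 718 (cons (fin 654 5 653)
(fin 973 6 717)))))))))))))
(mv 716 (cons (fin 717 3 716)
(mv 845 (cons (fin 844 1 780)
(mv 846 (cons (fin 785 1 781)
(mv 909 (cons (fin 908 1 844)
(mv 718 (cons (fin 654 5 653)
(fin 973 6 717))))))))))))
(cons (mv 717 (cons (fin 716 3 716)
(mv 720 (cons (fin 721 2 717)
(mv 656 (cons (fin 592 5 591)
(mv 591 (cons (fin 655 7 591)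
(mv 657 (cons (fin 593 6 592)
(mv 718 (cons (fin 719 2 653)
(mv 590 (cons (fin 654 4 590)
(mv 845 (cons (fin 844 1 780)
(mv 909 (cons (fin 973 6 717)
(mv 908 (cons (fin 846 1 844)
(fin 972 5 716)))))))))))))))))))))
(mv 717 (cons (fin 716 3 716)
(mv 718 (cons (fin 785 3 717)
(mv 590 (cons (fin 654 4 590)
(mv 720 (cons (fin 721 2 717)
(mv 656 (cons (fin 592 5 591)
(mv 657 (cons (fin 719 2 653)
(fin 593 6 592)))))))))))))))))))
(mv 781 (cons (fin 780 0 780)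
(mv 849 (cons (fin 850 3 782)
(fin 784 0 781))))))))))
(mv 911 (cons (fin 975 4 783)
(mv 719 (cons (cons (mv 654 (cons (fin 718 7 654)
(mv 655 (cons (fin 590 7 590)
(mv 656 (cons (fin 592 6 591)
(fin 720 6 655)))))))
(cons (mv 656 (cons (fin 720 6 655)
(mv 655 (cons (fin 592 6 591)
(mv 846 (cons (fin 910 5 654)
(mv 782 (cons (fin 591 5 590)
(mv 784 (cons (mv 785 (cons (fin 845 1 781)
(fin 786 1 782)))
(cons (mv 845 (cons (fin 844 2 780)
(mv 781 (cons (mv 780 (cons (fin 848 3 780)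
(fin 779 0 779)))
(cons (mv 716 (cons (fin 717 3 716)
(mv 780 (cons (fin 715 3 715)
(fin 779 0 779)))))
(mv 716 (cons (fin 717 3 716)
(mv 848 (cons (fin 849 3 781)
(mv 909 (cons (fin 908 1 844)
(mv 973 (cons (fin 718 6 717)
(fin 1037 6 781))))))))))))))
(mv 785 (cons (fin 786 1 782)
(mv 717 (cons (fin 718 3 717)
(mv 716 (cons (fin 781 3 716)
(mv 721 (cons (fin 722 2 718)
(mv 849 (cons (fin 850 0 782)
(mv 913 (cons (fin 977 5 784)
(mv 914 (cons (fin 848 0 846)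
(fin 978 4 721))))))))))))))))))))))))))
(mv 654 (cons (fin 718 7 654)
(mv 655 (cons (fin 590 7 590)
(mv 846 (cons (fin 910 5 654)
(mv 591 (cons (fin 782 5 590)
(mv 528 (cons (fin 592 6 527)
(mv 527 (cons (fin 464 6 463)
(mv 784 (cons (fin 720 4 527)
(fin 848 4 591)))))))))))))))))
(cons (mv 656 (cons (fin 720 6 655)
(mv 655 (cons (fin 592 6 591)
(mv 590 (cons (fin 654 7 590)
(mv 591 (cons (fin 526 7 526)
(mv 846 (cons (fin 782 5 590)
(fin 910 5 654)))))))))))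
(cons (mv 654 (cons (fin 718 7 654)
(mv 655 (cons (fin 590 7 590)
(mv 592 (cons (fin 656 6 591)
(mv 591 (cons (fin 528 6 527)
(mv 846 (cons (fin 782 5 590)
(fin 910 5 654)))))))))))
(mv 718 (cons (fin 654 7 654)
(mv 720 (cons (fin 656 6 655)
(mv 717 (cons (cons (mv 784 (cons (fin 716 0 716)
(fin 785 0 717)))
(mv 652 (cons (fin 653 3 652)
(mv 651 (cons (fin 716 3 651)
(mv 781 (cons (fin 780 1 716)
(mv 721 (cons (fin 782 1 717)
(mv 658 (cons (fin 657 2 654)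
(mv 722 (cons (fin 659 2 655)
(mv 786 (cons (fin 785 0 718)
(fin 787 0 719))))))))))))))))
(cons (mv 652 (cons (fin 653 3 652)
(mv 780 (cons (fin 781 1 716)
(mv 785 (cons (fin 784 0 717)
(mv 721 (cons (fin 786 0 718)
(mv 658 (cons (fin 657 2 654)
(mv 722 (cons (fin 782 1 718)
(fin 659 2 655)))))))))))))
(mv 652 (cons (fin 653 3 652)
(mv 716 (cons (fin 651 3 651)
(fin 784 0 716))))))))))))))))))))
(cons (mv 911 (cons (fin 975 4 783)
(mv 719 (cons (fin 912 4 719)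
(mv 654 (cons (fin 718 7 654)
(mv 655 (cons (fin 590 7 590)
(mv 656 (cons (fin 592 6 591)
(fin 720 6 655)))))))))))
(cons (mv 848 (cons (fin 912 7 783)
(mv 911 (cons (fin 975 4 783)
(mv 849 (cons (cons (mv 850 (cons (fin 782 3 782)
(fin 910 1 846)))
(mv 846 (cons (mv 781 (cons (fin 782 3 781)
(mv 780 (cons (fin 845 3 780)
(mv 785 (cons (fin 786 2 782)
(mv 913 (cons (fin 914 0 846)
(fin 977 5 784)))))))))
(cons (mv 785 (cons (fin 786 2 782)
(mv 913 (cons (fin 914 0 846)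
(fin 977 5 784)))))
(mv 781 (cons (fin 782 3 781)
(mv 845 (cons (fin 780 3 780)
(mv 909 (cons (fin 908 1 844)
(fin 910 1 845)))))))))))
(cons (mv 850 (cons (fin 910 1 846)
(mv 784 (cons (fin 851 3 783)
(mv 656 (cons (fin 720 5 655)
(mv 786 (cons (fin 787 2 783)
(mv 785 (cons (fin 846 1 782)
(mv 722 (cons (fin 723 2 719)
(mv 658 (cons (fin 594 5 593)
(fin 913 5 657)))))))))))))))
(mv 782 (cons (fin 850 3 782)
(mv 781 (cons (fin 846 3 781)
(fin 780 0 780))))))))))))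
(mv 911 (cons (fin 975 4 783)
(mv 912 (cons (fin 848 7 783)
(fin 719 4 719)))))))))))))
(cons (cons (cons (mv 783 (cons (cons (mv 911 (cons (fin 975 4 783)
(mv 912 (cons (fin 848 7 783)
(fin 719 4 719)))))
(mv 848 (cons (fin 912 7 783)
(mv 782 (cons (cons (mv 781 (cons (fin 780 0 780)
(mv 849 (cons (fin 846 3 781)
(fin 850 3 782)))))
(mv 849 (cons (fin 850 3 782)
(mv 846 (cons (cons (mv 785 (cons (fin 786 2 782)
(mv 784 (cons (fin 845 1 781)
(mv 717 (cons (fin 718 3 717)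
(mv 721 (cons (fin 722 2 718)
(mv 593 (cons (fin 657 5 592)
(mv 910 (cons (fin 909 1 845)
(mv 719 (cons (fin 655 5 654)
(fin 974 6 718)))))))))))))))
(mv 785 (cons (fin 786 2 782)
(mv 784 (cons (fin 845 1 781)
(mv 718 (cons (fin 717 3 717)
(mv 590 (cons (fin 654 4 590)
(mv 721 (cons (fin 722 2 718)
(mv 657 (cons (fin 593 5 592)
(mv 656 (cons (fin 592 7 592)
(mv 658 (cons (fin 594 6 593)
(mv 655 (cons (fin 591 3 590)
(fin 719 1 654))))))))))))))))))))
(cons (mv 909 (cons (fin 910 1 845)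
(mv 845 (cons (fin 908 1 844)
(mv 844 (cons (fin 843 2 779)
(fin 784 2 780)))))))
(mv 785 (cons (fin 786 2 782)
(mv 910 (cons (fin 909 1 845)
(mv 719 (cons (fin 655 5 654)
(fin 974 6 718)))))))))))))
(cons (mv 781 (cons (fin 780 0 780)
(mv 784 (cons (cons (mv 716 (cons (fin 717 3 716)
(mv 720 (cons (fin 721 2 717)
(mv 592 (cons (fin 656 5 591)
(mv 845 (cons (fin 844 1 780)
(mv 846 (cons (fin 785 1 781)
(mv 909 (cons (fin 908 1 844)
(mv 718 (cons (fin 654 5 653)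
(fin 973 6 717)))))))))))))))
(cons (mv 716 (cons (fin 717 3 716)
(mv 721 (cons (fin 720 2 717)
(mv 785 (cons (fin 722 2 718)
(mv 786 (cons (fin 846 1 782)
(fin 787 1 783)))))))))
(mv 720 (cons (fin 721 2 717)
(mv 592 (cons (fin 656 5 591)
(mv 845 (cons (fin 844 1 780)
(mv 846 (cons (fin 785 1 781)
(mv 909 (cons (fin 908 1 844)
(mv 718 (cons (fin 654 5 653)
(fin 973 6 717)))))))))))))))
(cons (cons (mv 716 (cons (fin 717 3 716)
(mv 845 (cons (fin 844 1 780)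
(mv 785 (cons (fin 846 1 781)
(mv 722 (cons (fin 721 2 718)
(mv 786 (cons (fin 787 1 783)
(fin 723 2 719)))))))))))
(mv 716 (cons (fin 717 3 716)
(mv 845 (cons (fin 844 1 780)
(mv 846 (cons (fin 785 1 781)
(mv 909 (cons (fin 908 1 844)
(mv 718 (cons (fin 654 5 653)
(fin 973 6 717))))))))))))
(cons (mv 717 (cons (fin 716 3 716)
(mv 720 (cons (fin 721 2 717)
(mv 656 (cons (fin 592 5 591)
(mv 591 (cons (fin 655 7 591)
(mv 657 (cons (fin 593 6 592)
(mv 718 (cons (fin 719 2 653)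
(mv 590 (cons (fin 654 4 590)
(mv 845 (cons (fin 844 1 780)
(mv 909 (cons (fin 973 6 717)
(mv 908 (cons (fin 846 1 844)
(fin 972 5 716)))))))))))))))))))))
(mv 717 (cons (fin 716 3 716)
(mv 718 (cons (fin 785 3 717)
(mv 590 (cons (fin 654 4 590)
(mv 720 (cons (fin 721 2 717)
(mv 656 (cons (fin 592 5 591)
(mv 657 (cons (fin 719 2 653)
(fin 593 6 592)))))))))))))))))))
(mv 781 (cons (fin 780 0 780)
(mv 849 (cons (fin 850 3 782)
(fin 784 0 781)))))))))))
(cons (mv 911 (cons (fin 975 4 783)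
(mv 719 (cons (cons (mv 654 (cons (fin 718 7 654)
(mv 655 (cons (fin 590 7 590)
(mv 656 (cons (fin 592 6 591)
(fin 720 6 655)))))))
(mv 656 (cons (fin 720 6 655)
(mv 655 (cons (fin 592 6 591)
(mv 910 (cons (fin 846 5 654)
(fin 974 5 718))))))))
(cons (mv 654 (cons (fin 718 7 654)
(mv 655 (cons (fin 590 7 590)
(mv 910 (cons (fin 846 5 654)
(fin 974 5 718)))))))
(mv 718 (cons (fin 654 7 654)
(mv 720 (cons (fin 656 6 655)
(mv 910 (cons (fin 974 5 718)
(mv 717 (cons (cons (mv 784 (cons (fin 716 0 716)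
(fin 785 0 717)))
(mv 652 (cons (fin 653 3 652)
(mv 651 (cons (fin 716 3 651)
(mv 781 (cons (fin 780 1 716)
(mv 721 (cons (fin 782 1 717)
(mv 658 (cons (fin 657 2 654)
(mv 722 (cons (fin 659 2 655)
(mv 786 (cons (fin 785 0 718)
(fin 787 0 719))))))))))))))))
(cons (mv 652 (cons (fin 653 3 652)
(mv 780 (cons (fin 781 1 716)
(mv 785 (cons (fin 784 0 717)
(mv 721 (cons (fin 786 0 718)
(mv 658 (cons (fin 657 2 654)
(mv 722 (cons (fin 782 1 718)
(fin 659 2 655)))))))))))))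
(mv 652 (cons (fin 653 3 652)
(mv 716 (cons (fin 651 3 651)
(fin 784 0 716)))))))))))))))))))
(mv 848 (cons (fin 912 7 783)
(mv 911 (cons (fin 975 4 783)
(mv 849 (cons (cons (mv 850 (cons (fin 782 3 782)
(fin 910 1 846)))
(mv 846 (cons (cons (mv 781 (cons (fin 782 3 781)
(mv 785 (cons (fin 786 2 782)
(mv 845 (cons (fin 780 3 780)
(fin 784 2 781)))))))
(mv 785 (cons (fin 786 2 782)
(mv 845 (cons (fin 784 2 781)
(mv 909 (cons (fin 908 1 844)
(fin 910 1 845))))))))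
(cons (mv 781 (cons (fin 782 3 781)
(mv 845 (cons (fin 780 3 780)
(mv 909 (cons (fin 908 1 844)
(fin 910 1 845)))))))
(mv 782 (cons (fin 781 3 781)
(mv 718 (cons (fin 654 4 654)
(mv 785 (cons (fin 786 2 782)
(mv 717 (cons (fin 784 3 717)
(mv 910 (cons (fin 909 1 845)
(fin 653 7 653)))))))))))))))
(cons (mv 850 (cons (fin 910 1 846)
(mv 784 (cons (fin 851 3 783)
(mv 656 (cons (fin 720 5 655)
(mv 786 (cons (fin 787 2 783)
(mv 785 (cons (fin 846 1 782)
(mv 722 (cons (fin 723 2 719)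
(mv 594 (cons (fin 658 5 593)
(mv 914 (cons (fin 915 0 847)
(mv 721 (cons (fin 657 7 657)
(fin 978 7 721)))))))))))))))))))
(mv 782 (cons (fin 850 3 782)
(mv 781 (cons (fin 846 3 781)
(fin 780 0 780)))))))))))))))
(mv 783 (cons (cons (mv 911 (cons (fin 975 4 783)
(mv 912 (cons (fin 848 7 783)
(fin 719 4 719)))))
(mv 848 (cons (fin 912 7 783)
(mv 782 (cons (cons (mv 781 (cons (fin 780 0 780)
(mv 849 (cons (fin 846 3 781)
(fin 850 3 782)))))
(mv 849 (cons (fin 850 3 782)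
(mv 846 (cons (mv 785 (cons (fin 786 2 782)
(mv 913 (cons (fin 914 0 846)
(fin 977 5 784)))))
(mv 909 (cons (fin 910 1 845)
(mv 845 (cons (fin 908 1 844)
(mv 844 (cons (fin 843 2 779)
(fin 784 2 780))))))))))))
(cons (mv 781 (cons (fin 780 0 780)
(mv 784 (cons (cons (mv 716 (cons (fin 717 3 716)
(mv 720 (cons (fin 721 2 717)
(mv 656 (cons (fin 592 5 591)
(mv 593 (cons (fin 657 6 592)
(mv 655 (cons (fin 591 7 591)
(mv 845 (cons (fin 844 1 780)
(mv 846 (cons (fin 785 1 781)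
(mv 719 (cons (fin 910 5 654)
(mv 654 (cons (fin 590 7 590)
(mv 909 (cons (fin 908 1 844)
(fin 718 5 653)))))))))))))))))))))
(cons (mv 716 (cons (fin 717 3 716)
(mv 721 (cons (fin 720 2 717)
(mv 785 (cons (fin 722 2 718)
(mv 786 (cons (fin 846 1 782)
(fin 787 1 783)))))))))
(mv 720 (cons (fin 721 2 717)
(mv 656 (cons (fin 592 5 591)
(mv 593 (cons (fin 657 6 592)
(mv 655 (cons (fin 591 7 591)
(mv 845 (cons (fin 844 1 780)
(mv 846 (cons (fin 785 1 781)
(mv 719 (cons (fin 910 5 654)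
(mv 654 (cons (fin 590 7 590)
(mv 909 (cons (fin 908 1 844)
(fin 718 5 653)))))))))))))))))))))
(cons (mv 716 (cons (fin 717 3 716)
(mv 845 (cons (fin 844 1 780)
(mv 785 (cons (fin 846 1 781)
(mv 722 (cons (fin 721 2 718)
(mv 786 (cons (fin 787 1 783)
(fin 723 2 719)))))))))))
(cons (mv 717 (cons (fin 716 3 716)
(mv 718 (cons (fin 785 3 717)
(mv 654 (cons (fin 590 4 590)
(mv 845 (cons (fin 844 1 780)
(fin 909 6 653)))))))))
(mv 717 (cons (fin 716 3 716)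
(mv 720 (cons (fin 721 2 717)
(mv 656 (cons (fin 592 5 591)
(mv 591 (cons (fin 655 7 591)
(mv 657 (cons (fin 593 6 592)
(mv 718 (cons (fin 719 2 653)
(mv 654 (cons (fin 590 4 590)
(mv 845 (cons (fin 844 1 780)
(fin 909 6 653)))))))))))))))))))))))
(mv 781 (cons (fin 780 0 780)
(mv 849 (cons (fin 850 3 782)
(fin 784 0 781)))))))))))
(cons (mv 911 (cons (fin 975 4 783)
(mv 719 (cons (cons (mv 654 (cons (fin 718 7 654)
(mv 655 (cons (fin 590 7 590)
(mv 656 (cons (fin 592 6 591)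
(fin 720 6 655)))))))
(mv 656 (cons (fin 720 6 655)
(mv 655 (cons (fin 592 6 591)
(mv 910 (cons (fin 846 5 654)
(fin 974 5 718))))))))
(cons (mv 654 (cons (fin 718 7 654)
(mv 655 (cons (fin 590 7 590)
(mv 910 (cons (fin 846 5 654)
(fin 974 5 718)))))))
(mv 718 (cons (fin 654 7 654)
(mv 720 (cons (fin 656 6 655)
(mv 910 (cons (fin 974 5 718)
(mv 717 (cons (cons (mv 784 (cons (fin 716 0 716)
(fin 785 0 717)))
(mv 652 (cons (fin 653 3 652)
(mv 651 (cons (fin 716 3 651)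
(mv 781 (cons (fin 780 1 716)
(mv 721 (cons (fin 782 1 717)
(mv 658 (cons (fin 657 2 654)
(mv 722 (cons (fin 659 2 655)
(mv 786 (cons (fin 785 0 718)
(fin 787 0 719))))))))))))))))
(cons (mv 652 (cons (fin 653 3 652)
(mv 780 (cons (fin 781 1 716)
(mv 785 (cons (fin 784 0 717)
(mv 721 (cons (fin 786 0 718)
(mv 658 (cons (fin 657 2 654)
(mv 722 (cons (fin 782 1 718)
(fin 659 2 655)))))))))))))
(mv 652 (cons (fin 653 3 652)
(mv 716 (cons (fin 651 3 651)
(fin 784 0 716)))))))))))))))))))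
(mv 848 (cons (fin 912 7 783)
(mv 911 (cons (fin 975 4 783)
(mv 849 (cons (cons (mv 850 (cons (fin 782 3 782)
(fin 910 1 846)))
(mv 846 (cons (mv 781 (cons (fin 782 3 781)
(mv 780 (cons (fin 845 3 780)
(mv 785 (cons (fin 786 2 782)
(mv 913 (cons (fin 914 0 846)
(fin 977 5 784)))))))))
(cons (mv 785 (cons (fin 786 2 782)
(mv 913 (cons (fin 914 0 846)
(fin 977 5 784)))))
(mv 781 (cons (fin 782 3 781)
(mv 845 (cons (fin 780 3 780)
(mv 909 (cons (fin 908 1 844)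
(fin 910 1 845)))))))))))
(cons (mv 850 (cons (fin 910 1 846)
(mv 784 (cons (fin 851 3 783)
(mv 656 (cons (fin 720 5 655)
(mv 786 (cons (fin 787 2 783)
(mv 785 (cons (fin 846 1 782)
(mv 722 (cons (fin 723 2 719)
(mv 658 (cons (fin 594 5 593)
(fin 913 5 657)))))))))))))))
(mv 782 (cons (fin 850 3 782)
(mv 781 (cons (fin 846 3 781)
(fin 780 0 780))))))))))))))))
(cons (mv 848 (cons (cons (cons (mv 912 (cons (fin 783 7 783)
(mv 785 (cons (fin 849 6 784)
(mv 784 (cons (fin 721 6 720)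
(mv 1039 (cons (fin 975 5 783)
(fin 1103 5 847)))))))))
(mv 975 (cons (cons (mv 911 (cons (fin 783 4 783)
(mv 1039 (cons (fin 784 6 783)
(mv 1038 (cons (fin 1102 5 846)
(mv 977 (cons (fin 978 1 974)
(fin 1037 2 973)))))))))
(cons (mv 974 (cons (cons (mv 973 (cons (fin 1041 0 973)
(mv 908 (cons (fin 909 3 908)
(mv 972 (cons (fin 907 3 907)
(fin 1039 0 972)))))))
(mv 977 (cons (cons (mv 909 (cons (fin 910 3 909)
(mv 913 (cons (fin 914 2 910)
(mv 785 (cons (fin 849 5 784)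
(mv 1038 (cons (fin 1037 1 973)
(mv 978 (cons (fin 1039 1 974)
(mv 1042 (cons (fin 1041 0 974)
(fin 1043 0 975)))))))))))))
(cons (mv 909 (cons (fin 910 3 909)
(mv 914 (cons (fin 913 2 910)
(mv 978 (cons (fin 915 2 911)
(mv 1038 (cons (fin 1037 1 973)
(fin 1039 1 974)))))))))
(mv 909 (cons (fin 910 3 909)
(mv 913 (cons (fin 914 2 910)
(mv 849 (cons (fin 785 5 784)
(mv 1041 (cons (fin 1042 0 974)
(fin 784 7 784)))))))))))
(cons (mv 909 (cons (fin 910 3 909)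
(mv 1037 (cons (fin 1038 1 973)
(mv 1042 (cons (fin 1041 0 974)
(mv 978 (cons (fin 1043 0 975)
(mv 915 (cons (fin 914 2 911)
(mv 979 (cons (fin 1039 1 975)
(fin 916 2 912)))))))))))))
(cons (mv 909 (cons (fin 910 3 909)
(mv 1038 (cons (fin 1037 1 973)
(mv 978 (cons (fin 1039 1 974)
(mv 1042 (cons (fin 1041 0 974)
(fin 1043 0 975)))))))))
(mv 913 (cons (fin 914 2 910)
(mv 785 (cons (fin 849 5 784)
(mv 1038 (cons (fin 1037 1 973)
(mv 978 (cons (fin 1039 1 974)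
(mv 1042 (cons (fin 1041 0 974)
(fin 1043 0 975))))))))))))))))
(cons (mv 977 (cons (cons (mv 909 (cons (fin 910 3 909)
(mv 908 (cons (fin 973 3 908)
(mv 914 (cons (fin 913 2 910)
(mv 978 (cons (fin 915 2 911)
(mv 1038 (cons (fin 1037 1 973)
(fin 1039 1 974)))))))))))
(mv 909 (cons (fin 910 3 909)
(mv 908 (cons (fin 973 3 908)
(mv 914 (cons (fin 913 2 910)
(mv 978 (cons (fin 915 2 911)
(mv 979 (cons (fin 1039 1 975)
(mv 1043 (cons (fin 1042 0 975)
(fin 1044 0 976))))))))))))))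
(cons (mv 909 (cons (fin 910 3 909)
(mv 973 (cons (fin 908 3 908)
(mv 1037 (cons (fin 1036 1 972)
(fin 1038 1 973)))))))
(mv 914 (cons (fin 913 2 910)
(mv 978 (cons (fin 915 2 911)
(mv 1038 (cons (fin 1037 1 973)
(fin 1039 1 974))))))))))
(cons (mv 973 (cons (fin 1041 0 973)
(mv 908 (cons (fin 909 3 908)
(mv 972 (cons (fin 907 3 907)
(mv 1036 (cons (fin 1035 1 971)
(fin 1037 1 972)))))))))
(mv 973 (cons (fin 1041 0 973)
(mv 972 (cons (fin 1039 0 972)
(mv 1036 (cons (fin 1035 1 971)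
(fin 1037 1 972)))))))))))
(mv 911 (cons (fin 783 4 783)
(mv 974 (cons (cons (mv 973 (cons (fin 1041 0 973)
(mv 908 (cons (fin 909 3 908)
(mv 907 (cons (fin 972 3 907)
(mv 1037 (cons (fin 1036 1 972)
(mv 977 (cons (fin 1038 1 973)
(mv 910 (cons (fin 978 3 910)
(mv 849 (cons (fin 850 1 846)
(mv 913 (cons (fin 914 2 910)
(fin 785 5 784)))))))))))))))))
(mv 977 (cons (mv 910 (cons (fin 909 3 909)
(fin 978 3 910)))
(mv 913 (cons (fin 914 2 910)
(mv 849 (cons (fin 785 5 784)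
(mv 1041 (cons (fin 1042 0 974)
(fin 784 7 784))))))))))
(cons (mv 1038 (cons (mv 1102 (cons (fin 910 6 846)
(fin 1166 6 910)))
(cons (mv 977 (cons (fin 1037 1 973)
(mv 910 (cons (fin 909 3 909)
(fin 978 3 910)))))
(mv 1037 (cons (fin 977 1 973)
(mv 1036 (cons (fin 973 1 972)
(fin 1035 2 971))))))))
(cons (mv 973 (cons (fin 1041 0 973)
(mv 908 (cons (fin 909 3 908)
(mv 972 (cons (fin 907 3 907)
(mv 1036 (cons (fin 1035 1 971)
(fin 1037 1 972)))))))))
(mv 973 (cons (fin 1041 0 973)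
(mv 1036 (cons (fin 1037 1 972)
(mv 972 (cons (fin 1035 1 971)
(mv 907 (cons (fin 908 3 907)
(mv 971 (cons (fin 906 3 906)
(fin 910 2 907)))))))))))))))))))
(cons (mv 783 (cons (fin 911 4 783)
(mv 974 (cons (cons (mv 973 (cons (fin 1041 0 973)
(mv 908 (cons (fin 909 3 908)
(mv 972 (cons (fin 907 3 907)
(fin 1039 0 972)))))))
(mv 977 (cons (cons (mv 909 (cons (fin 910 3 909)
(mv 913 (cons (fin 914 2 910)
(mv 785 (cons (fin 849 5 784)
(mv 1038 (cons (fin 1037 1 973)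
(mv 978 (cons (fin 1039 1 974)
(mv 1042 (cons (fin 1041 0 974)
(fin 1043 0 975)))))))))))))
(mv 909 (cons (fin 910 3 909)
(mv 913 (cons (fin 914 2 910)
(mv 849 (cons (fin 785 5 784)
(mv 850 (cons (fin 782 3 782)
(mv 786 (cons (fin 787 2 783)
(fin 1041 6 785))))))))))))
(cons (mv 909 (cons (fin 910 3 909)
(mv 913 (cons (fin 914 2 910)
(mv 849 (cons (fin 785 5 784)
(mv 850 (cons (fin 782 3 782)
(mv 786 (cons (fin 787 2 783)
(mv 658 (cons (fin 722 5 657)
(mv 1038 (cons (fin 1037 1 973)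
(mv 978 (cons (fin 1039 1 974)
(mv 1043 (cons (fin 1042 0 975)
(mv 979 (cons (fin 1044 0 976)
(mv 915 (cons (fin 916 2 912)
(fin 851 7 786)))))))))))))))))))))))
(cons (mv 909 (cons (fin 910 3 909)
(mv 1038 (cons (fin 1037 1 973)
(mv 978 (cons (fin 1039 1 974)
(mv 1042 (cons (fin 1041 0 974)
(fin 1043 0 975)))))))))
(mv 913 (cons (fin 914 2 910)
(mv 785 (cons (fin 849 5 784)
(mv 1038 (cons (fin 1037 1 973)
(mv 978 (cons (fin 1039 1 974)
(mv 1042 (cons (fin 1041 0 974)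
(fin 1043 0 975))))))))))))))))
(cons (mv 977 (cons (cons (mv 909 (cons (fin 910 3 909)
(mv 908 (cons (fin 973 3 908)
(mv 913 (cons (fin 914 2 910)
(mv 849 (cons (fin 785 5 784)
(mv 850 (cons (fin 782 3 782)
(mv 786 (cons (fin 787 2 783)
(mv 658 (cons (fin 722 5 657)
(mv 1038 (cons (fin 1037 1 973)
(mv 978 (cons (fin 1039 1 974)
(mv 1043 (cons (fin 1042 0 975)
(mv 979 (cons (fin 1044 0 976)
(mv 915 (cons (fin 916 2 912)
(fin 851 7 786)))))))))))))))))))))))))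
(mv 909 (cons (fin 910 3 909)
(mv 908 (cons (fin 973 3 908)
(mv 914 (cons (fin 913 2 910)
(mv 978 (cons (fin 915 2 911)
(mv 979 (cons (fin 1039 1 975)
(mv 1043 (cons (fin 1042 0 975)
(fin 1044 0 976))))))))))))))
(cons (mv 909 (cons (fin 910 3 909)
(mv 973 (cons (fin 908 3 908)
(mv 1037 (cons (fin 1036 1 972)
(fin 1038 1 973)))))))
(cons (mv 913 (cons (fin 914 2 910)
(mv 849 (cons (fin 785 5 784)
(mv 782 (cons (fin 850 3 782)
(mv 780 (cons (fin 781 0 780)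
(mv 1037 (cons (fin 1038 1 973)
(mv 973 (cons (fin 1036 1 972)
(mv 972 (cons (fin 1039 0 972)
(mv 908 (cons (fin 907 3 907)
(fin 844 4 780)))))))))))))))))
(mv 909 (cons (fin 910 3 909)
(mv 913 (cons (fin 914 2 910)
(mv 849 (cons (fin 785 5 784)
(mv 850 (cons (fin 782 3 782)
(mv 786 (cons (fin 787 2 783)
(mv 658 (cons (fin 722 5 657)
(mv 1038 (cons (fin 1037 1 973)
(mv 978 (cons (fin 1039 1 974)
(mv 1043 (cons (fin 1042 0 975)
(mv 979 (cons (fin 1044 0 976)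
(mv 915 (cons (fin 916 2 912)
(fin 851 7 786)))))))))))))))))))))))))))
(cons (mv 973 (cons (fin 1041 0 973)
(mv 908 (cons (fin 909 3 908)
(mv 972 (cons (fin 907 3 907)
(mv 1036 (cons (fin 1035 1 971)
(fin 1037 1 972)))))))))
(mv 973 (cons (fin 1041 0 973)
(mv 972 (cons (fin 1039 0 972)
(mv 1036 (cons (fin 1035 1 971)
(fin 1037 1 972)))))))))))))
(cons (mv 911 (cons (fin 783 4 783)
(mv 1039 (cons (fin 784 6 783)
(mv 1038 (cons (fin 1102 5 846)
(mv 1037 (cons (fin 1036 2 972)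
(mv 973 (cons (fin 972 3 972)
(mv 974 (cons (fin 1041 3 973)
(mv 908 (cons (fin 909 3 908)
(mv 1101 (cons (fin 1100 1 1036)
(mv 1165 (cons (fin 910 6 909)
(fin 1229 6 973)))))))))))))))))))
(mv 911 (cons (fin 783 4 783)
(mv 784 (cons (fin 1039 6 783)
(mv 656 (cons (fin 720 5 655)
(mv 977 (cons (cons (mv 910 (cons (fin 978 3 910)
(mv 909 (cons (fin 974 3 909)
(fin 908 2 844)))))
(mv 913 (cons (mv 849 (cons (fin 1041 7 784)
(fin 785 5 784)))
(mv 914 (cons (fin 974 2 910)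
(mv 915 (cons (fin 916 1 912)
(fin 978 2 911))))))))
(cons (mv 974 (cons (mv 1041 (cons (fin 973 0 973)
(fin 1042 0 974)))
(mv 910 (cons (fin 909 3 909)
(mv 849 (cons (fin 850 1 846)
(mv 913 (cons (fin 914 2 910)
(fin 785 5 784)))))))))
(mv 910 (cons (fin 978 3 910)
(mv 849 (cons (fin 850 1 846)
(mv 913 (cons (fin 1041 7 784)
(fin 785 5 784)))))))))))))))))))))
(cons (mv 912 (cons (cons (mv 785 (cons (fin 849 6 784)
(mv 784 (cons (fin 721 6 720)
(mv 1039 (cons (fin 975 5 783)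
(fin 1103 5 847)))))))
(mv 785 (cons (fin 849 6 784)
(mv 784 (cons (fin 721 6 720)
(mv 786 (cons (fin 787 1 783)
(mv 977 (cons (fin 1041 4 784)
(mv 720 (cons (fin 913 4 720)
(mv 911 (cons (fin 656 5 655)
(fin 975 5 719))))))))))))))
(cons (mv 1039 (cons (fin 1103 5 847)
(mv 784 (cons (fin 975 5 783)
(mv 977 (cons (fin 1041 4 784)
(mv 720 (cons (fin 913 4 720)
(mv 655 (cons (fin 719 7 655)
(mv 656 (cons (fin 591 7 591)
(fin 911 5 655)))))))))))))
(cons (mv 849 (cons (fin 785 6 784)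
(mv 1039 (cons (fin 1103 5 847)
(mv 850 (cons (mv 911 (cons (fin 910 1 846)
(fin 851 1 847)))
(cons (mv 786 (cons (fin 787 2 783)
(mv 915 (cons (fin 914 0 847)
(mv 851 (cons (fin 916 0 848)
(mv 658 (cons (fin 722 4 658)
(mv 913 (cons (fin 852 1 848)
(mv 977 (cons (fin 1041 6 785)
(mv 979 (cons (fin 978 1 975)
(fin 1043 7 786)))))))))))))))
(mv 786 (cons (fin 787 2 783)
(mv 910 (cons (fin 911 1 846)
(mv 914 (cons (fin 915 0 847)
(mv 977 (cons (mv 913 (cons (fin 722 5 721)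
(fin 1041 6 785)))
(cons (mv 978 (cons (fin 979 1 975)
(fin 1041 5 785)))
(mv 722 (cons (fin 913 5 721)
(mv 657 (cons (fin 721 7 657)
(mv 593 (cons (fin 658 7 593)
(mv 659 (cons (fin 723 6 658)
(mv 978 (cons (fin 979 1 975)
(mv 1038 (cons (fin 975 1 974)
(fin 1037 2 973)))))))))))))))))))))))))))))
(mv 785 (cons (fin 849 6 784)
(mv 784 (cons (fin 721 6 720)
(mv 786 (cons (fin 787 1 783)
(mv 977 (cons (fin 1041 4 784)
(mv 720 (cons (fin 913 4 720)
(mv 655 (cons (fin 719 7 655)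
(mv 656 (cons (fin 591 7 591)
(fin 911 5 655)))))))))))))))))))
(mv 912 (cons (fin 783 7 783)
(mv 785 (cons (fin 849 6 784)
(mv 784 (cons (fin 721 6 720)
(mv 786 (cons (fin 787 1 783)
(mv 977 (cons (fin 1041 4 784)
(mv 720 (cons (fin 913 4 720)
(mv 911 (cons (fin 656 5 655)
(fin 975 5 719)))))))))))))))))
(cons (cons (mv 912 (cons (fin 783 7 783)
(mv 1039 (cons (fin 1103 5 847)
(mv 784 (cons (fin 975 5 783)
(mv 721 (cons (fin 785 6 720)
(mv 720 (cons (fin 657 6 656)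
(mv 977 (cons (fin 913 4 720)
(fin 1041 4 784)))))))))))))
(mv 912 (cons (fin 783 7 783)
(mv 785 (cons (fin 849 6 784)
(mv 784 (cons (fin 721 6 720)
(mv 786 (cons (fin 787 1 783)
(mv 977 (cons (fin 1041 4 784)
(mv 720 (cons (fin 913 4 720)
(mv 655 (cons (fin 719 7 655)
(mv 656 (cons (fin 591 7 591)
(fin 911 5 655))))))))))))))))))
(cons (mv 912 (cons (fin 783 7 783)
(mv 1039 (cons (fin 1103 5 847)
(mv 784 (cons (fin 975 5 783)
(mv 977 (cons (fin 1041 4 784)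
(mv 720 (cons (fin 913 4 720)
(mv 655 (cons (fin 719 7 655)
(mv 656 (cons (fin 591 7 591)
(fin 911 5 655)))))))))))))))
(mv 783 (cons (fin 912 7 783)
(mv 975 (cons (fin 911 4 783)
(mv 974 (cons (cons (mv 973 (cons (fin 1041 0 973)
(mv 908 (cons (fin 909 3 908)
(mv 972 (cons (fin 907 3 907)
(fin 1039 0 972)))))))
(mv 977 (cons (cons (mv 909 (cons (fin 910 3 909)
(mv 913 (cons (fin 914 2 910)
(mv 785 (cons (fin 849 5 784)
(mv 1038 (cons (fin 1037 1 973)
(mv 978 (cons (fin 1039 1 974)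
(mv 1042 (cons (fin 1041 0 974)
(fin 1043 0 975)))))))))))))
(mv 909 (cons (fin 910 3 909)
(mv 913 (cons (fin 914 2 910)
(mv 849 (cons (fin 785 5 784)
(mv 850 (cons (fin 782 3 782)
(mv 786 (cons (fin 787 2 783)
(fin 1041 6 785))))))))))))
(cons (mv 909 (cons (fin 910 3 909)
(mv 913 (cons (fin 914 2 910)
(mv 849 (cons (fin 785 5 784)
(mv 850 (cons (fin 782 3 782)
(mv 786 (cons (fin 787 2 783)
(mv 658 (cons (fin 722 5 657)
(mv 1038 (cons (fin 1037 1 973)
(mv 978 (cons (fin 1039 1 974)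
(mv 1043 (cons (fin 1042 0 975)
(mv 979 (cons (fin 1044 0 976)
(mv 915 (cons (fin 916 2 912)
(fin 851 7 786)))))))))))))))))))))))
(cons (mv 909 (cons (fin 910 3 909)
(mv 1038 (cons (fin 1037 1 973)
(mv 978 (cons (fin 1039 1 974)
(mv 1042 (cons (fin 1041 0 974)
(fin 1043 0 975)))))))))
(mv 913 (cons (fin 914 2 910)
(mv 785 (cons (fin 849 5 784)
(mv 1038 (cons (fin 1037 1 973)
(mv 978 (cons (fin 1039 1 974)
(mv 1042 (cons (fin 1041 0 974)
(fin 1043 0 975))))))))))))))))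
(cons (mv 977 (cons (cons (mv 909 (cons (fin 910 3 909)
(mv 908 (cons (fin 973 3 908)
(mv 913 (cons (fin 914 2 910)
(mv 849 (cons (fin 785 5 784)
(mv 850 (cons (fin 782 3 782)
(mv 786 (cons (fin 787 2 783)
(mv 658 (cons (fin 722 5 657)
(mv 1038 (cons (fin 1037 1 973)
(mv 978 (cons (fin 1039 1 974)
(mv 1043 (cons (fin 1042 0 975)
(mv 979 (cons (fin 1044 0 976)
(mv 915 (cons (fin 916 2 912)
(fin 851 7 786)))))))))))))))))))))))))
(mv 909 (cons (fin 910 3 909)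
(mv 908 (cons (fin 973 3 908)
(mv 914 (cons (fin 913 2 910)
(mv 978 (cons (fin 915 2 911)
(mv 979 (cons (fin 1039 1 975)
(mv 1043 (cons (fin 1042 0 975)
(fin 1044 0 976))))))))))))))
(cons (mv 909 (cons (fin 910 3 909)
(mv 973 (cons (fin 908 3 908)
(mv 1037 (cons (fin 1036 1 972)
(fin 1038 1 973)))))))
(cons (mv 913 (cons (fin 914 2 910)
(mv 849 (cons (fin 785 5 784)
(mv 782 (cons (fin 850 3 782)
(mv 780 (cons (fin 781 0 780)
(mv 1037 (cons (fin 1038 1 973)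
(mv 973 (cons (fin 1036 1 972)
(mv 972 (cons (fin 1039 0 972)
(mv 908 (cons (fin 907 3 907)
(fin 844 4 780)))))))))))))))))
(mv 909 (cons (fin 910 3 909)
(mv 913 (cons (fin 914 2 910)
(mv 849 (cons (fin 785 5 784)
(mv 850 (cons (fin 782 3 782)
(mv 786 (cons (fin 787 2 783)
(mv 658 (cons (fin 722 5 657)
(mv 1038 (cons (fin 1037 1 973)
(mv 978 (cons (fin 1039 1 974)
(mv 1043 (cons (fin 1042 0 975)
(mv 979 (cons (fin 1044 0 976)
(mv 915 (cons (fin 916 2 912)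
(fin 851 7 786)))))))))))))))))))))))))))
(cons (mv 973 (cons (fin 1041 0 973)
(mv 908 (cons (fin 909 3 908)
(mv 972 (cons (fin 907 3 907)
(mv 1036 (cons (fin 1035 1 971)
(fin 1037 1 972)))))))))
(mv 973 (cons (fin 1041 0 973)
(mv 972 (cons (fin 1039 0 972)
(mv 1036 (cons (fin 1035 1 971)
(fin 1037 1 972)))))))))))))))))))
(cons (mv 783 (cons (cons (mv 848 (cons (fin 912 7 783)
(mv 911 (cons (fin 975 4 783)
(mv 910 (cons (mv 719 (cons (fin 974 5 718)
(mv 654 (cons (fin 718 7 654)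
(mv 655 (cons (fin 590 7 590)
(fin 846 5 654)))))))
(cons (mv 849 (cons (fin 850 1 846)
(mv 909 (cons (fin 846 1 845)
(fin 908 2 844)))))
(mv 719 (cons (fin 974 5 718)
(mv 654 (cons (fin 718 7 654)
(mv 655 (cons (fin 590 7 590)
(mv 656 (cons (fin 592 6 591)
(fin 720 6 655))))))))))))))))
(mv 848 (cons (fin 912 7 783)
(mv 849 (cons (cons (mv 782 (cons (fin 850 3 782)
(mv 781 (cons (fin 846 3 781)
(fin 780 0 780)))))
(mv 846 (cons (cons (mv 781 (cons (fin 782 3 781)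
(mv 780 (cons (fin 845 3 780)
(mv 785 (cons (fin 786 2 782)
(mv 913 (cons (fin 914 0 846)
(fin 977 5 784)))))))))
(mv 785 (cons (fin 786 2 782)
(mv 913 (cons (fin 914 0 846)
(fin 977 5 784))))))
(cons (mv 781 (cons (fin 782 3 781)
(mv 785 (cons (fin 786 2 782)
(mv 845 (cons (fin 780 3 780)
(mv 909 (cons (fin 908 1 844)
(fin 910 1 845)))))))))
(mv 781 (cons (fin 782 3 781)
(mv 845 (cons (fin 780 3 780)
(mv 909 (cons (fin 908 1 844)
(fin 910 1 845)))))))))))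
(cons (mv 913 (cons (cons (mv 785 (cons (fin 977 5 784)
(mv 846 (cons (fin 786 2 782)
(fin 914 0 846)))))
(mv 785 (cons (fin 977 5 784)
(mv 786 (cons (fin 846 2 782)
(mv 787 (cons (fin 788 1 784)
(fin 850 2 783))))))))
(cons (mv 785 (cons (fin 977 5 784)
(mv 721 (cons (cons (mv 656 (cons (fin 720 7 656)
(mv 592 (cons (fin 657 7 592)
(mv 655 (cons (fin 719 6 591)
(mv 658 (cons (fin 722 6 657)
(mv 914 (cons (fin 978 4 721)
(mv 915 (cons (fin 916 3 848)
(fin 850 0 847)))))))))))))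
(mv 656 (cons (fin 720 7 656)
(mv 657 (cons (fin 592 7 592)
(mv 658 (cons (fin 594 6 593)
(fin 722 6 657))))))))
(cons (mv 656 (cons (fin 720 7 656)
(mv 592 (cons (fin 657 7 592)
(mv 655 (cons (fin 719 6 591)
(mv 914 (cons (fin 978 4 721)
(mv 915 (cons (fin 916 3 848)
(fin 850 0 847)))))))))))
(cons (mv 658 (cons (fin 722 6 657)
(mv 594 (cons (fin 657 6 593)
(mv 914 (cons (fin 978 4 721)
(mv 915 (cons (fin 916 3 848)
(fin 850 0 847)))))))))
(mv 656 (cons (fin 720 7 656)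
(mv 658 (cons (fin 722 6 657)
(mv 914 (cons (fin 978 4 721)
(mv 915 (cons (fin 916 3 848)
(fin 850 0 847)))))))))))))))
(mv 914 (cons (fin 846 0 846)
(mv 915 (cons (fin 916 3 848)
(fin 850 0 847))))))))
(mv 850 (cons (fin 782 3 782)
(mv 787 (cons (fin 786 2 783)
(mv 851 (cons (fin 788 2 784)
(mv 915 (cons (fin 914 0 847)
(fin 916 0 848)))))))))))))))
(cons (mv 911 (cons (fin 975 4 783)
(mv 719 (cons (cons (mv 654 (cons (fin 718 7 654)
(mv 655 (cons (fin 590 7 590)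
(mv 656 (cons (fin 592 6 591)
(fin 720 6 655)))))))
(mv 656 (cons (fin 720 6 655)
(mv 655 (cons (fin 592 6 591)
(mv 910 (cons (fin 846 5 654)
(fin 974 5 718))))))))
(cons (mv 654 (cons (fin 718 7 654)
(mv 655 (cons (fin 590 7 590)
(mv 910 (cons (fin 846 5 654)
(fin 974 5 718)))))))
(mv 718 (cons (fin 654 7 654)
(mv 720 (cons (fin 656 6 655)
(mv 910 (cons (fin 974 5 718)
(mv 721 (cons (mv 782 (cons (fin 781 1 717)
(fin 722 1 718)))
(cons (mv 658 (cons (fin 657 2 654)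
(mv 722 (cons (fin 659 2 655)
(mv 786 (cons (fin 785 0 718)
(fin 787 0 719)))))))
(mv 657 (cons (fin 658 2 654)
(mv 781 (cons (fin 782 1 717)
(mv 717 (cons (fin 780 1 716)
(mv 652 (cons (fin 653 3 652)
(mv 716 (cons (fin 651 3 651)
(mv 524 (cons (fin 588 4 524)
(mv 785 (cons (fin 786 0 718)
(mv 909 (cons (fin 845 7 652)
(mv 848 (cons (fin 908 2 844)
(mv 849 (cons (fin 846 1 845)
(fin 850 1 846)))))))))))))))))))))))))))))))))))
(cons (mv 911 (cons (fin 975 4 783)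
(mv 719 (cons (fin 912 4 719)
(mv 654 (cons (fin 718 7 654)
(mv 655 (cons (fin 590 7 590)
(mv 656 (cons (fin 592 6 591)
(fin 720 6 655)))))))))))
(mv 848 (cons (fin 912 7 783)
(mv 911 (cons (fin 975 4 783)
(mv 849 (cons (cons (mv 850 (cons (fin 782 3 782)
(fin 910 1 846)))
(mv 846 (cons (mv 781 (cons (fin 782 3 781)
(mv 780 (cons (fin 845 3 780)
(mv 785 (cons (fin 786 2 782)
(mv 913 (cons (fin 914 0 846)
(fin 977 5 784)))))))))
(cons (mv 785 (cons (fin 786 2 782)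
(mv 913 (cons (fin 914 0 846)
(fin 977 5 784)))))
(mv 781 (cons (fin 782 3 781)
(mv 845 (cons (fin 780 3 780)
(mv 909 (cons (fin 908 1 844)
(fin 910 1 845)))))))))))
(cons (mv 850 (cons (fin 910 1 846)
(mv 786 (cons (fin 787 2 783)
(mv 785 (cons (fin 846 2 782)
(mv 913 (cons (fin 977 5 784)
(mv 658 (cons (fin 722 5 657)
(mv 914 (cons (fin 915 0 847)
(mv 721 (cons (fin 978 7 721)
(fin 657 4 657)))))))))))))))
(mv 782 (cons (fin 850 3 782)
(mv 781 (cons (fin 846 3 781)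
(fin 780 0 780))))))))))))))))
(mv 783 (cons (cons (mv 911 (cons (fin 975 4 783)
(mv 912 (cons (fin 848 7 783)
(fin 719 4 719)))))
(mv 848 (cons (fin 912 7 783)
(mv 782 (cons (cons (mv 781 (cons (fin 780 0 780)
(mv 849 (cons (fin 846 3 781)
(fin 850 3 782)))))
(mv 849 (cons (fin 850 3 782)
(mv 785 (cons (cons (mv 786 (cons (fin 846 2 782)
(mv 787 (cons (fin 784 1 783)
(fin 788 1 784)))))
(mv 913 (cons (fin 977 5 784)
(mv 784 (cons (cons (mv 656 (cons (fin 720 4 656)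
(mv 717 (cons (fin 718 3 717)
(mv 721 (cons (fin 722 2 718)
(mv 657 (cons (fin 592 7 592)
(fin 593 5 592)))))))))
(mv 656 (cons (fin 720 4 656)
(mv 718 (cons (fin 717 3 717)
(mv 786 (cons (fin 719 3 718)
(fin 787 1 783))))))))
(cons (mv 717 (cons (fin 718 3 717)
(mv 722 (cons (fin 721 2 718)
(mv 786 (cons (fin 787 1 783)
(fin 723 2 719)))))))
(mv 656 (cons (fin 720 4 656)
(mv 721 (cons (fin 722 2 718)
(mv 657 (cons (fin 592 7 592)
(fin 593 5 592)))))))))))))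
(cons (mv 913 (cons (fin 977 5 784)
(mv 846 (cons (fin 914 0 846)
(mv 784 (cons (fin 845 1 781)
(mv 656 (cons (fin 720 4 656)
(mv 717 (cons (fin 718 3 717)
(mv 721 (cons (fin 722 2 718)
(mv 657 (cons (fin 592 7 592)
(fin 593 5 592)))))))))))))))
(mv 846 (cons (fin 786 2 782)
(mv 913 (cons (fin 914 0 846)
(fin 977 5 784)))))))))))
(cons (mv 781 (cons (fin 780 0 780)
(mv 784 (cons (cons (mv 716 (cons (fin 717 3 716)
(mv 720 (cons (fin 721 2 717)
(mv 592 (cons (fin 656 5 591)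
(mv 845 (cons (fin 844 1 780)
(mv 846 (cons (fin 785 1 781)
(mv 909 (cons (fin 908 1 844)
(mv 718 (cons (fin 654 5 653)
(fin 973 6 717)))))))))))))))
(cons (mv 716 (cons (fin 717 3 716)
(mv 721 (cons (fin 720 2 717)
(mv 785 (cons (fin 722 2 718)
(mv 786 (cons (fin 846 1 782)
(fin 787 1 783)))))))))
(mv 716 (cons (fin 717 3 716)
(mv 845 (cons (fin 844 1 780)
(mv 785 (cons (fin 846 1 781)
(mv 722 (cons (fin 721 2 718)
(mv 786 (cons (fin 787 1 783)
(fin 723 2 719)))))))))))))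
(cons (cons (mv 720 (cons (fin 721 2 717)
(mv 592 (cons (fin 656 5 591)
(mv 845 (cons (fin 844 1 780)
(mv 846 (cons (fin 785 1 781)
(mv 909 (cons (fin 908 1 844)
(mv 718 (cons (fin 654 5 653)
(fin 973 6 717)))))))))))))
(mv 716 (cons (fin 717 3 716)
(mv 845 (cons (fin 844 1 780)
(mv 846 (cons (fin 785 1 781)
(mv 909 (cons (fin 908 1 844)
(mv 718 (cons (fin 654 5 653)
(fin 973 6 717))))))))))))
(cons (mv 717 (cons (fin 716 3 716)
(mv 720 (cons (fin 721 2 717)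
(mv 656 (cons (fin 592 5 591)
(mv 591 (cons (fin 655 7 591)
(mv 657 (cons (fin 593 6 592)
(mv 718 (cons (fin 719 2 653)
(mv 590 (cons (fin 654 4 590)
(mv 845 (cons (fin 844 1 780)
(mv 909 (cons (fin 973 6 717)
(mv 908 (cons (fin 846 1 844)
(fin 972 5 716)))))))))))))))))))))
(mv 717 (cons (fin 716 3 716)
(mv 718 (cons (fin 785 3 717)
(mv 590 (cons (fin 654 4 590)
(mv 720 (cons (fin 721 2 717)
(mv 656 (cons (fin 592 5 591)
(mv 657 (cons (fin 719 2 653)
(fin 593 6 592)))))))))))))))))))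
(mv 781 (cons (fin 780 0 780)
(mv 849 (cons (fin 850 3 782)
(fin 784 0 781)))))))))))
(cons (mv 975 (cons (fin 911 4 783)
(mv 974 (cons (cons (mv 973 (cons (fin 1041 0 973)
(mv 908 (cons (fin 909 3 908)
(mv 972 (cons (fin 907 3 907)
(fin 1039 0 972)))))))
(mv 977 (cons (cons (mv 913 (cons (fin 914 2 910)
(mv 785 (cons (fin 849 5 784)
(mv 1038 (cons (fin 1037 1 973)
(mv 978 (cons (fin 1039 1 974)
(mv 1042 (cons (fin 1041 0 974)
(fin 1043 0 975)))))))))))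
(mv 914 (cons (fin 913 2 910)
(mv 978 (cons (fin 915 2 911)
(mv 1038 (cons (fin 1037 1 973)
(fin 1039 1 974))))))))
(cons (mv 913 (cons (fin 914 2 910)
(mv 849 (cons (fin 785 5 784)
(mv 1041 (cons (fin 1042 0 974)
(mv 848 (cons (fin 784 7 784)
(mv 850 (cons (fin 782 3 782)
(fin 786 6 785)))))))))))
(cons (mv 1037 (cons (fin 1038 1 973)
(mv 1042 (cons (fin 1041 0 974)
(mv 978 (cons (fin 1043 0 975)
(mv 915 (cons (fin 914 2 911)
(mv 979 (cons (fin 1039 1 975)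
(fin 916 2 912)))))))))))
(mv 1038 (cons (fin 1037 1 973)
(mv 978 (cons (fin 1039 1 974)
(mv 1042 (cons (fin 1041 0 974)
(fin 1043 0 975))))))))))))
(cons (mv 973 (cons (cons (mv 908 (cons (fin 909 3 908)
(mv 972 (cons (fin 907 3 907)
(fin 1039 0 972)))))
(mv 908 (cons (fin 909 3 908)
(mv 1037 (cons (fin 1036 1 972)
(mv 977 (cons (fin 1038 1 973)
(mv 914 (cons (fin 913 2 910)
(mv 978 (cons (fin 915 2 911)
(mv 979 (cons (fin 1039 1 975)
(mv 1043 (cons (fin 1042 0 975)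
(fin 1044 0 976))))))))))))))))
(cons (mv 972 (cons (fin 1039 0 972)
(mv 1036 (cons (fin 1035 1 971)
(fin 1037 1 972)))))
(mv 908 (cons (fin 909 3 908)
(mv 972 (cons (fin 907 3 907)
(mv 1036 (cons (fin 1035 1 971)
(fin 1037 1 972))))))))))
(mv 973 (cons (fin 1041 0 973)
(mv 908 (cons (fin 909 3 908)
(mv 972 (cons (fin 907 3 907)
(mv 1036 (cons (fin 1035 1 971)
(fin 1037 1 972))))))))))))))
(mv 911 (cons (fin 975 4 783)
(mv 719 (cons (fin 912 4 719)
(mv 654 (cons (fin 718 7 654)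
(mv 655 (cons (fin 590 7 590)
(mv 656 (cons (fin 592 6 591)
(fin 720 6 655)))))))))))))))))
(cons (cons (mv 912 (cons (cons (mv 783 (cons (fin 848 7 783)
(mv 911 (cons (fin 719 4 719)
(fin 975 4 783)))))
(mv 911 (cons (mv 783 (cons (fin 719 4 719)
(fin 975 4 783)))
(cons (mv 977 (cons (mv 910 (cons (fin 909 0 909)
(mv 978 (cons (fin 975 3 910)
(fin 979 3 911)))))
(cons (mv 910 (cons (fin 909 0 909)
(mv 913 (cons (mv 846 (cons (fin 845 3 845)
(fin 914 3 846)))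
(mv 849 (cons (fin 850 2 846)
(fin 785 5 784)))))))
(mv 978 (cons (fin 979 3 911)
(mv 975 (cons (cons (mv 914 (cons (fin 915 2 911)
(mv 913 (cons (fin 846 3 846)
(fin 974 1 910)))))
(mv 1038 (cons (fin 1039 1 974)
(mv 974 (cons (fin 1037 1 973)
(mv 973 (cons (fin 972 2 908)
(fin 913 2 909))))))))
(cons (mv 914 (cons (fin 915 2 911)
(mv 846 (cons (fin 913 3 846)
(mv 844 (cons (fin 845 0 844)
(mv 1039 (cons (fin 1038 1 974)
(mv 1042 (cons (fin 1043 0 975)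
(mv 1103 (cons (fin 1167 6 911)
(mv 1102 (cons (fin 1041 1 1038)
(fin 1166 5 910)))))))))))))))
(mv 914 (cons (fin 915 2 911)
(mv 1038 (cons (fin 1039 1 974)
(mv 974 (cons (fin 1037 1 973)
(mv 973 (cons (fin 972 2 908)
(fin 1041 0 973)))))))))))))))))
(mv 719 (cons (fin 783 4 719)
(mv 913 (cons (cons (mv 846 (cons (fin 914 3 846)
(mv 845 (cons (fin 910 3 845)
(fin 844 0 844)))))
(mv 910 (cons (mv 977 (cons (fin 909 0 909)
(fin 978 0 910)))
(cons (mv 845 (cons (fin 846 3 845)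
(mv 849 (cons (fin 850 2 846)
(mv 721 (cons (fin 785 5 720)
(mv 909 (cons (fin 844 3 844)
(mv 973 (cons (fin 972 1 908)
(fin 974 1 909)))))))))))
(mv 845 (cons (fin 846 3 845)
(mv 849 (cons (fin 850 2 846)
(mv 785 (cons (fin 721 5 720)
(fin 977 5 784)))))))))))
(cons (mv 849 (cons (mv 785 (cons (fin 721 5 720)
(fin 977 5 784)))
(mv 850 (cons (fin 910 2 846)
(mv 851 (cons (fin 852 1 848)
(fin 914 2 847)))))))
(mv 914 (cons (fin 846 3 846)
(mv 850 (cons (fin 851 2 847)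
(mv 979 (cons (fin 978 0 911)
(mv 915 (cons (fin 980 0 912)
(mv 722 (cons (fin 786 4 722)
(mv 916 (cons (fin 977 1 912)
(mv 853 (cons (fin 852 2 849)
(mv 917 (cons (fin 849 3 849)
(fin 854 2 850))))))))))))))))))))))))))
(cons (mv 848 (cons (cons (mv 785 (cons (fin 849 6 784)
(mv 784 (cons (fin 721 6 720)
(mv 1039 (cons (fin 975 5 783)
(fin 1103 5 847)))))))
(mv 785 (cons (fin 849 6 784)
(mv 784 (cons (fin 721 6 720)
(mv 786 (cons (fin 787 1 783)
(mv 845 (cons (fin 846 2 781)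
(mv 977 (cons (fin 1041 4 784)
(mv 720 (cons (fin 913 4 720)
(mv 911 (cons (fin 656 5 655)
(fin 975 5 719))))))))))))))))
(cons (mv 1039 (cons (fin 1103 5 847)
(mv 784 (cons (fin 975 5 783)
(mv 977 (cons (fin 1041 4 784)
(mv 720 (cons (fin 913 4 720)
(mv 655 (cons (fin 719 7 655)
(mv 656 (cons (fin 591 7 591)
(fin 911 5 655)))))))))))))
(cons (mv 785 (cons (fin 849 6 784)
(mv 1039 (cons (fin 1103 5 847)
(mv 1038 (cons (cons (mv 977 (cons (fin 1037 2 973)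
(mv 978 (cons (fin 975 1 974)
(fin 979 1 975)))))
(mv 1037 (cons (cons (mv 972 (cons (fin 973 3 972)
(mv 1036 (cons (fin 971 3 971)
(fin 975 2 972)))))
(mv 973 (cons (fin 972 3 972)
(mv 974 (cons (fin 1041 3 973)
(mv 913 (cons (fin 975 2 909)
(mv 845 (cons (fin 846 0 845)
(mv 909 (cons (fin 781 4 781)
(fin 1102 4 845))))))))))))
(cons (mv 972 (cons (fin 973 3 972)
(mv 1036 (cons (fin 971 3 971)
(mv 1100 (cons (fin 1099 1 1035)
(fin 1101 1 1036)))))))
(mv 975 (cons (fin 1036 2 972)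
(mv 1101 (cons (fin 1100 1 1036)
(mv 1102 (cons (fin 1041 1 1037)
(fin 911 5 846)))))))))))
(cons (mv 1041 (cons (cons (mv 973 (cons (fin 974 3 973)
(mv 978 (cons (fin 977 2 974)
(mv 1042 (cons (fin 979 2 975)
(mv 975 (cons (fin 1043 3 975)
(mv 1102 (cons (fin 1101 1 1037)
(fin 911 5 846)))))))))))
(cons (mv 974 (cons (fin 973 3 973)
(mv 975 (cons (fin 1042 3 974)
(mv 1102 (cons (fin 1101 1 1037)
(fin 911 5 846)))))))
(mv 978 (cons (fin 977 2 974)
(mv 1042 (cons (fin 979 2 975)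
(mv 975 (cons (fin 1043 3 975)
(mv 1102 (cons (fin 1101 1 1037)
(fin 911 5 846)))))))))))
(cons (mv 973 (cons (fin 974 3 973)
(mv 978 (cons (fin 977 2 974)
(mv 1042 (cons (fin 979 2 975)
(mv 1043 (cons (fin 975 3 975)
(mv 1107 (cons (fin 1106 0 1039)
(fin 1108 0 1040)))))))))))
(cons (mv 973 (cons (fin 974 3 973)
(mv 978 (cons (fin 977 2 974)
(mv 1042 (cons (fin 979 2 975)
(mv 1101 (cons (fin 1102 1 1037)
(mv 1107 (cons (fin 1106 0 1039)
(mv 1043 (cons (fin 1108 0 1040)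
(mv 914 (cons (fin 850 4 850)
(mv 913 (cons (fin 915 3 847)
(mv 846 (cons (fin 911 3 846)
(fin 845 0 845)))))))))))))))))))
(mv 974 (cons (fin 973 3 973)
(mv 977 (cons (fin 978 2 974)
(mv 1102 (cons (fin 1101 1 1037)
(mv 911 (cons (fin 975 5 846)
(fin 910 6 846)))))))))))))
(mv 977 (cons (fin 1037 2 973)
(mv 978 (cons (fin 979 1 975)
(fin 1041 2 974))))))))))))
(mv 785 (cons (fin 849 6 784)
(mv 784 (cons (fin 721 6 720)
(mv 786 (cons (fin 787 1 783)
(mv 845 (cons (fin 846 2 781)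
(mv 977 (cons (fin 1041 4 784)
(mv 720 (cons (fin 913 4 720)
(mv 655 (cons (fin 719 7 655)
(mv 656 (cons (fin 591 7 591)
(fin 911 5 655)))))))))))))))))))))
(cons (mv 848 (cons (fin 783 7 783)
(mv 785 (cons (fin 849 6 784)
(mv 784 (cons (fin 721 6 720)
(mv 1039 (cons (fin 975 5 783)
(fin 1103 5 847)))))))))
(mv 848 (cons (fin 783 7 783)
(mv 785 (cons (fin 849 6 784)
(mv 784 (cons (fin 721 6 720)
(mv 786 (cons (fin 787 1 783)
(mv 845 (cons (fin 846 2 781)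
(mv 977 (cons (fin 1041 4 784)
(mv 720 (cons (fin 913 4 720)
(mv 655 (cons (fin 719 7 655)
(mv 656 (cons (fin 591 7 591)
(fin 911 5 655)))))))))))))))))))))))
(mv 783 (cons (cons (mv 911 (cons (fin 975 4 783)
(mv 912 (cons (fin 848 7 783)
(fin 719 4 719)))))
(mv 848 (cons (fin 912 7 783)
(mv 782 (cons (cons (mv 781 (cons (fin 780 0 780)
(mv 849 (cons (fin 846 3 781)
(fin 850 3 782)))))
(mv 849 (cons (fin 850 3 782)
(mv 785 (cons (cons (mv 786 (cons (fin 846 2 782)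
(mv 787 (cons (fin 784 1 783)
(fin 788 1 784)))))
(mv 913 (cons (fin 977 5 784)
(mv 784 (cons (cons (mv 656 (cons (fin 720 4 656)
(mv 717 (cons (fin 718 3 717)
(mv 721 (cons (fin 722 2 718)
(mv 657 (cons (fin 592 7 592)
(fin 593 5 592)))))))))
(mv 656 (cons (fin 720 4 656)
(mv 718 (cons (fin 717 3 717)
(mv 786 (cons (fin 719 3 718)
(fin 787 1 783))))))))
(cons (mv 717 (cons (fin 718 3 717)
(mv 722 (cons (fin 721 2 718)
(mv 786 (cons (fin 787 1 783)
(fin 723 2 719)))))))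
(mv 656 (cons (fin 720 4 656)
(mv 721 (cons (fin 722 2 718)
(mv 657 (cons (fin 592 7 592)
(fin 593 5 592)))))))))))))
(cons (mv 913 (cons (fin 977 5 784)
(mv 846 (cons (fin 914 0 846)
(mv 784 (cons (fin 845 1 781)
(mv 656 (cons (fin 720 4 656)
(mv 717 (cons (fin 718 3 717)
(mv 721 (cons (fin 722 2 718)
(mv 657 (cons (fin 592 7 592)
(fin 593 5 592)))))))))))))))
(mv 846 (cons (fin 786 2 782)
(mv 913 (cons (fin 914 0 846)
(fin 977 5 784)))))))))))
(cons (mv 781 (cons (fin 780 0 780)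
(mv 784 (cons (cons (mv 716 (cons (fin 717 3 716)
(mv 720 (cons (fin 721 2 717)
(mv 656 (cons (fin 592 5 591)
(mv 593 (cons (fin 657 6 592)
(mv 655 (cons (fin 591 7 591)
(mv 845 (cons (fin 844 1 780)
(mv 846 (cons (fin 785 1 781)
(mv 719 (cons (fin 910 5 654)
(mv 654 (cons (fin 590 7 590)
(mv 653 (cons (fin 652 0 652)
(mv 589 (cons (fin 588 3 588)
(fin 718 7 589)))))))))))))))))))))))
(cons (mv 716 (cons (fin 717 3 716)
(mv 721 (cons (fin 720 2 717)
(mv 785 (cons (fin 722 2 718)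
(mv 786 (cons (fin 846 1 782)
(fin 787 1 783)))))))))
(mv 720 (cons (fin 721 2 717)
(mv 656 (cons (fin 592 5 591)
(mv 593 (cons (fin 657 6 592)
(mv 655 (cons (fin 591 7 591)
(mv 845 (cons (fin 844 1 780)
(mv 846 (cons (fin 785 1 781)
(mv 719 (cons (fin 910 5 654)
(mv 654 (cons (fin 590 7 590)
(mv 653 (cons (fin 652 0 652)
(mv 589 (cons (fin 588 3 588)
(fin 718 7 589)))))))))))))))))))))))
(cons (mv 716 (cons (fin 717 3 716)
(mv 845 (cons (fin 844 1 780)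
(mv 785 (cons (fin 846 1 781)
(mv 722 (cons (fin 721 2 718)
(mv 786 (cons (fin 787 1 783)
(fin 723 2 719)))))))))))
(cons (mv 717 (cons (fin 716 3 716)
(mv 785 (cons (fin 718 3 717)
(mv 786 (cons (fin 846 1 782)
(fin 787 1 783)))))))
(mv 717 (cons (fin 716 3 716)
(mv 720 (cons (fin 721 2 717)
(mv 656 (cons (fin 592 5 591)
(mv 655 (cons (fin 591 7 591)
(mv 657 (cons (fin 593 6 592)
(mv 718 (cons (fin 654 1 653)
(fin 719 2 653)))))))))))))))))))
(mv 781 (cons (fin 780 0 780)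
(mv 849 (cons (fin 850 3 782)
(fin 784 0 781)))))))))))
(cons (mv 975 (cons (fin 911 4 783)
(mv 974 (cons (mv 973 (cons (fin 1041 0 973)
(mv 972 (cons (fin 1039 0 972)
(mv 1036 (cons (fin 1035 1 971)
(fin 1037 1 972)))))))
(cons (mv 977 (cons (cons (mv 913 (cons (fin 914 2 910)
(mv 785 (cons (fin 849 5 784)
(mv 1038 (cons (fin 1037 1 973)
(mv 846 (cons (fin 910 6 782)
(mv 784 (cons (fin 786 1 782)
(mv 845 (cons (fin 782 1 781)
(fin 844 2 780)))))))))))))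
(mv 914 (cons (fin 913 2 910)
(mv 978 (cons (fin 915 2 911)
(mv 979 (cons (fin 1039 1 975)
(mv 1043 (cons (fin 1042 0 975)
(fin 1044 0 976))))))))))
(cons (mv 1038 (cons (fin 1037 1 973)
(mv 846 (cons (fin 910 6 782)
(mv 978 (cons (fin 1039 1 974)
(mv 915 (cons (fin 914 2 911)
(mv 979 (cons (fin 916 2 912)
(mv 1043 (cons (fin 1042 0 975)
(fin 1044 0 976)))))))))))))
(mv 1038 (cons (fin 1037 1 973)
(mv 846 (cons (fin 910 6 782)
(mv 978 (cons (fin 1039 1 974)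
(mv 1043 (cons (fin 1042 0 975)
(mv 979 (cons (fin 1044 0 976)
(mv 915 (cons (fin 916 2 912)
(mv 786 (cons (mv 784 (cons (fin 785 1 782)
(mv 844 (cons (fin 845 2 780)
(mv 851 (cons (fin 850 7 786)
(mv 787 (cons (fin 722 7 722)
(mv 788 (cons (fin 724 6 723)
(fin 852 6 787)))))))))))
(cons (mv 851 (cons (fin 850 7 786)
(mv 787 (cons (fin 722 7 722)
(mv 788 (cons (fin 724 6 723)
(fin 852 6 787)))))))
(mv 785 (cons (fin 784 1 782)
(mv 849 (cons (fin 848 2 782)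
(fin 913 5 784)))))))))))))))))))))))
(mv 1041 (cons (fin 973 0 973)
(mv 1042 (cons (fin 1043 3 975)
(fin 977 0 974))))))))))
(mv 911 (cons (fin 975 4 783)
(mv 719 (cons (fin 912 4 719)
(mv 654 (cons (fin 718 7 654)
(mv 655 (cons (fin 590 7 590)
(mv 656 (cons (fin 592 6 591)
(fin 720 6 655)))))))))))))))
(cons (mv 783 (cons (cons (mv 911 (cons (fin 975 4 783)
(mv 912 (cons (fin 848 7 783)
(fin 719 4 719)))))
(mv 848 (cons (fin 912 7 783)
(mv 782 (cons (cons (mv 781 (cons (fin 780 0 780)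
(mv 849 (cons (fin 846 3 781)
(fin 850 3 782)))))
(mv 849 (cons (fin 850 3 782)
(mv 846 (cons (cons (mv 785 (cons (fin 786 2 782)
(mv 784 (cons (fin 845 1 781)
(mv 717 (cons (fin 718 3 717)
(mv 721 (cons (fin 722 2 718)
(mv 593 (cons (fin 657 5 592)
(mv 910 (cons (fin 909 1 845)
(mv 719 (cons (fin 655 5 654)
(fin 974 6 718)))))))))))))))
(mv 909 (cons (fin 910 1 845)
(mv 845 (cons (fin 908 1 844)
(mv 844 (cons (fin 843 2 779)
(fin 784 2 780))))))))
(cons (mv 785 (cons (fin 786 2 782)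
(mv 784 (cons (fin 845 1 781)
(mv 717 (cons (fin 718 3 717)
(mv 721 (cons (fin 722 2 718)
(mv 657 (cons (fin 593 5 592)
(mv 594 (cons (fin 658 6 593)
(mv 656 (cons (fin 592 7 592)
(mv 913 (cons (fin 720 7 656)
(fin 977 5 784)))))))))))))))))
(mv 785 (cons (fin 786 2 782)
(mv 910 (cons (fin 909 1 845)
(mv 719 (cons (fin 655 5 654)
(fin 974 6 718)))))))))))))
(cons (mv 781 (cons (fin 780 0 780)
(mv 784 (cons (cons (mv 716 (cons (fin 717 3 716)
(mv 720 (cons (fin 721 2 717)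
(mv 592 (cons (fin 656 5 591)
(mv 845 (cons (fin 844 1 780)
(mv 846 (cons (fin 785 1 781)
(mv 909 (cons (fin 908 1 844)
(mv 718 (cons (fin 654 5 653)
(fin 973 6 717)))))))))))))))
(cons (mv 716 (cons (fin 717 3 716)
(mv 721 (cons (fin 720 2 717)
(mv 785 (cons (fin 722 2 718)
(mv 786 (cons (fin 846 1 782)
(fin 787 1 783)))))))))
(mv 720 (cons (fin 721 2 717)
(mv 592 (cons (fin 656 5 591)
(mv 845 (cons (fin 844 1 780)
(mv 846 (cons (fin 785 1 781)
(mv 909 (cons (fin 908 1 844)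
(mv 718 (cons (fin 654 5 653)
(fin 973 6 717)))))))))))))))
(cons (cons (mv 716 (cons (fin 717 3 716)
(mv 845 (cons (fin 844 1 780)
(mv 785 (cons (fin 846 1 781)
(mv 722 (cons (fin 721 2 718)
(mv 786 (cons (fin 787 1 783)
(fin 723 2 719)))))))))))
(mv 716 (cons (fin 717 3 716)
(mv 845 (cons (fin 844 1 780)
(mv 846 (cons (fin 785 1 781)
(mv 909 (cons (fin 908 1 844)
(mv 718 (cons (fin 654 5 653)
(fin 973 6 717))))))))))))
(cons (mv 717 (cons (fin 716 3 716)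
(mv 720 (cons (fin 721 2 717)
(mv 656 (cons (fin 592 5 591)
(mv 591 (cons (fin 655 7 591)
(mv 657 (cons (fin 593 6 592)
(mv 718 (cons (fin 719 2 653)
(mv 590 (cons (fin 654 4 590)
(mv 845 (cons (fin 844 1 780)
(mv 909 (cons (fin 973 6 717)
(mv 908 (cons (fin 846 1 844)
(fin 972 5 716)))))))))))))))))))))
(mv 717 (cons (fin 716 3 716)
(mv 718 (cons (fin 785 3 717)
(mv 590 (cons (fin 654 4 590)
(mv 720 (cons (fin 721 2 717)
(mv 656 (cons (fin 592 5 591)
(mv 657 (cons (fin 719 2 653)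
(fin 593 6 592)))))))))))))))))))
(mv 781 (cons (fin 780 0 780)
(mv 849 (cons (fin 850 3 782)
(fin 784 0 781)))))))))))
(cons (mv 911 (cons (fin 975 4 783)
(mv 719 (cons (cons (mv 654 (cons (fin 718 7 654)
(mv 655 (cons (fin 590 7 590)
(mv 656 (cons (fin 592 6 591)
(fin 720 6 655)))))))
(mv 656 (cons (fin 720 6 655)
(mv 655 (cons (fin 592 6 591)
(mv 910 (cons (fin 846 5 654)
(fin 974 5 718))))))))
(cons (mv 654 (cons (fin 718 7 654)
(mv 655 (cons (fin 590 7 590)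
(mv 910 (cons (fin 846 5 654)
(fin 974 5 718)))))))
(mv 718 (cons (fin 654 7 654)
(mv 720 (cons (fin 656 6 655)
(mv 910 (cons (fin 974 5 718)
(mv 717 (cons (cons (mv 784 (cons (fin 716 0 716)
(fin 785 0 717)))
(mv 652 (cons (fin 653 3 652)
(mv 651 (cons (fin 716 3 651)
(mv 781 (cons (fin 780 1 716)
(mv 721 (cons (fin 782 1 717)
(mv 658 (cons (fin 657 2 654)
(mv 722 (cons (fin 659 2 655)
(mv 786 (cons (fin 785 0 718)
(fin 787 0 719))))))))))))))))
(cons (mv 652 (cons (fin 653 3 652)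
(mv 780 (cons (fin 781 1 716)
(mv 785 (cons (fin 784 0 717)
(mv 721 (cons (fin 786 0 718)
(mv 658 (cons (fin 657 2 654)
(mv 722 (cons (fin 782 1 718)
(fin 659 2 655)))))))))))))
(mv 652 (cons (fin 653 3 652)
(mv 716 (cons (fin 651 3 651)
(fin 784 0 716)))))))))))))))))))
(mv 848 (cons (fin 912 7 783)
(mv 911 (cons (fin 975 4 783)
(mv 849 (cons (cons (mv 850 (cons (fin 782 3 782)
(fin 910 1 846)))
(mv 846 (cons (cons (mv 781 (cons (fin 782 3 781)
(mv 780 (cons (fin 845 3 780)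
(mv 785 (cons (fin 786 2 782)
(mv 910 (cons (fin 909 1 845)
(mv 977 (cons (fin 913 5 784)
(mv 1038 (cons (fin 974 6 782)
(mv 1039 (cons (fin 1037 2 973)
(mv 978 (cons (fin 979 1 975)
(fin 1041 2 974)))))))))))))))))
(mv 785 (cons (fin 786 2 782)
(mv 784 (cons (fin 845 2 781)
(mv 656 (cons (fin 720 5 655)
(mv 910 (cons (fin 909 1 845)
(mv 977 (cons (fin 913 5 784)
(mv 1038 (cons (fin 974 6 782)
(mv 1039 (cons (fin 1037 2 973)
(mv 978 (cons (fin 979 1 975)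
(fin 1041 2 974))))))))))))))))))
(cons (mv 781 (cons (fin 782 3 781)
(mv 845 (cons (fin 780 3 780)
(mv 909 (cons (fin 908 1 844)
(fin 910 1 845)))))))
(cons (mv 781 (cons (fin 782 3 781)
(mv 785 (cons (fin 786 2 782)
(mv 845 (cons (fin 780 3 780)
(fin 784 2 781)))))))
(mv 781 (cons (fin 782 3 781)
(mv 785 (cons (fin 786 2 782)
(mv 910 (cons (fin 909 1 845)
(mv 977 (cons (fin 913 5 784)
(mv 1038 (cons (fin 974 6 782)
(mv 1039 (cons (fin 1037 2 973)
(mv 978 (cons (fin 979 1 975)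
(fin 1041 2 974))))))))))))))))))))
(cons (mv 850 (cons (fin 910 1 846)
(mv 784 (cons (fin 851 3 783)
(mv 656 (cons (fin 720 5 655)
(mv 786 (cons (fin 787 2 783)
(mv 785 (cons (fin 846 1 782)
(mv 722 (cons (fin 723 2 719)
(mv 658 (cons (fin 594 5 593)
(fin 913 5 657)))))))))))))))
(mv 782 (cons (fin 850 3 782)
(mv 781 (cons (fin 846 3 781)
(fin 780 0 780)))))))))))))))
(cons (mv 783 (cons (cons (mv 911 (cons (fin 975 4 783)
(mv 912 (cons (fin 848 7 783)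
(fin 719 4 719)))))
(mv 848 (cons (fin 912 7 783)
(mv 782 (cons (cons (mv 781 (cons (fin 780 0 780)
(mv 849 (cons (fin 846 3 781)
(fin 850 3 782)))))
(mv 849 (cons (fin 850 3 782)
(mv 846 (cons (cons (mv 909 (cons (fin 910 1 845)
(mv 845 (cons (fin 908 1 844)
(mv 784 (cons (fin 785 1 781)
(fin 844 2 780)))))))
(mv 913 (cons (fin 914 0 846)
(mv 785 (cons (fin 977 5 784)
(mv 784 (cons (fin 845 1 781)
(mv 656 (cons (fin 720 4 656)
(mv 717 (cons (fin 718 3 717)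
(mv 721 (cons (fin 722 2 718)
(mv 657 (cons (fin 592 7 592)
(fin 593 5 592))))))))))))))))
(cons (mv 909 (cons (fin 910 1 845)
(mv 913 (cons (fin 914 0 846)
(mv 977 (cons (fin 785 5 784)
(mv 1041 (cons (fin 784 7 784)
(mv 1042 (cons (fin 1106 4 849)
(mv 975 (cons (fin 1043 3 975)
(fin 974 0 974)))))))))))))
(mv 910 (cons (fin 909 1 845)
(mv 719 (cons (fin 655 5 654)
(fin 974 6 718)))))))))))
(cons (mv 781 (cons (fin 780 0 780)
(mv 784 (cons (cons (mv 716 (cons (fin 717 3 716)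
(mv 720 (cons (fin 721 2 717)
(mv 592 (cons (fin 656 5 591)
(mv 845 (cons (fin 844 1 780)
(mv 846 (cons (fin 785 1 781)
(mv 909 (cons (fin 908 1 844)
(mv 718 (cons (fin 654 5 653)
(fin 973 6 717)))))))))))))))
(cons (mv 717 (cons (fin 716 3 716)
(mv 718 (cons (fin 785 3 717)
(mv 590 (cons (fin 654 4 590)
(mv 720 (cons (fin 721 2 717)
(mv 656 (cons (fin 592 5 591)
(mv 657 (cons (fin 719 2 653)
(fin 593 6 592)))))))))))))
(mv 720 (cons (fin 721 2 717)
(mv 592 (cons (fin 656 5 591)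
(mv 845 (cons (fin 844 1 780)
(mv 846 (cons (fin 785 1 781)
(mv 909 (cons (fin 908 1 844)
(mv 718 (cons (fin 654 5 653)
(fin 973 6 717)))))))))))))))
(cons (mv 716 (cons (fin 717 3 716)
(mv 845 (cons (fin 844 1 780)
(mv 846 (cons (fin 785 1 781)
(mv 909 (cons (fin 908 1 844)
(mv 718 (cons (fin 654 5 653)
(fin 973 6 717)))))))))))
(cons (mv 717 (cons (fin 716 3 716)
(mv 720 (cons (fin 721 2 717)
(mv 656 (cons (fin 592 5 591)
(mv 591 (cons (fin 655 7 591)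
(mv 657 (cons (fin 593 6 592)
(mv 718 (cons (fin 719 2 653)
(mv 590 (cons (fin 654 4 590)
(mv 845 (cons (fin 844 1 780)
(mv 909 (cons (fin 973 6 717)
(mv 908 (cons (fin 846 1 844)
(fin 972 5 716)))))))))))))))))))))
(mv 716 (cons (fin 717 3 716)
(mv 720 (cons (fin 721 2 717)
(mv 592 (cons (fin 656 5 591)
(mv 845 (cons (fin 844 1 780)
(mv 846 (cons (fin 785 1 781)
(mv 909 (cons (fin 908 1 844)
(mv 973 (cons (fin 1037 6 781)
(mv 972 (cons (fin 1036 5 780)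
(mv 974 (cons (fin 1038 4 781)
(mv 975 (cons (fin 1039 0 972)
(fin 1041 0 973)))))))))))))))))))))))))))
(mv 781 (cons (fin 780 0 780)
(mv 849 (cons (fin 850 3 782)
(fin 784 0 781)))))))))))
(cons (mv 911 (cons (fin 975 4 783)
(mv 719 (cons (cons (mv 654 (cons (fin 718 7 654)
(mv 655 (cons (fin 590 7 590)
(mv 656 (cons (fin 592 6 591)
(fin 720 6 655)))))))
(mv 656 (cons (fin 720 6 655)
(mv 655 (cons (fin 592 6 591)
(mv 910 (cons (fin 846 5 654)
(fin 974 5 718))))))))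
(cons (mv 654 (cons (fin 718 7 654)
(mv 655 (cons (fin 590 7 590)
(mv 910 (cons (fin 846 5 654)
(fin 974 5 718)))))))
(mv 718 (cons (fin 654 7 654)
(mv 720 (cons (fin 656 6 655)
(mv 910 (cons (fin 974 5 718)
(mv 717 (cons (mv 784 (cons (fin 716 0 716)
(fin 785 0 717)))
(cons (mv 652 (cons (fin 653 3 652)
(mv 716 (cons (fin 651 3 651)
(mv 780 (cons (fin 779 1 715)
(fin 781 1 716)))))))
(mv 652 (cons (fin 653 3 652)
(mv 781 (cons (fin 780 1 716)
(mv 721 (cons (fin 782 1 717)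
(mv 658 (cons (fin 657 2 654)
(mv 722 (cons (fin 659 2 655)
(mv 784 (cons (fin 723 1 719)
(fin 785 0 717)))))))))))))))))))))))))))
(cons (mv 848 (cons (fin 912 7 783)
(mv 782 (cons (cons (mv 781 (cons (fin 780 0 780)
(mv 849 (cons (fin 846 3 781)
(fin 850 3 782)))))
(mv 849 (cons (fin 850 3 782)
(mv 846 (cons (cons (mv 909 (cons (fin 910 1 845)
(mv 845 (cons (fin 908 1 844)
(mv 784 (cons (fin 785 1 781)
(fin 844 2 780)))))))
(mv 913 (cons (fin 914 0 846)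
(mv 785 (cons (fin 977 5 784)
(mv 784 (cons (fin 845 1 781)
(mv 656 (cons (fin 720 4 656)
(mv 717 (cons (fin 718 3 717)
(mv 721 (cons (fin 722 2 718)
(mv 657 (cons (fin 592 7 592)
(fin 593 5 592))))))))))))))))
(cons (mv 909 (cons (fin 910 1 845)
(mv 913 (cons (fin 914 0 846)
(mv 977 (cons (fin 785 5 784)
(mv 1041 (cons (fin 784 7 784)
(mv 1042 (cons (fin 1106 4 849)
(mv 1043 (cons (fin 1044 3 976)
(mv 979 (cons (fin 980 2 976)
(mv 1039 (cons (fin 978 1 975)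
(mv 1038 (cons (fin 1037 2 973)
(mv 1102 (cons (fin 1101 1 1037)
(fin 1103 1 1038)))))))))))))))))))))
(mv 910 (cons (fin 909 1 845)
(mv 719 (cons (fin 655 5 654)
(fin 974 6 718)))))))))))
(cons (mv 781 (cons (fin 780 0 780)
(mv 784 (cons (mv 716 (cons (fin 717 3 716)
(mv 720 (cons (fin 721 2 717)
(mv 656 (cons (fin 592 5 591)
(fin 911 5 655)))))))
(cons (mv 716 (cons (fin 717 3 716)
(mv 845 (cons (fin 844 1 780)
(mv 846 (cons (fin 785 1 781)
(mv 909 (cons (fin 908 1 844)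
(mv 718 (cons (fin 654 5 653)
(fin 973 6 717)))))))))))
(mv 720 (cons (fin 721 2 717)
(mv 656 (cons (fin 592 5 591)
(fin 911 5 655))))))))))
(mv 781 (cons (fin 780 0 780)
(mv 849 (cons (fin 850 3 782)
(fin 784 0 781))))))))))
(mv 848 (cons (fin 912 7 783)
(mv 911 (cons (fin 975 4 783)
(mv 849 (cons (cons (mv 850 (cons (fin 782 3 782)
(fin 910 1 846)))
(mv 846 (cons (cons (mv 781 (cons (fin 782 3 781)
(mv 780 (cons (fin 845 3 780)
(mv 909 (cons (fin 910 1 845)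
(mv 913 (cons (fin 914 0 846)
(mv 977 (cons (fin 785 5 784)
(mv 1041 (cons (fin 784 7 784)
(mv 1042 (cons (fin 1106 4 849)
(mv 1043 (cons (fin 1044 3 976)
(mv 979 (cons (fin 980 2 976)
(mv 1039 (cons (fin 978 1 975)
(mv 1038 (cons (fin 1037 2 973)
(mv 1102 (cons (fin 1101 1 1037)
(fin 1103 1 1038)))))))))))))))))))))))))
(cons (mv 909 (cons (fin 910 1 845)
(mv 845 (cons (fin 908 1 844)
(mv 784 (cons (fin 844 2 780)
(fin 785 2 781)))))))
(mv 781 (cons (fin 782 3 781)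
(mv 780 (cons (fin 845 3 780)
(mv 913 (cons (fin 914 0 846)
(mv 977 (cons (fin 785 5 784)
(mv 1041 (cons (fin 784 7 784)
(mv 1042 (cons (fin 1106 4 849)
(mv 1043 (cons (fin 1044 3 976)
(mv 979 (cons (fin 980 2 976)
(mv 1039 (cons (fin 978 1 975)
(mv 1038 (cons (fin 1037 2 973)
(mv 1102 (cons (fin 1101 1 1037)
(fin 1103 1 1038)))))))))))))))))))))))))
(cons (mv 781 (cons (fin 782 3 781)
(mv 909 (cons (fin 910 1 845)
(mv 913 (cons (fin 914 0 846)
(mv 977 (cons (fin 785 5 784)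
(mv 1041 (cons (fin 784 7 784)
(mv 1042 (cons (fin 1106 4 849)
(mv 1043 (cons (fin 1044 3 976)
(mv 979 (cons (fin 980 2 976)
(mv 1039 (cons (fin 978 1 975)
(mv 1038 (cons (fin 1037 2 973)
(mv 1102 (cons (fin 1101 1 1037)
(fin 1103 1 1038)))))))))))))))))))))))
(cons (mv 781 (cons (fin 782 3 781)
(mv 780 (cons (fin 845 3 780)
(mv 910 (cons (fin 909 1 845)
(mv 913 (cons (fin 914 0 846)
(mv 977 (cons (fin 785 5 784)
(mv 1038 (cons (fin 974 6 782)
(mv 1039 (cons (fin 1037 2 973)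
(mv 978 (cons (fin 979 1 975)
(fin 1041 2 974)))))))))))))))))
(mv 781 (cons (fin 782 3 781)
(mv 845 (cons (fin 780 3 780)
(mv 909 (cons (fin 908 1 844)
(fin 910 1 845))))))))))))
(cons (mv 850 (cons (fin 910 1 846)
(mv 784 (cons (fin 851 3 783)
(mv 656 (cons (fin 720 5 655)
(mv 914 (cons (fin 915 0 847)
(mv 846 (cons (fin 913 0 846)
(mv 845 (cons (fin 844 2 780)
(fin 785 2 781)))))))))))))
(mv 782 (cons (fin 850 3 782)
(mv 781 (cons (fin 846 3 781)
(fin 780 0 780))))))))))))))))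
(mv 912 (cons (cons (mv 783 (cons (fin 848 7 783)
(mv 911 (cons (fin 719 4 719)
(fin 975 4 783)))))
(mv 911 (cons (mv 783 (cons (fin 719 4 719)
(fin 975 4 783)))
(cons (mv 977 (cons (cons (mv 910 (cons (fin 909 0 909)
(mv 978 (cons (fin 975 3 910)
(fin 979 3 911)))))
(mv 910 (cons (fin 909 0 909)
(mv 913 (cons (mv 846 (cons (fin 845 3 845)
(fin 914 3 846)))
(cons (mv 785 (cons (fin 849 5 784)
(mv 974 (cons (fin 973 1 909)
(mv 975 (cons (fin 914 1 910)
(mv 1038 (cons (fin 1037 1 973)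
(fin 1102 6 846)))))))))
(mv 785 (cons (fin 849 5 784)
(mv 845 (cons (fin 846 3 845)
(mv 974 (cons (fin 973 1 909)
(mv 1038 (cons (fin 1102 6 846)
(mv 1037 (cons (fin 975 1 973)
(fin 1039 2 973)))))))))))))))))
(cons (mv 978 (cons (fin 979 3 911)
(mv 975 (cons (cons (mv 914 (cons (fin 915 2 911)
(mv 913 (cons (fin 846 3 846)
(fin 974 1 910)))))
(mv 1038 (cons (fin 1039 1 974)
(mv 974 (cons (fin 1037 1 973)
(mv 973 (cons (fin 972 2 908)
(fin 913 2 909))))))))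
(cons (mv 914 (cons (fin 915 2 911)
(mv 846 (cons (fin 913 3 846)
(mv 1039 (cons (fin 1038 1 974)
(fin 782 7 782)))))))
(mv 914 (cons (fin 915 2 911)
(mv 1038 (cons (fin 1039 1 974)
(mv 974 (cons (fin 1037 1 973)
(mv 973 (cons (fin 972 2 908)
(fin 1041 0 973))))))))))))))
(mv 910 (cons (fin 909 0 909)
(mv 978 (cons (fin 979 3 911)
(fin 913 0 910))))))))
(mv 783 (cons (fin 719 4 719)
(mv 910 (cons (cons (mv 909 (cons (fin 977 0 909)
(mv 844 (cons (fin 845 3 844)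
(mv 843 (cons (fin 908 3 843)
(mv 973 (cons (fin 972 1 908)
(mv 974 (cons (fin 913 1 909)
(mv 1038 (cons (fin 846 6 782)
(fin 1102 6 846)))))))))))))
(cons (mv 974 (cons (mv 1038 (cons (fin 846 6 782)
(fin 1102 6 846)))
(cons (mv 913 (cons (fin 973 1 909)
(mv 846 (cons (fin 845 3 845)
(fin 914 3 846)))))
(mv 973 (cons (fin 913 1 909)
(mv 971 (cons (fin 972 2 907)
(mv 1038 (cons (fin 1102 6 846)
(mv 1039 (cons (fin 1041 3 973)
(mv 1037 (cons (fin 977 2 973)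
(mv 1101 (cons (fin 1100 1 1036)
(fin 1165 6 909))))))))))))))))
(mv 974 (cons (mv 1038 (cons (fin 846 6 782)
(fin 1102 6 846)))
(cons (mv 913 (cons (fin 973 1 909)
(mv 846 (cons (fin 845 3 845)
(fin 914 3 846)))))
(mv 973 (cons (fin 913 1 909)
(mv 972 (cons (fin 909 1 908)
(fin 971 2 907))))))))))
(cons (cons (mv 909 (cons (fin 977 0 909)
(mv 844 (cons (fin 845 3 844)
(mv 908 (cons (fin 843 3 843)
(mv 972 (cons (fin 971 1 907)
(fin 973 1 908)))))))))
(mv 909 (cons (fin 977 0 909)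
(mv 972 (cons (fin 973 1 908)
(mv 908 (cons (fin 971 1 907)
(mv 843 (cons (fin 844 3 843)
(mv 907 (cons (fin 842 3 842)
(fin 846 2 843))))))))))))
(cons (mv 909 (cons (fin 977 0 909)
(mv 844 (cons (fin 845 3 844)
(mv 908 (cons (fin 843 3 843)
(mv 907 (cons (fin 846 2 843)
(mv 971 (cons (fin 970 1 906)
(fin 972 1 907)))))))))))
(mv 909 (cons (fin 977 0 909)
(mv 844 (cons (fin 845 3 844)
(mv 908 (cons (fin 843 3 843)
(mv 846 (cons (fin 907 2 843)
(mv 913 (cons (fin 914 3 846)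
(mv 974 (cons (fin 973 1 909)
(fin 1038 6 782)))))))))))))))))))))))
(cons (mv 848 (cons (cons (mv 785 (cons (fin 849 6 784)
(mv 784 (cons (fin 721 6 720)
(mv 1039 (cons (fin 975 5 783)
(fin 1103 5 847)))))))
(mv 785 (cons (fin 849 6 784)
(mv 784 (cons (fin 721 6 720)
(mv 786 (cons (fin 787 1 783)
(mv 845 (cons (fin 846 2 781)
(mv 977 (cons (fin 1041 4 784)
(mv 720 (cons (fin 913 4 720)
(mv 911 (cons (fin 656 5 655)
(fin 975 5 719))))))))))))))))
(cons (mv 1039 (cons (fin 1103 5 847)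
(mv 784 (cons (fin 975 5 783)
(mv 977 (cons (fin 1041 4 784)
(mv 720 (cons (fin 913 4 720)
(mv 655 (cons (fin 719 7 655)
(mv 656 (cons (fin 591 7 591)
(fin 911 5 655)))))))))))))
(cons (mv 785 (cons (fin 849 6 784)
(mv 1039 (cons (fin 1103 5 847)
(mv 1038 (cons (cons (mv 977 (cons (fin 1037 2 973)
(mv 978 (cons (fin 975 1 974)
(fin 979 1 975)))))
(mv 1037 (cons (cons (mv 972 (cons (fin 973 3 972)
(mv 1036 (cons (fin 971 3 971)
(fin 975 2 972)))))
(mv 973 (cons (fin 972 3 972)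
(mv 974 (cons (fin 1041 3 973)
(mv 913 (cons (fin 975 2 909)
(mv 845 (cons (fin 846 0 845)
(mv 909 (cons (fin 781 4 781)
(fin 1102 4 845))))))))))))
(cons (mv 972 (cons (fin 973 3 972)
(mv 1036 (cons (fin 971 3 971)
(mv 1100 (cons (fin 1099 1 1035)
(fin 1101 1 1036)))))))
(mv 975 (cons (fin 1036 2 972)
(mv 911 (cons (fin 1102 5 846)
(mv 846 (cons (fin 782 7 782)
(mv 845 (cons (fin 844 0 844)
(fin 913 0 845)))))))))))))
(cons (mv 1041 (cons (cons (mv 973 (cons (fin 974 3 973)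
(mv 978 (cons (fin 977 2 974)
(mv 1042 (cons (fin 979 2 975)
(mv 975 (cons (fin 1043 3 975)
(mv 1102 (cons (fin 1101 1 1037)
(fin 911 5 846)))))))))))
(mv 974 (cons (fin 973 3 973)
(mv 975 (cons (fin 1042 3 974)
(mv 1102 (cons (fin 1101 1 1037)
(fin 911 5 846))))))))
(cons (mv 978 (cons (fin 977 2 974)
(mv 1042 (cons (fin 979 2 975)
(mv 975 (cons (fin 1043 3 975)
(mv 1102 (cons (fin 1101 1 1037)
(fin 911 5 846)))))))))
(cons (mv 973 (cons (fin 974 3 973)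
(mv 978 (cons (fin 977 2 974)
(mv 1042 (cons (fin 979 2 975)
(mv 1043 (cons (fin 975 3 975)
(mv 1107 (cons (fin 1106 0 1039)
(fin 1108 0 1040)))))))))))
(mv 974 (cons (fin 973 3 973)
(mv 977 (cons (fin 978 2 974)
(mv 1102 (cons (fin 1101 1 1037)
(mv 910 (cons (fin 911 6 846)
(mv 845 (cons (fin 909 7 845)
(mv 846 (cons (fin 913 0 845)
(fin 781 7 781)))))))))))))))))
(mv 977 (cons (fin 1037 2 973)
(mv 978 (cons (fin 979 1 975)
(fin 1041 2 974))))))))))))
(mv 785 (cons (fin 849 6 784)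
(mv 784 (cons (fin 721 6 720)
(mv 786 (cons (fin 787 1 783)
(mv 845 (cons (fin 846 2 781)
(mv 977 (cons (fin 1041 4 784)
(mv 720 (cons (fin 913 4 720)
(mv 655 (cons (fin 719 7 655)
(mv 656 (cons (fin 591 7 591)
(fin 911 5 655)))))))))))))))))))))
(cons (mv 848 (cons (fin 783 7 783)
(mv 785 (cons (fin 849 6 784)
(mv 784 (cons (fin 721 6 720)
(mv 1039 (cons (fin 975 5 783)
(fin 1103 5 847)))))))))
(mv 783 (cons (fin 848 7 783)
(mv 911 (cons (fin 719 4 719)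
(mv 910 (cons (cons (mv 909 (cons (fin 977 0 909)
(mv 844 (cons (fin 845 3 844)
(mv 843 (cons (fin 908 3 843)
(mv 973 (cons (fin 972 1 908)
(mv 974 (cons (fin 913 1 909)
(mv 1038 (cons (fin 846 6 782)
(fin 1102 6 846)))))))))))))
(cons (mv 974 (cons (mv 1038 (cons (fin 846 6 782)
(fin 1102 6 846)))
(cons (mv 913 (cons (fin 973 1 909)
(mv 846 (cons (fin 845 3 845)
(fin 914 3 846)))))
(mv 973 (cons (fin 913 1 909)
(mv 971 (cons (fin 972 2 907)
(mv 1038 (cons (fin 1102 6 846)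
(mv 1039 (cons (fin 1041 3 973)
(mv 1037 (cons (fin 977 2 973)
(mv 1101 (cons (fin 1100 1 1036)
(fin 1165 6 909))))))))))))))))
(mv 974 (cons (mv 1038 (cons (fin 846 6 782)
(fin 1102 6 846)))
(cons (mv 913 (cons (fin 973 1 909)
(mv 846 (cons (fin 845 3 845)
(fin 914 3 846)))))
(mv 973 (cons (fin 913 1 909)
(mv 972 (cons (fin 909 1 908)
(fin 971 2 907))))))))))
(cons (cons (mv 909 (cons (fin 977 0 909)
(mv 844 (cons (fin 845 3 844)
(mv 908 (cons (fin 843 3 843)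
(mv 972 (cons (fin 971 1 907)
(fin 973 1 908)))))))))
(mv 909 (cons (fin 977 0 909)
(mv 972 (cons (fin 973 1 908)
(mv 908 (cons (fin 971 1 907)
(mv 843 (cons (fin 844 3 843)
(mv 907 (cons (fin 842 3 842)
(fin 846 2 843))))))))))))
(cons (mv 909 (cons (fin 977 0 909)
(mv 844 (cons (fin 845 3 844)
(mv 908 (cons (fin 843 3 843)
(mv 907 (cons (fin 846 2 843)
(mv 971 (cons (fin 970 1 906)
(fin 972 1 907)))))))))))
(mv 909 (cons (fin 977 0 909)
(mv 844 (cons (fin 845 3 844)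
(mv 908 (cons (fin 843 3 843)
(mv 846 (cons (fin 907 2 843)
(mv 913 (cons (fin 914 3 846)
(mv 974 (cons (fin 973 1 909)
(fin 1038 6 782)))))))))))))))))))))))))))))))
def l72 : Lem := ⟨11781361728633673533533443397406062833968813197368088696213098202092515054870126237445090575199368781731314332188895059436116029279163206249762429370674526186657931638943130497570144079131611440698089315210039093965026117276249703078140228958042332339181772754128421771855461400024448621079244630891963236233510912, 360519929991120204250617131943175584527333732059451201146269277962299907751118810348028900028701853318406818559825811002465920100961385998226935020017748050211461083681447362913874537733913797858023737109137363360073659402825923733256430116854250600871416904824297124307774352863414911073571783855149009975931184693175338967148236654629013278094411953247495187041364213760, 360519929991120204250617131943175584527333732059451201146269277962299907751118810348028900028701853318406818559825811002465920100961385998226935020017748050211461083681447362913874537733913797858023737109137363360073659402825923733256430116854250600871416904824297124307774352863414911073571783855149009975931184693175338967148236654629013278094411953247495187041364213760,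 19, 33⟩
theorem l72_valid : l72.Valid :=
  Lem.valid_of_chk t72 t72_valid [976, 1040] c72 l72 (by decide +kernel)
end Crest.Agent.SnakyAux
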