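import Crest.Agent.S0047_aux.Checker

set_option autoImplicit false
set_option maxRecDepth 100000
namespace Crest.Agent.SnakyAux
open Cert
def t73 : Tbl := Tbl.nil
theorem t73_valid : t73.Valid := Tbl.valid_nil
def c73 : Cert :=
(mv 1168 (cons (cons (cons (mv 1104 (cons (cons (mv 911 (cons (fin 975 7 911)
(mv 913 (cons (fin 977 6 912)
(mv 1231 (cons (fin 1167 5 975)
(mv 1232 (cons (fin 1295 5 1039)
(mv 1233 (cons (fin 1169 4 976)
(fin 1297 4 1040)))))))))))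
(cons (mv 913 (cons (fin 977 6 912)
(mv 1231 (cons (fin 1167 5 975)
(mv 1232 (cons (fin 1295 5 1039)
(mv 1233 (cons (fin 1169 4 976)
(fin 1297 4 1040)))))))))
(mv 911 (cons (fin 975 7 911)
(mv 1231 (cons (fin 1167 5 975)
(mv 1232 (cons (fin 1295 5 1039)
(mv 1233 (cons (fin 1169 4 976)
(fin 1297 4 1040)))))))))))
(cons (mv 911 (cons (fin 975 7 911)
(mv 977 (cons (fin 913 6 912)
(mv 1232 (cons (fin 1041 6 976)
(mv 1233 (cons (fin 1169 4 976)
(fin 1297 4 1040)))))))))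
(cons (mv 911 (cons (fin 975 7 911)
(mv 977 (cons (fin 913 6 912)
(mv 1231 (cons (fin 1167 5 975)
(mv 1232 (cons (fin 1295 5 1039)
(fin 1041 6 976)))))))))
(mv 911 (cons (fin 975 7 911)
(mv 913 (cons (fin 977 6 912)
(mv 1167 (cons (fin 1231 5 975)
(mv 1169 (cons (fin 1233 4 976)
(mv 1166 (cons (cons (mv 1101 (cons (fin 1102 3 1101)
(mv 1165 (cons (fin 1100 3 1100)
(mv 1229 (cons (fin 1228 1 1164)
(fin 1230 1 1165)))))))
(mv 1229 (cons (fin 1230 1 1165)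
(mv 1165 (cons (fin 1228 1 1164)
(mv 1100 (cons (fin 1101 3 1100)
(mv 1164 (cons (fin 1099 3 1099)
(fin 1103 2 1100))))))))))
(cons (mv 1229 (cons (fin 1230 1 1165)
(mv 1165 (cons (fin 1228 1 1164)
(mv 1103 (cons (fin 1164 2 1100)
(mv 1170 (cons (fin 1102 3 1102)
(fin 1171 3 1103)))))))))
(mv 1102 (cons (fin 1101 3 1101)
(mv 1170 (cons (fin 1103 3 1102)
(mv 1107 (cons (fin 1106 2 1103)
(mv 1171 (cons (fin 1108 2 1104)
(mv 1235 (cons (fin 1234 0 1167)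
(fin 1236 0 1168))))))))))))))))))))))))))
(mv 974 (cons (cons (cons (cons (mv 975 (cons (cons (mv 973 (cons (fin 1041 0 973)
(mv 908 (cons (fin 909 3 908)
(mv 972 (cons (fin 907 3 907)
(fin 1039 0 972)))))))
(mv 977 (cons (cons (mv 909 (cons (fin 910 3 909)
(mv 913 (cons (fin 914 2 910)
(mv 785 (cons (fin 849 5 784)
(mv 1038 (cons (fin 1037 1 973)
(mv 978 (cons (fin 1039 1 974)
(mv 1042 (cons (fin 1041 0 974)
(fin 1043 0 975)))))))))))))
(cons (mv 909 (cons (fin 910 3 909)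
(mv 914 (cons (fin 913 2 910)
(mv 978 (cons (fin 915 2 911)
(mv 1038 (cons (fin 1037 1 973)
(fin 1039 1 974)))))))))
(mv 909 (cons (fin 910 3 909)
(mv 914 (cons (fin 913 2 910)
(mv 978 (cons (fin 915 2 911)
(mv 1042 (cons (fin 1041 0 974)
(fin 1043 0 975)))))))))))
(cons (cons (mv 913 (cons (fin 914 2 910)
(mv 785 (cons (fin 849 5 784)
(mv 1038 (cons (fin 1037 1 973)
(mv 978 (cons (fin 1039 1 974)
(mv 1042 (cons (fin 1041 0 974)
(fin 1043 0 975)))))))))))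
(mv 909 (cons (fin 910 3 909)
(mv 1037 (cons (fin 1038 1 973)
(mv 1042 (cons (fin 1041 0 974)
(mv 978 (cons (fin 1043 0 975)
(mv 915 (cons (fin 914 2 911)
(mv 979 (cons (fin 1039 1 975)
(fin 916 2 912))))))))))))))
(cons (mv 909 (cons (fin 910 3 909)
(mv 1038 (cons (fin 1037 1 973)
(mv 978 (cons (fin 1039 1 974)
(mv 1042 (cons (fin 1041 0 974)
(fin 1043 0 975)))))))))
(mv 910 (cons (fin 909 3 909)
(mv 913 (cons (fin 914 2 910)
(mv 849 (cons (fin 785 5 784)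
(mv 1037 (cons (fin 1038 1 973)
(mv 1041 (cons (fin 1042 0 974)
(mv 848 (cons (fin 784 7 784)
(mv 850 (cons (fin 786 6 785)
(mv 847 (cons (fin 911 1 846)
(mv 782 (cons (fin 783 3 782)
(mv 846 (cons (fin 781 3 781)
(fin 1039 4 782))))))))))))))))))))))))))
(cons (mv 977 (cons (cons (mv 909 (cons (fin 910 3 909)
(mv 908 (cons (fin 973 3 908)
(mv 914 (cons (fin 913 2 910)
(mv 978 (cons (fin 915 2 911)
(mv 1038 (cons (fin 1037 1 973)
(fin 1039 1 974)))))))))))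
(cons (mv 909 (cons (fin 910 3 909)
(mv 908 (cons (fin 973 3 908)
(mv 914 (cons (fin 913 2 910)
(mv 978 (cons (fin 915 2 911)
(mv 979 (cons (fin 1039 1 975)
(mv 1043 (cons (fin 1042 0 975)
(fin 1044 0 976)))))))))))))
(mv 913 (cons (fin 914 2 910)
(mv 785 (cons (fin 849 5 784)
(mv 1037 (cons (fin 1038 1 973)
(mv 973 (cons (fin 1036 1 972)
(mv 908 (cons (fin 909 3 908)
(mv 972 (cons (fin 907 3 907)
(fin 1039 0 972)))))))))))))))
(cons (mv 914 (cons (fin 913 2 910)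
(mv 978 (cons (fin 915 2 911)
(mv 1038 (cons (fin 1037 1 973)
(fin 1039 1 974)))))))
(cons (mv 909 (cons (fin 910 3 909)
(mv 908 (cons (fin 973 3 908)
(mv 1038 (cons (fin 1037 1 973)
(mv 978 (cons (fin 1039 1 974)
(mv 915 (cons (fin 914 2 911)
(mv 979 (cons (fin 916 2 912)
(mv 1043 (cons (fin 1042 0 975)
(fin 1044 0 976)))))))))))))))
(mv 909 (cons (fin 910 3 909)
(mv 973 (cons (fin 908 3 908)
(mv 1037 (cons (fin 1036 1 972)
(fin 1038 1 973)))))))))))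
(cons (mv 973 (cons (fin 1041 0 973)
(mv 908 (cons (fin 909 3 908)
(mv 972 (cons (fin 907 3 907)
(mv 1036 (cons (fin 1035 1 971)
(fin 1037 1 972)))))))))
(mv 973 (cons (fin 1041 0 973)
(mv 972 (cons (fin 1039 0 972)
(mv 1036 (cons (fin 1035 1 971)
(fin 1037 1 972)))))))))))
(mv 1038 (cons (cons (mv 1039 (cons (cons (mv 973 (cons (fin 1041 3 973)
(mv 972 (cons (fin 1037 3 972)
(fin 971 0 971)))))
(mv 1041 (cons (fin 973 3 973)
(mv 977 (cons (fin 978 2 974)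
(mv 1102 (cons (fin 1101 1 1037)
(mv 1042 (cons (fin 1103 1 1038)
(mv 1043 (cons (fin 1044 3 976)
(mv 1107 (cons (fin 1106 0 1039)
(fin 1108 0 1040))))))))))))))
(cons (mv 1037 (cons (fin 977 2 973)
(mv 972 (cons (fin 973 3 972)
(mv 971 (cons (fin 1036 3 971)
(mv 1101 (cons (fin 1100 1 1036)
(mv 910 (cons (fin 846 5 845)
(mv 1165 (cons (fin 1102 5 909)
(fin 1229 6 973)))))))))))))
(mv 977 (cons (fin 1037 2 973)
(mv 978 (cons (fin 979 1 975)
(fin 1041 2 974))))))))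
(cons (mv 1102 (cons (cons (mv 910 (cons (cons (mv 845 (cons (fin 909 7 845)
(mv 781 (cons (fin 846 7 781)
(mv 847 (cons (fin 911 6 846)
(mv 1101 (cons (fin 1165 5 909)
(mv 1167 (cons (fin 1103 4 910)
(mv 1166 (cons (fin 1169 3 1101)
(fin 1231 4 974)))))))))))))
(cons (mv 845 (cons (fin 909 7 845)
(mv 781 (cons (fin 846 7 781)
(mv 847 (cons (fin 911 6 846)
(mv 1167 (cons (fin 1103 4 910)
(mv 1166 (cons (fin 1231 4 974)
(mv 1229 (cons (fin 1165 5 973)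
(mv 1230 (cons (fin 1169 1 1165)
(fin 1293 5 1037)))))))))))))))
(mv 845 (cons (fin 909 7 845)
(mv 846 (cons (fin 781 7 781)
(mv 847 (cons (fin 783 6 782)
(fin 911 6 846)))))))))
(cons (mv 847 (cons (fin 911 6 846)
(mv 783 (cons (fin 846 6 782)
(mv 1101 (cons (fin 1165 5 909)
(mv 1167 (cons (fin 1103 4 910)
(mv 1166 (cons (fin 1169 3 1101)
(fin 1231 4 974)))))))))))
(cons (mv 845 (cons (fin 909 7 845)
(mv 781 (cons (fin 846 7 781)
(mv 1101 (cons (fin 1165 5 909)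
(mv 1167 (cons (fin 1103 4 910)
(mv 1166 (cons (fin 1169 3 1101)
(fin 1231 4 974)))))))))))
(mv 845 (cons (fin 909 7 845)
(mv 847 (cons (fin 911 6 846)
(mv 1101 (cons (fin 1165 5 909)
(mv 1167 (cons (fin 1103 4 910)
(mv 1166 (cons (fin 1169 3 1101)
(fin 1231 4 974)))))))))))))))
(cons (mv 1166 (cons (cons (mv 909 (cons (fin 973 7 909)
(mv 1165 (cons (fin 1229 5 973)
(mv 1167 (cons (fin 1231 4 974)
(mv 1101 (cons (fin 1100 3 1100)
(fin 1169 3 1101)))))))))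
(cons (mv 973 (cons (fin 909 7 909)
(mv 1165 (cons (fin 1229 5 973)
(mv 1230 (cons (fin 1037 7 973)
(mv 1295 (cons (fin 1231 4 1038)
(mv 1294 (cons (fin 1359 4 1102)
(mv 1357 (cons (fin 1293 5 1101)
(mv 1358 (cons (fin 1101 7 1101)
(fin 1421 5 1165)))))))))))))))
(mv 909 (cons (fin 973 7 909)
(mv 1167 (cons (fin 1231 4 974)
(mv 1101 (cons (fin 1169 3 1101)
(mv 1100 (cons (fin 1165 3 1100)
(fin 1099 0 1099)))))))))))
(cons (mv 1165 (cons (fin 1229 5 973)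
(mv 1167 (cons (fin 1231 4 974)
(mv 1101 (cons (fin 1100 3 1100)
(fin 1169 3 1101)))))))
(cons (mv 973 (cons (fin 909 7 909)
(mv 1229 (cons (fin 1165 5 973)
(mv 1230 (cons (fin 1037 7 973)
(fin 1293 5 1037)))))))
(mv 909 (cons (fin 973 7 909)
(mv 1167 (cons (fin 1231 4 974)
(mv 1101 (cons (fin 1169 3 1101)
(mv 1100 (cons (fin 1099 0 1099)
(fin 1103 0 1100)))))))))))))
(mv 910 (cons (cons (mv 845 (cons (fin 909 7 845)
(mv 846 (cons (fin 781 7 781)
(mv 847 (cons (fin 783 6 782)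
(fin 911 6 846)))))))
(mv 847 (cons (fin 911 6 846)
(mv 846 (cons (fin 783 6 782)
(mv 1101 (cons (fin 1037 5 845)
(fin 1165 5 909))))))))
(cons (mv 845 (cons (fin 909 7 845)
(mv 846 (cons (fin 781 7 781)
(mv 1101 (cons (fin 1037 5 845)
(fin 1165 5 909)))))))
(mv 909 (cons (fin 845 7 845)
(mv 911 (cons (fin 847 6 846)
(mv 1101 (cons (fin 1165 5 909)
(mv 1103 (cons (fin 1167 4 910)
(mv 908 (cons (cons (mv 843 (cons (fin 844 3 843)
(mv 907 (cons (fin 842 3 842)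
(mv 971 (cons (fin 970 1 906)
(fin 972 1 907)))))))
(mv 844 (cons (fin 843 3 843)
(mv 1037 (cons (fin 973 7 844)
(mv 1036 (cons (fin 1035 0 1035)
(fin 972 4 844))))))))
(cons (mv 843 (cons (fin 844 3 843)
(mv 907 (cons (fin 842 3 842)
(mv 906 (cons (fin 973 0 906)
(mv 970 (cons (fin 969 1 905)
(fin 971 1 906)))))))))
(cons (mv 971 (cons (fin 972 1 907)
(mv 907 (cons (fin 970 1 906)
(mv 842 (cons (fin 843 3 842)
(mv 906 (cons (fin 841 3 841)
(fin 973 0 906)))))))))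
(mv 971 (cons (fin 972 1 907)
(mv 907 (cons (fin 970 1 906)
(mv 906 (cons (fin 973 0 906)
(mv 842 (cons (fin 841 3 841)
(mv 714 (cons (fin 778 4 714)
(mv 1035 (cons (fin 1099 7 842)
(mv 1036 (cons (fin 1100 3 1035)
(fin 1037 0 1035))))))))))))))))))))))))))))))))
(cons (cons (mv 910 (cons (cons (mv 845 (cons (fin 909 7 845)
(mv 846 (cons (fin 781 7 781)
(mv 847 (cons (fin 783 6 782)
(fin 911 6 846)))))))
(mv 847 (cons (fin 911 6 846)
(mv 846 (cons (fin 783 6 782)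
(mv 1101 (cons (fin 1037 5 845)
(fin 1165 5 909))))))))
(cons (mv 845 (cons (fin 909 7 845)
(mv 846 (cons (fin 781 7 781)
(mv 1101 (cons (fin 1037 5 845)
(fin 1165 5 909)))))))
(mv 847 (cons (fin 911 6 846)
(mv 909 (cons (fin 845 7 845)
(mv 1165 (cons (fin 1101 5 909)
(mv 1166 (cons (fin 973 7 909)
(fin 1229 5 973))))))))))))
(mv 910 (cons (cons (mv 845 (cons (fin 909 7 845)
(mv 846 (cons (fin 781 7 781)
(mv 847 (cons (fin 783 6 782)
(fin 911 6 846)))))))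
(mv 847 (cons (fin 911 6 846)
(mv 846 (cons (fin 783 6 782)
(mv 781 (cons (fin 845 7 781)
(mv 717 (cons (fin 782 7 717)
(mv 1037 (cons (fin 1101 5 845)
(mv 1167 (cons (fin 1103 4 910)
(mv 1166 (cons (fin 1231 4 974)
(mv 1230 (cons (fin 973 7 973)
(mv 1229 (cons (fin 1169 1 1165)
(fin 1293 5 1037))))))))))))))))))))
(cons (mv 847 (cons (fin 911 6 846)
(mv 783 (cons (fin 846 6 782)
(mv 1167 (cons (fin 1103 4 910)
(mv 1166 (cons (fin 1231 4 974)
(mv 973 (cons (fin 909 7 909)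
(mv 1169 (cons (fin 1101 3 1101)
(mv 1230 (cons (fin 1229 1 1165)
(fin 1037 7 973)))))))))))))))
(cons (mv 845 (cons (fin 909 7 845)
(mv 846 (cons (fin 781 7 781)
(mv 1037 (cons (fin 1101 5 845)
(mv 973 (cons (fin 782 5 781)
(mv 1166 (cons (fin 1230 7 973)
(mv 1167 (cons (fin 1103 4 910)
(fin 1231 4 974)))))))))))))
(mv 847 (cons (fin 911 6 846)
(mv 909 (cons (fin 845 7 845)
(mv 1166 (cons (fin 973 7 909)
(mv 1167 (cons (fin 1103 4 910)
(fin 1231 4 974))))))))))))))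
(cons (mv 910 (cons (cons (mv 847 (cons (fin 911 6 846)
(mv 783 (cons (fin 846 6 782)
(mv 1101 (cons (fin 1165 5 909)
(mv 1167 (cons (fin 1103 4 910)
(mv 1166 (cons (fin 1169 3 1101)
(fin 1231 4 974)))))))))))
(cons (mv 847 (cons (fin 911 6 846)
(mv 783 (cons (fin 846 6 782)
(mv 1167 (cons (fin 1103 4 910)
(mv 1166 (cons (fin 1231 4 974)
(mv 1229 (cons (fin 1165 5 973)
(mv 1230 (cons (fin 1169 1 1165)
(fin 1293 5 1037)))))))))))))
(mv 847 (cons (fin 911 6 846)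
(mv 846 (cons (fin 783 6 782)
(mv 1101 (cons (fin 1037 5 845)
(fin 1165 5 909)))))))))
(cons (mv 847 (cons (fin 911 6 846)
(mv 846 (cons (fin 783 6 782)
(mv 781 (cons (fin 845 7 781)
(mv 717 (cons (fin 782 7 717)
(mv 1037 (cons (fin 1101 5 845)
(mv 1167 (cons (fin 1103 4 910)
(mv 1166 (cons (fin 1231 4 974)
(mv 1230 (cons (fin 973 7 973)
(mv 1229 (cons (fin 1169 1 1165)
(fin 1293 5 1037)))))))))))))))))))
(cons (mv 1101 (cons (fin 1165 5 909)
(mv 846 (cons (fin 1037 5 845)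
(mv 781 (cons (fin 845 7 781)
(mv 717 (cons (fin 782 7 717)
(mv 1167 (cons (fin 1103 4 910)
(mv 1166 (cons (fin 1169 3 1101)
(fin 1231 4 974)))))))))))))
(mv 847 (cons (fin 911 6 846)
(mv 1101 (cons (fin 1165 5 909)
(mv 1167 (cons (fin 1103 4 910)
(mv 1166 (cons (fin 1169 3 1101)
(fin 1231 4 974)))))))))))))
(mv 1166 (cons (cons (mv 909 (cons (fin 973 7 909)
(mv 845 (cons (fin 910 7 845)
(mv 1167 (cons (fin 1231 4 974)
(mv 1229 (cons (fin 1165 5 973)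
(mv 1230 (cons (fin 1169 1 1165)
(fin 1293 5 1037)))))))))))
(mv 973 (cons (fin 909 7 909)
(mv 1229 (cons (fin 1165 5 973)
(mv 1230 (cons (fin 1037 7 973)
(fin 1293 5 1037))))))))
(cons (mv 909 (cons (fin 973 7 909)
(mv 910 (cons (fin 845 7 845)
(mv 1167 (cons (fin 1103 4 910)
(fin 1231 4 974)))))))
(cons (mv 1165 (cons (fin 1229 5 973)
(mv 1167 (cons (fin 1231 4 974)
(mv 910 (cons (fin 1103 4 910)
(mv 845 (cons (fin 909 7 845)
(mv 846 (cons (fin 781 7 781)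
(mv 847 (cons (fin 783 6 782)
(fin 911 6 846)))))))))))))
(mv 1165 (cons (fin 1229 5 973)
(mv 1167 (cons (fin 1231 4 974)
(mv 1103 (cons (fin 910 4 910)
(mv 1163 (cons (fin 1164 2 1099)
(mv 1169 (cons (fin 1170 3 1102)
(mv 1233 (cons (fin 1232 0 1165)
(fin 1234 0 1166)))))))))))))))))))))
(mv 910 (cons (cons (mv 1102 (cons (cons (mv 845 (cons (fin 909 7 845)
(mv 781 (cons (fin 846 7 781)
(mv 847 (cons (fin 911 6 846)
(mv 1101 (cons (fin 1165 5 909)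
(mv 1039 (cons (fin 1041 1 1037)
(mv 1100 (cons (fin 1099 2 1035)
(fin 1103 2 1036)))))))))))))
(mv 845 (cons (fin 909 7 845)
(mv 846 (cons (fin 781 7 781)
(mv 847 (cons (fin 783 6 782)
(fin 911 6 846))))))))
(cons (mv 847 (cons (fin 911 6 846)
(mv 783 (cons (fin 846 6 782)
(mv 1101 (cons (fin 1165 5 909)
(mv 1039 (cons (fin 1041 1 1037)
(mv 1100 (cons (fin 1099 2 1035)
(fin 1103 2 1036)))))))))))
(cons (mv 845 (cons (fin 909 7 845)
(mv 781 (cons (fin 846 7 781)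
(mv 1101 (cons (fin 1165 5 909)
(mv 1039 (cons (fin 1041 1 1037)
(mv 1100 (cons (fin 1099 2 1035)
(fin 1103 2 1036)))))))))))
(mv 845 (cons (fin 909 7 845)
(mv 847 (cons (fin 911 6 846)
(mv 1101 (cons (fin 1165 5 909)
(mv 1039 (cons (fin 1041 1 1037)
(mv 1100 (cons (fin 1099 2 1035)
(fin 1103 2 1036)))))))))))))))
(cons (mv 846 (cons (cons (mv 781 (cons (fin 845 7 781)
(mv 782 (cons (fin 717 7 717)
(mv 783 (cons (fin 719 6 718)
(fin 847 6 782)))))))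
(mv 783 (cons (fin 847 6 782)
(mv 719 (cons (fin 782 6 718)
(mv 1039 (cons (fin 1103 4 846)
(mv 1041 (cons (fin 973 3 973)
(mv 1042 (cons (cons (mv 978 (cons (fin 977 2 974)
(fin 979 2 975)))
(mv 1107 (cons (fin 1106 0 1039)
(mv 1043 (cons (fin 1108 0 1040)
(mv 980 (cons (fin 979 2 976)
(mv 1044 (cons (fin 977 3 976)
(fin 981 2 977))))))))))
(cons (mv 979 (cons (fin 978 2 975)
(mv 1043 (cons (fin 980 2 976)
(mv 1107 (cons (fin 1106 0 1039)
(fin 1108 0 1040)))))))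
(mv 977 (cons (fin 978 2 974)
(mv 1043 (cons (fin 1044 3 976)
(mv 1107 (cons (fin 1106 0 1039)
(fin 1108 0 1040)))))))))))))))))))
(cons (mv 781 (cons (fin 845 7 781)
(mv 717 (cons (fin 782 7 717)
(mv 1039 (cons (fin 1103 4 846)
(mv 1041 (cons (fin 973 3 973)
(mv 1042 (cons (cons (mv 978 (cons (fin 977 2 974)
(fin 979 2 975)))
(mv 1107 (cons (fin 1106 0 1039)
(mv 1043 (cons (fin 1108 0 1040)
(mv 980 (cons (fin 979 2 976)
(mv 1044 (cons (fin 977 3 976)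
(fin 981 2 977))))))))))
(cons (mv 979 (cons (fin 978 2 975)
(mv 1043 (cons (fin 980 2 976)
(mv 1107 (cons (fin 1106 0 1039)
(fin 1108 0 1040)))))))
(mv 977 (cons (fin 978 2 974)
(mv 1043 (cons (fin 1044 3 976)
(mv 1107 (cons (fin 1106 0 1039)
(fin 1108 0 1040))))))))))))))))))
(mv 781 (cons (fin 845 7 781)
(mv 783 (cons (fin 847 6 782)
(mv 1039 (cons (fin 1103 4 846)
(mv 1041 (cons (fin 973 3 973)
(mv 1042 (cons (cons (mv 978 (cons (fin 977 2 974)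
(fin 979 2 975)))
(mv 1107 (cons (fin 1106 0 1039)
(mv 1043 (cons (fin 1108 0 1040)
(mv 980 (cons (fin 979 2 976)
(mv 1044 (cons (fin 977 3 976)
(fin 981 2 977))))))))))
(cons (mv 979 (cons (fin 978 2 975)
(mv 1043 (cons (fin 980 2 976)
(mv 1107 (cons (fin 1106 0 1039)
(fin 1108 0 1040)))))))
(mv 977 (cons (fin 978 2 974)
(mv 1043 (cons (fin 1044 3 976)
(mv 1107 (cons (fin 1106 0 1039)
(fin 1108 0 1040)))))))))))))))))))))
(mv 1102 (cons (cons (mv 845 (cons (fin 909 7 845)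
(mv 847 (cons (fin 911 6 846)
(mv 1101 (cons (fin 1165 5 909)
(mv 1039 (cons (fin 1041 1 1037)
(mv 1100 (cons (fin 1099 2 1035)
(fin 1103 2 1036)))))))))))
(cons (mv 845 (cons (fin 909 7 845)
(mv 847 (cons (fin 911 6 846)
(mv 1167 (cons (fin 1103 4 910)
(mv 1166 (cons (fin 1231 4 974)
(mv 1229 (cons (fin 1165 5 973)
(mv 1230 (cons (fin 1169 1 1165)
(fin 1293 5 1037)))))))))))))
(mv 847 (cons (fin 911 6 846)
(mv 1101 (cons (fin 1165 5 909)
(mv 1039 (cons (fin 1041 1 1037)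
(mv 1100 (cons (fin 1099 2 1035)
(fin 1103 2 1036)))))))))))
(cons (mv 847 (cons (fin 911 6 846)
(mv 909 (cons (fin 845 7 845)
(mv 1166 (cons (fin 973 7 909)
(mv 1167 (cons (fin 1103 4 910)
(fin 1231 4 974)))))))))
(cons (mv 847 (cons (fin 911 6 846)
(mv 909 (cons (fin 845 7 845)
(mv 1101 (cons (fin 1165 5 909)
(mv 1039 (cons (fin 1041 1 1037)
(mv 1099 (cons (fin 1100 2 1035)
(mv 1166 (cons (fin 973 7 909)
(mv 1167 (cons (fin 1169 3 1101)
(fin 1231 4 974)))))))))))))))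
(mv 845 (cons (fin 909 7 845)
(mv 1101 (cons (fin 1165 5 909)
(mv 1039 (cons (fin 1041 1 1037)
(mv 1100 (cons (fin 1099 2 1035)
(fin 1103 2 1036)))))))))))))))
(cons (cons (mv 1102 (cons (cons (mv 845 (cons (fin 909 7 845)
(mv 781 (cons (fin 846 7 781)
(mv 847 (cons (fin 911 6 846)
(mv 1101 (cons (fin 1165 5 909)
(mv 1167 (cons (fin 1103 4 910)
(mv 1166 (cons (fin 1169 3 1101)
(fin 1231 4 974)))))))))))))
(mv 845 (cons (fin 909 7 845)
(mv 846 (cons (fin 781 7 781)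
(mv 847 (cons (fin 783 6 782)
(fin 911 6 846))))))))
(cons (mv 847 (cons (fin 911 6 846)
(mv 783 (cons (fin 846 6 782)
(mv 1101 (cons (fin 1165 5 909)
(mv 1167 (cons (fin 1103 4 910)
(mv 1166 (cons (fin 1169 3 1101)
(fin 1231 4 974)))))))))))
(cons (mv 845 (cons (fin 909 7 845)
(mv 781 (cons (fin 846 7 781)
(mv 1101 (cons (fin 1165 5 909)
(mv 1167 (cons (fin 1103 4 910)
(mv 1166 (cons (fin 1169 3 1101)
(fin 1231 4 974)))))))))))
(mv 845 (cons (fin 909 7 845)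
(mv 847 (cons (fin 911 6 846)
(mv 1101 (cons (fin 1165 5 909)
(mv 1167 (cons (fin 1103 4 910)
(mv 1166 (cons (fin 1169 3 1101)
(fin 1231 4 974)))))))))))))))
(mv 847 (cons (cons (mv 783 (cons (fin 846 6 782)
(mv 911 (cons (fin 719 5 718)
(fin 1102 6 846)))))
(mv 846 (cons (fin 783 6 782)
(mv 845 (cons (fin 781 7 781)
(mv 848 (cons (mv 909 (cons (fin 908 1 844)
(fin 849 1 845)))
(cons (mv 785 (cons (fin 784 2 781)
(mv 849 (cons (fin 786 2 782)
(mv 913 (cons (fin 914 0 846)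
(fin 977 5 784)))))))
(mv 784 (cons (fin 785 2 781)
(mv 908 (cons (fin 909 1 844)
(mv 844 (cons (fin 907 1 843)
(mv 779 (cons (fin 780 3 779)
(mv 843 (cons (fin 778 3 778)
(fin 911 0 843)))))))))))))))))))
(cons (mv 1102 (cons (fin 911 6 846)
(mv 909 (cons (fin 845 7 845)
(mv 1101 (cons (fin 1165 5 909)
(mv 1039 (cons (fin 1041 1 1037)
(mv 1099 (cons (fin 1100 2 1035)
(mv 1166 (cons (fin 973 7 909)
(mv 1167 (cons (fin 1169 3 1101)
(fin 1231 4 974)))))))))))))))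
(mv 846 (cons (fin 783 6 782)
(mv 845 (cons (fin 781 7 781)
(mv 909 (cons (fin 1102 7 845)
(mv 848 (cons (fin 908 1 844)
(fin 849 1 845)))))))))))))
(cons (mv 1039 (cons (mv 846 (cons (fin 1103 4 846)
(mv 783 (cons (fin 847 6 782)
(mv 782 (cons (fin 719 6 718)
(mv 717 (cons (fin 781 7 717)
(mv 718 (cons (fin 653 7 653)
(mv 973 (cons (fin 1041 3 973)
(fin 909 5 717)))))))))))))
(cons (mv 1041 (cons (fin 973 3 973)
(mv 1101 (cons (fin 1102 1 1037)
(mv 1042 (cons (cons (mv 978 (cons (fin 977 2 974)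
(fin 979 2 975)))
(mv 1107 (cons (fin 1106 0 1039)
(mv 1043 (cons (fin 1108 0 1040)
(mv 980 (cons (fin 979 2 976)
(mv 1044 (cons (fin 977 3 976)
(fin 981 2 977))))))))))
(cons (mv 979 (cons (fin 978 2 975)
(mv 1043 (cons (fin 980 2 976)
(mv 1107 (cons (fin 1106 0 1039)
(fin 1108 0 1040)))))))
(mv 977 (cons (fin 978 2 974)
(mv 1043 (cons (fin 1044 3 976)
(mv 1107 (cons (fin 1106 0 1039)
(fin 1108 0 1040))))))))))))))
(mv 1103 (cons (fin 846 4 846)
(mv 1167 (cons (fin 1231 7 974)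
(fin 1102 4 910))))))))
(mv 1102 (cons (cons (mv 845 (cons (fin 909 7 845)
(mv 781 (cons (fin 846 7 781)
(mv 1101 (cons (fin 1165 5 909)
(mv 1039 (cons (fin 1041 1 1037)
(mv 1100 (cons (fin 1099 2 1035)
(fin 1103 2 1036)))))))))))
(mv 909 (cons (fin 845 7 845)
(mv 1101 (cons (fin 1165 5 909)
(mv 1039 (cons (fin 1041 1 1037)
(mv 1099 (cons (fin 1100 2 1035)
(mv 1166 (cons (fin 973 7 909)
(mv 1167 (cons (fin 1169 3 1101)
(fin 1231 4 974))))))))))))))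
(cons (mv 845 (cons (fin 909 7 845)
(mv 781 (cons (fin 846 7 781)
(mv 1167 (cons (fin 1103 4 910)
(mv 1166 (cons (fin 1231 4 974)
(mv 1229 (cons (fin 1165 5 973)
(mv 1230 (cons (fin 1169 1 1165)
(fin 1293 5 1037)))))))))))))
(cons (mv 1101 (cons (fin 1165 5 909)
(mv 1039 (cons (fin 1041 1 1037)
(mv 1100 (cons (fin 1099 2 1035)
(fin 1103 2 1036)))))))
(mv 845 (cons (fin 909 7 845)
(mv 846 (cons (fin 781 7 781)
(mv 1103 (cons (fin 1039 4 846)
(fin 1167 4 910)))))))))))))))))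
(cons (mv 1039 (cons (cons (mv 977 (cons (fin 1037 2 973)
(mv 978 (cons (fin 979 1 975)
(fin 1041 2 974)))))
(mv 1102 (cons (mv 1041 (cons (fin 1101 1 1037)
(mv 1042 (cons (fin 1103 1 1038)
(mv 979 (cons (fin 978 2 975)
(mv 1043 (cons (fin 980 2 976)
(mv 1107 (cons (fin 1106 0 1039)
(fin 1108 0 1040)))))))))))
(cons (mv 1167 (cons (mv 1103 (cons (fin 1231 7 974)
(fin 910 4 910)))
(cons (mv 1166 (cons (fin 1231 4 974)
(mv 1229 (cons (fin 1165 5 973)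
(mv 1230 (cons (fin 1169 1 1165)
(fin 1293 5 1037)))))))
(mv 910 (cons (fin 1103 4 910)
(mv 845 (cons (fin 909 7 845)
(mv 846 (cons (fin 781 7 781)
(mv 847 (cons (fin 783 6 782)
(fin 911 6 846))))))))))))
(mv 1101 (cons (fin 1041 1 1037)
(mv 1100 (cons (fin 1037 1 1036)
(fin 1099 2 1035)))))))))
(cons (mv 1041 (cons (cons (mv 977 (cons (fin 978 2 974)
(mv 1102 (cons (fin 1101 1 1037)
(mv 1042 (cons (fin 1103 1 1038)
(mv 1043 (cons (fin 1044 3 976)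
(mv 1107 (cons (fin 1106 0 1039)
(fin 1108 0 1040)))))))))))
(mv 1102 (cons (fin 1101 1 1037)
(mv 1042 (cons (fin 1103 1 1038)
(mv 1107 (cons (fin 1106 0 1039)
(mv 1043 (cons (fin 1108 0 1040)
(mv 980 (cons (fin 979 2 976)
(mv 1044 (cons (fin 977 3 976)
(fin 981 2 977))))))))))))))
(cons (mv 1042 (cons (cons (mv 978 (cons (fin 977 2 974)
(fin 979 2 975)))
(mv 1107 (cons (fin 1106 0 1039)
(mv 1043 (cons (fin 1108 0 1040)
(mv 980 (cons (fin 979 2 976)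
(mv 1044 (cons (fin 977 3 976)
(fin 981 2 977))))))))))
(cons (mv 979 (cons (fin 978 2 975)
(mv 1043 (cons (fin 980 2 976)
(mv 1107 (cons (fin 1106 0 1039)
(fin 1108 0 1040)))))))
(mv 977 (cons (fin 978 2 974)
(mv 1043 (cons (fin 1044 3 976)
(mv 1107 (cons (fin 1106 0 1039)
(fin 1108 0 1040))))))))))
(cons (mv 1102 (cons (fin 1101 1 1037)
(mv 1042 (cons (fin 1103 1 1038)
(mv 979 (cons (fin 978 2 975)
(mv 1043 (cons (fin 980 2 976)
(mv 1107 (cons (fin 1106 0 1039)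
(fin 1108 0 1040)))))))))))
(mv 977 (cons (fin 978 2 974)
(mv 1102 (cons (fin 1101 1 1037)
(mv 1167 (cons (mv 1103 (cons (fin 1231 7 974)
(fin 910 4 910)))
(cons (mv 1166 (cons (fin 1231 4 974)
(mv 1229 (cons (fin 1165 5 973)
(mv 1230 (cons (fin 1169 1 1165)
(fin 1293 5 1037)))))))
(mv 910 (cons (fin 1103 4 910)
(mv 845 (cons (fin 909 7 845)
(mv 846 (cons (fin 781 7 781)
(mv 847 (cons (fin 783 6 782)
(fin 911 6 846))))))))))))))))))))
(mv 1037 (cons (fin 977 2 973)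
(mv 1101 (cons (fin 1100 1 1036)
(mv 910 (cons (fin 846 5 845)
(mv 1165 (cons (fin 1102 5 909)
(fin 1229 6 973))))))))))))
(cons (mv 1039 (cons (cons (mv 973 (cons (fin 1041 3 973)
(mv 972 (cons (fin 1037 3 972)
(fin 971 0 971)))))
(mv 1041 (cons (fin 973 3 973)
(mv 1042 (cons (cons (mv 978 (cons (fin 977 2 974)
(fin 979 2 975)))
(mv 1107 (cons (fin 1106 0 1039)
(mv 1043 (cons (fin 1108 0 1040)
(mv 980 (cons (fin 979 2 976)
(mv 1044 (cons (fin 977 3 976)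
(fin 981 2 977))))))))))
(cons (mv 979 (cons (fin 978 2 975)
(mv 1043 (cons (fin 980 2 976)
(mv 1107 (cons (fin 1106 0 1039)
(fin 1108 0 1040)))))))
(mv 977 (cons (fin 978 2 974)
(mv 1043 (cons (fin 1044 3 976)
(mv 1107 (cons (fin 1106 0 1039)
(fin 1108 0 1040)))))))))))))
(cons (mv 977 (cons (fin 1037 2 973)
(mv 978 (cons (fin 979 1 975)
(fin 1041 2 974)))))
(mv 1037 (cons (fin 977 2 973)
(mv 972 (cons (fin 973 3 972)
(mv 1036 (cons (fin 971 3 971)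
(mv 1100 (cons (fin 1099 1 1035)
(fin 1101 1 1036))))))))))))
(mv 1039 (cons (cons (mv 973 (cons (fin 1041 3 973)
(mv 972 (cons (fin 1037 3 972)
(fin 971 0 971)))))
(mv 977 (cons (fin 1037 2 973)
(mv 978 (cons (fin 979 1 975)
(fin 1041 2 974))))))
(cons (mv 1037 (cons (fin 977 2 973)
(mv 972 (cons (fin 973 3 972)
(mv 971 (cons (fin 1036 3 971)
(mv 910 (cons (cons (mv 846 (cons (fin 1103 4 846)
(mv 781 (cons (fin 845 7 781)
(mv 782 (cons (fin 717 7 717)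
(mv 783 (cons (fin 719 6 718)
(fin 847 6 782)))))))))
(mv 909 (cons (mv 845 (cons (fin 1102 7 845)
(mv 781 (cons (fin 846 7 781)
(fin 717 4 717)))))
(mv 908 (cons (fin 911 1 907)
(mv 970 (cons (fin 907 1 906)
(fin 969 2 905))))))))
(cons (mv 1102 (cons (cons (mv 845 (cons (fin 909 7 845)
(mv 847 (cons (fin 911 6 846)
(mv 1167 (cons (fin 1103 4 910)
(mv 1166 (cons (fin 1231 4 974)
(mv 1229 (cons (fin 1165 5 973)
(mv 1230 (cons (fin 1169 1 1165)
(fin 1293 5 1037)))))))))))))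
(mv 909 (cons (fin 845 7 845)
(mv 911 (cons (fin 908 1 907)
(fin 847 6 846))))))
(cons (mv 847 (cons (fin 911 6 846)
(mv 1167 (cons (fin 1103 4 910)
(mv 1166 (cons (fin 1231 4 974)
(mv 1229 (cons (fin 1165 5 973)
(mv 1230 (cons (fin 1169 1 1165)
(fin 1293 5 1037)))))))))))
(mv 845 (cons (fin 909 7 845)
(mv 1167 (cons (fin 1103 4 910)
(mv 1166 (cons (fin 1231 4 974)
(mv 1229 (cons (fin 1165 5 973)
(mv 1230 (cons (fin 1169 1 1165)
(fin 1293 5 1037))))))))))))))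
(mv 1103 (cons (fin 846 4 846)
(mv 1167 (cons (fin 1231 7 974)
(fin 1102 4 910))))))))))))))
(mv 1041 (cons (fin 973 3 973)
(mv 978 (cons (fin 977 2 974)
(mv 1042 (cons (fin 979 2 975)
(mv 1106 (cons (fin 1107 0 1039)
(mv 1170 (cons (cons (mv 1102 (cons (fin 1103 1 1038)
(mv 1169 (cons (fin 1233 5 977)
(mv 1171 (cons (fin 1235 4 978)
(mv 1231 (cons (fin 1232 1 1167)
(mv 1167 (cons (fin 1230 1 1166)
(fin 1166 4 974)))))))))))
(cons (mv 1169 (cons (fin 1233 5 977)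
(mv 1235 (cons (fin 1171 4 978)
(mv 1234 (cons (fin 1167 0 1167)
(fin 1299 4 1042)))))))
(mv 1102 (cons (fin 1103 1 1038)
(mv 1166 (cons (cons (mv 1165 (cons (fin 1229 5 973)
(mv 1167 (cons (fin 1231 4 974)
(mv 1233 (cons (fin 1232 0 1165)
(fin 1169 5 977)))))))
(cons (mv 1169 (cons (fin 1233 5 977)
(mv 1229 (cons (fin 1165 5 973)
(mv 1230 (cons (fin 1167 1 1165)
(fin 1293 5 1037)))))))
(mv 1167 (cons (fin 1231 4 974)
(mv 1229 (cons (fin 1165 5 973)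
(mv 1230 (cons (fin 1169 1 1165)
(fin 1293 5 1037)))))))))
(cons (cons (mv 1231 (cons (fin 1167 4 974)
(mv 1230 (cons (fin 1295 4 1038)
(mv 1233 (cons (fin 1169 5 977)
(mv 1232 (cons (fin 1165 3 1165)
(mv 1234 (cons (fin 1171 2 1167)
(fin 1297 5 1041)))))))))))
(mv 1169 (cons (fin 1233 5 977)
(mv 1229 (cons (fin 1165 5 973)
(mv 1230 (cons (fin 1293 5 1037)
(mv 1231 (cons (fin 1232 2 1165)
(fin 1295 4 1038))))))))))
(cons (mv 1229 (cons (fin 1165 5 973)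
(mv 1230 (cons (fin 1293 5 1037)
(mv 1231 (cons (fin 1167 4 974)
(fin 1295 4 1038)))))))
(mv 1169 (cons (fin 1233 5 977)
(mv 1231 (cons (fin 1167 4 974)
(mv 1230 (cons (fin 1295 4 1038)
(mv 1229 (cons (fin 1232 2 1165)
(fin 1293 5 1037)))))))))))))))))
(cons (cons (mv 1103 (cons (fin 1102 1 1038)
(mv 846 (cons (fin 910 4 846)
(mv 1167 (cons (fin 1231 7 974)
(mv 1235 (cons (fin 1171 4 978)
(mv 1234 (cons (fin 1169 0 1167)
(fin 1299 4 1042)))))))))))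
(mv 1103 (cons (fin 1102 1 1038)
(mv 846 (cons (fin 910 4 846)
(mv 1167 (cons (fin 1231 7 974)
(mv 1235 (cons (fin 1171 4 978)
(mv 1234 (cons (fin 1299 4 1042)
(mv 1233 (cons (fin 1232 3 1167)
(fin 1297 5 1041))))))))))))))
(cons (mv 1102 (cons (fin 1103 1 1038)
(mv 1233 (cons (fin 1169 5 977)
(mv 1234 (cons (fin 1297 5 1041)
(mv 1299 (cons (fin 1235 4 1042)
(mv 1298 (cons (fin 1363 4 1106)
(mv 1231 (cons (fin 1232 0 1231)
(mv 1166 (cons (fin 1167 4 974)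
(mv 1229 (cons (fin 1165 5 973)
(mv 1230 (cons (fin 1293 5 1037)
(fin 1295 4 1038)))))))))))))))))))
(mv 1102 (cons (fin 1103 1 1038)
(mv 1233 (cons (fin 1169 5 977)
(mv 1234 (cons (fin 1297 5 1041)
(mv 1235 (cons (fin 1171 4 978)
(fin 1299 4 1042)))))))))))))))))))))))))))))
(cons (mv 1038 (cons (cons (cons (mv 977 (cons (cons (mv 1037 (cons (fin 975 1 973)
(fin 1039 2 973)))
(mv 975 (cons (cons (mv 909 (cons (fin 910 3 909)
(mv 913 (cons (fin 914 2 910)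
(mv 785 (cons (fin 849 5 784)
(mv 978 (cons (fin 1039 1 974)
(mv 1042 (cons (fin 1041 0 974)
(fin 1043 0 975)))))))))))
(mv 910 (cons (fin 909 3 909)
(mv 913 (cons (fin 914 2 910)
(mv 849 (cons (fin 785 5 784)
(mv 1041 (cons (fin 1042 0 974)
(mv 848 (cons (fin 784 7 784)
(mv 850 (cons (fin 786 6 785)
(mv 847 (cons (fin 911 1 846)
(mv 783 (cons (fin 782 3 782)
(fin 846 6 782))))))))))))))))))
(cons (mv 909 (cons (fin 910 3 909)
(mv 914 (cons (fin 913 2 910)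
(mv 978 (cons (fin 1039 1 974)
(fin 915 2 911)))))))
(cons (mv 913 (cons (fin 914 2 910)
(mv 785 (cons (fin 849 5 784)
(mv 978 (cons (fin 1039 1 974)
(mv 1042 (cons (fin 1041 0 974)
(fin 1043 0 975)))))))))
(mv 909 (cons (fin 910 3 909)
(mv 978 (cons (fin 1039 1 974)
(mv 1042 (cons (fin 1041 0 974)
(fin 1043 0 975))))))))))))
(cons (mv 1039 (cons (fin 1037 2 973)
(mv 978 (cons (fin 979 1 975)
(fin 1041 2 974)))))
(mv 975 (cons (fin 1037 1 973)
(mv 909 (cons (fin 910 3 909)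
(mv 914 (cons (fin 913 2 910)
(mv 978 (cons (fin 915 2 911)
(mv 1042 (cons (fin 1041 0 974)
(fin 1043 0 975))))))))))))))
(mv 1102 (cons (cons (mv 910 (cons (cons (mv 845 (cons (fin 909 7 845)
(mv 781 (cons (fin 846 7 781)
(mv 847 (cons (fin 911 6 846)
(mv 1101 (cons (fin 1165 5 909)
(mv 1039 (cons (fin 1041 1 1037)
(mv 1100 (cons (fin 1037 1 1036)
(fin 1099 2 1035)))))))))))))
(cons (mv 845 (cons (fin 909 7 845)
(mv 781 (cons (fin 846 7 781)
(mv 847 (cons (fin 911 6 846)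
(mv 1167 (cons (fin 1103 4 910)
(mv 1166 (cons (fin 1231 4 974)
(mv 1229 (cons (fin 1165 5 973)
(mv 1230 (cons (fin 1169 1 1165)
(fin 1293 5 1037)))))))))))))))
(mv 845 (cons (fin 909 7 845)
(mv 781 (cons (fin 846 7 781)
(mv 1101 (cons (fin 1165 5 909)
(mv 1039 (cons (fin 1041 1 1037)
(mv 1100 (cons (fin 1037 1 1036)
(fin 1099 2 1035)))))))))))))
(cons (mv 845 (cons (fin 909 7 845)
(mv 781 (cons (fin 846 7 781)
(mv 847 (cons (fin 911 6 846)
(mv 1167 (cons (fin 1103 4 910)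
(mv 1166 (cons (fin 1231 4 974)
(mv 1101 (cons (fin 1169 3 1101)
(mv 1039 (cons (fin 1041 1 1037)
(mv 1100 (cons (fin 1037 1 1036)
(fin 1099 2 1035)))))))))))))))))
(cons (mv 847 (cons (fin 911 6 846)
(mv 783 (cons (fin 846 6 782)
(mv 1101 (cons (fin 1165 5 909)
(mv 1039 (cons (fin 1041 1 1037)
(mv 1100 (cons (fin 1037 1 1036)
(fin 1099 2 1035)))))))))))
(mv 845 (cons (fin 909 7 845)
(mv 847 (cons (fin 911 6 846)
(mv 1101 (cons (fin 1165 5 909)
(mv 1039 (cons (fin 1041 1 1037)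
(mv 1100 (cons (fin 1037 1 1036)
(fin 1099 2 1035)))))))))))))))
(cons (mv 1166 (cons (cons (mv 911 (cons (fin 975 6 910)
(mv 1165 (cons (fin 1229 5 973)
(mv 1167 (cons (fin 1231 4 974)
(mv 1101 (cons (fin 1100 3 1100)
(fin 1169 3 1101)))))))))
(cons (mv 911 (cons (fin 975 6 910)
(mv 1229 (cons (fin 1165 5 973)
(mv 1230 (cons (fin 1293 5 1037)
(mv 1295 (cons (fin 1231 4 1038)
(mv 1294 (cons (fin 1359 4 1102)
(mv 1039 (cons (fin 1103 6 1038)
(mv 1101 (cons (fin 1041 1 1037)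
(fin 1037 7 1037)))))))))))))))
(mv 1165 (cons (fin 1229 5 973)
(mv 1167 (cons (fin 1231 4 974)
(mv 1101 (cons (fin 1100 3 1100)
(fin 1169 3 1101)))))))))
(cons (mv 911 (cons (fin 975 6 910)
(mv 1167 (cons (fin 1231 4 974)
(mv 1101 (cons (fin 1169 3 1101)
(mv 1100 (cons (fin 1165 3 1100)
(fin 1099 0 1099)))))))))
(cons (mv 975 (cons (fin 911 6 910)
(mv 1039 (cons (fin 1230 6 974)
(mv 1041 (cons (fin 1042 3 974)
(fin 1101 1 1037)))))))
(mv 911 (cons (fin 975 6 910)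
(mv 1167 (cons (fin 1231 4 974)
(mv 1229 (cons (fin 1165 5 973)
(mv 1230 (cons (fin 1169 1 1165)
(fin 1293 5 1037)))))))))))))
(mv 910 (cons (cons (mv 845 (cons (fin 909 7 845)
(mv 781 (cons (fin 846 7 781)
(mv 847 (cons (fin 911 6 846)
(mv 1101 (cons (fin 1165 5 909)
(mv 1039 (cons (fin 1041 1 1037)
(mv 1100 (cons (fin 1037 1 1036)
(fin 1099 2 1035)))))))))))))
(mv 845 (cons (fin 909 7 845)
(mv 846 (cons (fin 781 7 781)
(mv 847 (cons (fin 783 6 782)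
(fin 911 6 846))))))))
(cons (mv 845 (cons (fin 909 7 845)
(mv 781 (cons (fin 846 7 781)
(mv 1101 (cons (fin 1165 5 909)
(mv 1039 (cons (fin 1041 1 1037)
(mv 1100 (cons (fin 1037 1 1036)
(fin 1099 2 1035)))))))))))
(cons (mv 847 (cons (fin 911 6 846)
(mv 783 (cons (fin 846 6 782)
(mv 1101 (cons (fin 1165 5 909)
(mv 1039 (cons (fin 1041 1 1037)
(mv 1100 (cons (fin 1037 1 1036)
(fin 1099 2 1035)))))))))))
(mv 845 (cons (fin 909 7 845)
(mv 847 (cons (fin 911 6 846)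
(mv 1101 (cons (fin 1165 5 909)
(mv 1039 (cons (fin 1041 1 1037)
(mv 1100 (cons (fin 1037 1 1036)
(fin 1099 2 1035)))))))))))))))))
(cons (cons (mv 1166 (cons (cons (mv 911 (cons (fin 975 6 910)
(mv 847 (cons (fin 910 6 846)
(mv 1167 (cons (fin 1231 4 974)
(mv 1229 (cons (fin 1165 5 973)
(mv 1230 (cons (fin 1169 1 1165)
(fin 1293 5 1037)))))))))))
(mv 975 (cons (fin 911 6 910)
(mv 1229 (cons (fin 1165 5 973)
(mv 1230 (cons (fin 1293 5 1037)
(fin 1039 6 974))))))))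
(cons (mv 1165 (cons (fin 1229 5 973)
(mv 1167 (cons (fin 1231 4 974)
(mv 910 (cons (fin 1103 4 910)
(mv 845 (cons (fin 909 7 845)
(mv 846 (cons (fin 781 7 781)
(mv 847 (cons (fin 783 6 782)
(fin 911 6 846)))))))))))))
(cons (mv 1165 (cons (fin 1229 5 973)
(mv 1167 (cons (fin 1231 4 974)
(mv 1103 (cons (fin 910 4 910)
(mv 1163 (cons (fin 1164 2 1099)
(mv 1169 (cons (fin 1170 3 1102)
(mv 1233 (cons (fin 1232 0 1165)
(fin 1234 0 1166)))))))))))))
(mv 911 (cons (fin 975 6 910)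
(mv 910 (cons (fin 847 6 846)
(mv 1167 (cons (fin 1103 4 910)
(fin 1231 4 974)))))))))))
(mv 910 (cons (cons (mv 845 (cons (fin 909 7 845)
(mv 781 (cons (fin 846 7 781)
(mv 1101 (cons (fin 1165 5 909)
(mv 1039 (cons (fin 1041 1 1037)
(mv 1100 (cons (fin 1037 1 1036)
(fin 1099 2 1035)))))))))))
(mv 845 (cons (fin 909 7 845)
(mv 781 (cons (fin 846 7 781)
(mv 1167 (cons (fin 1103 4 910)
(mv 1166 (cons (fin 1231 4 974)
(mv 1229 (cons (fin 1165 5 973)
(mv 1230 (cons (fin 1169 1 1165)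
(fin 1293 5 1037))))))))))))))
(cons (mv 845 (cons (fin 909 7 845)
(mv 781 (cons (fin 846 7 781)
(mv 1167 (cons (fin 1103 4 910)
(mv 1166 (cons (fin 1231 4 974)
(mv 1101 (cons (fin 1169 3 1101)
(mv 1039 (cons (fin 1041 1 1037)
(mv 1100 (cons (fin 1037 1 1036)
(fin 1099 2 1035)))))))))))))))
(cons (mv 1101 (cons (fin 1165 5 909)
(mv 846 (cons (fin 1037 5 845)
(mv 1039 (cons (fin 1041 1 1037)
(fin 1103 4 846)))))))
(mv 845 (cons (fin 909 7 845)
(mv 1101 (cons (fin 1165 5 909)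
(mv 1039 (cons (fin 1041 1 1037)
(mv 1100 (cons (fin 1037 1 1036)
(fin 1099 2 1035))))))))))))))
(cons (mv 910 (cons (cons (mv 845 (cons (fin 909 7 845)
(mv 781 (cons (fin 846 7 781)
(mv 847 (cons (fin 911 6 846)
(mv 1167 (cons (fin 1103 4 910)
(mv 1166 (cons (fin 1231 4 974)
(mv 1101 (cons (fin 1169 3 1101)
(mv 1039 (cons (fin 1041 1 1037)
(mv 1100 (cons (fin 1037 1 1036)
(fin 1099 2 1035)))))))))))))))))
(cons (mv 845 (cons (fin 909 7 845)
(mv 781 (cons (fin 846 7 781)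
(mv 911 (cons (fin 847 6 846)
(mv 1166 (cons (fin 975 6 910)
(mv 1167 (cons (fin 1231 4 974)
(mv 1101 (cons (fin 1169 3 1101)
(mv 1039 (cons (fin 1041 1 1037)
(mv 1100 (cons (fin 1037 1 1036)
(fin 1099 2 1035)))))))))))))))))
(mv 845 (cons (fin 909 7 845)
(mv 846 (cons (fin 781 7 781)
(mv 847 (cons (fin 783 6 782)
(fin 911 6 846)))))))))
(cons (mv 845 (cons (fin 909 7 845)
(mv 781 (cons (fin 846 7 781)
(mv 1167 (cons (fin 1103 4 910)
(mv 1166 (cons (fin 1231 4 974)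
(mv 1101 (cons (fin 1169 3 1101)
(mv 1039 (cons (fin 1041 1 1037)
(mv 1100 (cons (fin 1037 1 1036)
(fin 1099 2 1035)))))))))))))))
(cons (mv 847 (cons (fin 911 6 846)
(mv 783 (cons (fin 846 6 782)
(mv 1167 (cons (fin 1103 4 910)
(mv 1166 (cons (fin 1231 4 974)
(mv 1101 (cons (fin 1169 3 1101)
(mv 1039 (cons (fin 1041 1 1037)
(mv 1100 (cons (fin 1037 1 1036)
(fin 1099 2 1035)))))))))))))))
(mv 845 (cons (fin 909 7 845)
(mv 847 (cons (fin 911 6 846)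
(mv 1167 (cons (fin 1103 4 910)
(mv 1166 (cons (fin 1231 4 974)
(mv 1101 (cons (fin 1169 3 1101)
(mv 1039 (cons (fin 1041 1 1037)
(mv 1100 (cons (fin 1037 1 1036)
(fin 1099 2 1035)))))))))))))))))))
(mv 910 (cons (cons (cons (mv 845 (cons (fin 909 7 845)
(mv 781 (cons (fin 846 7 781)
(mv 847 (cons (fin 911 6 846)
(mv 1101 (cons (fin 1165 5 909)
(mv 1167 (cons (fin 1103 4 910)
(mv 1166 (cons (fin 1169 3 1101)
(fin 1231 4 974)))))))))))))
(mv 845 (cons (fin 909 7 845)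
(mv 781 (cons (fin 846 7 781)
(mv 911 (cons (fin 847 6 846)
(mv 1165 (cons (fin 1101 5 909)
(mv 1166 (cons (fin 1229 5 973)
(fin 975 6 910))))))))))))
(cons (mv 845 (cons (fin 909 7 845)
(mv 781 (cons (fin 846 7 781)
(mv 847 (cons (fin 911 6 846)
(mv 1167 (cons (fin 1103 4 910)
(mv 1166 (cons (fin 1231 4 974)
(mv 1229 (cons (fin 1165 5 973)
(mv 1230 (cons (fin 1169 1 1165)
(fin 1293 5 1037)))))))))))))))
(mv 845 (cons (fin 909 7 845)
(mv 781 (cons (fin 846 7 781)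
(mv 1101 (cons (fin 1165 5 909)
(mv 1167 (cons (fin 1103 4 910)
(mv 1166 (cons (fin 1169 3 1101)
(fin 1231 4 974)))))))))))))
(cons (cons (mv 845 (cons (fin 909 7 845)
(mv 781 (cons (fin 846 7 781)
(mv 911 (cons (fin 847 6 846)
(mv 1166 (cons (fin 975 6 910)
(mv 1167 (cons (fin 1103 4 910)
(fin 1231 4 974)))))))))))
(mv 847 (cons (fin 911 6 846)
(mv 783 (cons (fin 846 6 782)
(mv 1101 (cons (fin 1165 5 909)
(mv 1167 (cons (fin 1103 4 910)
(mv 1166 (cons (fin 1169 3 1101)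
(fin 1231 4 974))))))))))))
(cons (mv 845 (cons (fin 909 7 845)
(mv 846 (cons (fin 781 7 781)
(mv 847 (cons (fin 783 6 782)
(fin 911 6 846)))))))
(mv 845 (cons (fin 909 7 845)
(mv 847 (cons (fin 911 6 846)
(mv 1101 (cons (fin 1165 5 909)
(mv 1167 (cons (fin 1103 4 910)
(mv 1166 (cons (fin 1169 3 1101)
(fin 1231 4 974))))))))))))))))))))
(cons (mv 1102 (cons (cons (mv 910 (cons (cons (mv 845 (cons (fin 909 7 845)
(mv 781 (cons (fin 846 7 781)
(mv 847 (cons (fin 911 6 846)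
(mv 1101 (cons (fin 1165 5 909)
(mv 1039 (cons (fin 1041 1 1037)
(mv 1100 (cons (fin 1099 2 1035)
(fin 1103 2 1036)))))))))))))
(cons (mv 845 (cons (fin 909 7 845)
(mv 781 (cons (fin 846 7 781)
(mv 911 (cons (fin 847 6 846)
(mv 975 (cons (fin 1166 6 910)
(mv 977 (cons (fin 978 3 910)
(mv 913 (cons (fin 914 2 910)
(mv 785 (cons (fin 849 5 784)
(mv 1041 (cons (fin 1042 0 974)
(mv 1101 (cons (fin 1039 1 1037)
(fin 1165 5 909)))))))))))))))))))
(mv 845 (cons (fin 909 7 845)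
(mv 781 (cons (fin 846 7 781)
(mv 1101 (cons (fin 1165 5 909)
(mv 1039 (cons (fin 1041 1 1037)
(mv 1100 (cons (fin 1099 2 1035)
(fin 1103 2 1036)))))))))))))
(cons (cons (mv 845 (cons (fin 909 7 845)
(mv 781 (cons (fin 846 7 781)
(mv 847 (cons (fin 911 6 846)
(mv 1167 (cons (fin 1103 4 910)
(mv 1166 (cons (fin 1231 4 974)
(mv 1229 (cons (fin 1165 5 973)
(mv 1230 (cons (fin 1169 1 1165)
(fin 1293 5 1037)))))))))))))))
(mv 847 (cons (fin 911 6 846)
(mv 783 (cons (fin 846 6 782)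
(mv 1101 (cons (fin 1165 5 909)
(mv 1039 (cons (fin 1041 1 1037)
(mv 1100 (cons (fin 1099 2 1035)
(fin 1103 2 1036))))))))))))
(cons (mv 845 (cons (fin 909 7 845)
(mv 781 (cons (fin 846 7 781)
(mv 911 (cons (fin 847 6 846)
(mv 1166 (cons (fin 975 6 910)
(mv 1167 (cons (fin 1103 4 910)
(fin 1231 4 974)))))))))))
(mv 845 (cons (fin 909 7 845)
(mv 847 (cons (fin 911 6 846)
(mv 1101 (cons (fin 1165 5 909)
(mv 1039 (cons (fin 1041 1 1037)
(mv 1100 (cons (fin 1099 2 1035)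
(fin 1103 2 1036)))))))))))))))
(cons (mv 1166 (cons (cons (mv 911 (cons (fin 975 6 910)
(mv 1165 (cons (fin 1229 5 973)
(mv 1167 (cons (fin 1231 4 974)
(mv 1101 (cons (fin 1100 3 1100)
(fin 1169 3 1101)))))))))
(mv 975 (cons (fin 911 6 910)
(mv 1039 (cons (fin 1230 6 974)
(mv 1041 (cons (fin 1042 3 974)
(fin 1101 1 1037))))))))
(cons (mv 1165 (cons (fin 1229 5 973)
(mv 1167 (cons (fin 1231 4 974)
(mv 1101 (cons (fin 1100 3 1100)
(fin 1169 3 1101)))))))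
(mv 911 (cons (fin 975 6 910)
(mv 1167 (cons (fin 1231 4 974)
(mv 1229 (cons (fin 1165 5 973)
(mv 1230 (cons (fin 1169 1 1165)
(fin 1293 5 1037))))))))))))
(mv 910 (cons (cons (mv 845 (cons (fin 909 7 845)
(mv 781 (cons (fin 846 7 781)
(mv 847 (cons (fin 911 6 846)
(mv 1101 (cons (fin 1165 5 909)
(mv 1039 (cons (fin 1041 1 1037)
(mv 1100 (cons (fin 1099 2 1035)
(fin 1103 2 1036)))))))))))))
(mv 845 (cons (fin 909 7 845)
(mv 846 (cons (fin 781 7 781)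
(mv 847 (cons (fin 783 6 782)
(fin 911 6 846))))))))
(cons (mv 845 (cons (fin 909 7 845)
(mv 781 (cons (fin 846 7 781)
(mv 1101 (cons (fin 1165 5 909)
(mv 1039 (cons (fin 1041 1 1037)
(mv 1100 (cons (fin 1099 2 1035)
(fin 1103 2 1036)))))))))))
(cons (mv 847 (cons (fin 911 6 846)
(mv 783 (cons (fin 846 6 782)
(mv 1101 (cons (fin 1165 5 909)
(mv 1039 (cons (fin 1041 1 1037)
(mv 1100 (cons (fin 1099 2 1035)
(fin 1103 2 1036)))))))))))
(mv 845 (cons (fin 909 7 845)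
(mv 847 (cons (fin 911 6 846)
(mv 1101 (cons (fin 1165 5 909)
(mv 1039 (cons (fin 1041 1 1037)
(mv 1100 (cons (fin 1099 2 1035)
(fin 1103 2 1036)))))))))))))))))
(cons (mv 910 (cons (cons (mv 845 (cons (fin 909 7 845)
(mv 781 (cons (fin 846 7 781)
(mv 847 (cons (fin 911 6 846)
(mv 1167 (cons (fin 1103 4 910)
(mv 1166 (cons (fin 1231 4 974)
(mv 1229 (cons (fin 1165 5 973)
(mv 1230 (cons (fin 1169 1 1165)
(fin 1293 5 1037)))))))))))))))
(cons (mv 845 (cons (fin 909 7 845)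
(mv 781 (cons (fin 846 7 781)
(mv 1167 (cons (fin 1103 4 910)
(mv 1166 (cons (fin 1231 4 974)
(mv 1229 (cons (fin 1165 5 973)
(mv 1230 (cons (fin 1169 1 1165)
(fin 1293 5 1037)))))))))))))
(mv 845 (cons (fin 909 7 845)
(mv 781 (cons (fin 846 7 781)
(mv 911 (cons (fin 847 6 846)
(mv 1166 (cons (fin 975 6 910)
(mv 1167 (cons (fin 1231 4 974)
(mv 1229 (cons (fin 1165 5 973)
(mv 1230 (cons (fin 1169 1 1165)
(fin 1293 5 1037)))))))))))))))))
(cons (mv 845 (cons (fin 909 7 845)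
(mv 846 (cons (fin 781 7 781)
(mv 847 (cons (fin 783 6 782)
(fin 911 6 846)))))))
(cons (mv 847 (cons (fin 911 6 846)
(mv 783 (cons (fin 846 6 782)
(mv 1167 (cons (fin 1103 4 910)
(mv 1166 (cons (fin 1231 4 974)
(mv 1229 (cons (fin 1165 5 973)
(mv 1230 (cons (fin 1169 1 1165)
(fin 1293 5 1037)))))))))))))
(mv 845 (cons (fin 909 7 845)
(mv 847 (cons (fin 911 6 846)
(mv 1167 (cons (fin 1103 4 910)
(mv 1166 (cons (fin 1231 4 974)
(mv 1229 (cons (fin 1165 5 973)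
(mv 1230 (cons (fin 1169 1 1165)
(fin 1293 5 1037)))))))))))))))))
(cons (mv 910 (cons (cons (mv 845 (cons (fin 909 7 845)
(mv 781 (cons (fin 846 7 781)
(mv 1101 (cons (fin 1165 5 909)
(mv 1039 (cons (fin 1041 1 1037)
(mv 1100 (cons (fin 1099 2 1035)
(fin 1103 2 1036)))))))))))
(mv 845 (cons (fin 909 7 845)
(mv 846 (cons (fin 781 7 781)
(mv 783 (cons (fin 847 6 782)
(mv 782 (cons (fin 719 6 718)
(mv 784 (cons (fin 785 1 781)
(mv 843 (cons (fin 844 2 779)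
(mv 1039 (cons (fin 975 4 782)
(mv 1101 (cons (fin 1041 1 1037)
(fin 1165 5 909))))))))))))))))))
(cons (mv 845 (cons (fin 909 7 845)
(mv 781 (cons (fin 846 7 781)
(mv 1167 (cons (fin 1103 4 910)
(mv 1166 (cons (fin 1231 4 974)
(mv 1229 (cons (fin 1165 5 973)
(mv 1230 (cons (fin 1169 1 1165)
(fin 1293 5 1037)))))))))))))
(cons (mv 1101 (cons (fin 1165 5 909)
(mv 1039 (cons (fin 1041 1 1037)
(mv 1100 (cons (fin 1099 2 1035)
(fin 1103 2 1036)))))))
(mv 845 (cons (fin 909 7 845)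
(mv 846 (cons (fin 781 7 781)
(mv 1103 (cons (fin 1039 4 846)
(fin 1167 4 910)))))))))))
(mv 910 (cons (cons (mv 845 (cons (fin 909 7 845)
(mv 781 (cons (fin 846 7 781)
(mv 911 (cons (fin 847 6 846)
(mv 1166 (cons (fin 975 6 910)
(mv 1167 (cons (fin 1103 4 910)
(fin 1231 4 974)))))))))))
(mv 845 (cons (fin 909 7 845)
(mv 846 (cons (fin 781 7 781)
(mv 847 (cons (fin 783 6 782)
(fin 911 6 846))))))))
(cons (mv 845 (cons (fin 909 7 845)
(mv 846 (cons (fin 781 7 781)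
(mv 1103 (cons (fin 1039 4 846)
(fin 1167 4 910)))))))
(cons (mv 847 (cons (fin 911 6 846)
(mv 846 (cons (fin 783 6 782)
(mv 1103 (cons (fin 1039 4 846)
(fin 1167 4 910)))))))
(mv 845 (cons (fin 909 7 845)
(mv 911 (cons (fin 847 6 846)
(mv 1166 (cons (fin 975 6 910)
(mv 1167 (cons (fin 1103 4 910)
(fin 1231 4 974)))))))))))))))))
(mv 1039 (cons (cons (mv 977 (cons (fin 1037 2 973)
(mv 978 (cons (fin 979 1 975)
(fin 1041 2 974)))))
(mv 1102 (cons (mv 1041 (cons (fin 1101 1 1037)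
(mv 1042 (cons (fin 1103 1 1038)
(mv 979 (cons (fin 978 2 975)
(mv 1043 (cons (fin 980 2 976)
(mv 1107 (cons (fin 1106 0 1039)
(fin 1108 0 1040)))))))))))
(cons (mv 1167 (cons (mv 1103 (cons (fin 1231 7 974)
(fin 910 4 910)))
(cons (mv 1166 (cons (fin 1231 4 974)
(mv 1229 (cons (fin 1165 5 973)
(mv 1230 (cons (fin 1169 1 1165)
(fin 1293 5 1037)))))))
(mv 910 (cons (fin 1103 4 910)
(mv 845 (cons (fin 909 7 845)
(mv 846 (cons (fin 781 7 781)
(mv 847 (cons (fin 783 6 782)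
(fin 911 6 846))))))))))))
(mv 1101 (cons (fin 1041 1 1037)
(mv 1100 (cons (fin 1037 1 1036)
(fin 1099 2 1035)))))))))
(cons (mv 1041 (cons (cons (mv 977 (cons (fin 978 2 974)
(mv 1102 (cons (fin 1101 1 1037)
(mv 1042 (cons (fin 1103 1 1038)
(mv 1043 (cons (fin 1044 3 976)
(mv 1107 (cons (fin 1106 0 1039)
(fin 1108 0 1040)))))))))))
(mv 1102 (cons (fin 1101 1 1037)
(mv 1042 (cons (fin 1103 1 1038)
(mv 1107 (cons (fin 1106 0 1039)
(mv 1043 (cons (fin 1108 0 1040)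
(mv 980 (cons (fin 979 2 976)
(mv 1044 (cons (fin 977 3 976)
(fin 981 2 977))))))))))))))
(cons (mv 1042 (cons (cons (mv 978 (cons (fin 977 2 974)
(fin 979 2 975)))
(mv 1107 (cons (fin 1106 0 1039)
(mv 1043 (cons (fin 1108 0 1040)
(mv 980 (cons (fin 979 2 976)
(mv 1044 (cons (fin 977 3 976)
(fin 981 2 977))))))))))
(cons (mv 979 (cons (fin 978 2 975)
(mv 1043 (cons (fin 980 2 976)
(mv 1107 (cons (fin 1106 0 1039)
(fin 1108 0 1040)))))))
(mv 977 (cons (fin 978 2 974)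
(mv 1043 (cons (fin 1044 3 976)
(mv 1107 (cons (fin 1106 0 1039)
(fin 1108 0 1040))))))))))
(cons (mv 1102 (cons (fin 1101 1 1037)
(mv 1042 (cons (fin 1103 1 1038)
(mv 979 (cons (fin 978 2 975)
(mv 1043 (cons (fin 980 2 976)
(mv 1107 (cons (fin 1106 0 1039)
(fin 1108 0 1040)))))))))))
(mv 977 (cons (fin 978 2 974)
(mv 1102 (cons (fin 1101 1 1037)
(mv 1167 (cons (mv 1103 (cons (fin 1231 7 974)
(fin 910 4 910)))
(cons (mv 1166 (cons (fin 1231 4 974)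
(mv 1229 (cons (fin 1165 5 973)
(mv 1230 (cons (fin 1169 1 1165)
(fin 1293 5 1037)))))))
(mv 910 (cons (fin 1103 4 910)
(mv 845 (cons (fin 909 7 845)
(mv 846 (cons (fin 781 7 781)
(mv 847 (cons (fin 783 6 782)
(fin 911 6 846))))))))))))))))))))
(mv 1037 (cons (fin 977 2 973)
(mv 1101 (cons (fin 1100 1 1036)
(mv 910 (cons (fin 846 5 845)
(mv 1165 (cons (fin 1102 5 909)
(fin 1229 6 973))))))))))))))
(cons (cons (mv 975 (cons (cons (mv 977 (cons (fin 1037 1 973)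
(mv 909 (cons (fin 910 3 909)
(mv 914 (cons (fin 913 2 910)
(mv 978 (cons (fin 915 2 911)
(mv 1042 (cons (fin 1041 0 974)
(fin 1043 0 975)))))))))))
(mv 1102 (cons (cons (mv 911 (cons (fin 1166 6 910)
(mv 847 (cons (fin 783 5 782)
(fin 910 6 846)))))
(mv 910 (cons (cons (mv 845 (cons (fin 909 7 845)
(mv 781 (cons (fin 846 7 781)
(mv 1101 (cons (fin 1165 5 909)
(mv 1167 (cons (fin 1103 4 910)
(mv 1166 (cons (fin 1169 3 1101)
(fin 1231 4 974)))))))))))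
(cons (mv 845 (cons (fin 909 7 845)
(mv 846 (cons (fin 781 7 781)
(mv 1101 (cons (fin 1037 5 845)
(fin 1165 5 909)))))))
(mv 845 (cons (fin 909 7 845)
(mv 781 (cons (fin 846 7 781)
(mv 1167 (cons (fin 1103 4 910)
(mv 1166 (cons (fin 1231 4 974)
(mv 1229 (cons (fin 1165 5 973)
(mv 1230 (cons (fin 1169 1 1165)
(fin 1293 5 1037)))))))))))))))
(cons (cons (mv 845 (cons (fin 909 7 845)
(mv 846 (cons (fin 781 7 781)
(mv 783 (cons (fin 847 6 782)
(mv 719 (cons (fin 782 6 718)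
(mv 1101 (cons (fin 1037 5 845)
(mv 1167 (cons (fin 1103 4 910)
(mv 1166 (cons (fin 1169 3 1101)
(fin 1231 4 974)))))))))))))))
(mv 1101 (cons (fin 1165 5 909)
(mv 846 (cons (fin 1037 5 845)
(mv 781 (cons (fin 845 7 781)
(mv 717 (cons (fin 782 7 717)
(mv 783 (cons (fin 847 6 782)
(mv 1167 (cons (fin 1103 4 910)
(mv 1166 (cons (fin 1169 3 1101)
(fin 1231 4 974))))))))))))))))
(cons (mv 1101 (cons (fin 1165 5 909)
(mv 846 (cons (fin 1037 5 845)
(mv 783 (cons (fin 847 6 782)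
(mv 719 (cons (fin 782 6 718)
(mv 1167 (cons (fin 1103 4 910)
(mv 1166 (cons (fin 1169 3 1101)
(fin 1231 4 974)))))))))))))
(mv 845 (cons (fin 909 7 845)
(mv 1101 (cons (fin 1165 5 909)
(mv 1167 (cons (fin 1103 4 910)
(mv 1166 (cons (fin 1169 3 1101)
(fin 1231 4 974))))))))))))))
(cons (mv 910 (cons (cons (mv 845 (cons (fin 909 7 845)
(mv 846 (cons (fin 781 7 781)
(mv 847 (cons (fin 783 6 782)
(fin 911 6 846)))))))
(mv 845 (cons (fin 909 7 845)
(mv 846 (cons (fin 781 7 781)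
(mv 1101 (cons (fin 1037 5 845)
(fin 1165 5 909))))))))
(cons (mv 847 (cons (fin 911 6 846)
(mv 846 (cons (fin 783 6 782)
(mv 1101 (cons (fin 1037 5 845)
(fin 1165 5 909)))))))
(mv 909 (cons (fin 845 7 845)
(mv 908 (cons (fin 907 0 907)
(fin 911 0 908))))))))
(mv 1166 (cons (fin 911 6 910)
(mv 1165 (cons (fin 1229 5 973)
(mv 1167 (cons (fin 1231 4 974)
(mv 1101 (cons (fin 1100 3 1100)
(fin 1169 3 1101)))))))))))))
(cons (mv 977 (cons (cons (mv 909 (cons (fin 910 3 909)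
(mv 914 (cons (fin 913 2 910)
(mv 978 (cons (fin 915 2 911)
(mv 1042 (cons (fin 1041 0 974)
(fin 1043 0 975)))))))))
(mv 910 (cons (fin 909 3 909)
(mv 911 (cons (fin 978 3 910)
(mv 847 (cons (fin 783 5 782)
(fin 1102 6 846))))))))
(cons (mv 914 (cons (fin 913 2 910)
(mv 978 (cons (fin 915 2 911)
(mv 1042 (cons (fin 1041 0 974)
(fin 1043 0 975)))))))
(mv 910 (cons (fin 909 3 909)
(mv 913 (cons (fin 914 2 910)
(mv 849 (cons (fin 785 5 784)
(mv 1041 (cons (fin 1042 0 974)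
(mv 848 (cons (fin 784 7 784)
(mv 850 (cons (fin 786 6 785)
(mv 847 (cons (fin 911 1 846)
(mv 783 (cons (fin 782 3 782)
(fin 846 6 782))))))))))))))))))))
(mv 977 (cons (fin 1037 1 973)
(mv 914 (cons (fin 913 2 910)
(mv 978 (cons (fin 915 2 911)
(mv 1042 (cons (fin 1041 0 974)
(fin 1043 0 975))))))))))))
(mv 1102 (cons (cons (mv 1166 (cons (cons (mv 911 (cons (fin 975 6 910)
(mv 1165 (cons (fin 1229 5 973)
(mv 1167 (cons (fin 1231 4 974)
(mv 1101 (cons (fin 1100 3 1100)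
(fin 1169 3 1101)))))))))
(mv 1165 (cons (fin 1229 5 973)
(mv 1167 (cons (fin 1231 4 974)
(mv 1101 (cons (fin 1100 3 1100)
(fin 1169 3 1101))))))))
(cons (mv 911 (cons (fin 975 6 910)
(mv 1229 (cons (fin 1165 5 973)
(mv 1230 (cons (fin 1293 5 1037)
(mv 1295 (cons (fin 1231 4 1038)
(mv 1294 (cons (fin 1359 4 1102)
(mv 1037 (cons (fin 1101 7 1037)
(mv 1039 (cons (fin 977 2 973)
(fin 1103 6 1038)))))))))))))))
(cons (mv 911 (cons (fin 975 6 910)
(mv 1167 (cons (fin 1231 4 974)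
(mv 1101 (cons (fin 1169 3 1101)
(mv 1100 (cons (fin 1165 3 1100)
(fin 1099 0 1099)))))))))
(mv 975 (cons (fin 911 6 910)
(mv 977 (cons (fin 1037 1 973)
(mv 1039 (cons (fin 978 1 974)
(fin 1230 6 974)))))))))))
(cons (mv 1039 (cons (mv 977 (cons (fin 1037 2 973)
(mv 978 (cons (fin 975 1 974)
(fin 979 1 975)))))
(cons (mv 1041 (cons (fin 1101 1 1037)
(mv 1042 (cons (fin 975 3 974)
(fin 1103 1 1038)))))
(mv 977 (cons (fin 1037 2 973)
(mv 978 (cons (fin 979 1 975)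
(fin 1041 2 974))))))))
(mv 1166 (cons (mv 911 (cons (fin 975 6 910)
(mv 1165 (cons (fin 1229 5 973)
(mv 1167 (cons (fin 1231 4 974)
(mv 1101 (cons (fin 1100 3 1100)
(fin 1169 3 1101)))))))))
(cons (mv 975 (cons (fin 911 6 910)
(mv 977 (cons (fin 1037 1 973)
(mv 914 (cons (fin 913 2 910)
(mv 978 (cons (fin 915 2 911)
(mv 1042 (cons (fin 1041 0 974)
(fin 1043 0 975)))))))))))
(mv 1165 (cons (fin 1229 5 973)
(mv 1167 (cons (fin 1231 4 974)
(mv 1101 (cons (fin 1100 3 1100)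
(fin 1169 3 1101))))))))))))
(cons (cons (mv 1039 (cons (mv 977 (cons (fin 1037 2 973)
(mv 978 (cons (fin 979 1 975)
(fin 1041 2 974)))))
(cons (mv 1037 (cons (fin 977 2 973)
(mv 1100 (cons (fin 1101 1 1036)
(mv 1036 (cons (fin 1099 1 1035)
(mv 971 (cons (fin 972 3 971)
(mv 1035 (cons (fin 970 3 970)
(fin 1103 0 1035)))))))))))
(mv 1041 (cons (fin 1101 1 1037)
(mv 1042 (cons (fin 1103 1 1038)
(mv 979 (cons (fin 978 2 975)
(mv 1043 (cons (fin 980 2 976)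
(mv 1107 (cons (fin 1106 0 1039)
(fin 1108 0 1040))))))))))))))
(mv 1166 (cons (cons (mv 911 (cons (fin 975 6 910)
(mv 1165 (cons (fin 1229 5 973)
(mv 1167 (cons (fin 1231 4 974)
(mv 1101 (cons (fin 1100 3 1100)
(fin 1169 3 1101)))))))))
(cons (mv 911 (cons (fin 975 6 910)
(mv 1229 (cons (fin 1165 5 973)
(mv 1230 (cons (fin 1293 5 1037)
(mv 1295 (cons (fin 1231 4 1038)
(mv 1294 (cons (fin 1359 4 1102)
(mv 1039 (cons (fin 1103 6 1038)
(mv 1101 (cons (fin 1041 1 1037)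
(fin 1037 7 1037)))))))))))))))
(mv 1165 (cons (fin 1229 5 973)
(mv 1167 (cons (fin 1231 4 974)
(mv 1101 (cons (fin 1100 3 1100)
(fin 1169 3 1101)))))))))
(cons (mv 911 (cons (fin 975 6 910)
(mv 1167 (cons (fin 1231 4 974)
(mv 1101 (cons (fin 1169 3 1101)
(mv 1100 (cons (fin 1165 3 1100)
(fin 1099 0 1099)))))))))
(cons (mv 975 (cons (fin 911 6 910)
(mv 1039 (cons (fin 1230 6 974)
(mv 1041 (cons (fin 1042 3 974)
(fin 1101 1 1037)))))))
(mv 911 (cons (fin 975 6 910)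
(mv 1167 (cons (fin 1231 4 974)
(mv 1229 (cons (fin 1165 5 973)
(mv 1230 (cons (fin 1169 1 1165)
(fin 1293 5 1037))))))))))))))
(cons (mv 1166 (cons (cons (mv 911 (cons (fin 975 6 910)
(mv 1165 (cons (fin 1229 5 973)
(mv 1167 (cons (fin 1231 4 974)
(mv 1101 (cons (fin 1100 3 1100)
(fin 1169 3 1101)))))))))
(mv 975 (cons (fin 911 6 910)
(mv 1039 (cons (fin 1230 6 974)
(mv 1041 (cons (fin 1042 3 974)
(fin 1101 1 1037))))))))
(cons (mv 1165 (cons (fin 1229 5 973)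
(mv 1167 (cons (fin 1231 4 974)
(mv 1101 (cons (fin 1100 3 1100)
(fin 1169 3 1101)))))))
(mv 911 (cons (fin 975 6 910)
(mv 1167 (cons (fin 1231 4 974)
(mv 1229 (cons (fin 1165 5 973)
(mv 1230 (cons (fin 1169 1 1165)
(fin 1293 5 1037))))))))))))
(mv 1166 (cons (cons (mv 911 (cons (fin 975 6 910)
(mv 1167 (cons (fin 1231 4 974)
(mv 1229 (cons (fin 1165 5 973)
(mv 1230 (cons (fin 1169 1 1165)
(fin 1293 5 1037)))))))))
(mv 1167 (cons (fin 1231 4 974)
(mv 1229 (cons (fin 1165 5 973)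
(mv 1230 (cons (fin 1169 1 1165)
(fin 1293 5 1037))))))))
(cons (mv 975 (cons (fin 911 6 910)
(mv 977 (cons (fin 1037 1 973)
(mv 1039 (cons (fin 978 1 974)
(fin 1230 6 974)))))))
(mv 975 (cons (fin 911 6 910)
(mv 977 (cons (fin 1037 1 973)
(mv 913 (cons (fin 914 2 910)
(mv 785 (cons (fin 849 5 784)
(mv 978 (cons (fin 1039 1 974)
(mv 1042 (cons (fin 1041 0 974)
(fin 1043 0 975)))))))))))))))))))))
(cons (mv 910 (cons (cons (cons (mv 1102 (cons (cons (mv 845 (cons (fin 909 7 845)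
(mv 781 (cons (fin 846 7 781)
(mv 847 (cons (fin 911 6 846)
(mv 1101 (cons (fin 1165 5 909)
(mv 1103 (cons (fin 1167 4 910)
(mv 1039 (cons (fin 1100 2 1036)
(mv 977 (cons (fin 1037 2 973)
(mv 978 (cons (fin 975 1 974)
(fin 979 1 975)))))))))))))))))
(cons (mv 845 (cons (fin 909 7 845)
(mv 781 (cons (fin 846 7 781)
(mv 911 (cons (fin 847 6 846)
(mv 975 (cons (fin 1166 6 910)
(mv 977 (cons (fin 978 3 910)
(fin 1037 1 973)))))))))))
(mv 845 (cons (fin 909 7 845)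
(mv 781 (cons (fin 846 7 781)
(mv 1101 (cons (fin 1165 5 909)
(mv 1103 (cons (fin 1167 4 910)
(mv 1039 (cons (fin 1100 2 1036)
(mv 977 (cons (fin 1037 2 973)
(mv 978 (cons (fin 975 1 974)
(fin 979 1 975)))))))))))))))))
(cons (mv 847 (cons (fin 911 6 846)
(mv 783 (cons (fin 846 6 782)
(mv 1101 (cons (fin 1165 5 909)
(mv 1103 (cons (fin 1167 4 910)
(mv 1039 (cons (fin 1100 2 1036)
(mv 977 (cons (fin 1037 2 973)
(mv 978 (cons (fin 975 1 974)
(fin 979 1 975)))))))))))))))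
(cons (mv 845 (cons (fin 909 7 845)
(mv 847 (cons (fin 911 6 846)
(mv 1101 (cons (fin 1165 5 909)
(mv 1103 (cons (fin 1167 4 910)
(mv 1039 (cons (fin 1100 2 1036)
(mv 977 (cons (fin 1037 2 973)
(mv 978 (cons (fin 975 1 974)
(fin 979 1 975)))))))))))))))
(mv 845 (cons (fin 909 7 845)
(mv 781 (cons (fin 846 7 781)
(mv 847 (cons (fin 911 6 846)
(mv 1101 (cons (fin 1165 5 909)
(mv 1103 (cons (fin 1167 4 910)
(mv 1100 (cons (fin 1039 2 1036)
(mv 1035 (cons (fin 1036 3 1035)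
(mv 1099 (cons (fin 1034 3 1034)
(mv 1163 (cons (fin 1162 1 1098)
(fin 1164 1 1099)))))))))))))))))))))))
(mv 846 (cons (cons (mv 781 (cons (fin 845 7 781)
(mv 717 (cons (fin 782 7 717)
(mv 783 (cons (fin 847 6 782)
(mv 1037 (cons (fin 1101 5 845)
(mv 977 (cons (fin 975 1 973)
(fin 1039 2 973)))))))))))
(mv 781 (cons (fin 845 7 781)
(mv 782 (cons (fin 717 7 717)
(mv 783 (cons (fin 719 6 718)
(fin 847 6 782))))))))
(cons (mv 781 (cons (fin 845 7 781)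
(mv 717 (cons (fin 782 7 717)
(mv 1037 (cons (fin 1101 5 845)
(mv 977 (cons (fin 975 1 973)
(fin 1039 2 973)))))))))
(cons (mv 783 (cons (fin 847 6 782)
(mv 719 (cons (fin 782 6 718)
(mv 1037 (cons (fin 1101 5 845)
(mv 977 (cons (fin 975 1 973)
(fin 1039 2 973)))))))))
(mv 781 (cons (fin 845 7 781)
(mv 783 (cons (fin 847 6 782)
(mv 1037 (cons (fin 1101 5 845)
(mv 977 (cons (fin 975 1 973)
(fin 1039 2 973))))))))))))))
(cons (mv 1102 (cons (cons (mv 845 (cons (fin 909 7 845)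
(mv 847 (cons (fin 911 6 846)
(mv 1101 (cons (fin 1165 5 909)
(mv 1103 (cons (fin 1167 4 910)
(mv 1039 (cons (fin 1100 2 1036)
(mv 977 (cons (fin 1037 2 973)
(mv 978 (cons (fin 975 1 974)
(fin 979 1 975)))))))))))))))
(mv 845 (cons (fin 909 7 845)
(mv 911 (cons (fin 847 6 846)
(mv 975 (cons (fin 1166 6 910)
(mv 977 (cons (fin 978 3 910)
(fin 1037 1 973))))))))))
(cons (mv 845 (cons (fin 909 7 845)
(mv 1101 (cons (fin 1165 5 909)
(mv 1103 (cons (fin 1167 4 910)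
(mv 1039 (cons (fin 1100 2 1036)
(mv 977 (cons (fin 1037 2 973)
(mv 978 (cons (fin 975 1 974)
(fin 979 1 975)))))))))))))
(cons (mv 847 (cons (fin 911 6 846)
(mv 1101 (cons (fin 1165 5 909)
(mv 1103 (cons (fin 1167 4 910)
(mv 1039 (cons (fin 1100 2 1036)
(mv 977 (cons (fin 1037 2 973)
(mv 978 (cons (fin 975 1 974)
(fin 979 1 975)))))))))))))
(mv 845 (cons (fin 909 7 845)
(mv 847 (cons (fin 911 6 846)
(mv 1101 (cons (fin 1165 5 909)
(mv 1103 (cons (fin 1167 4 910)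
(mv 1100 (cons (fin 1039 2 1036)
(mv 1035 (cons (fin 1036 3 1035)
(mv 1099 (cons (fin 1034 3 1034)
(mv 1163 (cons (fin 1162 1 1098)
(fin 1164 1 1099)))))))))))))))))))))
(mv 1102 (cons (cons (cons (mv 845 (cons (fin 909 7 845)
(mv 781 (cons (fin 846 7 781)
(mv 847 (cons (fin 911 6 846)
(mv 1101 (cons (fin 1165 5 909)
(mv 1103 (cons (fin 1167 4 910)
(mv 1100 (cons (fin 1039 2 1036)
(mv 1035 (cons (fin 1036 3 1035)
(mv 1099 (cons (fin 1034 3 1034)
(mv 1163 (cons (fin 1162 1 1098)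
(fin 1164 1 1099)))))))))))))))))))
(mv 845 (cons (fin 909 7 845)
(mv 781 (cons (fin 846 7 781)
(mv 911 (cons (fin 847 6 846)
(mv 1101 (cons (fin 1165 5 909)
(mv 1166 (cons (fin 975 6 910)
(mv 1167 (cons (fin 1169 3 1101)
(fin 1231 4 974))))))))))))))
(cons (mv 845 (cons (fin 909 7 845)
(mv 781 (cons (fin 846 7 781)
(mv 911 (cons (fin 847 6 846)
(mv 1165 (cons (fin 1101 5 909)
(mv 1166 (cons (fin 1229 5 973)
(fin 975 6 910)))))))))))
(mv 845 (cons (fin 909 7 845)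
(mv 781 (cons (fin 846 7 781)
(mv 847 (cons (fin 911 6 846)
(mv 1167 (cons (fin 1103 4 910)
(mv 1166 (cons (fin 1231 4 974)
(mv 1229 (cons (fin 1165 5 973)
(mv 1230 (cons (fin 1169 1 1165)
(fin 1293 5 1037)))))))))))))))))
(cons (cons (mv 845 (cons (fin 909 7 845)
(mv 781 (cons (fin 846 7 781)
(mv 1101 (cons (fin 1165 5 909)
(mv 1103 (cons (fin 1167 4 910)
(mv 1100 (cons (fin 1039 2 1036)
(mv 1035 (cons (fin 1036 3 1035)
(mv 1099 (cons (fin 1034 3 1034)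
(mv 1163 (cons (fin 1162 1 1098)
(fin 1164 1 1099)))))))))))))))))
(mv 845 (cons (fin 909 7 845)
(mv 781 (cons (fin 846 7 781)
(mv 911 (cons (fin 847 6 846)
(mv 1166 (cons (fin 975 6 910)
(mv 1167 (cons (fin 1103 4 910)
(fin 1231 4 974))))))))))))
(cons (mv 847 (cons (fin 911 6 846)
(mv 783 (cons (fin 846 6 782)
(mv 1101 (cons (fin 1165 5 909)
(mv 1103 (cons (fin 1167 4 910)
(mv 1100 (cons (fin 1039 2 1036)
(mv 1035 (cons (fin 1036 3 1035)
(mv 1099 (cons (fin 1034 3 1034)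
(mv 1163 (cons (fin 1162 1 1098)
(fin 1164 1 1099)))))))))))))))))
(mv 845 (cons (fin 909 7 845)
(mv 847 (cons (fin 911 6 846)
(mv 1101 (cons (fin 1165 5 909)
(mv 1103 (cons (fin 1167 4 910)
(mv 1100 (cons (fin 1039 2 1036)
(mv 1035 (cons (fin 1036 3 1035)
(mv 1099 (cons (fin 1034 3 1034)
(mv 1163 (cons (fin 1162 1 1098)
(fin 1164 1 1099)))))))))))))))))))))))
(cons (cons (mv 1102 (cons (cons (mv 845 (cons (fin 909 7 845)
(mv 781 (cons (fin 846 7 781)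
(mv 847 (cons (fin 911 6 846)
(mv 1101 (cons (fin 1165 5 909)
(mv 1103 (cons (fin 1167 4 910)
(mv 1100 (cons (fin 1039 2 1036)
(mv 1035 (cons (fin 1036 3 1035)
(mv 1099 (cons (fin 1034 3 1034)
(mv 1163 (cons (fin 1162 1 1098)
(fin 1164 1 1099)))))))))))))))))))
(cons (mv 845 (cons (fin 909 7 845)
(mv 781 (cons (fin 846 7 781)
(mv 847 (cons (fin 911 6 846)
(mv 1167 (cons (fin 1103 4 910)
(mv 1166 (cons (fin 1231 4 974)
(mv 1229 (cons (fin 1165 5 973)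
(mv 1230 (cons (fin 1169 1 1165)
(fin 1293 5 1037)))))))))))))))
(mv 845 (cons (fin 909 7 845)
(mv 846 (cons (fin 781 7 781)
(mv 847 (cons (fin 783 6 782)
(fin 911 6 846)))))))))
(cons (mv 845 (cons (fin 909 7 845)
(mv 781 (cons (fin 846 7 781)
(mv 1101 (cons (fin 1165 5 909)
(mv 1103 (cons (fin 1167 4 910)
(mv 1100 (cons (fin 1039 2 1036)
(mv 1035 (cons (fin 1036 3 1035)
(mv 1099 (cons (fin 1034 3 1034)
(mv 1163 (cons (fin 1162 1 1098)
(fin 1164 1 1099)))))))))))))))))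
(cons (mv 847 (cons (fin 911 6 846)
(mv 783 (cons (fin 846 6 782)
(mv 1101 (cons (fin 1165 5 909)
(mv 1103 (cons (fin 1167 4 910)
(mv 1100 (cons (fin 1039 2 1036)
(mv 1035 (cons (fin 1036 3 1035)
(mv 1099 (cons (fin 1034 3 1034)
(mv 1163 (cons (fin 1162 1 1098)
(fin 1164 1 1099)))))))))))))))))
(mv 845 (cons (fin 909 7 845)
(mv 847 (cons (fin 911 6 846)
(mv 1101 (cons (fin 1165 5 909)
(mv 1103 (cons (fin 1167 4 910)
(mv 1100 (cons (fin 1039 2 1036)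
(mv 1035 (cons (fin 1036 3 1035)
(mv 1099 (cons (fin 1034 3 1034)
(mv 1163 (cons (fin 1162 1 1098)
(fin 1164 1 1099)))))))))))))))))))))
(mv 1102 (cons (cons (mv 845 (cons (fin 909 7 845)
(mv 781 (cons (fin 846 7 781)
(mv 847 (cons (fin 911 6 846)
(mv 1101 (cons (fin 1165 5 909)
(mv 1167 (cons (fin 1103 4 910)
(mv 1166 (cons (fin 1169 3 1101)
(fin 1231 4 974)))))))))))))
(cons (mv 845 (cons (fin 909 7 845)
(mv 781 (cons (fin 846 7 781)
(mv 1101 (cons (fin 1165 5 909)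
(mv 1167 (cons (fin 1103 4 910)
(mv 1166 (cons (fin 1169 3 1101)
(fin 1231 4 974)))))))))))
(mv 845 (cons (fin 909 7 845)
(mv 781 (cons (fin 846 7 781)
(mv 911 (cons (fin 847 6 846)
(mv 975 (cons (fin 1166 6 910)
(mv 977 (cons (fin 978 3 910)
(fin 1037 1 973)))))))))))))
(cons (mv 847 (cons (fin 911 6 846)
(mv 783 (cons (fin 846 6 782)
(mv 1101 (cons (fin 1165 5 909)
(mv 1167 (cons (fin 1103 4 910)
(mv 1166 (cons (fin 1169 3 1101)
(fin 1231 4 974)))))))))))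
(cons (mv 845 (cons (fin 909 7 845)
(mv 846 (cons (fin 781 7 781)
(mv 847 (cons (fin 783 6 782)
(fin 911 6 846)))))))
(mv 845 (cons (fin 909 7 845)
(mv 847 (cons (fin 911 6 846)
(mv 1101 (cons (fin 1165 5 909)
(mv 1167 (cons (fin 1103 4 910)
(mv 1166 (cons (fin 1169 3 1101)
(fin 1231 4 974))))))))))))))))
(cons (mv 977 (cons (cons (mv 975 (cons (fin 909 3 909)
(fin 1037 1 973)))
(mv 1037 (cons (fin 1039 2 973)
(mv 846 (cons (fin 1101 5 845)
(mv 845 (cons (fin 781 7 781)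
(mv 1102 (cons (fin 909 7 845)
(mv 1167 (cons (fin 1103 4 910)
(mv 1166 (cons (fin 1231 4 974)
(mv 1229 (cons (fin 1165 5 973)
(mv 1230 (cons (fin 1169 1 1165)
(fin 1293 5 1037))))))))))))))))))
(cons (mv 909 (cons (fin 975 3 909)
(mv 845 (cons (fin 1102 7 845)
(mv 781 (cons (fin 846 7 781)
(fin 717 4 717)))))))
(mv 1037 (cons (fin 975 1 973)
(fin 1039 2 973))))))
(cons (mv 977 (cons (mv 975 (cons (fin 909 3 909)
(fin 1037 1 973)))
(cons (mv 1039 (cons (fin 1037 2 973)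
(mv 846 (cons (fin 1103 4 846)
(mv 781 (cons (fin 845 7 781)
(mv 782 (cons (fin 717 7 717)
(mv 783 (cons (fin 719 6 718)
(fin 847 6 782)))))))))))
(mv 909 (cons (fin 975 3 909)
(mv 845 (cons (fin 1102 7 845)
(mv 781 (cons (fin 846 7 781)
(fin 717 4 717))))))))))
(mv 977 (cons (mv 975 (cons (fin 909 3 909)
(fin 1037 1 973)))
(cons (mv 1037 (cons (fin 1039 2 973)
(mv 846 (cons (fin 1101 5 845)
(mv 847 (cons (fin 783 6 782)
(mv 1102 (cons (fin 911 6 846)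
(mv 1167 (cons (fin 1103 4 910)
(mv 1166 (cons (fin 1231 4 974)
(mv 1229 (cons (fin 1165 5 973)
(mv 1230 (cons (fin 1169 1 1165)
(fin 1293 5 1037)))))))))))))))))
(mv 975 (cons (fin 909 3 909)
(mv 978 (cons (fin 911 3 910)
(fin 1039 1 974)))))))))))))
(mv 910 (cons (cons (cons (mv 846 (cons (cons (mv 781 (cons (fin 845 7 781)
(mv 717 (cons (fin 782 7 717)
(mv 783 (cons (fin 847 6 782)
(mv 1037 (cons (fin 1101 5 845)
(mv 977 (cons (fin 975 1 973)
(fin 1039 2 973)))))))))))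
(cons (mv 781 (cons (fin 845 7 781)
(mv 717 (cons (fin 782 7 717)
(mv 783 (cons (fin 847 6 782)
(mv 1101 (cons (fin 1037 5 845)
(mv 1102 (cons (fin 1165 5 909)
(mv 1167 (cons (fin 1103 4 910)
(mv 1166 (cons (fin 1169 3 1101)
(fin 1231 4 974)))))))))))))))
(mv 781 (cons (fin 845 7 781)
(mv 782 (cons (fin 717 7 717)
(mv 783 (cons (fin 719 6 718)
(fin 847 6 782)))))))))
(cons (mv 783 (cons (fin 847 6 782)
(mv 719 (cons (fin 782 6 718)
(mv 1037 (cons (fin 1101 5 845)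
(mv 977 (cons (fin 975 1 973)
(fin 1039 2 973)))))))))
(cons (mv 781 (cons (fin 845 7 781)
(mv 717 (cons (fin 782 7 717)
(mv 1037 (cons (fin 1101 5 845)
(mv 977 (cons (fin 975 1 973)
(fin 1039 2 973)))))))))
(mv 781 (cons (fin 845 7 781)
(mv 783 (cons (fin 847 6 782)
(mv 1037 (cons (fin 1101 5 845)
(mv 977 (cons (fin 975 1 973)
(fin 1039 2 973)))))))))))))
(mv 977 (cons (mv 975 (cons (fin 909 3 909)
(fin 1037 1 973)))
(cons (mv 1039 (cons (fin 1037 2 973)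
(mv 978 (cons (fin 979 1 975)
(fin 1041 2 974)))))
(mv 909 (cons (fin 975 3 909)
(mv 1102 (cons (fin 845 7 845)
(mv 1101 (cons (fin 1165 5 909)
(mv 1039 (cons (fin 1041 1 1037)
(mv 1100 (cons (fin 1099 2 1035)
(fin 1103 2 1036)))))))))))))))
(cons (mv 846 (cons (cons (mv 781 (cons (fin 845 7 781)
(mv 717 (cons (fin 782 7 717)
(mv 783 (cons (fin 847 6 782)
(mv 1037 (cons (fin 1101 5 845)
(mv 1039 (cons (fin 1103 4 846)
(mv 1036 (cons (fin 975 2 972)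
(mv 971 (cons (fin 972 3 971)
(mv 1035 (cons (fin 970 3 970)
(mv 1099 (cons (fin 1098 1 1034)
(fin 1100 1 1035)))))))))))))))))))
(cons (mv 781 (cons (fin 845 7 781)
(mv 717 (cons (fin 782 7 717)
(mv 783 (cons (fin 847 6 782)
(mv 1101 (cons (fin 1037 5 845)
(mv 1102 (cons (fin 1165 5 909)
(mv 1167 (cons (fin 1103 4 910)
(mv 1166 (cons (fin 1169 3 1101)
(fin 1231 4 974)))))))))))))))
(mv 781 (cons (fin 845 7 781)
(mv 782 (cons (fin 717 7 717)
(mv 783 (cons (fin 719 6 718)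
(fin 847 6 782)))))))))
(cons (mv 783 (cons (fin 847 6 782)
(mv 719 (cons (fin 782 6 718)
(mv 1037 (cons (fin 1101 5 845)
(mv 1039 (cons (fin 1103 4 846)
(mv 1036 (cons (fin 975 2 972)
(mv 971 (cons (fin 972 3 971)
(mv 1035 (cons (fin 970 3 970)
(mv 1099 (cons (fin 1098 1 1034)
(fin 1100 1 1035)))))))))))))))))
(cons (mv 781 (cons (fin 845 7 781)
(mv 717 (cons (fin 782 7 717)
(mv 1037 (cons (fin 1101 5 845)
(mv 1039 (cons (fin 1103 4 846)
(mv 1036 (cons (fin 975 2 972)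
(mv 971 (cons (fin 972 3 971)
(mv 1035 (cons (fin 970 3 970)
(mv 1099 (cons (fin 1098 1 1034)
(fin 1100 1 1035)))))))))))))))))
(mv 781 (cons (fin 845 7 781)
(mv 783 (cons (fin 847 6 782)
(mv 1037 (cons (fin 1101 5 845)
(mv 1039 (cons (fin 1103 4 846)
(mv 1036 (cons (fin 975 2 972)
(mv 971 (cons (fin 972 3 971)
(mv 1035 (cons (fin 970 3 970)
(mv 1099 (cons (fin 1098 1 1034)
(fin 1100 1 1035)))))))))))))))))))))
(mv 1102 (cons (cons (mv 845 (cons (fin 909 7 845)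
(mv 781 (cons (fin 846 7 781)
(mv 1101 (cons (fin 1165 5 909)
(mv 1039 (cons (fin 1041 1 1037)
(mv 1100 (cons (fin 1099 2 1035)
(fin 1103 2 1036)))))))))))
(mv 845 (cons (fin 909 7 845)
(mv 846 (cons (fin 781 7 781)
(mv 783 (cons (fin 847 6 782)
(mv 782 (cons (fin 719 6 718)
(mv 784 (cons (fin 785 1 781)
(mv 843 (cons (fin 844 2 779)
(mv 1039 (cons (fin 975 4 782)
(mv 1101 (cons (fin 1041 1 1037)
(fin 1165 5 909))))))))))))))))))
(cons (mv 845 (cons (fin 909 7 845)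
(mv 781 (cons (fin 846 7 781)
(mv 1167 (cons (fin 1103 4 910)
(mv 1166 (cons (fin 1231 4 974)
(mv 1229 (cons (fin 1165 5 973)
(mv 1230 (cons (fin 1169 1 1165)
(fin 1293 5 1037)))))))))))))
(cons (mv 1101 (cons (fin 1165 5 909)
(mv 1039 (cons (fin 1041 1 1037)
(mv 1100 (cons (fin 1099 2 1035)
(fin 1103 2 1036)))))))
(mv 845 (cons (fin 909 7 845)
(mv 846 (cons (fin 781 7 781)
(mv 1103 (cons (fin 1039 4 846)
(fin 1167 4 910)))))))))))))
(cons (cons (mv 846 (cons (cons (mv 781 (cons (fin 845 7 781)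
(mv 717 (cons (fin 782 7 717)
(mv 783 (cons (fin 847 6 782)
(mv 1037 (cons (fin 1101 5 845)
(mv 977 (cons (fin 975 1 973)
(fin 1039 2 973)))))))))))
(mv 781 (cons (fin 845 7 781)
(mv 782 (cons (fin 717 7 717)
(mv 783 (cons (fin 719 6 718)
(fin 847 6 782))))))))
(cons (mv 783 (cons (fin 847 6 782)
(mv 719 (cons (fin 782 6 718)
(mv 1037 (cons (fin 1101 5 845)
(mv 977 (cons (fin 975 1 973)
(fin 1039 2 973)))))))))
(cons (mv 781 (cons (fin 845 7 781)
(mv 717 (cons (fin 782 7 717)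
(mv 1037 (cons (fin 1101 5 845)
(mv 977 (cons (fin 975 1 973)
(fin 1039 2 973)))))))))
(mv 781 (cons (fin 845 7 781)
(mv 783 (cons (fin 847 6 782)
(mv 1037 (cons (fin 1101 5 845)
(mv 977 (cons (fin 975 1 973)
(fin 1039 2 973)))))))))))))
(mv 1102 (cons (cons (mv 845 (cons (fin 909 7 845)
(mv 781 (cons (fin 846 7 781)
(mv 1101 (cons (fin 1165 5 909)
(mv 1167 (cons (fin 1103 4 910)
(mv 1166 (cons (fin 1169 3 1101)
(fin 1231 4 974)))))))))))
(cons (mv 845 (cons (fin 909 7 845)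
(mv 846 (cons (fin 781 7 781)
(mv 1101 (cons (fin 1037 5 845)
(fin 1165 5 909)))))))
(mv 845 (cons (fin 909 7 845)
(mv 781 (cons (fin 846 7 781)
(mv 1167 (cons (fin 1103 4 910)
(mv 1166 (cons (fin 1231 4 974)
(mv 1229 (cons (fin 1165 5 973)
(mv 1230 (cons (fin 1169 1 1165)
(fin 1293 5 1037)))))))))))))))
(cons (cons (mv 845 (cons (fin 909 7 845)
(mv 846 (cons (fin 781 7 781)
(mv 783 (cons (fin 847 6 782)
(mv 719 (cons (fin 782 6 718)
(mv 1101 (cons (fin 1037 5 845)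
(mv 1167 (cons (fin 1103 4 910)
(mv 1166 (cons (fin 1169 3 1101)
(fin 1231 4 974)))))))))))))))
(mv 1101 (cons (fin 1165 5 909)
(mv 846 (cons (fin 1037 5 845)
(mv 781 (cons (fin 845 7 781)
(mv 717 (cons (fin 782 7 717)
(mv 783 (cons (fin 847 6 782)
(mv 1167 (cons (fin 1103 4 910)
(mv 1166 (cons (fin 1169 3 1101)
(fin 1231 4 974))))))))))))))))
(cons (mv 1101 (cons (fin 1165 5 909)
(mv 846 (cons (fin 1037 5 845)
(mv 783 (cons (fin 847 6 782)
(mv 719 (cons (fin 782 6 718)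
(mv 1167 (cons (fin 1103 4 910)
(mv 1166 (cons (fin 1169 3 1101)
(fin 1231 4 974)))))))))))))
(mv 845 (cons (fin 909 7 845)
(mv 1101 (cons (fin 1165 5 909)
(mv 1167 (cons (fin 1103 4 910)
(mv 1166 (cons (fin 1169 3 1101)
(fin 1231 4 974))))))))))))))
(cons (mv 977 (cons (mv 975 (cons (fin 909 3 909)
(fin 1037 1 973)))
(cons (mv 1039 (cons (fin 1037 2 973)
(mv 978 (cons (fin 979 1 975)
(fin 1041 2 974)))))
(mv 909 (cons (fin 975 3 909)
(mv 845 (cons (fin 1102 7 845)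
(mv 781 (cons (fin 846 7 781)
(fin 717 4 717))))))))))
(mv 977 (cons (mv 975 (cons (fin 909 3 909)
(fin 1037 1 973)))
(cons (mv 1037 (cons (fin 1039 2 973)
(mv 1101 (cons (fin 846 5 845)
(mv 1165 (cons (fin 1102 5 909)
(fin 1229 6 973)))))))
(mv 975 (cons (fin 909 3 909)
(mv 913 (cons (fin 914 2 910)
(mv 785 (cons (fin 849 5 784)
(mv 978 (cons (fin 1039 1 974)
(mv 1042 (cons (fin 1041 0 974)
(fin 1043 0 975))))))))))))))))))))))
(mv 975 (cons (cons (cons (mv 977 (cons (cons (mv 909 (cons (fin 910 3 909)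
(mv 908 (cons (fin 973 3 908)
(mv 914 (cons (fin 913 2 910)
(mv 978 (cons (fin 915 2 911)
(mv 1038 (cons (fin 1037 1 973)
(fin 1039 1 974)))))))))))
(cons (mv 909 (cons (fin 910 3 909)
(mv 908 (cons (fin 973 3 908)
(mv 914 (cons (fin 913 2 910)
(mv 978 (cons (fin 915 2 911)
(mv 979 (cons (fin 1039 1 975)
(mv 1043 (cons (fin 1042 0 975)
(fin 1044 0 976)))))))))))))
(mv 913 (cons (fin 914 2 910)
(mv 785 (cons (fin 849 5 784)
(mv 1037 (cons (fin 1038 1 973)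
(mv 973 (cons (fin 1036 1 972)
(mv 908 (cons (fin 909 3 908)
(mv 972 (cons (fin 907 3 907)
(fin 1039 0 972)))))))))))))))
(cons (mv 914 (cons (fin 913 2 910)
(mv 978 (cons (fin 915 2 911)
(mv 1038 (cons (fin 1037 1 973)
(fin 1039 1 974)))))))
(cons (mv 909 (cons (fin 910 3 909)
(mv 908 (cons (fin 973 3 908)
(mv 1038 (cons (fin 1037 1 973)
(mv 978 (cons (fin 1039 1 974)
(mv 915 (cons (fin 914 2 911)
(mv 979 (cons (fin 916 2 912)
(mv 1043 (cons (fin 1042 0 975)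
(fin 1044 0 976)))))))))))))))
(mv 909 (cons (fin 910 3 909)
(mv 973 (cons (fin 908 3 908)
(mv 1037 (cons (fin 1036 1 972)
(fin 1038 1 973)))))))))))
(mv 973 (cons (cons (mv 908 (cons (fin 909 3 908)
(mv 972 (cons (fin 907 3 907)
(fin 1039 0 972)))))
(mv 909 (cons (fin 908 3 908)
(mv 1037 (cons (fin 1036 1 972)
(mv 1101 (cons (mv 910 (cons (fin 846 6 845)
(fin 1165 6 909)))
(mv 1100 (cons (fin 1164 5 908)
(mv 1038 (cons (fin 1039 1 1036)
(mv 845 (cons (fin 781 4 781)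
(fin 1102 4 845))))))))))))))
(cons (mv 972 (cons (fin 1039 0 972)
(mv 1036 (cons (fin 1035 1 971)
(fin 1037 1 972)))))
(mv 908 (cons (fin 909 3 908)
(mv 972 (cons (fin 907 3 907)
(mv 1036 (cons (fin 1035 1 971)
(fin 1037 1 972)))))))))))
(cons (mv 977 (cons (cons (mv 909 (cons (fin 910 3 909)
(mv 914 (cons (fin 913 2 910)
(mv 978 (cons (fin 915 2 911)
(mv 1038 (cons (fin 1037 1 973)
(fin 1039 1 974)))))))))
(cons (mv 909 (cons (fin 910 3 909)
(mv 914 (cons (fin 913 2 910)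
(mv 978 (cons (fin 915 2 911)
(mv 979 (cons (fin 1039 1 975)
(mv 1043 (cons (fin 1042 0 975)
(fin 1044 0 976)))))))))))
(mv 914 (cons (fin 913 2 910)
(mv 978 (cons (fin 915 2 911)
(mv 1038 (cons (fin 1037 1 973)
(fin 1039 1 974)))))))))
(cons (cons (mv 909 (cons (fin 910 3 909)
(mv 1038 (cons (fin 1037 1 973)
(mv 978 (cons (fin 1039 1 974)
(mv 915 (cons (fin 914 2 911)
(mv 979 (cons (fin 916 2 912)
(mv 1043 (cons (fin 1042 0 975)
(fin 1044 0 976)))))))))))))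
(mv 910 (cons (fin 909 3 909)
(mv 911 (cons (fin 978 3 910)
(mv 783 (cons (fin 847 4 783)
(mv 1038 (cons (fin 1037 1 973)
(mv 1102 (cons (fin 1166 6 910)
(mv 1101 (cons (fin 1165 5 909)
(mv 1103 (cons (fin 1167 4 910)
(mv 1039 (cons (fin 1100 2 1036)
(fin 846 7 846))))))))))))))))))
(cons (mv 910 (cons (fin 909 3 909)
(mv 913 (cons (fin 914 2 910)
(mv 785 (cons (fin 849 5 784)
(mv 1038 (cons (fin 1037 1 973)
(mv 1102 (cons (mv 911 (cons (fin 847 6 846)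
(fin 1166 6 910)))
(mv 1101 (cons (fin 1165 5 909)
(mv 1103 (cons (fin 1167 4 910)
(mv 1039 (cons (fin 1100 2 1036)
(fin 846 4 846)))))))))))))))))
(mv 910 (cons (fin 909 3 909)
(mv 911 (cons (fin 978 3 910)
(mv 847 (cons (fin 783 4 783)
(mv 1038 (cons (fin 1037 1 973)
(fin 1102 6 846)))))))))))))
(mv 977 (cons (cons (mv 909 (cons (fin 910 3 909)
(mv 908 (cons (fin 973 3 908)
(mv 914 (cons (fin 913 2 910)
(mv 978 (cons (fin 915 2 911)
(mv 1039 (cons (fin 1038 1 974)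
(fin 979 1 975)))))))))))
(mv 914 (cons (fin 913 2 910)
(mv 978 (cons (fin 915 2 911)
(mv 1039 (cons (fin 1038 1 974)
(fin 979 1 975))))))))
(cons (mv 909 (cons (fin 910 3 909)
(mv 973 (cons (fin 908 3 908)
(mv 1039 (cons (fin 972 0 972)
(mv 978 (cons (fin 1038 1 974)
(fin 979 1 975)))))))))
(cons (mv 913 (cons (fin 914 2 910)
(mv 785 (cons (fin 849 5 784)
(mv 973 (cons (mv 909 (cons (fin 908 3 908)
(fin 910 3 909)))
(cons (mv 972 (cons (fin 1039 0 972)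
(mv 907 (cons (fin 908 3 907)
(mv 971 (cons (fin 906 3 906)
(mv 1035 (cons (fin 1034 1 970)
(fin 1036 1 971)))))))))
(mv 910 (cons (fin 909 3 909)
(mv 972 (cons (fin 1039 0 972)
(mv 971 (cons (fin 911 2 907)
(mv 1035 (cons (fin 1034 1 970)
(fin 1036 1 971))))))))))))))))
(mv 910 (cons (fin 909 3 909)
(mv 914 (cons (fin 913 2 910)
(mv 978 (cons (fin 911 3 910)
(fin 915 2 911)))))))))))))
(cons (cons (mv 1037 (cons (cons (mv 973 (cons (fin 1036 1 972)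
(mv 972 (cons (fin 1039 0 972)
(mv 907 (cons (fin 908 3 907)
(mv 971 (cons (fin 906 3 906)
(mv 1038 (cons (fin 977 1 973)
(fin 970 0 970)))))))))))
(mv 973 (cons (fin 1036 1 972)
(mv 1039 (cons (fin 972 0 972)
(mv 1103 (cons (mv 1167 (cons (fin 910 7 910)
(fin 1231 6 975)))
(cons (mv 1101 (cons (cons (mv 910 (cons (fin 1165 6 909)
(mv 846 (cons (fin 911 7 846)
(fin 782 5 781)))))
(mv 1102 (cons (fin 1100 2 1036)
(mv 1166 (cons (fin 911 5 910)
(mv 1230 (cons (fin 1294 7 1037)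
(fin 1165 4 973))))))))
(cons (mv 1102 (cons (fin 1100 2 1036)
(mv 911 (cons (fin 1166 5 910)
(mv 846 (cons (fin 910 7 846)
(mv 847 (cons (fin 782 7 782)
(fin 783 4 783)))))))))
(mv 1100 (cons (fin 1102 2 1036)
(mv 1165 (cons (fin 910 6 909)
(mv 1228 (cons (fin 1164 5 972)
(mv 1229 (cons (fin 1292 5 1036)
(mv 1230 (cons (fin 1166 4 973)
(fin 1294 4 1037))))))))))))))
(mv 1167 (cons (fin 1231 6 975)
(fin 1232 4 975)))))))))))
(cons (mv 977 (cons (fin 1038 1 973)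
(mv 914 (cons (fin 913 2 910)
(mv 978 (cons (fin 915 2 911)
(mv 910 (cons (fin 911 3 910)
(mv 979 (cons (fin 1039 1 975)
(mv 1043 (cons (fin 1042 0 975)
(fin 1044 0 976)))))))))))))
(mv 1036 (cons (fin 973 1 972)
(mv 1038 (cons (fin 977 1 973)
(fin 1035 2 971))))))))
(mv 909 (cons (cons (mv 908 (cons (fin 973 3 908)
(mv 910 (cons (fin 977 3 909)
(fin 907 0 907)))))
(mv 908 (cons (fin 973 3 908)
(mv 910 (cons (fin 907 0 907)
(fin 911 0 908))))))
(cons (mv 973 (cons (fin 908 3 908)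
(mv 1037 (cons (fin 1036 1 972)
(mv 1038 (cons (fin 977 1 973)
(mv 845 (cons (fin 781 4 781)
(fin 1102 4 845)))))))))
(cons (mv 910 (cons (fin 977 3 909)
(mv 845 (cons (cons (mv 781 (cons (fin 717 4 717)
(mv 1038 (cons (fin 846 7 781)
(fin 1102 7 845)))))
(mv 781 (cons (fin 717 4 717)
(mv 973 (cons (mv 1036 (cons (fin 1037 1 972)
(fin 972 5 780)))
(cons (mv 716 (cons (fin 780 7 716)
(mv 782 (cons (fin 718 6 717)
(mv 846 (cons (fin 1037 5 781)
(mv 783 (cons (fin 719 6 718)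
(mv 784 (cons (fin 844 1 780)
(fin 785 1 781)))))))))))
(mv 716 (cons (fin 780 7 716)
(mv 718 (cons (fin 782 6 717)
(mv 972 (cons (fin 1036 5 780)
(mv 971 (cons (fin 970 2 906)
(fin 911 2 907)))))))))))))))
(cons (mv 1038 (cons (fin 1102 7 845)
(mv 1037 (cons (mv 1036 (cons (fin 973 1 972)
(fin 1035 2 971)))
(cons (mv 846 (cons (fin 1101 5 845)
(mv 782 (cons (fin 973 5 781)
(mv 718 (cons (fin 654 5 653)
(fin 911 4 718)))))))
(mv 846 (cons (fin 1101 5 845)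
(mv 783 (cons (fin 847 6 782)
(mv 782 (cons (fin 719 6 718)
(mv 718 (cons (fin 654 5 653)
(fin 911 4 718))))))))))))))
(mv 781 (cons (fin 717 4 717)
(mv 1038 (cons (fin 1102 7 845)
(fin 973 4 781))))))))))
(mv 910 (cons (fin 977 3 909)
(mv 908 (cons (fin 907 0 907)
(fin 911 0 908))))))))))
(cons (mv 973 (cons (mv 908 (cons (fin 909 3 908)
(mv 972 (cons (fin 907 3 907)
(fin 1039 0 972)))))
(cons (mv 909 (cons (fin 908 3 908)
(mv 910 (cons (fin 977 3 909)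
(mv 1037 (cons (fin 1036 1 972)
(mv 846 (cons (fin 782 5 781)
(fin 1101 6 845)))))))))
(mv 972 (cons (fin 1039 0 972)
(mv 1036 (cons (fin 1035 1 971)
(fin 1037 1 972))))))))
(mv 973 (cons (cons (mv 908 (cons (fin 909 3 908)
(mv 972 (cons (fin 907 3 907)
(fin 1039 0 972)))))
(mv 908 (cons (fin 909 3 908)
(mv 1037 (cons (fin 1036 1 972)
(mv 977 (cons (fin 1038 1 973)
(mv 914 (cons (fin 913 2 910)
(mv 978 (cons (fin 915 2 911)
(mv 979 (cons (fin 1039 1 975)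
(mv 1043 (cons (fin 1042 0 975)
(fin 1044 0 976))))))))))))))))
(cons (mv 972 (cons (fin 1039 0 972)
(mv 1036 (cons (fin 1035 1 971)
(fin 1037 1 972)))))
(mv 908 (cons (fin 909 3 908)
(mv 972 (cons (fin 907 3 907)
(mv 1036 (cons (fin 1035 1 971)
(fin 1037 1 972))))))))))))))))
(cons (cons (mv 1038 (cons (cons (cons (mv 973 (cons (cons (mv 1041 (cons (fin 1039 3 973)
(fin 975 0 973)))
(mv 975 (cons (mv 908 (cons (fin 909 3 908)
(mv 972 (cons (fin 907 3 907)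
(fin 1039 0 972)))))
(cons (mv 909 (cons (fin 908 3 908)
(mv 845 (cons (fin 781 4 781)
(mv 1037 (cons (fin 1036 1 972)
(fin 1102 4 845)))))))
(mv 972 (cons (fin 1039 0 972)
(mv 1036 (cons (fin 1035 1 971)
(fin 1037 1 972)))))))))
(cons (mv 1039 (cons (fin 1041 3 973)
(mv 972 (cons (fin 1037 3 972)
(fin 971 0 971)))))
(mv 975 (cons (fin 1041 0 973)
(mv 908 (cons (fin 909 3 908)
(mv 972 (cons (fin 907 3 907)
(mv 1036 (cons (fin 1035 1 971)
(fin 1037 1 972))))))))))))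
(mv 1102 (cons (cons (mv 910 (cons (cons (mv 845 (cons (fin 909 7 845)
(mv 781 (cons (fin 846 7 781)
(mv 847 (cons (fin 911 6 846)
(mv 1101 (cons (fin 1165 5 909)
(mv 1039 (cons (fin 1041 1 1037)
(mv 1100 (cons (fin 1037 1 1036)
(fin 1099 2 1035)))))))))))))
(cons (mv 845 (cons (fin 909 7 845)
(mv 781 (cons (fin 846 7 781)
(mv 847 (cons (fin 911 6 846)
(mv 1167 (cons (fin 1103 4 910)
(mv 1166 (cons (fin 1231 4 974)
(mv 1229 (cons (fin 1165 5 973)
(mv 1230 (cons (fin 1169 1 1165)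
(fin 1293 5 1037)))))))))))))))
(mv 845 (cons (fin 909 7 845)
(mv 781 (cons (fin 846 7 781)
(mv 1101 (cons (fin 1165 5 909)
(mv 1039 (cons (fin 1041 1 1037)
(mv 1100 (cons (fin 1037 1 1036)
(fin 1099 2 1035)))))))))))))
(cons (mv 845 (cons (fin 909 7 845)
(mv 781 (cons (fin 846 7 781)
(mv 847 (cons (fin 911 6 846)
(mv 1167 (cons (fin 1103 4 910)
(mv 1166 (cons (fin 1231 4 974)
(mv 1101 (cons (fin 1169 3 1101)
(mv 1039 (cons (fin 1041 1 1037)
(mv 1100 (cons (fin 1037 1 1036)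
(fin 1099 2 1035)))))))))))))))))
(cons (mv 847 (cons (fin 911 6 846)
(mv 783 (cons (fin 846 6 782)
(mv 1101 (cons (fin 1165 5 909)
(mv 1039 (cons (fin 1041 1 1037)
(mv 1100 (cons (fin 1037 1 1036)
(fin 1099 2 1035)))))))))))
(mv 845 (cons (fin 909 7 845)
(mv 847 (cons (fin 911 6 846)
(mv 1101 (cons (fin 1165 5 909)
(mv 1039 (cons (fin 1041 1 1037)
(mv 1100 (cons (fin 1037 1 1036)
(fin 1099 2 1035)))))))))))))))
(cons (mv 1166 (cons (cons (mv 911 (cons (fin 975 6 910)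
(mv 1165 (cons (fin 1229 5 973)
(mv 1167 (cons (fin 1231 4 974)
(mv 1101 (cons (fin 1100 3 1100)
(fin 1169 3 1101)))))))))
(cons (mv 911 (cons (fin 975 6 910)
(mv 1229 (cons (fin 1165 5 973)
(mv 1230 (cons (fin 1293 5 1037)
(mv 1295 (cons (fin 1231 4 1038)
(mv 1294 (cons (fin 1359 4 1102)
(mv 1039 (cons (fin 1103 6 1038)
(mv 1101 (cons (fin 1041 1 1037)
(fin 1037 7 1037)))))))))))))))
(mv 1165 (cons (fin 1229 5 973)
(mv 1167 (cons (fin 1231 4 974)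
(mv 1101 (cons (fin 1100 3 1100)
(fin 1169 3 1101)))))))))
(cons (mv 911 (cons (fin 975 6 910)
(mv 1167 (cons (fin 1231 4 974)
(mv 1101 (cons (fin 1169 3 1101)
(mv 1100 (cons (fin 1165 3 1100)
(fin 1099 0 1099)))))))))
(cons (mv 975 (cons (fin 911 6 910)
(mv 1039 (cons (fin 1230 6 974)
(mv 1041 (cons (fin 1042 3 974)
(fin 1101 1 1037)))))))
(mv 911 (cons (fin 975 6 910)
(mv 1167 (cons (fin 1231 4 974)
(mv 1229 (cons (fin 1165 5 973)
(mv 1230 (cons (fin 1169 1 1165)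
(fin 1293 5 1037)))))))))))))
(mv 910 (cons (cons (mv 845 (cons (fin 909 7 845)
(mv 781 (cons (fin 846 7 781)
(mv 847 (cons (fin 911 6 846)
(mv 1101 (cons (fin 1165 5 909)
(mv 1039 (cons (fin 1041 1 1037)
(mv 1100 (cons (fin 1037 1 1036)
(fin 1099 2 1035)))))))))))))
(mv 845 (cons (fin 909 7 845)
(mv 846 (cons (fin 781 7 781)
(mv 847 (cons (fin 783 6 782)
(fin 911 6 846))))))))
(cons (mv 845 (cons (fin 909 7 845)
(mv 781 (cons (fin 846 7 781)
(mv 1101 (cons (fin 1165 5 909)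
(mv 1039 (cons (fin 1041 1 1037)
(mv 1100 (cons (fin 1037 1 1036)
(fin 1099 2 1035)))))))))))
(cons (mv 847 (cons (fin 911 6 846)
(mv 783 (cons (fin 846 6 782)
(mv 1101 (cons (fin 1165 5 909)
(mv 1039 (cons (fin 1041 1 1037)
(mv 1100 (cons (fin 1037 1 1036)
(fin 1099 2 1035)))))))))))
(mv 845 (cons (fin 909 7 845)
(mv 847 (cons (fin 911 6 846)
(mv 1101 (cons (fin 1165 5 909)
(mv 1039 (cons (fin 1041 1 1037)
(mv 1100 (cons (fin 1037 1 1036)
(fin 1099 2 1035)))))))))))))))))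
(cons (cons (mv 1166 (cons (cons (mv 911 (cons (fin 975 6 910)
(mv 847 (cons (fin 910 6 846)
(mv 1167 (cons (fin 1231 4 974)
(mv 1229 (cons (fin 1165 5 973)
(mv 1230 (cons (fin 1169 1 1165)
(fin 1293 5 1037)))))))))))
(mv 975 (cons (fin 911 6 910)
(mv 1229 (cons (fin 1165 5 973)
(mv 1230 (cons (fin 1293 5 1037)
(fin 1039 6 974))))))))
(cons (mv 1165 (cons (fin 1229 5 973)
(mv 1167 (cons (fin 1231 4 974)
(mv 910 (cons (fin 1103 4 910)
(mv 845 (cons (fin 909 7 845)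
(mv 846 (cons (fin 781 7 781)
(mv 847 (cons (fin 783 6 782)
(fin 911 6 846)))))))))))))
(cons (mv 1165 (cons (fin 1229 5 973)
(mv 1167 (cons (fin 1231 4 974)
(mv 1103 (cons (fin 910 4 910)
(mv 1163 (cons (fin 1164 2 1099)
(mv 1169 (cons (fin 1170 3 1102)
(mv 1233 (cons (fin 1232 0 1165)
(fin 1234 0 1166)))))))))))))
(mv 911 (cons (fin 975 6 910)
(mv 910 (cons (fin 847 6 846)
(mv 1167 (cons (fin 1103 4 910)
(fin 1231 4 974)))))))))))
(mv 910 (cons (cons (mv 845 (cons (fin 909 7 845)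
(mv 781 (cons (fin 846 7 781)
(mv 1101 (cons (fin 1165 5 909)
(mv 1039 (cons (fin 1041 1 1037)
(mv 1100 (cons (fin 1037 1 1036)
(fin 1099 2 1035)))))))))))
(mv 845 (cons (fin 909 7 845)
(mv 781 (cons (fin 846 7 781)
(mv 1167 (cons (fin 1103 4 910)
(mv 1166 (cons (fin 1231 4 974)
(mv 1229 (cons (fin 1165 5 973)
(mv 1230 (cons (fin 1169 1 1165)
(fin 1293 5 1037))))))))))))))
(cons (mv 845 (cons (fin 909 7 845)
(mv 781 (cons (fin 846 7 781)
(mv 1167 (cons (fin 1103 4 910)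
(mv 1166 (cons (fin 1231 4 974)
(mv 1101 (cons (fin 1169 3 1101)
(mv 1039 (cons (fin 1041 1 1037)
(mv 1100 (cons (fin 1037 1 1036)
(fin 1099 2 1035)))))))))))))))
(cons (mv 1101 (cons (fin 1165 5 909)
(mv 846 (cons (fin 1037 5 845)
(mv 1039 (cons (fin 1041 1 1037)
(fin 1103 4 846)))))))
(mv 845 (cons (fin 909 7 845)
(mv 1101 (cons (fin 1165 5 909)
(mv 1039 (cons (fin 1041 1 1037)
(mv 1100 (cons (fin 1037 1 1036)
(fin 1099 2 1035))))))))))))))
(cons (mv 910 (cons (cons (mv 845 (cons (fin 909 7 845)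
(mv 781 (cons (fin 846 7 781)
(mv 847 (cons (fin 911 6 846)
(mv 1167 (cons (fin 1103 4 910)
(mv 1166 (cons (fin 1231 4 974)
(mv 1101 (cons (fin 1169 3 1101)
(mv 1039 (cons (fin 1041 1 1037)
(mv 1100 (cons (fin 1037 1 1036)
(fin 1099 2 1035)))))))))))))))))
(cons (mv 845 (cons (fin 909 7 845)
(mv 781 (cons (fin 846 7 781)
(mv 911 (cons (fin 847 6 846)
(mv 1166 (cons (fin 975 6 910)
(mv 1167 (cons (fin 1231 4 974)
(mv 1101 (cons (fin 1169 3 1101)
(mv 1039 (cons (fin 1041 1 1037)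
(mv 1100 (cons (fin 1037 1 1036)
(fin 1099 2 1035)))))))))))))))))
(mv 845 (cons (fin 909 7 845)
(mv 846 (cons (fin 781 7 781)
(mv 847 (cons (fin 783 6 782)
(fin 911 6 846)))))))))
(cons (mv 845 (cons (fin 909 7 845)
(mv 781 (cons (fin 846 7 781)
(mv 1167 (cons (fin 1103 4 910)
(mv 1166 (cons (fin 1231 4 974)
(mv 1101 (cons (fin 1169 3 1101)
(mv 1039 (cons (fin 1041 1 1037)
(mv 1100 (cons (fin 1037 1 1036)
(fin 1099 2 1035)))))))))))))))
(cons (mv 847 (cons (fin 911 6 846)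
(mv 783 (cons (fin 846 6 782)
(mv 1167 (cons (fin 1103 4 910)
(mv 1166 (cons (fin 1231 4 974)
(mv 1101 (cons (fin 1169 3 1101)
(mv 1039 (cons (fin 1041 1 1037)
(mv 1100 (cons (fin 1037 1 1036)
(fin 1099 2 1035)))))))))))))))
(mv 845 (cons (fin 909 7 845)
(mv 847 (cons (fin 911 6 846)
(mv 1167 (cons (fin 1103 4 910)
(mv 1166 (cons (fin 1231 4 974)
(mv 1101 (cons (fin 1169 3 1101)
(mv 1039 (cons (fin 1041 1 1037)
(mv 1100 (cons (fin 1037 1 1036)
(fin 1099 2 1035)))))))))))))))))))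
(mv 910 (cons (cons (cons (mv 845 (cons (fin 909 7 845)
(mv 781 (cons (fin 846 7 781)
(mv 847 (cons (fin 911 6 846)
(mv 1101 (cons (fin 1165 5 909)
(mv 1167 (cons (fin 1103 4 910)
(mv 1166 (cons (fin 1169 3 1101)
(fin 1231 4 974)))))))))))))
(mv 845 (cons (fin 909 7 845)
(mv 781 (cons (fin 846 7 781)
(mv 911 (cons (fin 847 6 846)
(mv 1165 (cons (fin 1101 5 909)
(mv 1166 (cons (fin 1229 5 973)
(fin 975 6 910))))))))))))
(cons (mv 845 (cons (fin 909 7 845)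
(mv 781 (cons (fin 846 7 781)
(mv 847 (cons (fin 911 6 846)
(mv 1167 (cons (fin 1103 4 910)
(mv 1166 (cons (fin 1231 4 974)
(mv 1229 (cons (fin 1165 5 973)
(mv 1230 (cons (fin 1169 1 1165)
(fin 1293 5 1037)))))))))))))))
(mv 845 (cons (fin 909 7 845)
(mv 781 (cons (fin 846 7 781)
(mv 1101 (cons (fin 1165 5 909)
(mv 1167 (cons (fin 1103 4 910)
(mv 1166 (cons (fin 1169 3 1101)
(fin 1231 4 974)))))))))))))
(cons (cons (mv 845 (cons (fin 909 7 845)
(mv 781 (cons (fin 846 7 781)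
(mv 911 (cons (fin 847 6 846)
(mv 1166 (cons (fin 975 6 910)
(mv 1167 (cons (fin 1103 4 910)
(fin 1231 4 974)))))))))))
(mv 847 (cons (fin 911 6 846)
(mv 783 (cons (fin 846 6 782)
(mv 1101 (cons (fin 1165 5 909)
(mv 1167 (cons (fin 1103 4 910)
(mv 1166 (cons (fin 1169 3 1101)
(fin 1231 4 974))))))))))))
(cons (mv 845 (cons (fin 909 7 845)
(mv 846 (cons (fin 781 7 781)
(mv 847 (cons (fin 783 6 782)
(fin 911 6 846)))))))
(mv 845 (cons (fin 909 7 845)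
(mv 847 (cons (fin 911 6 846)
(mv 1101 (cons (fin 1165 5 909)
(mv 1167 (cons (fin 1103 4 910)
(mv 1166 (cons (fin 1169 3 1101)
(fin 1231 4 974))))))))))))))))))))
(cons (mv 1102 (cons (cons (cons (mv 1166 (cons (cons (cons (mv 909 (cons (fin 973 7 909)
(mv 845 (cons (fin 910 7 845)
(mv 911 (cons (fin 975 6 910)
(mv 1165 (cons (fin 1229 5 973)
(mv 1167 (cons (fin 1231 4 974)
(mv 1101 (cons (fin 1100 3 1100)
(fin 1169 3 1101)))))))))))))
(mv 909 (cons (fin 973 7 909)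
(mv 845 (cons (fin 910 7 845)
(mv 975 (cons (fin 911 6 910)
(mv 1165 (cons (fin 1229 5 973)
(mv 1230 (cons (fin 1039 6 974)
(mv 1295 (cons (fin 1231 4 1038)
(mv 1294 (cons (fin 1359 4 1102)
(mv 1101 (cons (fin 1037 7 1037)
(fin 1358 7 1101))))))))))))))))))
(cons (mv 909 (cons (fin 973 7 909)
(mv 845 (cons (fin 910 7 845)
(mv 1165 (cons (fin 1229 5 973)
(mv 1167 (cons (fin 1231 4 974)
(mv 1101 (cons (fin 1100 3 1100)
(fin 1169 3 1101)))))))))))
(mv 911 (cons (fin 975 6 910)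
(mv 847 (cons (fin 910 6 846)
(mv 1165 (cons (fin 1229 5 973)
(mv 1167 (cons (fin 1231 4 974)
(mv 1101 (cons (fin 1100 3 1100)
(fin 1169 3 1101)))))))))))))
(cons (cons (mv 909 (cons (fin 973 7 909)
(mv 845 (cons (fin 910 7 845)
(mv 911 (cons (fin 975 6 910)
(mv 1167 (cons (fin 1231 4 974)
(mv 1101 (cons (fin 1169 3 1101)
(mv 1100 (cons (fin 1099 0 1099)
(fin 1103 0 1100)))))))))))))
(mv 909 (cons (fin 973 7 909)
(mv 845 (cons (fin 910 7 845)
(mv 975 (cons (fin 911 6 910)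
(mv 1039 (cons (fin 1230 6 974)
(mv 1037 (cons (fin 1036 2 972)
(mv 1101 (cons (fin 1100 1 1036)
(mv 1165 (cons (fin 1229 5 973)
(mv 1167 (cons (fin 1169 3 1101)
(mv 1232 (cons (fin 1233 0 1165)
(fin 1103 4 975))))))))))))))))))))
(cons (mv 909 (cons (fin 973 7 909)
(mv 911 (cons (fin 975 6 910)
(mv 1165 (cons (fin 1229 5 973)
(mv 1167 (cons (fin 1231 4 974)
(mv 1101 (cons (fin 1100 3 1100)
(fin 1169 3 1101)))))))))))
(mv 909 (cons (fin 973 7 909)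
(mv 845 (cons (fin 910 7 845)
(mv 911 (cons (fin 975 6 910)
(mv 1167 (cons (fin 1231 4 974)
(mv 1229 (cons (fin 1165 5 973)
(mv 1230 (cons (fin 1169 1 1165)
(fin 1293 5 1037)))))))))))))))))
(mv 910 (cons (cons (mv 845 (cons (fin 909 7 845)
(mv 781 (cons (fin 846 7 781)
(mv 847 (cons (fin 911 6 846)
(mv 1101 (cons (fin 1165 5 909)
(mv 1103 (cons (fin 1167 4 910)
(mv 1100 (cons (fin 1039 2 1036)
(mv 1035 (cons (fin 1036 3 1035)
(mv 1099 (cons (fin 1034 3 1034)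
(mv 1163 (cons (fin 1162 1 1098)
(fin 1164 1 1099)))))))))))))))))))
(mv 845 (cons (fin 909 7 845)
(mv 846 (cons (fin 781 7 781)
(mv 847 (cons (fin 783 6 782)
(fin 911 6 846))))))))
(cons (mv 845 (cons (fin 909 7 845)
(mv 781 (cons (fin 846 7 781)
(mv 1101 (cons (fin 1165 5 909)
(mv 1103 (cons (fin 1167 4 910)
(mv 1100 (cons (fin 1039 2 1036)
(mv 1035 (cons (fin 1036 3 1035)
(mv 1099 (cons (fin 1034 3 1034)
(mv 1163 (cons (fin 1162 1 1098)
(fin 1164 1 1099)))))))))))))))))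
(cons (mv 847 (cons (fin 911 6 846)
(mv 783 (cons (fin 846 6 782)
(mv 1101 (cons (fin 1165 5 909)
(mv 1103 (cons (fin 1167 4 910)
(mv 1100 (cons (fin 1039 2 1036)
(mv 1035 (cons (fin 1036 3 1035)
(mv 1099 (cons (fin 1034 3 1034)
(mv 1163 (cons (fin 1162 1 1098)
(fin 1164 1 1099)))))))))))))))))
(mv 845 (cons (fin 909 7 845)
(mv 847 (cons (fin 911 6 846)
(mv 1101 (cons (fin 1165 5 909)
(mv 1103 (cons (fin 1167 4 910)
(mv 1100 (cons (fin 1039 2 1036)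
(mv 1035 (cons (fin 1036 3 1035)
(mv 1099 (cons (fin 1034 3 1034)
(mv 1163 (cons (fin 1162 1 1098)
(fin 1164 1 1099))))))))))))))))))))))
(cons (mv 1166 (cons (cons (cons (mv 909 (cons (fin 973 7 909)
(mv 911 (cons (fin 975 6 910)
(mv 1165 (cons (fin 1229 5 973)
(mv 1167 (cons (fin 1231 4 974)
(mv 1101 (cons (fin 1100 3 1100)
(fin 1169 3 1101)))))))))))
(mv 909 (cons (fin 973 7 909)
(mv 975 (cons (fin 911 6 910)
(mv 1165 (cons (fin 1229 5 973)
(mv 1230 (cons (fin 1039 6 974)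
(mv 1295 (cons (fin 1231 4 1038)
(mv 1294 (cons (fin 1359 4 1102)
(mv 1101 (cons (fin 1037 7 1037)
(fin 1358 7 1101))))))))))))))))
(cons (mv 909 (cons (fin 973 7 909)
(mv 1165 (cons (fin 1229 5 973)
(mv 1167 (cons (fin 1231 4 974)
(mv 1101 (cons (fin 1100 3 1100)
(fin 1169 3 1101)))))))))
(mv 911 (cons (fin 975 6 910)
(mv 1165 (cons (fin 1229 5 973)
(mv 1167 (cons (fin 1231 4 974)
(mv 1101 (cons (fin 1100 3 1100)
(fin 1169 3 1101)))))))))))
(cons (cons (mv 909 (cons (fin 973 7 909)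
(mv 911 (cons (fin 975 6 910)
(mv 1167 (cons (fin 1231 4 974)
(mv 1101 (cons (fin 1169 3 1101)
(mv 1100 (cons (fin 1165 3 1100)
(fin 1099 0 1099)))))))))))
(mv 909 (cons (fin 973 7 909)
(mv 975 (cons (fin 911 6 910)
(mv 1039 (cons (fin 1230 6 974)
(mv 1037 (cons (fin 1036 2 972)
(mv 1101 (cons (fin 1100 1 1036)
(mv 1165 (cons (fin 1229 5 973)
(mv 1167 (cons (fin 1169 3 1101)
(mv 1232 (cons (fin 1233 0 1165)
(fin 1103 4 975))))))))))))))))))
(cons (mv 909 (cons (fin 973 7 909)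
(mv 911 (cons (fin 975 6 910)
(mv 1167 (cons (fin 1231 4 974)
(mv 1101 (cons (fin 1169 3 1101)
(mv 1100 (cons (fin 1099 0 1099)
(fin 1103 0 1100)))))))))))
(mv 909 (cons (fin 973 7 909)
(mv 911 (cons (fin 975 6 910)
(mv 1167 (cons (fin 1231 4 974)
(mv 1229 (cons (fin 1165 5 973)
(mv 1230 (cons (fin 1169 1 1165)
(fin 1293 5 1037)))))))))))))))
(mv 910 (cons (cons (mv 845 (cons (fin 909 7 845)
(mv 781 (cons (fin 846 7 781)
(mv 911 (cons (fin 847 6 846)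
(mv 1165 (cons (fin 1101 5 909)
(mv 1166 (cons (fin 1229 5 973)
(fin 975 6 910)))))))))))
(mv 847 (cons (fin 911 6 846)
(mv 846 (cons (fin 783 6 782)
(mv 1101 (cons (fin 1037 5 845)
(fin 1165 5 909))))))))
(cons (mv 845 (cons (fin 909 7 845)
(mv 846 (cons (fin 781 7 781)
(mv 847 (cons (fin 783 6 782)
(fin 911 6 846)))))))
(cons (mv 845 (cons (fin 909 7 845)
(mv 846 (cons (fin 781 7 781)
(mv 1101 (cons (fin 1037 5 845)
(fin 1165 5 909)))))))
(mv 845 (cons (fin 909 7 845)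
(mv 911 (cons (fin 847 6 846)
(mv 1165 (cons (fin 1101 5 909)
(mv 1166 (cons (fin 1229 5 973)
(fin 975 6 910)))))))))))))))
(cons (cons (mv 1166 (cons (cons (mv 911 (cons (fin 975 6 910)
(mv 847 (cons (fin 910 6 846)
(mv 1165 (cons (fin 1229 5 973)
(mv 1167 (cons (fin 1231 4 974)
(mv 1101 (cons (fin 1100 3 1100)
(fin 1169 3 1101)))))))))))
(cons (mv 911 (cons (fin 975 6 910)
(mv 847 (cons (fin 910 6 846)
(mv 1229 (cons (fin 1165 5 973)
(mv 1230 (cons (fin 1293 5 1037)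
(mv 1037 (cons (fin 973 7 973)
(mv 1101 (cons (fin 1294 7 1037)
(mv 1100 (cons (fin 1039 1 1036)
(mv 1099 (cons (fin 1098 2 1034)
(mv 1034 (cons (fin 1035 3 1034)
(mv 1163 (cons (fin 1162 1 1098)
(mv 1164 (cons (fin 1103 1 1099)
(mv 1228 (cons (fin 1231 3 1163)
(fin 1292 6 1036)))))))))))))))))))))))))
(mv 1165 (cons (fin 1229 5 973)
(mv 910 (cons (fin 1101 5 909)
(mv 1167 (cons (fin 1103 4 910)
(fin 1231 4 974)))))))))
(cons (cons (mv 911 (cons (fin 975 6 910)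
(mv 847 (cons (fin 910 6 846)
(mv 1167 (cons (fin 1231 4 974)
(mv 1101 (cons (fin 1169 3 1101)
(mv 1100 (cons (fin 1099 0 1099)
(fin 1103 0 1100)))))))))))
(mv 911 (cons (fin 975 6 910)
(mv 847 (cons (fin 910 6 846)
(mv 1229 (cons (fin 1165 5 973)
(mv 1230 (cons (fin 1293 5 1037)
(mv 1037 (cons (fin 973 7 973)
(mv 1101 (cons (fin 1294 7 1037)
(mv 1100 (cons (fin 1039 1 1036)
(mv 1099 (cons (fin 1098 2 1034)
(fin 1167 0 1099))))))))))))))))))
(cons (mv 911 (cons (fin 975 6 910)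
(mv 1165 (cons (fin 1229 5 973)
(mv 1167 (cons (fin 1231 4 974)
(mv 1101 (cons (fin 1100 3 1100)
(fin 1169 3 1101)))))))))
(mv 911 (cons (fin 975 6 910)
(mv 847 (cons (fin 910 6 846)
(mv 1167 (cons (fin 1231 4 974)
(mv 1229 (cons (fin 1165 5 973)
(mv 1230 (cons (fin 1169 1 1165)
(fin 1293 5 1037)))))))))))))))
(mv 1166 (cons (cons (mv 909 (cons (fin 973 7 909)
(mv 845 (cons (fin 910 7 845)
(mv 1165 (cons (fin 1229 5 973)
(mv 1167 (cons (fin 1231 4 974)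
(mv 1101 (cons (fin 1100 3 1100)
(fin 1169 3 1101)))))))))))
(cons (mv 909 (cons (fin 973 7 909)
(mv 845 (cons (fin 910 7 845)
(mv 1229 (cons (fin 1165 5 973)
(mv 1230 (cons (fin 1293 5 1037)
(mv 1039 (cons (fin 975 6 974)
(mv 1294 (cons (fin 1103 6 1038)
(mv 1295 (cons (fin 1231 4 1038)
(fin 1359 4 1102)))))))))))))))
(mv 1165 (cons (fin 1229 5 973)
(mv 910 (cons (fin 1101 5 909)
(mv 1167 (cons (fin 1103 4 910)
(fin 1231 4 974)))))))))
(cons (mv 909 (cons (fin 973 7 909)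
(mv 845 (cons (fin 910 7 845)
(mv 1167 (cons (fin 1231 4 974)
(mv 1101 (cons (fin 1169 3 1101)
(mv 1100 (cons (fin 1099 0 1099)
(fin 1103 0 1100)))))))))))
(cons (mv 909 (cons (fin 973 7 909)
(mv 910 (cons (fin 845 7 845)
(mv 1165 (cons (fin 1101 5 909)
(fin 1229 5 973)))))))
(mv 909 (cons (fin 973 7 909)
(mv 1165 (cons (fin 1229 5 973)
(mv 1167 (cons (fin 1231 4 974)
(mv 1101 (cons (fin 1100 3 1100)
(fin 1169 3 1101))))))))))))))
(cons (mv 1166 (cons (cons (mv 909 (cons (fin 973 7 909)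
(mv 845 (cons (fin 910 7 845)
(mv 911 (cons (fin 975 6 910)
(mv 1167 (cons (fin 1231 4 974)
(mv 1101 (cons (fin 1169 3 1101)
(mv 1100 (cons (fin 1099 0 1099)
(fin 1103 0 1100)))))))))))))
(cons (mv 909 (cons (fin 973 7 909)
(mv 845 (cons (fin 910 7 845)
(mv 975 (cons (fin 911 6 910)
(mv 1230 (cons (fin 1039 6 974)
(mv 1293 (cons (fin 1229 5 1037)
(mv 1294 (cons (fin 1357 5 1101)
(mv 1295 (cons (fin 1231 4 1038)
(fin 1359 4 1102)))))))))))))))
(mv 909 (cons (fin 973 7 909)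
(mv 845 (cons (fin 910 7 845)
(mv 1167 (cons (fin 1231 4 974)
(mv 1101 (cons (fin 1169 3 1101)
(mv 1100 (cons (fin 1099 0 1099)
(fin 1103 0 1100)))))))))))))
(cons (mv 911 (cons (fin 975 6 910)
(mv 847 (cons (fin 910 6 846)
(mv 1167 (cons (fin 1231 4 974)
(mv 1101 (cons (fin 1169 3 1101)
(mv 1100 (cons (fin 1099 0 1099)
(fin 1103 0 1100)))))))))))
(cons (mv 909 (cons (fin 973 7 909)
(mv 845 (cons (fin 910 7 845)
(mv 975 (cons (fin 911 6 910)
(mv 1230 (cons (fin 1039 6 974)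
(mv 1293 (cons (fin 1229 5 1037)
(mv 1294 (cons (fin 1357 5 1101)
(mv 1101 (cons (fin 1037 7 1037)
(mv 1167 (cons (fin 1169 3 1101)
(mv 1100 (cons (fin 1099 0 1099)
(fin 1103 0 1100)))))))))))))))))))
(mv 909 (cons (fin 973 7 909)
(mv 911 (cons (fin 975 6 910)
(mv 1167 (cons (fin 1231 4 974)
(mv 1101 (cons (fin 1169 3 1101)
(mv 1100 (cons (fin 1099 0 1099)
(fin 1103 0 1100)))))))))))))))
(mv 1166 (cons (cons (cons (mv 909 (cons (fin 973 7 909)
(mv 845 (cons (fin 910 7 845)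
(mv 911 (cons (fin 975 6 910)
(mv 1167 (cons (fin 1231 4 974)
(mv 1229 (cons (fin 1165 5 973)
(mv 1230 (cons (fin 1169 1 1165)
(fin 1293 5 1037)))))))))))))
(mv 909 (cons (fin 973 7 909)
(mv 845 (cons (fin 910 7 845)
(mv 975 (cons (fin 911 6 910)
(mv 1229 (cons (fin 1165 5 973)
(mv 1230 (cons (fin 1293 5 1037)
(fin 1039 6 974))))))))))))
(cons (mv 909 (cons (fin 973 7 909)
(mv 845 (cons (fin 910 7 845)
(mv 1167 (cons (fin 1231 4 974)
(mv 1229 (cons (fin 1165 5 973)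
(mv 1230 (cons (fin 1169 1 1165)
(fin 1293 5 1037)))))))))))
(mv 911 (cons (fin 975 6 910)
(mv 847 (cons (fin 910 6 846)
(mv 1167 (cons (fin 1231 4 974)
(mv 1229 (cons (fin 1165 5 973)
(mv 1230 (cons (fin 1169 1 1165)
(fin 1293 5 1037)))))))))))))
(cons (cons (mv 909 (cons (fin 973 7 909)
(mv 845 (cons (fin 910 7 845)
(mv 975 (cons (fin 911 6 910)
(mv 1039 (cons (fin 1230 6 974)
(mv 1036 (cons (fin 1037 2 972)
(mv 1167 (cons (fin 1231 4 974)
(mv 1232 (cons (fin 1103 4 975)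
(mv 1233 (cons (fin 1165 0 1165)
(mv 1234 (cons (fin 1235 3 1167)
(fin 1169 0 1166)))))))))))))))))))
(mv 909 (cons (fin 973 7 909)
(mv 845 (cons (fin 910 7 845)
(mv 975 (cons (fin 911 6 910)
(mv 1167 (cons (fin 1231 4 974)
(mv 1230 (cons (fin 1039 6 974)
(mv 1229 (cons (fin 1169 1 1165)
(fin 1293 5 1037))))))))))))))
(cons (mv 909 (cons (fin 973 7 909)
(mv 910 (cons (fin 845 7 845)
(mv 911 (cons (fin 847 6 846)
(fin 975 6 910)))))))
(mv 909 (cons (fin 973 7 909)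
(mv 911 (cons (fin 975 6 910)
(mv 1167 (cons (fin 1231 4 974)
(mv 1229 (cons (fin 1165 5 973)
(mv 1230 (cons (fin 1169 1 1165)
(fin 1293 5 1037)))))))))))))))))))
(mv 975 (cons (cons (mv 973 (cons (fin 1041 0 973)
(mv 908 (cons (fin 909 3 908)
(mv 972 (cons (fin 907 3 907)
(mv 1036 (cons (fin 1035 1 971)
(fin 1037 1 972)))))))))
(mv 1102 (cons (cons (mv 911 (cons (fin 1166 6 910)
(mv 847 (cons (fin 783 5 782)
(fin 910 6 846)))))
(mv 910 (cons (cons (mv 845 (cons (fin 909 7 845)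
(mv 781 (cons (fin 846 7 781)
(mv 1101 (cons (fin 1165 5 909)
(mv 1167 (cons (fin 1103 4 910)
(mv 1166 (cons (fin 1169 3 1101)
(fin 1231 4 974)))))))))))
(cons (mv 845 (cons (fin 909 7 845)
(mv 846 (cons (fin 781 7 781)
(mv 1101 (cons (fin 1037 5 845)
(fin 1165 5 909)))))))
(mv 845 (cons (fin 909 7 845)
(mv 781 (cons (fin 846 7 781)
(mv 1167 (cons (fin 1103 4 910)
(mv 1166 (cons (fin 1231 4 974)
(mv 1229 (cons (fin 1165 5 973)
(mv 1230 (cons (fin 1169 1 1165)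
(fin 1293 5 1037)))))))))))))))
(cons (cons (mv 845 (cons (fin 909 7 845)
(mv 846 (cons (fin 781 7 781)
(mv 783 (cons (fin 847 6 782)
(mv 719 (cons (fin 782 6 718)
(mv 1101 (cons (fin 1037 5 845)
(mv 1167 (cons (fin 1103 4 910)
(mv 1166 (cons (fin 1169 3 1101)
(fin 1231 4 974)))))))))))))))
(mv 1101 (cons (fin 1165 5 909)
(mv 846 (cons (fin 1037 5 845)
(mv 781 (cons (fin 845 7 781)
(mv 717 (cons (fin 782 7 717)
(mv 783 (cons (fin 847 6 782)
(mv 1167 (cons (fin 1103 4 910)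
(mv 1166 (cons (fin 1169 3 1101)
(fin 1231 4 974))))))))))))))))
(cons (mv 1101 (cons (fin 1165 5 909)
(mv 846 (cons (fin 1037 5 845)
(mv 783 (cons (fin 847 6 782)
(mv 719 (cons (fin 782 6 718)
(mv 1167 (cons (fin 1103 4 910)
(mv 1166 (cons (fin 1169 3 1101)
(fin 1231 4 974)))))))))))))
(mv 845 (cons (fin 909 7 845)
(mv 1101 (cons (fin 1165 5 909)
(mv 1167 (cons (fin 1103 4 910)
(mv 1166 (cons (fin 1169 3 1101)
(fin 1231 4 974))))))))))))))
(cons (mv 910 (cons (cons (mv 845 (cons (fin 909 7 845)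
(mv 846 (cons (fin 781 7 781)
(mv 847 (cons (fin 783 6 782)
(fin 911 6 846)))))))
(mv 845 (cons (fin 909 7 845)
(mv 846 (cons (fin 781 7 781)
(mv 1101 (cons (fin 1037 5 845)
(fin 1165 5 909))))))))
(cons (mv 847 (cons (fin 911 6 846)
(mv 846 (cons (fin 783 6 782)
(mv 1101 (cons (fin 1037 5 845)
(fin 1165 5 909)))))))
(mv 909 (cons (fin 845 7 845)
(mv 908 (cons (fin 907 0 907)
(fin 911 0 908))))))))
(mv 1166 (cons (fin 911 6 910)
(mv 1165 (cons (fin 1229 5 973)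
(mv 1167 (cons (fin 1231 4 974)
(mv 1101 (cons (fin 1100 3 1100)
(fin 1169 3 1101)))))))))))))
(cons (mv 973 (cons (fin 1041 0 973)
(mv 909 (cons (fin 908 3 908)
(mv 845 (cons (fin 781 4 781)
(mv 1102 (cons (fin 910 7 845)
(fin 1166 7 909)))))))))
(cons (mv 973 (cons (fin 1041 0 973)
(mv 911 (cons (cons (mv 783 (cons (fin 847 5 782)
(mv 1036 (cons (fin 1037 1 972)
(mv 972 (cons (fin 1035 1 971)
(mv 907 (cons (fin 908 3 907)
(mv 971 (cons (fin 906 3 906)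
(fin 910 2 907)))))))))))
(mv 1036 (cons (fin 1037 1 972)
(mv 972 (cons (fin 1035 1 971)
(mv 907 (cons (fin 908 3 907)
(mv 971 (cons (fin 906 3 906)
(fin 910 2 907))))))))))
(cons (mv 847 (cons (fin 783 5 782)
(mv 1102 (cons (fin 910 6 846)
(fin 1166 6 910)))))
(mv 783 (cons (fin 847 5 782)
(mv 1102 (cons (fin 1166 6 910)
(mv 972 (cons (cons (mv 1036 (cons (fin 1035 1 971)
(fin 1037 1 972)))
(mv 907 (cons (fin 908 3 907)
(mv 971 (cons (fin 906 3 906)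
(mv 970 (cons (fin 1037 0 970)
(mv 1034 (cons (fin 1033 1 969)
(fin 1035 1 970))))))))))
(cons (mv 907 (cons (fin 908 3 907)
(mv 971 (cons (fin 906 3 906)
(mv 1035 (cons (fin 1034 1 970)
(fin 1036 1 971)))))))
(mv 907 (cons (fin 908 3 907)
(mv 971 (cons (fin 906 3 906)
(mv 1037 (cons (fin 1036 1 972)
(fin 970 0 970)))))))))))))))))))
(mv 973 (cons (fin 1041 0 973)
(mv 1036 (cons (fin 1037 1 972)
(mv 972 (cons (fin 1035 1 971)
(mv 910 (cons (mv 911 (cons (fin 971 2 907)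
(mv 847 (cons (fin 783 5 782)
(fin 1102 6 846)))))
(cons (mv 846 (cons (cons (mv 781 (cons (fin 845 7 781)
(mv 782 (cons (fin 717 7 717)
(mv 783 (cons (fin 719 6 718)
(fin 847 6 782)))))))
(mv 783 (cons (fin 847 6 782)
(mv 782 (cons (fin 719 6 718)
(mv 717 (cons (fin 781 7 717)
(mv 718 (cons (fin 653 7 653)
(fin 909 5 717))))))))))
(cons (mv 783 (cons (fin 847 6 782)
(mv 782 (cons (fin 719 6 718)
(mv 909 (cons (fin 718 5 717)
(mv 1102 (cons (fin 845 7 845)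
(fin 1166 7 909)))))))))
(mv 845 (cons (fin 781 7 781)
(mv 1102 (cons (fin 909 7 845)
(mv 1101 (cons (fin 1165 5 909)
(mv 1167 (cons (fin 1103 4 910)
(mv 1166 (cons (fin 1169 3 1101)
(fin 1231 4 974))))))))))))))
(mv 971 (cons (fin 911 2 907)
(mv 906 (cons (fin 907 3 906)
(mv 970 (cons (fin 905 3 905)
(fin 909 2 906))))))))))))))))))))))
(cons (cons (mv 1039 (cons (cons (mv 973 (cons (fin 1041 3 973)
(mv 972 (cons (fin 1037 3 972)
(fin 971 0 971)))))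
(mv 1102 (cons (mv 1041 (cons (fin 1101 1 1037)
(mv 1042 (cons (fin 1103 1 1038)
(mv 979 (cons (fin 978 2 975)
(mv 1043 (cons (fin 980 2 976)
(mv 1107 (cons (fin 1106 0 1039)
(fin 1108 0 1040)))))))))))
(cons (mv 1167 (cons (mv 1103 (cons (fin 1231 7 974)
(fin 910 4 910)))
(cons (mv 1166 (cons (fin 1231 4 974)
(mv 1229 (cons (fin 1165 5 973)
(mv 1230 (cons (fin 1169 1 1165)
(fin 1293 5 1037)))))))
(mv 910 (cons (fin 1103 4 910)
(mv 845 (cons (fin 909 7 845)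
(mv 846 (cons (fin 781 7 781)
(mv 847 (cons (fin 783 6 782)
(fin 911 6 846))))))))))))
(mv 1101 (cons (fin 1041 1 1037)
(mv 1100 (cons (fin 1037 1 1036)
(fin 1099 2 1035)))))))))
(cons (mv 1037 (cons (cons (mv 972 (cons (fin 973 3 972)
(mv 971 (cons (fin 1036 3 971)
(mv 1101 (cons (fin 1100 1 1036)
(mv 910 (cons (fin 846 5 845)
(mv 1165 (cons (fin 1102 5 909)
(fin 1229 6 973)))))))))))
(mv 972 (cons (fin 973 3 972)
(mv 971 (cons (fin 1036 3 971)
(mv 910 (cons (cons (mv 846 (cons (fin 1103 4 846)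
(mv 781 (cons (fin 845 7 781)
(mv 782 (cons (fin 717 7 717)
(mv 783 (cons (fin 719 6 718)
(fin 847 6 782)))))))))
(mv 909 (cons (mv 845 (cons (fin 1102 7 845)
(mv 781 (cons (fin 846 7 781)
(fin 717 4 717)))))
(mv 908 (cons (fin 911 1 907)
(mv 970 (cons (fin 907 1 906)
(fin 969 2 905))))))))
(cons (mv 1102 (cons (cons (mv 845 (cons (fin 909 7 845)
(mv 847 (cons (fin 911 6 846)
(mv 1167 (cons (fin 1103 4 910)
(mv 1166 (cons (fin 1231 4 974)
(mv 1229 (cons (fin 1165 5 973)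
(mv 1230 (cons (fin 1169 1 1165)
(fin 1293 5 1037)))))))))))))
(mv 909 (cons (fin 845 7 845)
(mv 911 (cons (fin 908 1 907)
(fin 847 6 846))))))
(cons (mv 847 (cons (fin 911 6 846)
(mv 1167 (cons (fin 1103 4 910)
(mv 1166 (cons (fin 1231 4 974)
(mv 1229 (cons (fin 1165 5 973)
(mv 1230 (cons (fin 1169 1 1165)
(fin 1293 5 1037)))))))))))
(mv 845 (cons (fin 909 7 845)
(mv 1167 (cons (fin 1103 4 910)
(mv 1166 (cons (fin 1231 4 974)
(mv 1229 (cons (fin 1165 5 973)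
(mv 1230 (cons (fin 1169 1 1165)
(fin 1293 5 1037))))))))))))))
(mv 1103 (cons (fin 846 4 846)
(mv 1167 (cons (fin 1231 7 974)
(fin 1102 4 910)))))))))))))
(cons (mv 1101 (cons (fin 1100 1 1036)
(mv 910 (cons (fin 846 5 845)
(mv 1165 (cons (fin 1102 5 909)
(fin 973 6 909)))))))
(cons (mv 1101 (cons (fin 1100 1 1036)
(mv 910 (cons (fin 846 5 845)
(mv 1165 (cons (fin 1102 5 909)
(fin 1229 6 973)))))))
(mv 972 (cons (fin 973 3 972)
(mv 1036 (cons (fin 971 3 971)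
(mv 1100 (cons (fin 1099 1 1035)
(fin 1101 1 1036)))))))))))
(mv 1041 (cons (fin 973 3 973)
(mv 1102 (cons (fin 1101 1 1037)
(mv 1042 (cons (fin 1103 1 1038)
(mv 979 (cons (fin 978 2 975)
(mv 1043 (cons (fin 980 2 976)
(mv 1107 (cons (fin 1106 0 1039)
(fin 1108 0 1040))))))))))))))))
(mv 973 (cons (cons (mv 1041 (cons (fin 1039 3 973)
(fin 975 0 973)))
(mv 975 (cons (cons (mv 908 (cons (fin 909 3 908)
(mv 972 (cons (fin 907 3 907)
(fin 1039 0 972)))))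
(mv 909 (cons (fin 908 3 908)
(mv 845 (cons (fin 781 4 781)
(mv 1037 (cons (fin 1036 1 972)
(mv 780 (cons (fin 844 7 780)
(mv 846 (cons (fin 782 6 781)
(mv 910 (cons (fin 1101 5 845)
(mv 847 (cons (fin 783 6 782)
(mv 848 (cons (fin 849 1 845)
(mv 784 (cons (fin 785 2 781)
(mv 1039 (cons (fin 911 6 783)
(fin 1103 4 846))))))))))))))))))))))
(cons (mv 908 (cons (fin 909 3 908)
(mv 972 (cons (fin 907 3 907)
(mv 1036 (cons (fin 1035 1 971)
(fin 1037 1 972)))))))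
(mv 972 (cons (fin 1039 0 972)
(mv 1036 (cons (fin 1035 1 971)
(fin 1037 1 972)))))))))
(cons (mv 1039 (cons (fin 1041 3 973)
(mv 972 (cons (fin 1037 3 972)
(fin 971 0 971)))))
(mv 975 (cons (fin 1041 0 973)
(mv 908 (cons (fin 909 3 908)
(mv 972 (cons (fin 907 3 907)
(mv 1036 (cons (fin 1035 1 971)
(fin 1037 1 972)))))))))))))
(cons (mv 1102 (cons (cons (cons (mv 1166 (cons (cons (mv 909 (cons (fin 973 7 909)
(mv 845 (cons (fin 910 7 845)
(mv 911 (cons (fin 975 6 910)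
(mv 1165 (cons (fin 1229 5 973)
(mv 1167 (cons (fin 1231 4 974)
(mv 1101 (cons (fin 1100 3 1100)
(fin 1169 3 1101)))))))))))))
(cons (mv 909 (cons (fin 973 7 909)
(mv 845 (cons (fin 910 7 845)
(mv 975 (cons (fin 911 6 910)
(mv 1039 (cons (fin 1230 6 974)
(mv 1041 (cons (fin 1042 3 974)
(fin 1101 1 1037)))))))))))
(mv 909 (cons (fin 973 7 909)
(mv 845 (cons (fin 910 7 845)
(mv 1165 (cons (fin 1229 5 973)
(mv 1167 (cons (fin 1231 4 974)
(mv 1101 (cons (fin 1100 3 1100)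
(fin 1169 3 1101)))))))))))))
(cons (mv 911 (cons (fin 975 6 910)
(mv 847 (cons (fin 910 6 846)
(mv 1165 (cons (fin 1229 5 973)
(mv 1167 (cons (fin 1231 4 974)
(mv 1101 (cons (fin 1100 3 1100)
(fin 1169 3 1101)))))))))))
(cons (mv 909 (cons (fin 973 7 909)
(mv 911 (cons (fin 975 6 910)
(mv 1165 (cons (fin 1229 5 973)
(mv 1167 (cons (fin 1231 4 974)
(mv 1101 (cons (fin 1100 3 1100)
(fin 1169 3 1101)))))))))))
(mv 909 (cons (fin 973 7 909)
(mv 845 (cons (fin 910 7 845)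
(mv 911 (cons (fin 975 6 910)
(mv 1167 (cons (fin 1231 4 974)
(mv 1229 (cons (fin 1165 5 973)
(mv 1230 (cons (fin 1169 1 1165)
(fin 1293 5 1037)))))))))))))))))
(mv 910 (cons (cons (mv 845 (cons (fin 909 7 845)
(mv 781 (cons (fin 846 7 781)
(mv 847 (cons (fin 911 6 846)
(mv 1101 (cons (fin 1165 5 909)
(mv 1039 (cons (fin 1041 1 1037)
(mv 1100 (cons (fin 1099 2 1035)
(fin 1103 2 1036)))))))))))))
(mv 845 (cons (fin 909 7 845)
(mv 846 (cons (fin 781 7 781)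
(mv 847 (cons (fin 783 6 782)
(fin 911 6 846))))))))
(cons (mv 845 (cons (fin 909 7 845)
(mv 781 (cons (fin 846 7 781)
(mv 1101 (cons (fin 1165 5 909)
(mv 1039 (cons (fin 1041 1 1037)
(mv 1100 (cons (fin 1099 2 1035)
(fin 1103 2 1036)))))))))))
(cons (mv 847 (cons (fin 911 6 846)
(mv 783 (cons (fin 846 6 782)
(mv 1101 (cons (fin 1165 5 909)
(mv 1039 (cons (fin 1041 1 1037)
(mv 1100 (cons (fin 1099 2 1035)
(fin 1103 2 1036)))))))))))
(mv 845 (cons (fin 909 7 845)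
(mv 847 (cons (fin 911 6 846)
(mv 1101 (cons (fin 1165 5 909)
(mv 1039 (cons (fin 1041 1 1037)
(mv 1100 (cons (fin 1099 2 1035)
(fin 1103 2 1036))))))))))))))))
(cons (mv 1166 (cons (cons (mv 909 (cons (fin 973 7 909)
(mv 911 (cons (fin 975 6 910)
(mv 1165 (cons (fin 1229 5 973)
(mv 1167 (cons (fin 1231 4 974)
(mv 1101 (cons (fin 1100 3 1100)
(fin 1169 3 1101)))))))))))
(mv 909 (cons (fin 973 7 909)
(mv 1165 (cons (fin 1229 5 973)
(mv 1167 (cons (fin 1231 4 974)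
(mv 1101 (cons (fin 1100 3 1100)
(fin 1169 3 1101))))))))))
(cons (mv 911 (cons (fin 975 6 910)
(mv 1165 (cons (fin 1229 5 973)
(mv 1167 (cons (fin 1231 4 974)
(mv 1101 (cons (fin 1100 3 1100)
(fin 1169 3 1101)))))))))
(cons (mv 909 (cons (fin 973 7 909)
(mv 975 (cons (fin 911 6 910)
(mv 1039 (cons (fin 1230 6 974)
(mv 1041 (cons (fin 1042 3 974)
(fin 1101 1 1037)))))))))
(mv 909 (cons (fin 973 7 909)
(mv 911 (cons (fin 975 6 910)
(mv 1167 (cons (fin 1231 4 974)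
(mv 1229 (cons (fin 1165 5 973)
(mv 1230 (cons (fin 1169 1 1165)
(fin 1293 5 1037)))))))))))))))
(mv 1166 (cons (cons (mv 909 (cons (fin 973 7 909)
(mv 845 (cons (fin 910 7 845)
(mv 911 (cons (fin 975 6 910)
(mv 1165 (cons (fin 1229 5 973)
(mv 1167 (cons (fin 1231 4 974)
(mv 1101 (cons (fin 1100 3 1100)
(fin 1169 3 1101)))))))))))))
(cons (mv 909 (cons (fin 973 7 909)
(mv 845 (cons (fin 910 7 845)
(mv 975 (cons (fin 911 6 910)
(mv 1165 (cons (fin 1229 5 973)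
(mv 1230 (cons (fin 1039 6 974)
(mv 1295 (cons (fin 1231 4 1038)
(mv 1294 (cons (fin 1359 4 1102)
(mv 1357 (cons (fin 1293 5 1101)
(mv 1358 (cons (fin 1101 7 1101)
(fin 1421 5 1165)))))))))))))))))))
(mv 909 (cons (fin 973 7 909)
(mv 845 (cons (fin 910 7 845)
(mv 911 (cons (fin 975 6 910)
(mv 1167 (cons (fin 1231 4 974)
(mv 1101 (cons (fin 1169 3 1101)
(mv 1100 (cons (fin 1099 0 1099)
(fin 1103 0 1100)))))))))))))))
(cons (cons (mv 909 (cons (fin 973 7 909)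
(mv 845 (cons (fin 910 7 845)
(mv 1165 (cons (fin 1229 5 973)
(mv 1167 (cons (fin 1231 4 974)
(mv 1101 (cons (fin 1100 3 1100)
(fin 1169 3 1101)))))))))))
(mv 909 (cons (fin 973 7 909)
(mv 845 (cons (fin 910 7 845)
(mv 975 (cons (fin 911 6 910)
(mv 1229 (cons (fin 1165 5 973)
(mv 1230 (cons (fin 1293 5 1037)
(fin 1039 6 974))))))))))))
(cons (mv 911 (cons (fin 975 6 910)
(mv 847 (cons (fin 910 6 846)
(mv 1165 (cons (fin 1229 5 973)
(mv 1167 (cons (fin 1231 4 974)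
(mv 1101 (cons (fin 1100 3 1100)
(fin 1169 3 1101)))))))))))
(mv 909 (cons (fin 973 7 909)
(mv 911 (cons (fin 975 6 910)
(mv 1165 (cons (fin 1229 5 973)
(mv 1167 (cons (fin 1231 4 974)
(mv 1101 (cons (fin 1100 3 1100)
(fin 1169 3 1101)))))))))))))))))
(cons (cons (mv 1166 (cons (cons (mv 909 (cons (fin 973 7 909)
(mv 845 (cons (fin 910 7 845)
(mv 911 (cons (fin 975 6 910)
(mv 1165 (cons (fin 1229 5 973)
(mv 1167 (cons (fin 1231 4 974)
(mv 1101 (cons (fin 1100 3 1100)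
(fin 1169 3 1101)))))))))))))
(mv 909 (cons (fin 973 7 909)
(mv 910 (cons (fin 845 7 845)
(mv 911 (cons (fin 847 6 846)
(fin 975 6 910))))))))
(cons (mv 909 (cons (fin 973 7 909)
(mv 845 (cons (fin 910 7 845)
(mv 1165 (cons (fin 1229 5 973)
(mv 1167 (cons (fin 1231 4 974)
(mv 1101 (cons (fin 1100 3 1100)
(fin 1169 3 1101)))))))))))
(cons (mv 911 (cons (fin 975 6 910)
(mv 847 (cons (fin 910 6 846)
(mv 1165 (cons (fin 1229 5 973)
(mv 1167 (cons (fin 1231 4 974)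
(mv 1101 (cons (fin 1100 3 1100)
(fin 1169 3 1101)))))))))))
(mv 909 (cons (fin 973 7 909)
(mv 911 (cons (fin 975 6 910)
(mv 1165 (cons (fin 1229 5 973)
(mv 1167 (cons (fin 1231 4 974)
(mv 1101 (cons (fin 1100 3 1100)
(fin 1169 3 1101)))))))))))))))
(mv 1166 (cons (cons (cons (mv 909 (cons (fin 973 7 909)
(mv 845 (cons (fin 910 7 845)
(mv 911 (cons (fin 975 6 910)
(mv 1167 (cons (fin 1231 4 974)
(mv 1229 (cons (fin 1165 5 973)
(mv 1230 (cons (fin 1169 1 1165)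
(fin 1293 5 1037)))))))))))))
(mv 909 (cons (fin 973 7 909)
(mv 845 (cons (fin 910 7 845)
(mv 1167 (cons (fin 1231 4 974)
(mv 1229 (cons (fin 1165 5 973)
(mv 1230 (cons (fin 1169 1 1165)
(fin 1293 5 1037))))))))))))
(cons (mv 911 (cons (fin 975 6 910)
(mv 847 (cons (fin 910 6 846)
(mv 1167 (cons (fin 1231 4 974)
(mv 1229 (cons (fin 1165 5 973)
(mv 1230 (cons (fin 1169 1 1165)
(fin 1293 5 1037)))))))))))
(mv 909 (cons (fin 973 7 909)
(mv 845 (cons (fin 910 7 845)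
(mv 975 (cons (fin 911 6 910)
(mv 1229 (cons (fin 1165 5 973)
(mv 1230 (cons (fin 1293 5 1037)
(fin 1039 6 974)))))))))))))
(cons (cons (mv 909 (cons (fin 973 7 909)
(mv 845 (cons (fin 910 7 845)
(mv 975 (cons (fin 911 6 910)
(mv 1039 (cons (fin 1230 6 974)
(mv 1041 (cons (fin 1042 3 974)
(mv 1167 (cons (fin 1231 4 974)
(mv 1232 (cons (fin 1103 4 975)
(mv 1233 (cons (fin 1165 0 1165)
(mv 1234 (cons (fin 1235 3 1167)
(fin 1169 0 1166)))))))))))))))))))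
(mv 909 (cons (fin 973 7 909)
(mv 845 (cons (fin 910 7 845)
(mv 975 (cons (fin 911 6 910)
(mv 1167 (cons (fin 1231 4 974)
(mv 1230 (cons (fin 1039 6 974)
(mv 1229 (cons (fin 1169 1 1165)
(fin 1293 5 1037))))))))))))))
(cons (mv 909 (cons (fin 973 7 909)
(mv 845 (cons (fin 910 7 845)
(mv 975 (cons (fin 911 6 910)
(mv 1165 (cons (fin 1229 5 973)
(mv 1167 (cons (fin 1231 4 974)
(mv 1233 (cons (fin 1232 0 1165)
(mv 1169 (cons (fin 1234 0 1166)
(mv 1170 (cons (fin 1103 3 1102)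
(mv 1106 (cons (fin 1107 2 1103)
(mv 1042 (cons (fin 978 5 977)
(mv 1041 (cons (fin 1039 3 974)
(fin 1043 3 975)))))))))))))))))))))))
(mv 909 (cons (fin 973 7 909)
(mv 911 (cons (fin 975 6 910)
(mv 1167 (cons (fin 1231 4 974)
(mv 1229 (cons (fin 1165 5 973)
(mv 1230 (cons (fin 1169 1 1165)
(fin 1293 5 1037))))))))))))))))
(cons (mv 1166 (cons (cons (mv 909 (cons (fin 973 7 909)
(mv 845 (cons (fin 910 7 845)
(mv 1165 (cons (fin 1229 5 973)
(mv 1167 (cons (fin 1231 4 974)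
(mv 1101 (cons (fin 1100 3 1100)
(fin 1169 3 1101)))))))))))
(cons (mv 909 (cons (fin 973 7 909)
(mv 845 (cons (fin 910 7 845)
(mv 1229 (cons (fin 1165 5 973)
(mv 1230 (cons (fin 1293 5 1037)
(mv 1039 (cons (fin 975 6 974)
(mv 1041 (cons (fin 1101 1 1037)
(mv 1103 (cons (fin 1042 1 1038)
(fin 1294 6 1038)))))))))))))))
(mv 1165 (cons (fin 1229 5 973)
(mv 910 (cons (fin 1101 5 909)
(mv 1167 (cons (fin 1103 4 910)
(fin 1231 4 974)))))))))
(cons (mv 909 (cons (fin 973 7 909)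
(mv 845 (cons (fin 910 7 845)
(mv 1167 (cons (fin 1231 4 974)
(mv 1101 (cons (fin 1169 3 1101)
(mv 1100 (cons (fin 1099 0 1099)
(fin 1103 0 1100)))))))))))
(cons (mv 909 (cons (fin 973 7 909)
(mv 845 (cons (fin 910 7 845)
(mv 1167 (cons (fin 1231 4 974)
(mv 1229 (cons (fin 1165 5 973)
(mv 1230 (cons (fin 1169 1 1165)
(fin 1293 5 1037)))))))))))
(mv 909 (cons (fin 973 7 909)
(mv 1165 (cons (fin 1229 5 973)
(mv 1167 (cons (fin 1231 4 974)
(mv 1101 (cons (fin 1100 3 1100)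
(fin 1169 3 1101)))))))))))))
(cons (mv 1166 (cons (cons (mv 911 (cons (fin 975 6 910)
(mv 847 (cons (fin 910 6 846)
(mv 1165 (cons (fin 1229 5 973)
(mv 1167 (cons (fin 1231 4 974)
(mv 1101 (cons (fin 1100 3 1100)
(fin 1169 3 1101)))))))))))
(cons (mv 911 (cons (fin 975 6 910)
(mv 847 (cons (fin 910 6 846)
(mv 1229 (cons (fin 1165 5 973)
(mv 1230 (cons (fin 1293 5 1037)
(mv 1295 (cons (fin 1231 4 1038)
(mv 1294 (cons (fin 1359 4 1102)
(mv 1039 (cons (fin 1103 6 1038)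
(mv 1041 (cons (fin 973 3 973)
(fin 1101 1 1037)))))))))))))))))
(mv 1165 (cons (fin 1229 5 973)
(mv 910 (cons (fin 1101 5 909)
(mv 1167 (cons (fin 1103 4 910)
(fin 1231 4 974)))))))))
(cons (cons (mv 911 (cons (fin 975 6 910)
(mv 847 (cons (fin 910 6 846)
(mv 1167 (cons (fin 1231 4 974)
(mv 1101 (cons (fin 1169 3 1101)
(mv 1100 (cons (fin 1099 0 1099)
(fin 1103 0 1100)))))))))))
(mv 911 (cons (fin 975 6 910)
(mv 910 (cons (fin 847 6 846)
(mv 1165 (cons (fin 1101 5 909)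
(fin 1229 5 973))))))))
(cons (mv 911 (cons (fin 975 6 910)
(mv 847 (cons (fin 910 6 846)
(mv 1167 (cons (fin 1231 4 974)
(mv 1229 (cons (fin 1165 5 973)
(mv 1230 (cons (fin 1169 1 1165)
(fin 1293 5 1037)))))))))))
(mv 911 (cons (fin 975 6 910)
(mv 1165 (cons (fin 1229 5 973)
(mv 1167 (cons (fin 1231 4 974)
(mv 1101 (cons (fin 1100 3 1100)
(fin 1169 3 1101)))))))))))))
(mv 1166 (cons (cons (mv 909 (cons (fin 973 7 909)
(mv 845 (cons (fin 910 7 845)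
(mv 911 (cons (fin 975 6 910)
(mv 1167 (cons (fin 1231 4 974)
(mv 1101 (cons (fin 1169 3 1101)
(mv 1100 (cons (fin 1099 0 1099)
(fin 1103 0 1100)))))))))))))
(cons (mv 909 (cons (fin 973 7 909)
(mv 845 (cons (fin 910 7 845)
(mv 975 (cons (fin 911 6 910)
(mv 1039 (cons (fin 1230 6 974)
(mv 1041 (cons (fin 1042 3 974)
(fin 1101 1 1037)))))))))))
(mv 909 (cons (fin 973 7 909)
(mv 845 (cons (fin 910 7 845)
(mv 1167 (cons (fin 1231 4 974)
(mv 1101 (cons (fin 1169 3 1101)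
(mv 1100 (cons (fin 1099 0 1099)
(fin 1103 0 1100)))))))))))))
(cons (mv 911 (cons (fin 975 6 910)
(mv 847 (cons (fin 910 6 846)
(mv 1167 (cons (fin 1231 4 974)
(mv 1101 (cons (fin 1169 3 1101)
(mv 1100 (cons (fin 1099 0 1099)
(fin 1103 0 1100)))))))))))
(cons (mv 909 (cons (fin 973 7 909)
(mv 911 (cons (fin 975 6 910)
(mv 1167 (cons (fin 1231 4 974)
(mv 1101 (cons (fin 1169 3 1101)
(mv 1100 (cons (fin 1099 0 1099)
(fin 1103 0 1100)))))))))))
(mv 909 (cons (fin 973 7 909)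
(mv 845 (cons (fin 910 7 845)
(mv 975 (cons (fin 911 6 910)
(mv 1167 (cons (fin 1231 4 974)
(mv 1230 (cons (fin 1039 6 974)
(mv 1229 (cons (fin 1169 1 1165)
(fin 1293 5 1037))))))))))))))))))))))
(mv 973 (cons (cons (mv 1041 (cons (fin 1039 3 973)
(fin 975 0 973)))
(mv 1037 (cons (cons (mv 972 (cons (fin 1039 3 972)
(mv 970 (cons (fin 971 0 970)
(mv 1036 (cons (fin 975 1 972)
(mv 1035 (cons (fin 1034 2 970)
(mv 1098 (cons (fin 1099 1 1034)
(mv 1102 (cons (fin 1103 0 1035)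
(mv 1166 (cons (fin 1230 7 973)
(mv 1165 (cons (fin 1229 5 973)
(mv 1101 (cons (fin 908 7 908)
(fin 910 5 909)))))))))))))))))))
(mv 1036 (cons (fin 975 1 972)
(mv 1035 (cons (fin 1034 2 970)
(mv 970 (cons (fin 971 3 970)
(mv 1098 (cons (fin 1099 1 1034)
(mv 1102 (cons (fin 1103 0 1035)
(mv 1166 (cons (fin 1230 7 973)
(mv 1165 (cons (fin 1229 5 973)
(mv 910 (cons (fin 1101 5 909)
(mv 846 (cons (fin 782 5 781)
(mv 847 (cons (fin 783 6 782)
(fin 911 6 846))))))))))))))))))))))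
(cons (mv 972 (cons (fin 1039 3 972)
(mv 971 (cons (fin 970 0 970)
(mv 906 (cons (fin 907 3 906)
(mv 910 (cons (fin 911 2 907)
(mv 846 (cons (fin 782 5 781)
(fin 1101 5 845)))))))))))
(cons (mv 972 (cons (fin 1039 3 972)
(mv 970 (cons (fin 971 0 970)
(mv 1036 (cons (fin 975 1 972)
(mv 1035 (cons (fin 1034 2 970)
(mv 1099 (cons (fin 1098 1 1034)
(mv 844 (cons (fin 908 5 843)
(mv 1102 (cons (fin 1103 0 1035)
(mv 1166 (cons (fin 1230 7 973)
(mv 1165 (cons (fin 1229 5 973)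
(mv 1167 (cons (fin 1231 4 974)
(mv 1164 (cons (fin 1100 3 1099)
(mv 1227 (cons (fin 1228 1 1163)
(fin 1163 6 971)))))))))))))))))))))))))
(mv 972 (cons (fin 1039 3 972)
(mv 1036 (cons (fin 975 1 972)
(mv 1035 (cons (fin 1034 2 970)
(mv 1098 (cons (fin 1099 1 1034)
(mv 1102 (cons (fin 1103 0 1035)
(mv 1166 (cons (fin 1230 7 973)
(mv 1165 (cons (fin 1229 5 973)
(mv 1101 (cons (fin 908 7 908)
(fin 910 5 909))))))))))))))))))))))
(cons (mv 975 (cons (fin 1041 0 973)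
(mv 911 (cons (cons (mv 783 (cons (fin 847 5 782)
(mv 1036 (cons (fin 1037 1 972)
(mv 972 (cons (fin 1035 1 971)
(mv 907 (cons (fin 908 3 907)
(mv 971 (cons (fin 906 3 906)
(fin 910 2 907)))))))))))
(mv 1036 (cons (fin 1037 1 972)
(mv 972 (cons (fin 1035 1 971)
(mv 907 (cons (fin 908 3 907)
(mv 971 (cons (fin 906 3 906)
(fin 910 2 907))))))))))
(cons (mv 847 (cons (fin 783 5 782)
(mv 1102 (cons (fin 910 6 846)
(fin 1166 6 910)))))
(mv 783 (cons (fin 847 5 782)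
(mv 1102 (cons (fin 1166 6 910)
(mv 972 (cons (cons (mv 1036 (cons (fin 1035 1 971)
(fin 1037 1 972)))
(mv 907 (cons (fin 908 3 907)
(mv 971 (cons (fin 906 3 906)
(mv 970 (cons (fin 1037 0 970)
(mv 1034 (cons (fin 1033 1 969)
(fin 1035 1 970))))))))))
(cons (mv 907 (cons (fin 908 3 907)
(mv 971 (cons (fin 906 3 906)
(mv 1035 (cons (fin 1034 1 970)
(fin 1036 1 971)))))))
(mv 907 (cons (fin 908 3 907)
(mv 971 (cons (fin 906 3 906)
(mv 1037 (cons (fin 1036 1 972)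
(fin 970 0 970)))))))))))))))))))
(mv 1039 (cons (fin 1041 3 973)
(mv 972 (cons (fin 1037 3 972)
(fin 971 0 971))))))))))))
(mv 975 (cons (cons (mv 973 (cons (fin 1041 0 973)
(mv 908 (cons (fin 909 3 908)
(mv 972 (cons (fin 907 3 907)
(mv 1036 (cons (fin 1035 1 971)
(fin 1037 1 972)))))))))
(mv 977 (cons (cons (mv 909 (cons (fin 910 3 909)
(mv 914 (cons (fin 913 2 910)
(mv 978 (cons (fin 915 2 911)
(mv 1042 (cons (fin 1041 0 974)
(fin 1043 0 975)))))))))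
(mv 910 (cons (fin 909 3 909)
(mv 911 (cons (fin 978 3 910)
(mv 847 (cons (fin 783 4 783)
(mv 1038 (cons (fin 1037 1 973)
(fin 1102 6 846))))))))))
(cons (mv 914 (cons (fin 913 2 910)
(mv 978 (cons (fin 915 2 911)
(mv 1042 (cons (fin 1041 0 974)
(fin 1043 0 975)))))))
(mv 910 (cons (fin 909 3 909)
(mv 913 (cons (fin 914 2 910)
(mv 849 (cons (fin 785 5 784)
(mv 1038 (cons (fin 1037 1 973)
(mv 1041 (cons (fin 1042 0 974)
(mv 848 (cons (fin 784 7 784)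
(mv 850 (cons (fin 786 6 785)
(mv 847 (cons (fin 911 1 846)
(mv 783 (cons (fin 782 3 782)
(fin 846 6 782)))))))))))))))))))))))
(cons (mv 909 (cons (cons (mv 908 (cons (fin 973 3 908)
(mv 910 (cons (fin 977 3 909)
(fin 907 0 907)))))
(mv 908 (cons (fin 973 3 908)
(mv 910 (cons (fin 907 0 907)
(fin 911 0 908))))))
(cons (mv 973 (cons (fin 908 3 908)
(mv 1037 (cons (fin 1036 1 972)
(mv 1038 (cons (fin 977 1 973)
(mv 845 (cons (fin 781 4 781)
(fin 1102 4 845)))))))))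
(cons (mv 910 (cons (fin 977 3 909)
(mv 845 (cons (cons (mv 781 (cons (fin 717 4 717)
(mv 1038 (cons (fin 846 7 781)
(fin 1102 7 845)))))
(mv 781 (cons (fin 717 4 717)
(mv 973 (cons (mv 1036 (cons (fin 1037 1 972)
(fin 972 5 780)))
(cons (mv 716 (cons (fin 780 7 716)
(mv 782 (cons (fin 718 6 717)
(mv 846 (cons (fin 1037 5 781)
(mv 783 (cons (fin 719 6 718)
(mv 784 (cons (fin 844 1 780)
(fin 785 1 781)))))))))))
(mv 716 (cons (fin 780 7 716)
(mv 718 (cons (fin 782 6 717)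
(mv 972 (cons (fin 1036 5 780)
(mv 971 (cons (fin 970 2 906)
(fin 911 2 907)))))))))))))))
(cons (mv 1038 (cons (fin 1102 7 845)
(mv 1037 (cons (mv 1036 (cons (fin 973 1 972)
(fin 1035 2 971)))
(cons (mv 846 (cons (fin 1101 5 845)
(mv 782 (cons (fin 973 5 781)
(mv 718 (cons (fin 654 5 653)
(fin 911 4 718)))))))
(mv 846 (cons (fin 1101 5 845)
(mv 783 (cons (fin 847 6 782)
(mv 782 (cons (fin 719 6 718)
(mv 718 (cons (fin 654 5 653)
(fin 911 4 718))))))))))))))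
(mv 781 (cons (fin 717 4 717)
(mv 1038 (cons (fin 1102 7 845)
(fin 973 4 781))))))))))
(mv 910 (cons (fin 977 3 909)
(mv 908 (cons (fin 907 0 907)
(fin 911 0 908)))))))))
(mv 1041 (cons (fin 973 0 973)
(mv 1042 (cons (fin 1043 3 975)
(fin 977 0 974)))))))))
(cons (mv 975 (cons (cons (mv 973 (cons (fin 1041 0 973)
(mv 908 (cons (fin 909 3 908)
(mv 972 (cons (fin 907 3 907)
(fin 1039 0 972)))))))
(mv 977 (cons (cons (mv 909 (cons (fin 910 3 909)
(mv 914 (cons (fin 913 2 910)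
(mv 978 (cons (fin 915 2 911)
(mv 1042 (cons (fin 1041 0 974)
(fin 1043 0 975)))))))))
(cons (mv 909 (cons (fin 910 3 909)
(mv 914 (cons (fin 913 2 910)
(mv 978 (cons (fin 915 2 911)
(mv 979 (cons (fin 1039 1 975)
(mv 980 (cons (fin 1041 1 976)
(mv 1044 (cons (fin 1043 0 976)
(fin 1045 0 977)))))))))))))
(mv 909 (cons (fin 910 3 909)
(mv 914 (cons (fin 913 2 910)
(mv 978 (cons (fin 915 2 911)
(mv 979 (cons (fin 1039 1 975)
(mv 1043 (cons (fin 1042 0 975)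
(fin 1044 0 976)))))))))))))
(cons (cons (mv 914 (cons (fin 913 2 910)
(mv 978 (cons (fin 915 2 911)
(mv 1042 (cons (fin 1041 0 974)
(fin 1043 0 975)))))))
(mv 909 (cons (fin 910 3 909)
(mv 1042 (cons (fin 1041 0 974)
(mv 978 (cons (fin 1043 0 975)
(mv 915 (cons (fin 914 2 911)
(mv 979 (cons (fin 1039 1 975)
(fin 916 2 912))))))))))))
(cons (mv 910 (cons (fin 909 3 909)
(mv 978 (cons (fin 911 3 910)
(mv 1042 (cons (fin 1041 0 974)
(fin 1043 0 975)))))))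
(mv 910 (cons (fin 909 3 909)
(mv 913 (cons (fin 914 2 910)
(mv 849 (cons (fin 785 5 784)
(mv 1041 (cons (fin 1042 0 974)
(mv 848 (cons (fin 784 7 784)
(mv 850 (cons (fin 786 6 785)
(mv 847 (cons (fin 911 1 846)
(mv 782 (cons (fin 783 3 782)
(mv 846 (cons (fin 781 3 781)
(fin 1039 4 782))))))))))))))))))))))))
(cons (mv 973 (cons (mv 908 (cons (fin 909 3 908)
(mv 972 (cons (fin 907 3 907)
(fin 1039 0 972)))))
(cons (mv 909 (cons (fin 908 3 908)
(mv 910 (cons (fin 977 3 909)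
(mv 1037 (cons (fin 1036 1 972)
(mv 846 (cons (fin 782 5 781)
(fin 1101 6 845)))))))))
(mv 972 (cons (fin 1039 0 972)
(mv 1036 (cons (fin 1035 1 971)
(fin 1037 1 972))))))))
(cons (mv 973 (cons (fin 1041 0 973)
(mv 908 (cons (fin 909 3 908)
(mv 972 (cons (fin 907 3 907)
(mv 1036 (cons (fin 1035 1 971)
(fin 1037 1 972)))))))))
(mv 973 (cons (fin 1041 0 973)
(mv 972 (cons (fin 1039 0 972)
(mv 1036 (cons (fin 1035 1 971)
(fin 1037 1 972)))))))))))
(cons (mv 975 (cons (cons (mv 973 (cons (fin 1041 0 973)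
(mv 908 (cons (fin 909 3 908)
(mv 972 (cons (fin 907 3 907)
(fin 1039 0 972)))))))
(mv 977 (cons (cons (mv 909 (cons (fin 910 3 909)
(mv 908 (cons (fin 973 3 908)
(mv 914 (cons (fin 913 2 910)
(mv 978 (cons (fin 915 2 911)
(mv 1039 (cons (fin 1038 1 974)
(fin 979 1 975)))))))))))
(mv 914 (cons (fin 913 2 910)
(mv 978 (cons (fin 915 2 911)
(mv 1039 (cons (fin 1038 1 974)
(fin 979 1 975))))))))
(cons (mv 909 (cons (fin 910 3 909)
(mv 973 (cons (fin 908 3 908)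
(mv 1039 (cons (fin 972 0 972)
(mv 978 (cons (fin 1038 1 974)
(fin 979 1 975)))))))))
(cons (mv 913 (cons (fin 914 2 910)
(mv 785 (cons (fin 849 5 784)
(mv 973 (cons (mv 909 (cons (fin 908 3 908)
(fin 910 3 909)))
(cons (mv 972 (cons (fin 1039 0 972)
(mv 907 (cons (fin 908 3 907)
(mv 971 (cons (fin 906 3 906)
(mv 1035 (cons (fin 1034 1 970)
(fin 1036 1 971)))))))))
(mv 910 (cons (fin 909 3 909)
(mv 972 (cons (fin 1039 0 972)
(mv 971 (cons (fin 911 2 907)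
(mv 1035 (cons (fin 1034 1 970)
(fin 1036 1 971))))))))))))))))
(mv 910 (cons (fin 909 3 909)
(mv 914 (cons (fin 913 2 910)
(mv 978 (cons (fin 911 3 910)
(fin 915 2 911))))))))))))
(cons (mv 977 (cons (cons (mv 909 (cons (fin 910 3 909)
(mv 913 (cons (fin 914 2 910)
(mv 785 (cons (fin 849 5 784)
(mv 1042 (cons (fin 1041 0 974)
(mv 978 (cons (fin 1043 0 975)
(mv 1039 (cons (fin 1038 1 974)
(fin 979 1 975)))))))))))))
(cons (mv 909 (cons (fin 910 3 909)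
(mv 914 (cons (fin 913 2 910)
(mv 978 (cons (fin 915 2 911)
(mv 1039 (cons (fin 1038 1 974)
(fin 979 1 975)))))))))
(mv 913 (cons (fin 914 2 910)
(mv 785 (cons (fin 849 5 784)
(mv 1042 (cons (fin 1041 0 974)
(mv 978 (cons (fin 1043 0 975)
(mv 1039 (cons (fin 1038 1 974)
(fin 979 1 975)))))))))))))
(cons (mv 909 (cons (fin 910 3 909)
(mv 1042 (cons (fin 1041 0 974)
(mv 978 (cons (fin 1043 0 975)
(mv 1039 (cons (fin 1038 1 974)
(fin 979 1 975)))))))))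
(cons (mv 910 (cons (fin 909 3 909)
(mv 913 (cons (fin 914 2 910)
(mv 849 (cons (fin 785 5 784)
(mv 1041 (cons (fin 1042 0 974)
(mv 848 (cons (fin 784 7 784)
(mv 850 (cons (fin 786 6 785)
(mv 847 (cons (fin 911 1 846)
(mv 782 (cons (fin 783 3 782)
(mv 846 (cons (fin 781 3 781)
(fin 1039 4 782)))))))))))))))))))
(mv 909 (cons (fin 910 3 909)
(mv 914 (cons (fin 913 2 910)
(mv 978 (cons (fin 915 2 911)
(mv 1042 (cons (fin 1041 0 974)
(fin 1043 0 975)))))))))))))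
(mv 1041 (cons (fin 973 0 973)
(mv 1042 (cons (fin 1043 3 975)
(fin 977 0 974))))))))
(mv 975 (cons (cons (mv 973 (cons (fin 1041 0 973)
(mv 908 (cons (fin 909 3 908)
(mv 972 (cons (fin 907 3 907)
(fin 1039 0 972)))))))
(mv 977 (cons (cons (mv 909 (cons (fin 910 3 909)
(mv 914 (cons (fin 913 2 910)
(mv 978 (cons (fin 915 2 911)
(mv 1038 (cons (fin 1037 1 973)
(fin 1039 1 974)))))))))
(cons (mv 909 (cons (fin 910 3 909)
(mv 914 (cons (fin 913 2 910)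
(mv 978 (cons (fin 915 2 911)
(mv 979 (cons (fin 1039 1 975)
(mv 980 (cons (fin 1041 1 976)
(mv 1044 (cons (fin 1043 0 976)
(fin 1045 0 977)))))))))))))
(mv 914 (cons (fin 913 2 910)
(mv 978 (cons (fin 915 2 911)
(mv 1038 (cons (fin 1037 1 973)
(fin 1039 1 974)))))))))
(cons (cons (mv 909 (cons (fin 910 3 909)
(mv 1038 (cons (fin 1037 1 973)
(mv 978 (cons (fin 1039 1 974)
(mv 915 (cons (fin 914 2 911)
(mv 979 (cons (fin 916 2 912)
(mv 980 (cons (fin 1041 1 976)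
(mv 1044 (cons (fin 1043 0 976)
(fin 1045 0 977)))))))))))))))
(mv 910 (cons (fin 909 3 909)
(mv 911 (cons (fin 978 3 910)
(mv 783 (cons (fin 847 4 783)
(mv 1038 (cons (fin 1037 1 973)
(mv 1102 (cons (fin 1166 6 910)
(mv 1101 (cons (fin 1165 5 909)
(mv 1039 (cons (fin 1041 1 1037)
(mv 846 (cons (fin 1103 7 846)
(fin 782 4 782))))))))))))))))))
(cons (mv 910 (cons (fin 909 3 909)
(mv 913 (cons (fin 914 2 910)
(mv 785 (cons (fin 849 5 784)
(mv 1038 (cons (fin 1037 1 973)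
(mv 1102 (cons (mv 911 (cons (fin 847 6 846)
(fin 1166 6 910)))
(mv 1101 (cons (fin 1165 5 909)
(mv 1039 (cons (fin 1041 1 1037)
(mv 846 (cons (fin 782 4 782)
(fin 1103 4 846)))))))))))))))))
(mv 910 (cons (fin 909 3 909)
(mv 911 (cons (fin 978 3 910)
(mv 847 (cons (fin 783 4 783)
(mv 1038 (cons (fin 1037 1 973)
(fin 1102 6 846))))))))))))))
(cons (mv 977 (cons (cons (mv 909 (cons (fin 910 3 909)
(mv 908 (cons (fin 973 3 908)
(mv 914 (cons (fin 913 2 910)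
(mv 978 (cons (fin 915 2 911)
(mv 1038 (cons (fin 1037 1 973)
(fin 1039 1 974)))))))))))
(cons (mv 909 (cons (fin 910 3 909)
(mv 913 (cons (fin 914 2 910)
(mv 785 (cons (fin 849 5 784)
(mv 973 (cons (fin 908 3 908)
(mv 972 (cons (fin 1039 0 972)
(mv 1036 (cons (fin 1035 1 971)
(fin 1037 1 972)))))))))))))
(mv 909 (cons (fin 910 3 909)
(mv 908 (cons (fin 973 3 908)
(mv 914 (cons (fin 913 2 910)
(mv 978 (cons (fin 915 2 911)
(mv 1039 (cons (fin 1038 1 974)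
(fin 979 1 975)))))))))))))
(cons (mv 913 (cons (fin 914 2 910)
(mv 785 (cons (fin 849 5 784)
(mv 1037 (cons (fin 1038 1 973)
(mv 973 (cons (fin 1036 1 972)
(mv 908 (cons (fin 909 3 908)
(mv 972 (cons (fin 907 3 907)
(fin 1039 0 972)))))))))))))
(cons (mv 914 (cons (fin 913 2 910)
(mv 978 (cons (fin 915 2 911)
(mv 1038 (cons (fin 1037 1 973)
(fin 1039 1 974)))))))
(mv 909 (cons (fin 910 3 909)
(mv 973 (cons (fin 908 3 908)
(mv 1037 (cons (fin 1036 1 972)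
(fin 1038 1 973)))))))))))
(cons (mv 973 (cons (fin 1041 0 973)
(mv 972 (cons (fin 1039 0 972)
(mv 1036 (cons (fin 1035 1 971)
(fin 1037 1 972)))))))
(mv 973 (cons (fin 1041 0 973)
(mv 908 (cons (fin 909 3 908)
(mv 972 (cons (fin 907 3 907)
(mv 1036 (cons (fin 1035 1 971)
(fin 1037 1 972)))))))))))))))))
(cons (cons (cons (mv 975 (cons (cons (mv 973 (cons (fin 1041 0 973)
(mv 972 (cons (fin 1039 0 972)
(mv 1036 (cons (fin 1035 1 971)
(fin 1037 1 972)))))))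
(mv 1037 (cons (cons (mv 973 (cons (fin 1036 1 972)
(mv 972 (cons (fin 1039 0 972)
(mv 907 (cons (fin 908 3 907)
(mv 971 (cons (fin 906 3 906)
(mv 1038 (cons (fin 977 1 973)
(fin 970 0 970)))))))))))
(mv 973 (cons (fin 1036 1 972)
(mv 1039 (cons (fin 972 0 972)
(mv 1103 (cons (mv 1167 (cons (fin 910 7 910)
(fin 1231 6 975)))
(cons (mv 1101 (cons (cons (mv 910 (cons (fin 1165 6 909)
(mv 846 (cons (fin 911 7 846)
(fin 782 5 781)))))
(mv 1102 (cons (fin 1100 2 1036)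
(mv 1166 (cons (fin 911 5 910)
(mv 1230 (cons (fin 1294 7 1037)
(fin 1165 4 973))))))))
(cons (mv 1102 (cons (fin 1100 2 1036)
(mv 911 (cons (fin 1166 5 910)
(mv 846 (cons (fin 910 7 846)
(mv 847 (cons (fin 782 7 782)
(fin 783 4 783)))))))))
(mv 1100 (cons (fin 1102 2 1036)
(mv 1165 (cons (fin 910 6 909)
(mv 1228 (cons (fin 1164 5 972)
(mv 1229 (cons (fin 1292 5 1036)
(mv 1230 (cons (fin 1166 4 973)
(fin 1294 4 1037))))))))))))))
(mv 1167 (cons (fin 1231 6 975)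
(fin 1232 4 975)))))))))))
(cons (mv 977 (cons (fin 1038 1 973)
(mv 914 (cons (fin 913 2 910)
(mv 978 (cons (fin 915 2 911)
(mv 910 (cons (fin 911 3 910)
(mv 979 (cons (fin 1039 1 975)
(mv 1043 (cons (fin 1042 0 975)
(fin 1044 0 976)))))))))))))
(mv 1036 (cons (fin 973 1 972)
(mv 1038 (cons (fin 977 1 973)
(fin 1035 2 971)))))))))
(cons (mv 977 (cons (cons (mv 913 (cons (fin 914 2 910)
(mv 785 (cons (fin 849 5 784)
(mv 1038 (cons (fin 1037 1 973)
(mv 978 (cons (fin 1039 1 974)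
(mv 1042 (cons (fin 1041 0 974)
(fin 1043 0 975)))))))))))
(cons (mv 914 (cons (fin 913 2 910)
(mv 978 (cons (fin 915 2 911)
(mv 1038 (cons (fin 1037 1 973)
(fin 1039 1 974)))))))
(mv 914 (cons (fin 913 2 910)
(mv 978 (cons (fin 915 2 911)
(mv 1042 (cons (fin 1041 0 974)
(fin 1043 0 975)))))))))
(cons (mv 1037 (cons (fin 1038 1 973)
(mv 1042 (cons (fin 1041 0 974)
(mv 978 (cons (fin 1043 0 975)
(mv 910 (cons (fin 911 3 910)
(mv 915 (cons (fin 914 2 911)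
(mv 979 (cons (fin 1039 1 975)
(fin 916 2 912)))))))))))))
(cons (mv 1038 (cons (fin 1037 1 973)
(mv 978 (cons (fin 1039 1 974)
(mv 1042 (cons (fin 1041 0 974)
(fin 1043 0 975)))))))
(mv 913 (cons (fin 914 2 910)
(mv 785 (cons (fin 849 5 784)
(mv 1038 (cons (fin 1037 1 973)
(mv 1041 (cons (fin 1042 0 974)
(mv 1102 (cons (cons (mv 911 (cons (fin 1166 6 910)
(mv 847 (cons (fin 783 5 782)
(fin 1039 5 846)))))
(mv 1039 (cons (fin 1101 1 1037)
(mv 1166 (cons (fin 1230 6 974)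
(mv 1165 (cons (fin 1229 5 973)
(mv 1167 (cons (fin 1231 4 974)
(mv 1103 (cons (fin 910 7 910)
(fin 1232 4 975))))))))))))
(cons (mv 1101 (cons (fin 1039 1 1037)
(mv 910 (cons (fin 1165 5 909)
(mv 1103 (cons (fin 1167 4 910)
(mv 846 (cons (cons (mv 847 (cons (fin 783 6 782)
(fin 911 6 846)))
(mv 781 (cons (fin 845 7 781)
(mv 782 (cons (fin 717 7 717)
(mv 718 (cons (fin 911 4 718)
(mv 719 (cons (fin 655 6 654)
(fin 783 6 718))))))))))
(cons (mv 781 (cons (fin 845 7 781)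
(mv 782 (cons (fin 717 7 717)
(mv 911 (cons (fin 847 6 846)
(fin 718 4 718)))))))
(mv 781 (cons (fin 845 7 781)
(mv 782 (cons (fin 717 7 717)
(mv 783 (cons (fin 719 6 718)
(fin 847 6 782))))))))))))))))
(mv 911 (cons (fin 1166 6 910)
(mv 847 (cons (fin 783 5 782)
(fin 910 6 846))))))))))))))))))))
(mv 1041 (cons (fin 973 0 973)
(mv 1042 (cons (fin 1043 3 975)
(fin 977 0 974))))))))
(mv 1038 (cons (cons (cons (mv 975 (cons (cons (mv 973 (cons (fin 1041 0 973)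
(mv 1037 (cons (fin 1036 1 972)
(fin 977 1 973)))))
(mv 977 (cons (fin 1037 1 973)
(mv 913 (cons (fin 914 2 910)
(mv 785 (cons (fin 849 5 784)
(mv 978 (cons (fin 1039 1 974)
(mv 1042 (cons (fin 1041 0 974)
(fin 1043 0 975))))))))))))
(cons (mv 973 (cons (fin 1041 0 973)
(mv 908 (cons (fin 909 3 908)
(mv 972 (cons (fin 907 3 907)
(fin 1039 0 972)))))))
(mv 977 (cons (fin 1037 1 973)
(mv 914 (cons (fin 913 2 910)
(mv 978 (cons (fin 1039 1 974)
(fin 915 2 911))))))))))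
(mv 1039 (cons (cons (mv 973 (cons (fin 1041 3 973)
(mv 972 (cons (fin 1037 3 972)
(fin 971 0 971)))))
(mv 1041 (cons (fin 973 3 973)
(mv 977 (cons (fin 978 2 974)
(mv 1102 (cons (fin 1101 1 1037)
(mv 1042 (cons (fin 1103 1 1038)
(mv 1043 (cons (fin 1044 3 976)
(mv 1107 (cons (fin 1106 0 1039)
(fin 1108 0 1040))))))))))))))
(cons (mv 1037 (cons (fin 977 2 973)
(mv 972 (cons (fin 973 3 972)
(mv 1036 (cons (fin 971 3 971)
(mv 1100 (cons (fin 1099 1 1035)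
(fin 1101 1 1036)))))))))
(mv 977 (cons (fin 1037 2 973)
(mv 978 (cons (fin 979 1 975)
(fin 1041 2 974)))))))))
(cons (mv 975 (cons (cons (mv 973 (cons (fin 1041 0 973)
(mv 1037 (cons (fin 1036 1 972)
(fin 977 1 973)))))
(mv 977 (cons (fin 1037 1 973)
(mv 914 (cons (fin 913 2 910)
(mv 978 (cons (fin 915 2 911)
(mv 1042 (cons (fin 1041 0 974)
(fin 1043 0 975))))))))))
(cons (mv 973 (cons (fin 1041 0 973)
(mv 908 (cons (fin 909 3 908)
(mv 972 (cons (fin 907 3 907)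
(mv 1036 (cons (fin 1035 1 971)
(fin 1037 1 972)))))))))
(cons (mv 1041 (cons (fin 973 0 973)
(mv 1042 (cons (fin 1043 3 975)
(fin 977 0 974)))))
(mv 1037 (cons (fin 977 1 973)
(mv 1036 (cons (fin 973 1 972)
(fin 1035 2 971)))))))))
(mv 1102 (cons (cons (mv 1166 (cons (cons (mv 911 (cons (fin 975 6 910)
(mv 1165 (cons (fin 1229 5 973)
(mv 1167 (cons (fin 1231 4 974)
(mv 1101 (cons (fin 1100 3 1100)
(fin 1169 3 1101)))))))))
(mv 1165 (cons (fin 1229 5 973)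
(mv 1167 (cons (fin 1231 4 974)
(mv 1101 (cons (fin 1100 3 1100)
(fin 1169 3 1101))))))))
(cons (mv 911 (cons (fin 975 6 910)
(mv 1229 (cons (fin 1165 5 973)
(mv 1230 (cons (fin 1293 5 1037)
(mv 1295 (cons (fin 1231 4 1038)
(mv 1294 (cons (fin 1359 4 1102)
(mv 1037 (cons (fin 1101 7 1037)
(mv 1039 (cons (fin 977 2 973)
(fin 1103 6 1038)))))))))))))))
(cons (mv 911 (cons (fin 975 6 910)
(mv 1167 (cons (fin 1231 4 974)
(mv 1101 (cons (fin 1169 3 1101)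
(mv 1100 (cons (fin 1165 3 1100)
(fin 1099 0 1099)))))))))
(mv 975 (cons (fin 911 6 910)
(mv 977 (cons (fin 1037 1 973)
(mv 1039 (cons (fin 978 1 974)
(fin 1230 6 974)))))))))))
(cons (mv 1039 (cons (mv 977 (cons (fin 1037 2 973)
(mv 978 (cons (fin 975 1 974)
(fin 979 1 975)))))
(cons (mv 1041 (cons (fin 1101 1 1037)
(mv 1042 (cons (fin 975 3 974)
(fin 1103 1 1038)))))
(mv 977 (cons (fin 1037 2 973)
(mv 978 (cons (fin 979 1 975)
(fin 1041 2 974))))))))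
(mv 1166 (cons (mv 911 (cons (fin 975 6 910)
(mv 1165 (cons (fin 1229 5 973)
(mv 1167 (cons (fin 1231 4 974)
(mv 1101 (cons (fin 1100 3 1100)
(fin 1169 3 1101)))))))))
(cons (mv 975 (cons (fin 911 6 910)
(mv 977 (cons (fin 1037 1 973)
(mv 914 (cons (fin 913 2 910)
(mv 978 (cons (fin 915 2 911)
(mv 1042 (cons (fin 1041 0 974)
(fin 1043 0 975)))))))))))
(mv 1165 (cons (fin 1229 5 973)
(mv 1167 (cons (fin 1231 4 974)
(mv 1101 (cons (fin 1100 3 1100)
(fin 1169 3 1101))))))))))))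
(cons (cons (mv 1039 (cons (mv 977 (cons (fin 1037 2 973)
(mv 978 (cons (fin 979 1 975)
(fin 1041 2 974)))))
(cons (mv 1037 (cons (fin 977 2 973)
(mv 1100 (cons (fin 1101 1 1036)
(mv 1036 (cons (fin 1099 1 1035)
(mv 971 (cons (fin 972 3 971)
(mv 1035 (cons (fin 970 3 970)
(fin 1103 0 1035)))))))))))
(mv 1041 (cons (fin 1101 1 1037)
(mv 1042 (cons (fin 1103 1 1038)
(mv 979 (cons (fin 978 2 975)
(mv 1043 (cons (fin 980 2 976)
(mv 1107 (cons (fin 1106 0 1039)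
(fin 1108 0 1040))))))))))))))
(mv 1166 (cons (cons (mv 911 (cons (fin 975 6 910)
(mv 1165 (cons (fin 1229 5 973)
(mv 1167 (cons (fin 1231 4 974)
(mv 1101 (cons (fin 1100 3 1100)
(fin 1169 3 1101)))))))))
(cons (mv 911 (cons (fin 975 6 910)
(mv 1229 (cons (fin 1165 5 973)
(mv 1230 (cons (fin 1293 5 1037)
(mv 1295 (cons (fin 1231 4 1038)
(mv 1294 (cons (fin 1359 4 1102)
(mv 1039 (cons (fin 1103 6 1038)
(mv 1101 (cons (fin 1041 1 1037)
(fin 1037 7 1037)))))))))))))))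
(mv 1165 (cons (fin 1229 5 973)
(mv 1167 (cons (fin 1231 4 974)
(mv 1101 (cons (fin 1100 3 1100)
(fin 1169 3 1101)))))))))
(cons (mv 911 (cons (fin 975 6 910)
(mv 1167 (cons (fin 1231 4 974)
(mv 1101 (cons (fin 1169 3 1101)
(mv 1100 (cons (fin 1165 3 1100)
(fin 1099 0 1099)))))))))
(cons (mv 975 (cons (fin 911 6 910)
(mv 1039 (cons (fin 1230 6 974)
(mv 1041 (cons (fin 1042 3 974)
(fin 1101 1 1037)))))))
(mv 911 (cons (fin 975 6 910)
(mv 1167 (cons (fin 1231 4 974)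
(mv 1229 (cons (fin 1165 5 973)
(mv 1230 (cons (fin 1169 1 1165)
(fin 1293 5 1037))))))))))))))
(cons (mv 1166 (cons (cons (mv 911 (cons (fin 975 6 910)
(mv 1165 (cons (fin 1229 5 973)
(mv 1167 (cons (fin 1231 4 974)
(mv 1101 (cons (fin 1100 3 1100)
(fin 1169 3 1101)))))))))
(mv 975 (cons (fin 911 6 910)
(mv 1039 (cons (fin 1230 6 974)
(mv 1041 (cons (fin 1042 3 974)
(fin 1101 1 1037))))))))
(cons (mv 1165 (cons (fin 1229 5 973)
(mv 1167 (cons (fin 1231 4 974)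
(mv 1101 (cons (fin 1100 3 1100)
(fin 1169 3 1101)))))))
(mv 911 (cons (fin 975 6 910)
(mv 1167 (cons (fin 1231 4 974)
(mv 1229 (cons (fin 1165 5 973)
(mv 1230 (cons (fin 1169 1 1165)
(fin 1293 5 1037))))))))))))
(mv 1166 (cons (cons (mv 911 (cons (fin 975 6 910)
(mv 1167 (cons (fin 1231 4 974)
(mv 1229 (cons (fin 1165 5 973)
(mv 1230 (cons (fin 1169 1 1165)
(fin 1293 5 1037)))))))))
(mv 1167 (cons (fin 1231 4 974)
(mv 1229 (cons (fin 1165 5 973)
(mv 1230 (cons (fin 1169 1 1165)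
(fin 1293 5 1037))))))))
(cons (mv 975 (cons (fin 911 6 910)
(mv 977 (cons (fin 1037 1 973)
(mv 1039 (cons (fin 978 1 974)
(fin 1230 6 974)))))))
(mv 975 (cons (fin 911 6 910)
(mv 977 (cons (fin 1037 1 973)
(mv 913 (cons (fin 914 2 910)
(mv 785 (cons (fin 849 5 784)
(mv 978 (cons (fin 1039 1 974)
(mv 1042 (cons (fin 1041 0 974)
(fin 1043 0 975))))))))))))))))))))))
(cons (cons (mv 1102 (cons (cons (mv 1166 (cons (cons (mv 909 (cons (fin 973 7 909)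
(mv 911 (cons (fin 975 6 910)
(mv 1165 (cons (fin 1229 5 973)
(mv 1167 (cons (fin 1231 4 974)
(mv 1101 (cons (fin 1100 3 1100)
(fin 1169 3 1101)))))))))))
(mv 909 (cons (fin 973 7 909)
(mv 1165 (cons (fin 1229 5 973)
(mv 1167 (cons (fin 1231 4 974)
(mv 1101 (cons (fin 1100 3 1100)
(fin 1169 3 1101))))))))))
(cons (mv 911 (cons (fin 975 6 910)
(mv 1165 (cons (fin 1229 5 973)
(mv 1167 (cons (fin 1231 4 974)
(mv 1101 (cons (fin 1100 3 1100)
(fin 1169 3 1101)))))))))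
(cons (mv 909 (cons (fin 973 7 909)
(mv 975 (cons (fin 911 6 910)
(mv 1039 (cons (fin 1230 6 974)
(mv 1041 (cons (fin 1042 3 974)
(fin 1101 1 1037)))))))))
(mv 909 (cons (fin 973 7 909)
(mv 911 (cons (fin 975 6 910)
(mv 1167 (cons (fin 1231 4 974)
(mv 1229 (cons (fin 1165 5 973)
(mv 1230 (cons (fin 1169 1 1165)
(fin 1293 5 1037)))))))))))))))
(cons (mv 1041 (cons (cons (mv 973 (cons (fin 1039 3 973)
(fin 975 0 973)))
(mv 975 (cons (fin 973 0 973)
(mv 1042 (cons (fin 1043 3 975)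
(fin 977 0 974))))))
(cons (mv 1039 (cons (fin 1101 1 1037)
(mv 1042 (cons (fin 975 3 974)
(fin 1103 1 1038)))))
(mv 1039 (cons (fin 973 3 973)
(fin 1101 1 1037))))))
(mv 1166 (cons (cons (mv 909 (cons (fin 973 7 909)
(mv 911 (cons (fin 975 6 910)
(mv 1165 (cons (fin 1229 5 973)
(mv 1167 (cons (fin 1231 4 974)
(mv 1101 (cons (fin 1100 3 1100)
(fin 1169 3 1101)))))))))))
(cons (mv 909 (cons (fin 973 7 909)
(mv 975 (cons (fin 911 6 910)
(mv 1165 (cons (fin 1229 5 973)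
(mv 1230 (cons (fin 1039 6 974)
(mv 1295 (cons (fin 1231 4 1038)
(mv 1294 (cons (fin 1359 4 1102)
(mv 1357 (cons (fin 1293 5 1101)
(mv 1358 (cons (fin 1101 7 1101)
(fin 1421 5 1165)))))))))))))))))
(mv 909 (cons (fin 973 7 909)
(mv 1165 (cons (fin 1229 5 973)
(mv 1167 (cons (fin 1231 4 974)
(mv 1101 (cons (fin 1100 3 1100)
(fin 1169 3 1101)))))))))))
(cons (cons (mv 909 (cons (fin 973 7 909)
(mv 975 (cons (fin 911 6 910)
(mv 1229 (cons (fin 1165 5 973)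
(mv 1230 (cons (fin 1293 5 1037)
(fin 1039 6 974)))))))))
(mv 909 (cons (fin 973 7 909)
(mv 911 (cons (fin 975 6 910)
(mv 1167 (cons (fin 1231 4 974)
(mv 1101 (cons (fin 1169 3 1101)
(mv 1100 (cons (fin 1165 3 1100)
(fin 1099 0 1099))))))))))))
(cons (mv 909 (cons (fin 973 7 909)
(mv 911 (cons (fin 975 6 910)
(mv 1167 (cons (fin 1231 4 974)
(mv 1101 (cons (fin 1169 3 1101)
(mv 1100 (cons (fin 1099 0 1099)
(fin 1103 0 1100)))))))))))
(mv 911 (cons (fin 975 6 910)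
(mv 1165 (cons (fin 1229 5 973)
(mv 1167 (cons (fin 1231 4 974)
(mv 1101 (cons (fin 1100 3 1100)
(fin 1169 3 1101)))))))))))))))
(cons (cons (mv 1166 (cons (cons (mv 911 (cons (fin 975 6 910)
(mv 1165 (cons (fin 1229 5 973)
(mv 1167 (cons (fin 1231 4 974)
(mv 1101 (cons (fin 1100 3 1100)
(fin 1169 3 1101)))))))))
(mv 975 (cons (fin 911 6 910)
(mv 1039 (cons (fin 1230 6 974)
(mv 1041 (cons (fin 1042 3 974)
(fin 1101 1 1037))))))))
(cons (mv 1165 (cons (fin 1229 5 973)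
(mv 1167 (cons (fin 1231 4 974)
(mv 1101 (cons (fin 1100 3 1100)
(fin 1169 3 1101)))))))
(mv 911 (cons (fin 975 6 910)
(mv 1167 (cons (fin 1231 4 974)
(mv 1229 (cons (fin 1165 5 973)
(mv 1230 (cons (fin 1169 1 1165)
(fin 1293 5 1037))))))))))))
(mv 1166 (cons (cons (mv 909 (cons (fin 973 7 909)
(mv 911 (cons (fin 975 6 910)
(mv 1165 (cons (fin 1229 5 973)
(mv 1167 (cons (fin 1231 4 974)
(mv 1101 (cons (fin 1100 3 1100)
(fin 1169 3 1101)))))))))))
(mv 973 (cons (fin 909 7 909)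
(mv 975 (cons (fin 1041 0 973)
(fin 911 6 910))))))
(cons (mv 909 (cons (fin 973 7 909)
(mv 1165 (cons (fin 1229 5 973)
(mv 1167 (cons (fin 1231 4 974)
(mv 1101 (cons (fin 1100 3 1100)
(fin 1169 3 1101)))))))))
(mv 911 (cons (fin 975 6 910)
(mv 1165 (cons (fin 1229 5 973)
(mv 1167 (cons (fin 1231 4 974)
(mv 1101 (cons (fin 1100 3 1100)
(fin 1169 3 1101)))))))))))))
(cons (mv 1166 (cons (cons (mv 909 (cons (fin 973 7 909)
(mv 1165 (cons (fin 1229 5 973)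
(mv 1167 (cons (fin 1231 4 974)
(mv 1101 (cons (fin 1100 3 1100)
(fin 1169 3 1101)))))))))
(cons (mv 973 (cons (fin 909 7 909)
(mv 1039 (cons (fin 1041 3 973)
(mv 971 (cons (fin 972 0 971)
(mv 1229 (cons (fin 1165 5 973)
(mv 1230 (cons (fin 1293 5 1037)
(mv 1294 (cons (fin 1103 6 1038)
(mv 1295 (cons (fin 1231 4 1038)
(fin 1359 4 1102)))))))))))))))
(mv 909 (cons (fin 973 7 909)
(mv 1167 (cons (cons (mv 1101 (cons (fin 1169 3 1101)
(mv 1100 (cons (fin 1165 3 1100)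
(fin 1099 0 1099)))))
(mv 1229 (cons (fin 1165 5 973)
(mv 1230 (cons (fin 1169 1 1165)
(fin 1293 5 1037))))))
(cons (mv 1101 (cons (fin 1169 3 1101)
(mv 1100 (cons (fin 1099 0 1099)
(fin 1103 0 1100)))))
(mv 1165 (cons (fin 1229 5 973)
(mv 1100 (cons (fin 1101 3 1100)
(mv 1164 (cons (fin 1099 3 1099)
(mv 1163 (cons (fin 1103 2 1099)
(mv 1227 (cons (fin 1226 1 1162)
(fin 1228 1 1163))))))))))))))))))
(cons (mv 909 (cons (fin 973 7 909)
(mv 1167 (cons (fin 1231 4 974)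
(mv 1101 (cons (fin 1169 3 1101)
(mv 1100 (cons (fin 1165 3 1100)
(fin 1099 0 1099)))))))))
(cons (mv 1165 (cons (fin 1229 5 973)
(mv 1167 (cons (fin 1231 4 974)
(mv 1101 (cons (fin 1100 3 1100)
(fin 1169 3 1101)))))))
(mv 909 (cons (fin 973 7 909)
(mv 1167 (cons (fin 1231 4 974)
(mv 1101 (cons (fin 1169 3 1101)
(mv 1100 (cons (fin 1099 0 1099)
(fin 1103 0 1100)))))))))))))
(mv 1166 (cons (cons (mv 909 (cons (fin 973 7 909)
(mv 911 (cons (fin 975 6 910)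
(mv 1167 (cons (fin 1231 4 974)
(mv 1229 (cons (fin 1165 5 973)
(mv 1230 (cons (fin 1169 1 1165)
(fin 1293 5 1037)))))))))))
(cons (mv 909 (cons (fin 973 7 909)
(mv 1167 (cons (fin 1231 4 974)
(mv 1229 (cons (fin 1165 5 973)
(mv 1230 (cons (fin 1169 1 1165)
(fin 1293 5 1037)))))))))
(mv 911 (cons (fin 975 6 910)
(mv 1167 (cons (fin 1231 4 974)
(mv 1229 (cons (fin 1165 5 973)
(mv 1230 (cons (fin 1169 1 1165)
(fin 1293 5 1037)))))))))))
(cons (cons (mv 909 (cons (fin 973 7 909)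
(mv 975 (cons (fin 911 6 910)
(mv 1229 (cons (fin 1165 5 973)
(mv 1230 (cons (fin 1293 5 1037)
(fin 1039 6 974)))))))))
(mv 909 (cons (fin 973 7 909)
(mv 975 (cons (fin 911 6 910)
(mv 1039 (cons (fin 1230 6 974)
(mv 977 (cons (fin 978 1 974)
(mv 913 (cons (fin 914 2 910)
(mv 785 (cons (fin 849 5 784)
(mv 1041 (cons (fin 1042 3 974)
(mv 1167 (cons (fin 1231 4 974)
(mv 1232 (cons (fin 1103 4 975)
(mv 1233 (cons (fin 1165 0 1165)
(mv 1234 (cons (fin 1235 3 1167)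
(fin 1169 0 1166))))))))))))))))))))))))
(cons (mv 909 (cons (fin 973 7 909)
(mv 975 (cons (fin 911 6 910)
(mv 1167 (cons (fin 1231 4 974)
(mv 1230 (cons (fin 1039 6 974)
(mv 1229 (cons (fin 1169 1 1165)
(fin 1293 5 1037)))))))))))
(mv 909 (cons (fin 973 7 909)
(mv 975 (cons (fin 911 6 910)
(mv 1165 (cons (fin 1229 5 973)
(mv 1167 (cons (fin 1231 4 974)
(mv 1233 (cons (fin 1232 0 1165)
(mv 1169 (cons (fin 1234 0 1166)
(mv 1170 (cons (fin 1103 3 1102)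
(mv 1106 (cons (fin 1107 2 1103)
(mv 978 (cons (fin 1042 5 977)
(mv 977 (cons (fin 1039 1 974)
(mv 914 (cons (fin 913 2 910)
(fin 915 2 911)))))))))))))))))))))))))))))))
(mv 973 (cons (cons (mv 1041 (cons (fin 1039 3 973)
(fin 975 0 973)))
(mv 975 (cons (mv 908 (cons (fin 909 3 908)
(mv 972 (cons (fin 907 3 907)
(fin 1039 0 972)))))
(cons (mv 909 (cons (fin 908 3 908)
(mv 845 (cons (fin 781 4 781)
(mv 1037 (cons (fin 1036 1 972)
(fin 1102 4 845)))))))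
(mv 972 (cons (fin 1039 0 972)
(mv 1036 (cons (fin 1035 1 971)
(fin 1037 1 972)))))))))
(cons (mv 1039 (cons (fin 1041 3 973)
(mv 972 (cons (fin 1037 3 972)
(fin 971 0 971)))))
(mv 975 (cons (fin 1041 0 973)
(mv 908 (cons (fin 909 3 908)
(mv 972 (cons (fin 907 3 907)
(mv 1036 (cons (fin 1035 1 971)
(fin 1037 1 972)))))))))))))
(cons (mv 1037 (cons (cons (mv 977 (cons (fin 975 1 973)
(fin 1039 2 973)))
(mv 1039 (cons (cons (mv 972 (cons (fin 973 3 972)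
(mv 1036 (cons (fin 971 3 971)
(fin 975 2 972)))))
(mv 973 (cons (fin 972 3 972)
(mv 1101 (cons (fin 1100 1 1036)
(mv 1165 (cons (fin 1229 6 973)
(mv 1164 (cons (fin 1228 5 972)
(mv 1166 (cons (fin 1230 4 973)
(mv 909 (cons (fin 1102 7 909)
(mv 908 (cons (fin 975 3 908)
(fin 844 7 844))))))))))))))))
(cons (mv 1036 (cons (fin 975 2 972)
(mv 1100 (cons (fin 1099 1 1035)
(fin 1101 1 1036)))))
(mv 972 (cons (fin 973 3 972)
(mv 1036 (cons (fin 971 3 971)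
(mv 1100 (cons (fin 1099 1 1035)
(fin 1101 1 1036)))))))))))
(cons (mv 975 (cons (fin 977 1 973)
(mv 1036 (cons (fin 973 1 972)
(fin 1035 2 971)))))
(mv 1039 (cons (fin 977 2 973)
(mv 972 (cons (fin 973 3 972)
(mv 1036 (cons (fin 971 3 971)
(mv 1100 (cons (fin 1099 1 1035)
(fin 1101 1 1036))))))))))))
(mv 975 (cons (cons (mv 973 (cons (fin 1041 0 973)
(mv 1037 (cons (fin 1036 1 972)
(fin 977 1 973)))))
(mv 973 (cons (fin 1041 0 973)
(mv 909 (cons (fin 908 3 908)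
(mv 845 (cons (fin 781 4 781)
(mv 1037 (cons (fin 1036 1 972)
(fin 1102 4 845))))))))))
(cons (mv 1041 (cons (fin 973 0 973)
(mv 1042 (cons (fin 1039 3 974)
(fin 1043 3 975)))))
(mv 977 (cons (fin 1037 1 973)
(mv 914 (cons (fin 913 2 910)
(mv 978 (cons (fin 1039 1 974)
(fin 915 2 911)))))))))))))))
(cons (mv 975 (cons (cons (mv 973 (cons (fin 1041 0 973)
(mv 908 (cons (fin 909 3 908)
(mv 972 (cons (fin 907 3 907)
(fin 1039 0 972)))))))
(mv 1041 (cons (mv 1042 (cons (fin 1039 3 974)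
(fin 1043 3 975)))
(cons (mv 1038 (cons (cons (mv 977 (cons (fin 1037 1 973)
(mv 910 (cons (fin 909 3 909)
(mv 913 (cons (fin 914 2 910)
(mv 849 (cons (fin 785 5 784)
(mv 848 (cons (fin 784 7 784)
(mv 850 (cons (fin 786 6 785)
(mv 847 (cons (fin 911 1 846)
(mv 783 (cons (fin 782 3 782)
(fin 846 6 782)))))))))))))))))
(mv 1102 (cons (cons (mv 911 (cons (fin 1166 6 910)
(mv 847 (cons (fin 783 5 782)
(fin 1039 5 846)))))
(mv 1039 (cons (fin 1101 1 1037)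
(mv 1166 (cons (fin 1230 6 974)
(mv 1165 (cons (fin 1229 5 973)
(mv 1167 (cons (fin 1231 4 974)
(mv 1103 (cons (fin 910 7 910)
(fin 1232 4 975))))))))))))
(cons (mv 1101 (cons (fin 1039 1 1037)
(mv 910 (cons (fin 1165 5 909)
(mv 909 (cons (fin 977 3 909)
(fin 845 7 845)))))))
(mv 911 (cons (fin 1166 6 910)
(mv 847 (cons (fin 783 5 782)
(fin 910 6 846)))))))))
(cons (mv 1102 (cons (cons (mv 911 (cons (fin 1166 6 910)
(mv 847 (cons (fin 783 5 782)
(fin 1039 5 846)))))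
(mv 1039 (cons (fin 1101 1 1037)
(mv 1036 (cons (fin 1037 2 972)
(mv 1166 (cons (fin 1230 6 974)
(mv 1165 (cons (fin 1229 5 973)
(mv 1167 (cons (fin 1231 4 974)
(mv 1103 (cons (fin 910 7 910)
(fin 1232 4 975))))))))))))))
(cons (mv 911 (cons (fin 1166 6 910)
(mv 847 (cons (fin 783 5 782)
(fin 910 6 846)))))
(mv 1101 (cons (fin 1039 1 1037)
(mv 910 (cons (fin 1165 5 909)
(mv 845 (cons (fin 909 7 845)
(mv 846 (cons (fin 781 7 781)
(fin 1037 5 845))))))))))))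
(mv 1037 (cons (fin 977 1 973)
(mv 1036 (cons (fin 1035 2 971)
(fin 1039 2 972))))))))
(mv 1042 (cons (fin 1043 3 975)
(fin 977 0 974)))))))
(cons (mv 973 (cons (mv 908 (cons (fin 909 3 908)
(mv 972 (cons (fin 907 3 907)
(fin 1039 0 972)))))
(cons (mv 909 (cons (fin 908 3 908)
(mv 910 (cons (fin 977 3 909)
(mv 1037 (cons (fin 1036 1 972)
(mv 846 (cons (fin 782 5 781)
(fin 1101 6 845)))))))))
(mv 972 (cons (fin 1039 0 972)
(mv 1036 (cons (fin 1035 1 971)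
(fin 1037 1 972))))))))
(cons (mv 973 (cons (fin 1041 0 973)
(mv 908 (cons (fin 909 3 908)
(mv 972 (cons (fin 907 3 907)
(mv 1036 (cons (fin 1035 1 971)
(fin 1037 1 972)))))))))
(mv 973 (cons (fin 1041 0 973)
(mv 972 (cons (fin 1039 0 972)
(mv 1036 (cons (fin 1035 1 971)
(fin 1037 1 972)))))))))))
(mv 975 (cons (cons (cons (mv 973 (cons (fin 1041 0 973)
(mv 908 (cons (fin 909 3 908)
(mv 1037 (cons (fin 1036 1 972)
(mv 977 (cons (fin 1038 1 973)
(mv 914 (cons (fin 913 2 910)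
(mv 978 (cons (fin 915 2 911)
(mv 910 (cons (fin 911 3 910)
(mv 782 (cons (fin 846 5 781)
(mv 979 (cons (fin 1039 1 975)
(mv 1043 (cons (fin 1042 0 975)
(fin 1044 0 976)))))))))))))))))))))
(mv 977 (cons (cons (mv 909 (cons (fin 910 3 909)
(mv 908 (cons (fin 973 3 908)
(mv 914 (cons (fin 913 2 910)
(mv 978 (cons (fin 915 2 911)
(mv 1038 (cons (fin 1037 1 973)
(fin 1039 1 974)))))))))))
(mv 909 (cons (fin 910 3 909)
(mv 908 (cons (fin 973 3 908)
(mv 914 (cons (fin 913 2 910)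
(mv 978 (cons (fin 915 2 911)
(mv 979 (cons (fin 1039 1 975)
(mv 1043 (cons (fin 1042 0 975)
(fin 1044 0 976))))))))))))))
(cons (mv 914 (cons (fin 913 2 910)
(mv 978 (cons (fin 915 2 911)
(mv 1038 (cons (fin 1037 1 973)
(fin 1039 1 974)))))))
(cons (mv 909 (cons (fin 910 3 909)
(mv 908 (cons (fin 973 3 908)
(mv 1038 (cons (fin 1037 1 973)
(mv 978 (cons (fin 1039 1 974)
(mv 915 (cons (fin 914 2 911)
(mv 979 (cons (fin 916 2 912)
(mv 1043 (cons (fin 1042 0 975)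
(fin 1044 0 976)))))))))))))))
(mv 909 (cons (fin 910 3 909)
(mv 973 (cons (fin 908 3 908)
(mv 1037 (cons (fin 1036 1 972)
(fin 1038 1 973))))))))))))
(cons (mv 977 (cons (cons (mv 909 (cons (fin 910 3 909)
(mv 913 (cons (fin 914 2 910)
(mv 785 (cons (fin 849 5 784)
(mv 1038 (cons (fin 1037 1 973)
(mv 978 (cons (fin 1039 1 974)
(mv 1042 (cons (fin 1041 0 974)
(fin 1043 0 975)))))))))))))
(cons (mv 909 (cons (fin 910 3 909)
(mv 914 (cons (fin 913 2 910)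
(mv 978 (cons (fin 915 2 911)
(mv 1038 (cons (fin 1037 1 973)
(fin 1039 1 974)))))))))
(mv 909 (cons (fin 910 3 909)
(mv 914 (cons (fin 913 2 910)
(mv 978 (cons (fin 915 2 911)
(mv 1042 (cons (fin 1041 0 974)
(fin 1043 0 975)))))))))))
(cons (cons (mv 913 (cons (fin 914 2 910)
(mv 785 (cons (fin 849 5 784)
(mv 1038 (cons (fin 1037 1 973)
(mv 978 (cons (fin 1039 1 974)
(mv 1042 (cons (fin 1041 0 974)
(fin 1043 0 975)))))))))))
(mv 909 (cons (fin 910 3 909)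
(mv 1037 (cons (fin 1038 1 973)
(mv 1042 (cons (fin 1041 0 974)
(mv 978 (cons (fin 1043 0 975)
(mv 915 (cons (fin 914 2 911)
(mv 979 (cons (fin 1039 1 975)
(fin 916 2 912))))))))))))))
(cons (mv 909 (cons (fin 910 3 909)
(mv 1038 (cons (fin 1037 1 973)
(mv 978 (cons (fin 1039 1 974)
(mv 1042 (cons (fin 1041 0 974)
(fin 1043 0 975)))))))))
(mv 910 (cons (fin 909 3 909)
(mv 913 (cons (fin 914 2 910)
(mv 849 (cons (fin 785 5 784)
(mv 1037 (cons (fin 1038 1 973)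
(mv 1041 (cons (fin 1042 0 974)
(mv 848 (cons (fin 784 7 784)
(mv 850 (cons (fin 786 6 785)
(mv 847 (cons (fin 911 1 846)
(mv 782 (cons (fin 783 3 782)
(mv 846 (cons (fin 781 3 781)
(fin 1039 4 782)))))))))))))))))))))))))
(mv 973 (cons (fin 1041 0 973)
(mv 909 (cons (fin 908 3 908)
(mv 1037 (cons (fin 1036 1 972)
(mv 1101 (cons (mv 910 (cons (fin 846 6 845)
(fin 1165 6 909)))
(mv 1100 (cons (fin 1164 5 908)
(mv 1038 (cons (fin 1039 1 1036)
(mv 845 (cons (fin 781 4 781)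
(fin 1102 4 845)))))))))))))))))
(cons (cons (mv 973 (cons (fin 1041 0 973)
(mv 909 (cons (fin 908 3 908)
(mv 977 (cons (fin 910 3 909)
(mv 914 (cons (fin 913 2 910)
(mv 978 (cons (fin 915 2 911)
(mv 1039 (cons (fin 1038 1 974)
(fin 979 1 975)))))))))))))
(mv 973 (cons (fin 1041 0 973)
(mv 1037 (cons (fin 1036 1 972)
(mv 977 (cons (fin 1038 1 973)
(mv 914 (cons (fin 913 2 910)
(mv 978 (cons (fin 915 2 911)
(mv 910 (cons (fin 911 3 910)
(mv 782 (cons (fin 846 5 781)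
(mv 979 (cons (fin 1039 1 975)
(mv 1043 (cons (fin 1042 0 975)
(fin 1044 0 976))))))))))))))))))))
(cons (mv 973 (cons (fin 1041 0 973)
(mv 909 (cons (fin 908 3 908)
(mv 910 (cons (fin 977 3 909)
(mv 1037 (cons (fin 1036 1 972)
(mv 846 (cons (fin 782 5 781)
(fin 1101 6 845)))))))))))
(mv 973 (cons (fin 1041 0 973)
(mv 908 (cons (fin 909 3 908)
(mv 1037 (cons (fin 1036 1 972)
(mv 977 (cons (fin 1038 1 973)
(mv 914 (cons (fin 913 2 910)
(mv 978 (cons (fin 915 2 911)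
(mv 979 (cons (fin 1039 1 975)
(mv 1043 (cons (fin 1042 0 975)
(fin 1044 0 976)))))))))))))))))))))))
(cons (cons (mv 975 (cons (cons (mv 973 (cons (fin 1041 0 973)
(mv 908 (cons (fin 909 3 908)
(mv 972 (cons (fin 907 3 907)
(fin 1039 0 972)))))))
(mv 977 (cons (cons (mv 909 (cons (fin 910 3 909)
(mv 913 (cons (fin 914 2 910)
(mv 785 (cons (fin 849 5 784)
(mv 1038 (cons (fin 1037 1 973)
(mv 978 (cons (fin 1039 1 974)
(mv 1042 (cons (fin 1041 0 974)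
(fin 1043 0 975)))))))))))))
(cons (mv 909 (cons (fin 910 3 909)
(mv 914 (cons (fin 913 2 910)
(mv 978 (cons (fin 915 2 911)
(mv 1038 (cons (fin 1037 1 973)
(fin 1039 1 974)))))))))
(mv 909 (cons (fin 910 3 909)
(mv 914 (cons (fin 913 2 910)
(mv 978 (cons (fin 915 2 911)
(mv 1042 (cons (fin 1041 0 974)
(fin 1043 0 975)))))))))))
(cons (cons (mv 909 (cons (fin 910 3 909)
(mv 1037 (cons (fin 1038 1 973)
(mv 1042 (cons (fin 1041 0 974)
(mv 978 (cons (fin 1043 0 975)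
(mv 915 (cons (fin 914 2 911)
(mv 979 (cons (fin 1039 1 975)
(fin 916 2 912)))))))))))))
(mv 909 (cons (fin 910 3 909)
(mv 1038 (cons (fin 1037 1 973)
(mv 978 (cons (fin 1039 1 974)
(mv 1042 (cons (fin 1041 0 974)
(fin 1043 0 975))))))))))
(cons (mv 913 (cons (fin 914 2 910)
(mv 785 (cons (fin 849 5 784)
(mv 1038 (cons (fin 1037 1 973)
(mv 978 (cons (fin 1039 1 974)
(mv 1042 (cons (fin 1041 0 974)
(fin 1043 0 975)))))))))))
(mv 910 (cons (fin 909 3 909)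
(mv 913 (cons (fin 914 2 910)
(mv 785 (cons (fin 849 5 784)
(mv 1038 (cons (fin 1037 1 973)
(mv 1041 (cons (fin 1042 0 974)
(mv 846 (cons (mv 1039 (cons (fin 782 4 782)
(fin 1103 4 846)))
(cons (mv 781 (cons (fin 845 7 781)
(mv 782 (cons (fin 717 7 717)
(mv 783 (cons (fin 719 6 718)
(fin 847 6 782)))))))
(mv 781 (cons (fin 845 7 781)
(mv 783 (cons (fin 847 6 782)
(mv 1102 (cons (cons (mv 1039 (cons (fin 1101 1 1037)
(fin 1103 4 846)))
(mv 1101 (cons (fin 1165 5 909)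
(mv 1167 (cons (fin 1103 4 910)
(mv 1166 (cons (fin 1169 3 1101)
(fin 1231 4 974))))))))
(cons (mv 1101 (cons (fin 1039 1 1037)
(fin 1165 5 909)))
(mv 1103 (cons (fin 1039 4 846)
(fin 1167 4 910))))))))))))))))))))))))))))
(cons (mv 977 (cons (cons (mv 909 (cons (fin 910 3 909)
(mv 908 (cons (fin 973 3 908)
(mv 914 (cons (fin 913 2 910)
(mv 978 (cons (fin 915 2 911)
(mv 1038 (cons (fin 1037 1 973)
(fin 1039 1 974)))))))))))
(mv 909 (cons (fin 910 3 909)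
(mv 908 (cons (fin 973 3 908)
(mv 914 (cons (fin 913 2 910)
(mv 978 (cons (fin 915 2 911)
(mv 979 (cons (fin 1039 1 975)
(mv 1043 (cons (fin 1042 0 975)
(fin 1044 0 976))))))))))))))
(cons (mv 914 (cons (fin 913 2 910)
(mv 978 (cons (fin 915 2 911)
(mv 1038 (cons (fin 1037 1 973)
(fin 1039 1 974)))))))
(cons (mv 909 (cons (fin 910 3 909)
(mv 908 (cons (fin 973 3 908)
(mv 1038 (cons (fin 1037 1 973)
(mv 978 (cons (fin 1039 1 974)
(mv 915 (cons (fin 914 2 911)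
(mv 979 (cons (fin 916 2 912)
(mv 1043 (cons (fin 1042 0 975)
(fin 1044 0 976)))))))))))))))
(mv 909 (cons (fin 910 3 909)
(mv 973 (cons (fin 908 3 908)
(mv 1037 (cons (fin 1036 1 972)
(fin 1038 1 973)))))))))))
(cons (mv 973 (cons (fin 1041 0 973)
(mv 908 (cons (fin 909 3 908)
(mv 972 (cons (fin 907 3 907)
(mv 1036 (cons (fin 1035 1 971)
(fin 1037 1 972)))))))))
(mv 973 (cons (fin 1041 0 973)
(mv 972 (cons (fin 1039 0 972)
(mv 1036 (cons (fin 1035 1 971)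
(fin 1037 1 972)))))))))))
(mv 975 (cons (cons (mv 973 (cons (fin 1041 0 973)
(mv 908 (cons (fin 909 3 908)
(mv 972 (cons (fin 907 3 907)
(fin 1039 0 972)))))))
(mv 977 (cons (cons (cons (mv 909 (cons (fin 910 3 909)
(mv 913 (cons (fin 914 2 910)
(mv 785 (cons (fin 849 5 784)
(mv 1038 (cons (fin 1037 1 973)
(mv 1039 (cons (fin 978 1 974)
(mv 1041 (cons (fin 1042 3 974)
(mv 1102 (cons (fin 1101 1 1037)
(mv 911 (cons (fin 847 5 846)
(fin 1166 6 910)))))))))))))))))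
(mv 909 (cons (fin 910 3 909)
(mv 914 (cons (fin 913 2 910)
(mv 978 (cons (fin 915 2 911)
(mv 979 (cons (fin 1039 1 975)
(mv 1041 (cons (fin 980 1 976)
(fin 1042 0 974))))))))))))
(cons (mv 913 (cons (fin 914 2 910)
(mv 785 (cons (fin 849 5 784)
(mv 1038 (cons (fin 1037 1 973)
(mv 1039 (cons (fin 978 1 974)
(mv 1041 (cons (fin 1042 3 974)
(mv 1102 (cons (fin 1101 1 1037)
(mv 911 (cons (fin 847 5 846)
(fin 1166 6 910)))))))))))))))
(mv 909 (cons (fin 910 3 909)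
(mv 914 (cons (fin 913 2 910)
(mv 978 (cons (fin 915 2 911)
(mv 1038 (cons (fin 1037 1 973)
(fin 1039 1 974)))))))))))
(cons (cons (mv 909 (cons (fin 910 3 909)
(mv 1038 (cons (fin 1037 1 973)
(mv 978 (cons (fin 1039 1 974)
(mv 915 (cons (fin 914 2 911)
(mv 979 (cons (fin 916 2 912)
(mv 1041 (cons (fin 980 1 976)
(fin 1042 0 974)))))))))))))
(mv 909 (cons (fin 910 3 909)
(mv 1038 (cons (fin 1037 1 973)
(mv 1039 (cons (fin 978 1 974)
(mv 1041 (cons (fin 1042 3 974)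
(mv 1102 (cons (fin 1101 1 1037)
(mv 911 (cons (fin 847 5 846)
(fin 1166 6 910))))))))))))))
(cons (mv 910 (cons (fin 909 3 909)
(mv 911 (cons (fin 978 3 910)
(mv 847 (cons (fin 783 4 783)
(mv 1038 (cons (fin 1037 1 973)
(fin 1102 6 846)))))))))
(mv 910 (cons (fin 909 3 909)
(mv 913 (cons (fin 914 2 910)
(mv 849 (cons (fin 785 5 784)
(mv 1037 (cons (fin 1038 1 973)
(mv 1041 (cons (fin 1042 0 974)
(mv 848 (cons (fin 784 7 784)
(mv 850 (cons (fin 786 6 785)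
(mv 847 (cons (fin 911 1 846)
(mv 782 (cons (fin 783 3 782)
(mv 846 (cons (fin 781 3 781)
(fin 1039 4 782))))))))))))))))))))))))))
(cons (mv 977 (cons (cons (mv 909 (cons (fin 910 3 909)
(mv 908 (cons (fin 973 3 908)
(mv 914 (cons (fin 913 2 910)
(mv 978 (cons (fin 915 2 911)
(mv 1038 (cons (fin 1037 1 973)
(fin 1039 1 974)))))))))))
(cons (mv 909 (cons (fin 910 3 909)
(mv 913 (cons (fin 914 2 910)
(mv 785 (cons (fin 849 5 784)
(mv 973 (cons (fin 908 3 908)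
(mv 972 (cons (fin 1039 0 972)
(mv 1036 (cons (fin 1035 1 971)
(fin 1037 1 972)))))))))))))
(mv 909 (cons (fin 910 3 909)
(mv 908 (cons (fin 973 3 908)
(mv 914 (cons (fin 913 2 910)
(mv 978 (cons (fin 915 2 911)
(mv 1039 (cons (fin 1038 1 974)
(fin 979 1 975)))))))))))))
(cons (mv 913 (cons (fin 914 2 910)
(mv 785 (cons (fin 849 5 784)
(mv 1037 (cons (fin 1038 1 973)
(mv 973 (cons (fin 1036 1 972)
(mv 908 (cons (fin 909 3 908)
(mv 972 (cons (fin 907 3 907)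
(fin 1039 0 972)))))))))))))
(cons (mv 914 (cons (fin 913 2 910)
(mv 978 (cons (fin 915 2 911)
(mv 1038 (cons (fin 1037 1 973)
(fin 1039 1 974)))))))
(mv 909 (cons (fin 910 3 909)
(mv 973 (cons (fin 908 3 908)
(mv 1037 (cons (fin 1036 1 972)
(fin 1038 1 973)))))))))))
(cons (mv 973 (cons (fin 1041 0 973)
(mv 908 (cons (fin 909 3 908)
(mv 972 (cons (fin 907 3 907)
(mv 1036 (cons (fin 1035 1 971)
(fin 1037 1 972)))))))))
(mv 973 (cons (fin 1041 0 973)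
(mv 972 (cons (fin 1039 0 972)
(mv 1036 (cons (fin 1035 1 971)
(fin 1037 1 972))))))))))))
(cons (mv 975 (cons (cons (mv 973 (cons (fin 1041 0 973)
(mv 972 (cons (fin 1039 0 972)
(mv 1036 (cons (fin 1035 1 971)
(fin 1037 1 972)))))))
(mv 977 (cons (cons (mv 909 (cons (fin 910 3 909)
(mv 914 (cons (fin 913 2 910)
(mv 978 (cons (fin 915 2 911)
(mv 1038 (cons (fin 1037 1 973)
(fin 1039 1 974)))))))))
(cons (mv 909 (cons (fin 910 3 909)
(mv 914 (cons (fin 913 2 910)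
(mv 978 (cons (fin 915 2 911)
(mv 979 (cons (fin 1039 1 975)
(mv 1043 (cons (fin 1042 0 975)
(fin 1044 0 976)))))))))))
(mv 914 (cons (fin 913 2 910)
(mv 978 (cons (fin 915 2 911)
(mv 1038 (cons (fin 1037 1 973)
(fin 1039 1 974)))))))))
(cons (cons (mv 909 (cons (fin 910 3 909)
(mv 1038 (cons (fin 1037 1 973)
(mv 978 (cons (fin 1039 1 974)
(mv 915 (cons (fin 914 2 911)
(mv 979 (cons (fin 916 2 912)
(mv 1043 (cons (fin 1042 0 975)
(fin 1044 0 976)))))))))))))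
(mv 910 (cons (fin 909 3 909)
(mv 911 (cons (fin 978 3 910)
(mv 783 (cons (fin 847 4 783)
(mv 1037 (cons (fin 1038 1 973)
(mv 973 (cons (fin 1036 1 972)
(mv 972 (cons (fin 971 2 907)
(fin 1039 0 972))))))))))))))
(cons (mv 910 (cons (fin 909 3 909)
(mv 913 (cons (fin 914 2 910)
(mv 785 (cons (fin 849 5 784)
(mv 1037 (cons (fin 1038 1 973)
(mv 973 (cons (fin 1036 1 972)
(mv 782 (cons (fin 846 5 781)
(mv 972 (cons (fin 1039 0 972)
(mv 971 (cons (fin 911 2 907)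
(mv 906 (cons (fin 907 3 906)
(mv 970 (cons (fin 905 3 905)
(mv 1034 (cons (fin 1033 1 969)
(fin 1035 1 970)))))))))))))))))))))))
(mv 910 (cons (fin 909 3 909)
(mv 911 (cons (fin 978 3 910)
(mv 847 (cons (fin 783 4 783)
(mv 1038 (cons (fin 1037 1 973)
(fin 1102 6 846))))))))))))))
(cons (mv 977 (cons (cons (mv 909 (cons (fin 910 3 909)
(mv 913 (cons (fin 914 2 910)
(mv 785 (cons (fin 849 5 784)
(mv 1038 (cons (fin 1037 1 973)
(mv 978 (cons (fin 1039 1 974)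
(mv 1042 (cons (fin 1041 0 974)
(fin 1043 0 975)))))))))))))
(cons (mv 909 (cons (fin 910 3 909)
(mv 914 (cons (fin 913 2 910)
(mv 978 (cons (fin 915 2 911)
(mv 1038 (cons (fin 1037 1 973)
(fin 1039 1 974)))))))))
(mv 909 (cons (fin 910 3 909)
(mv 914 (cons (fin 913 2 910)
(mv 978 (cons (fin 915 2 911)
(mv 1042 (cons (fin 1041 0 974)
(fin 1043 0 975)))))))))))
(cons (cons (mv 913 (cons (fin 914 2 910)
(mv 785 (cons (fin 849 5 784)
(mv 1038 (cons (fin 1037 1 973)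
(mv 978 (cons (fin 1039 1 974)
(mv 1042 (cons (fin 1041 0 974)
(fin 1043 0 975)))))))))))
(mv 909 (cons (fin 910 3 909)
(mv 1037 (cons (fin 1038 1 973)
(mv 1042 (cons (fin 1041 0 974)
(mv 978 (cons (fin 1043 0 975)
(mv 915 (cons (fin 914 2 911)
(mv 979 (cons (fin 1039 1 975)
(fin 916 2 912))))))))))))))
(cons (mv 909 (cons (fin 910 3 909)
(mv 1038 (cons (fin 1037 1 973)
(mv 978 (cons (fin 1039 1 974)
(mv 1042 (cons (fin 1041 0 974)
(fin 1043 0 975)))))))))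
(mv 910 (cons (fin 909 3 909)
(mv 913 (cons (fin 914 2 910)
(mv 849 (cons (fin 785 5 784)
(mv 1037 (cons (fin 1038 1 973)
(mv 1041 (cons (fin 1042 0 974)
(mv 848 (cons (fin 784 7 784)
(mv 850 (cons (fin 786 6 785)
(mv 847 (cons (fin 911 1 846)
(mv 782 (cons (fin 783 3 782)
(mv 846 (cons (fin 781 3 781)
(fin 1039 4 782)))))))))))))))))))))))))
(cons (mv 973 (cons (fin 1041 0 973)
(mv 1037 (cons (fin 1036 1 972)
(mv 977 (cons (fin 1038 1 973)
(mv 910 (cons (fin 909 3 909)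
(mv 782 (cons (fin 846 5 781)
(mv 914 (cons (fin 913 2 910)
(mv 978 (cons (fin 911 3 910)
(fin 915 2 911)))))))))))))))
(mv 973 (cons (fin 1041 0 973)
(mv 972 (cons (fin 1039 0 972)
(mv 1035 (cons (fin 1036 1 971)
(mv 971 (cons (fin 1034 1 970)
(mv 906 (cons (fin 907 3 906)
(mv 910 (cons (fin 911 2 907)
(mv 909 (cons (fin 977 3 909)
(fin 970 2 906)))))))))))))))))))
(cons (mv 975 (cons (cons (mv 973 (cons (fin 1041 0 973)
(mv 908 (cons (fin 909 3 908)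
(mv 972 (cons (fin 907 3 907)
(fin 1039 0 972)))))))
(mv 977 (cons (cons (mv 909 (cons (fin 910 3 909)
(mv 908 (cons (fin 973 3 908)
(mv 914 (cons (fin 913 2 910)
(mv 978 (cons (fin 915 2 911)
(mv 1038 (cons (fin 1037 1 973)
(fin 1039 1 974)))))))))))
(cons (mv 909 (cons (fin 910 3 909)
(mv 908 (cons (fin 973 3 908)
(mv 914 (cons (fin 913 2 910)
(mv 978 (cons (fin 915 2 911)
(mv 979 (cons (fin 1039 1 975)
(mv 1043 (cons (fin 1042 0 975)
(fin 1044 0 976)))))))))))))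
(mv 914 (cons (fin 913 2 910)
(mv 978 (cons (fin 915 2 911)
(mv 1038 (cons (fin 1037 1 973)
(fin 1039 1 974)))))))))
(cons (cons (mv 909 (cons (fin 910 3 909)
(mv 908 (cons (fin 973 3 908)
(mv 1038 (cons (fin 1037 1 973)
(mv 978 (cons (fin 1039 1 974)
(mv 915 (cons (fin 914 2 911)
(mv 979 (cons (fin 916 2 912)
(mv 1043 (cons (fin 1042 0 975)
(fin 1044 0 976)))))))))))))))
(mv 909 (cons (fin 910 3 909)
(mv 973 (cons (fin 908 3 908)
(mv 1038 (cons (fin 1037 1 973)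
(mv 1039 (cons (fin 978 1 974)
(fin 972 0 972))))))))))
(cons (mv 909 (cons (fin 910 3 909)
(mv 913 (cons (fin 914 2 910)
(mv 785 (cons (fin 849 5 784)
(mv 973 (cons (fin 908 3 908)
(mv 1037 (cons (fin 1038 1 973)
(mv 1039 (cons (fin 972 0 972)
(mv 1101 (cons (cons (mv 1100 (cons (fin 1164 5 908)
(mv 1102 (cons (fin 1103 2 1036)
(fin 1166 4 909)))))
(mv 1100 (cons (fin 1164 5 908)
(mv 1103 (cons (fin 1102 2 1036)
(mv 1167 (cons (fin 1231 6 975)
(fin 1232 4 975))))))))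
(cons (mv 1165 (cons (mv 1164 (cons (fin 1100 5 908)
(fin 1228 5 972)))
(cons (mv 1166 (cons (fin 1230 4 973)
(mv 1167 (cons (fin 1100 3 1100)
(mv 1103 (cons (fin 1231 6 975)
(fin 1232 4 975)))))))
(mv 1166 (cons (fin 1230 4 973)
(mv 1228 (cons (fin 1164 5 972)
(mv 1229 (cons (fin 1167 1 1164)
(fin 1292 5 1036))))))))))
(cons (mv 1166 (cons (fin 1102 4 909)
(mv 1165 (cons (fin 1230 4 973)
(mv 1228 (cons (fin 1164 5 972)
(mv 1229 (cons (fin 1167 1 1164)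
(fin 1292 5 1036)))))))))
(mv 1102 (cons (fin 1166 4 909)
(mv 1103 (cons (fin 1100 2 1036)
(mv 1167 (cons (fin 1231 6 975)
(fin 1232 4 975)))))))))))))))))))))))
(mv 910 (cons (fin 909 3 909)
(mv 911 (cons (fin 978 3 910)
(mv 847 (cons (fin 783 4 783)
(mv 1038 (cons (fin 1037 1 973)
(fin 1102 6 846))))))))))))))
(cons (mv 977 (cons (cons (mv 909 (cons (fin 910 3 909)
(mv 913 (cons (fin 914 2 910)
(mv 785 (cons (fin 849 5 784)
(mv 1038 (cons (fin 1037 1 973)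
(mv 978 (cons (fin 1039 1 974)
(mv 1042 (cons (fin 1041 0 974)
(fin 1043 0 975)))))))))))))
(cons (mv 909 (cons (fin 910 3 909)
(mv 914 (cons (fin 913 2 910)
(mv 978 (cons (fin 915 2 911)
(mv 1038 (cons (fin 1037 1 973)
(fin 1039 1 974)))))))))
(mv 909 (cons (fin 910 3 909)
(mv 914 (cons (fin 913 2 910)
(mv 978 (cons (fin 915 2 911)
(mv 1042 (cons (fin 1041 0 974)
(fin 1043 0 975)))))))))))
(cons (cons (mv 913 (cons (fin 914 2 910)
(mv 785 (cons (fin 849 5 784)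
(mv 1038 (cons (fin 1037 1 973)
(mv 978 (cons (fin 1039 1 974)
(mv 1042 (cons (fin 1041 0 974)
(fin 1043 0 975)))))))))))
(mv 909 (cons (fin 910 3 909)
(mv 1037 (cons (fin 1038 1 973)
(mv 1042 (cons (fin 1041 0 974)
(mv 978 (cons (fin 1043 0 975)
(mv 915 (cons (fin 914 2 911)
(mv 979 (cons (fin 1039 1 975)
(fin 916 2 912))))))))))))))
(cons (mv 909 (cons (fin 910 3 909)
(mv 1038 (cons (fin 1037 1 973)
(mv 978 (cons (fin 1039 1 974)
(mv 1042 (cons (fin 1041 0 974)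
(fin 1043 0 975)))))))))
(mv 910 (cons (fin 909 3 909)
(mv 913 (cons (fin 914 2 910)
(mv 849 (cons (fin 785 5 784)
(mv 1037 (cons (fin 1038 1 973)
(mv 1041 (cons (fin 1042 0 974)
(mv 848 (cons (fin 784 7 784)
(mv 850 (cons (fin 786 6 785)
(mv 847 (cons (fin 911 1 846)
(mv 782 (cons (fin 783 3 782)
(mv 846 (cons (fin 781 3 781)
(fin 1039 4 782)))))))))))))))))))))))))
(mv 1041 (cons (fin 973 0 973)
(mv 1042 (cons (fin 1043 3 975)
(fin 977 0 974))))))))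
(mv 975 (cons (cons (mv 973 (cons (fin 1041 0 973)
(mv 908 (cons (fin 909 3 908)
(mv 972 (cons (fin 907 3 907)
(fin 1039 0 972)))))))
(mv 977 (cons (cons (mv 909 (cons (fin 910 3 909)
(mv 913 (cons (fin 914 2 910)
(mv 1038 (cons (fin 1037 1 973)
(mv 978 (cons (fin 1039 1 974)
(mv 1042 (cons (fin 1041 0 974)
(fin 1043 0 975)))))))))))
(cons (mv 909 (cons (fin 910 3 909)
(mv 914 (cons (fin 913 2 910)
(mv 978 (cons (fin 915 2 911)
(mv 1038 (cons (fin 1037 1 973)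
(fin 1039 1 974)))))))))
(mv 909 (cons (fin 910 3 909)
(mv 914 (cons (fin 913 2 910)
(mv 978 (cons (fin 915 2 911)
(mv 1042 (cons (fin 1041 0 974)
(fin 1043 0 975)))))))))))
(cons (mv 913 (cons (fin 914 2 910)
(mv 1038 (cons (fin 1037 1 973)
(mv 978 (cons (fin 1039 1 974)
(mv 1042 (cons (fin 1041 0 974)
(fin 1043 0 975)))))))))
(cons (mv 909 (cons (fin 910 3 909)
(mv 1038 (cons (fin 1037 1 973)
(mv 978 (cons (fin 1039 1 974)
(mv 1042 (cons (fin 1041 0 974)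
(fin 1043 0 975)))))))))
(mv 910 (cons (fin 909 3 909)
(mv 913 (cons (fin 914 2 910)
(mv 1038 (cons (fin 1037 1 973)
(mv 1041 (cons (fin 1042 0 974)
(mv 1102 (cons (mv 911 (cons (fin 847 6 846)
(fin 1166 6 910)))
(mv 1101 (cons (fin 1039 1 1037)
(fin 1165 5 909))))))))))))))))))
(cons (mv 977 (cons (cons (mv 909 (cons (fin 910 3 909)
(mv 908 (cons (fin 973 3 908)
(mv 914 (cons (fin 913 2 910)
(mv 978 (cons (fin 915 2 911)
(mv 1038 (cons (fin 1037 1 973)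
(fin 1039 1 974)))))))))))
(mv 909 (cons (fin 910 3 909)
(mv 908 (cons (fin 973 3 908)
(mv 914 (cons (fin 913 2 910)
(mv 978 (cons (fin 915 2 911)
(mv 979 (cons (fin 1039 1 975)
(mv 1043 (cons (fin 1042 0 975)
(fin 1044 0 976))))))))))))))
(cons (mv 913 (cons (fin 914 2 910)
(mv 1037 (cons (fin 1038 1 973)
(mv 973 (cons (fin 1036 1 972)
(mv 908 (cons (fin 909 3 908)
(mv 972 (cons (fin 907 3 907)
(fin 1039 0 972)))))))))))
(cons (mv 914 (cons (fin 913 2 910)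
(mv 978 (cons (fin 915 2 911)
(mv 1038 (cons (fin 1037 1 973)
(fin 1039 1 974)))))))
(mv 909 (cons (fin 910 3 909)
(mv 973 (cons (fin 908 3 908)
(mv 1037 (cons (fin 1036 1 972)
(fin 1038 1 973)))))))))))
(cons (mv 973 (cons (fin 1041 0 973)
(mv 908 (cons (fin 909 3 908)
(mv 972 (cons (fin 907 3 907)
(mv 1036 (cons (fin 1035 1 971)
(fin 1037 1 972)))))))))
(mv 973 (cons (fin 1041 0 973)
(mv 972 (cons (fin 1039 0 972)
(mv 1036 (cons (fin 1035 1 971)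
(fin 1037 1 972))))))))))))))))))
(cons (mv 1104 (cons (cons (mv 913 (cons (fin 977 6 912)
(mv 1231 (cons (fin 1167 5 975)
(mv 1232 (cons (fin 1295 5 1039)
(mv 1233 (cons (fin 1169 4 976)
(fin 1297 4 1040)))))))))
(mv 1231 (cons (fin 1167 5 975)
(mv 1232 (cons (fin 1295 5 1039)
(mv 1233 (cons (fin 1169 4 976)
(fin 1297 4 1040))))))))
(cons (mv 977 (cons (fin 913 6 912)
(mv 1232 (cons (fin 1041 6 976)
(mv 1233 (cons (fin 1169 4 976)
(fin 1297 4 1040)))))))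
(cons (mv 977 (cons (fin 913 6 912)
(mv 1231 (cons (fin 1167 5 975)
(mv 1232 (cons (fin 1295 5 1039)
(fin 1041 6 976)))))))
(mv 913 (cons (fin 977 6 912)
(mv 1167 (cons (fin 1231 5 975)
(mv 1169 (cons (fin 1233 4 976)
(mv 1170 (cons (mv 1103 (cons (fin 1102 3 1102)
(fin 1171 3 1103)))
(cons (mv 1107 (cons (fin 1106 2 1103)
(mv 1171 (cons (fin 1108 2 1104)
(mv 1235 (cons (fin 1234 0 1167)
(fin 1236 0 1168)))))))
(mv 1106 (cons (fin 1107 2 1103)
(mv 1234 (cons (fin 1235 0 1167)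
(mv 1166 (cons (cons (mv 1102 (cons (fin 1101 3 1101)
(fin 1103 3 1102)))
(mv 1229 (cons (fin 1230 1 1165)
(mv 1165 (cons (fin 1228 1 1164)
(mv 1100 (cons (fin 1101 3 1100)
(mv 1164 (cons (fin 1099 3 1099)
(fin 1103 2 1100))))))))))
(cons (mv 1101 (cons (fin 1102 3 1101)
(mv 1165 (cons (fin 1100 3 1100)
(mv 1229 (cons (fin 1228 1 1164)
(fin 1230 1 1165)))))))
(mv 1103 (cons (fin 1102 3 1102)
(mv 1165 (cons (fin 1164 2 1100)
(mv 1229 (cons (fin 1228 1 1164)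
(fin 1230 1 1165)))))))))))))))))))))))))))
(mv 1104 (cons (cons (mv 911 (cons (fin 975 7 911)
(mv 1231 (cons (fin 1167 5 975)
(mv 1232 (cons (fin 1295 5 1039)
(mv 1233 (cons (fin 1169 4 976)
(fin 1297 4 1040)))))))))
(mv 1231 (cons (fin 1167 5 975)
(mv 1232 (cons (fin 1295 5 1039)
(mv 1233 (cons (fin 1169 4 976)
(fin 1297 4 1040))))))))
(cons (mv 975 (cons (fin 911 7 911)
(mv 1232 (cons (fin 1039 7 975)
(mv 1233 (cons (fin 1169 4 976)
(fin 1297 4 1040)))))))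
(cons (mv 975 (cons (fin 911 7 911)
(mv 1231 (cons (fin 1167 5 975)
(mv 1232 (cons (fin 1039 7 975)
(fin 1295 5 1039)))))))
(mv 911 (cons (fin 975 7 911)
(mv 1167 (cons (fin 1231 5 975)
(mv 1169 (cons (fin 1233 4 976)
(mv 1170 (cons (mv 1103 (cons (fin 1102 3 1102)
(fin 1171 3 1103)))
(cons (mv 1107 (cons (fin 1106 2 1103)
(mv 1171 (cons (fin 1108 2 1104)
(mv 1235 (cons (fin 1234 0 1167)
(fin 1236 0 1168)))))))
(mv 1106 (cons (fin 1107 2 1103)
(mv 1234 (cons (fin 1235 0 1167)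
(mv 1166 (cons (cons (mv 1102 (cons (fin 1101 3 1101)
(fin 1103 3 1102)))
(mv 1229 (cons (fin 1230 1 1165)
(mv 1165 (cons (fin 1228 1 1164)
(mv 1100 (cons (fin 1101 3 1100)
(mv 1164 (cons (fin 1099 3 1099)
(fin 1103 2 1100))))))))))
(cons (mv 1101 (cons (fin 1102 3 1101)
(mv 1165 (cons (fin 1100 3 1100)
(mv 1229 (cons (fin 1228 1 1164)
(fin 1230 1 1165)))))))
(mv 1103 (cons (fin 1102 3 1102)
(mv 1165 (cons (fin 1164 2 1100)
(mv 1229 (cons (fin 1228 1 1164)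
(fin 1230 1 1165)))))))))))))))))))))))))))))
(cons (cons (mv 1104 (cons (cons (mv 911 (cons (fin 975 7 911)
(mv 977 (cons (fin 913 6 912)
(mv 1232 (cons (fin 1041 6 976)
(mv 1233 (cons (fin 1169 4 976)
(fin 1297 4 1040)))))))))
(mv 977 (cons (fin 913 6 912)
(mv 1232 (cons (fin 1041 6 976)
(mv 1233 (cons (fin 1169 4 976)
(fin 1297 4 1040))))))))
(cons (mv 975 (cons (fin 911 7 911)
(mv 1232 (cons (fin 1039 7 975)
(mv 1233 (cons (fin 1169 4 976)
(fin 1297 4 1040)))))))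
(cons (mv 975 (cons (fin 911 7 911)
(mv 977 (cons (fin 913 6 912)
(mv 1232 (cons (fin 1039 7 975)
(fin 1041 6 976)))))))
(mv 911 (cons (fin 975 7 911)
(mv 977 (cons (fin 913 6 912)
(mv 1169 (cons (fin 1233 4 976)
(mv 1170 (cons (cons (mv 1103 (cons (fin 1171 3 1103)
(mv 1102 (cons (fin 1167 3 1102)
(fin 1101 0 1101)))))
(mv 1167 (cons (cons (mv 1102 (cons (fin 1103 3 1102)
(mv 1101 (cons (fin 1166 3 1101)
(mv 1106 (cons (fin 1107 2 1103)
(mv 1234 (cons (fin 1235 0 1167)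
(mv 1042 (cons (fin 1041 7 977)
(mv 979 (cons (fin 1043 6 978)
(mv 978 (cons (fin 1039 1 975)
(fin 915 6 914)))))))))))))))
(cons (mv 1106 (cons (fin 1107 2 1103)
(mv 1234 (cons (fin 1235 0 1167)
(mv 1042 (cons (fin 1041 7 977)
(mv 979 (cons (fin 1043 6 978)
(mv 978 (cons (fin 1039 1 975)
(fin 915 6 914)))))))))))
(mv 1102 (cons (fin 1103 3 1102)
(mv 1106 (cons (fin 1107 2 1103)
(mv 1166 (cons (fin 1101 3 1101)
(mv 1229 (cons (fin 1230 1 1165)
(mv 1165 (cons (fin 1228 1 1164)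
(mv 1038 (cons (fin 974 5 973)
(mv 1039 (cons (fin 1037 2 973)
(mv 978 (cons (fin 979 1 975)
(fin 1041 2 974)))))))))))))))))))
(cons (mv 1102 (cons (fin 1103 3 1102)
(mv 1166 (cons (fin 1101 3 1101)
(mv 1229 (cons (fin 1230 1 1165)
(mv 1165 (cons (fin 1228 1 1164)
(mv 1038 (cons (fin 974 5 973)
(mv 1039 (cons (fin 1037 2 973)
(mv 978 (cons (fin 979 1 975)
(fin 1041 2 974)))))))))))))))
(cons (mv 1106 (cons (fin 1107 2 1103)
(mv 1234 (cons (fin 1235 0 1167)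
(mv 1041 (cons (fin 1042 7 977)
(mv 1166 (cons (cons (mv 1102 (cons (fin 1101 3 1101)
(fin 1103 3 1102)))
(mv 1229 (cons (fin 1230 1 1165)
(mv 1165 (cons (fin 1228 1 1164)
(mv 1100 (cons (fin 1101 3 1100)
(mv 1164 (cons (fin 1099 3 1099)
(fin 1103 2 1100))))))))))
(cons (mv 1103 (cons (fin 1102 3 1102)
(mv 1165 (cons (fin 1164 2 1100)
(mv 1229 (cons (fin 1228 1 1164)
(fin 1230 1 1165)))))))
(mv 1101 (cons (fin 1102 3 1101)
(mv 1165 (cons (fin 1100 3 1100)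
(mv 1229 (cons (fin 1228 1 1164)
(fin 1230 1 1165))))))))))))))))
(mv 1106 (cons (fin 1107 2 1103)
(mv 1234 (cons (fin 1235 0 1167)
(mv 1166 (cons (cons (mv 1102 (cons (fin 1101 3 1101)
(fin 1103 3 1102)))
(mv 1229 (cons (fin 1230 1 1165)
(mv 1165 (cons (fin 1228 1 1164)
(mv 1100 (cons (fin 1101 3 1100)
(mv 1164 (cons (fin 1099 3 1099)
(fin 1103 2 1100))))))))))
(cons (mv 1103 (cons (fin 1102 3 1102)
(mv 1165 (cons (fin 1164 2 1100)
(mv 1229 (cons (fin 1228 1 1164)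
(fin 1230 1 1165)))))))
(mv 1101 (cons (fin 1102 3 1101)
(mv 1165 (cons (fin 1100 3 1100)
(mv 1229 (cons (fin 1228 1 1164)
(fin 1230 1 1165)))))))))))))))))))
(cons (mv 1107 (cons (cons (mv 1106 (cons (fin 1167 2 1103)
(mv 1108 (cons (fin 1109 1 1105)
(fin 1171 2 1104)))))
(mv 1106 (cons (fin 1167 2 1103)
(mv 1108 (cons (fin 1109 1 1105)
(mv 1042 (cons (cons (mv 1041 (cons (fin 1039 0 1039)
(fin 1043 0 1040)))
(mv 979 (cons (cons (mv 915 (cons (fin 1043 5 914)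
(fin 978 6 914)))
(mv 978 (cons (fin 1039 1 975)
(fin 915 6 914))))
(cons (mv 978 (cons (fin 1039 1 975)
(mv 1043 (cons (fin 1044 0 976)
(fin 1234 6 978)))))
(mv 1043 (cons (fin 915 5 914)
(fin 1234 6 978)))))))
(cons (mv 1041 (cons (fin 1039 0 1039)
(fin 1234 7 977)))
(mv 1041 (cons (fin 1043 0 1040)
(fin 1234 7 977)))))))))))
(cons (mv 1171 (cons (fin 1108 2 1104)
(mv 1235 (cons (fin 1236 0 1168)
(mv 1234 (cons (fin 1167 0 1167)
(mv 1043 (cons (fin 979 5 978)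
(fin 1298 5 1042)))))))))
(cons (mv 1106 (cons (fin 1167 2 1103)
(mv 1039 (cons (cons (mv 978 (cons (fin 979 1 975)
(mv 1038 (cons (fin 1037 2 973)
(fin 1041 2 974)))))
(mv 979 (cons (fin 978 1 975)
(mv 1037 (cons (fin 1038 2 973)
(mv 1043 (cons (fin 915 5 914)
(mv 1234 (cons (fin 1171 5 978)
(fin 1042 6 978))))))))))
(cons (mv 1038 (cons (fin 1037 2 973)
(mv 1041 (cons (fin 978 2 974)
(fin 1042 0 1039)))))
(cons (mv 1037 (cons (fin 1038 2 973)
(mv 1042 (cons (fin 1041 0 1039)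
(mv 1234 (cons (mv 1043 (cons (fin 979 6 978)
(fin 1298 6 1042)))
(mv 1235 (cons (fin 1299 4 1042)
(mv 1236 (cons (fin 1237 3 1169)
(fin 1171 0 1168)))))))))))
(mv 978 (cons (fin 979 1 975)
(mv 1042 (cons (fin 1041 0 1039)
(mv 1171 (cons (fin 914 4 914)
(fin 1235 4 978)))))))))))))
(mv 1108 (cons (fin 1171 2 1104)
(mv 1106 (cons (fin 1109 1 1105)
(mv 1042 (cons (cons (mv 1041 (cons (fin 1039 0 1039)
(fin 1043 0 1040)))
(mv 979 (cons (cons (mv 915 (cons (fin 1043 5 914)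
(fin 978 6 914)))
(mv 978 (cons (fin 1039 1 975)
(fin 915 6 914))))
(cons (mv 978 (cons (fin 1039 1 975)
(mv 1043 (cons (fin 1044 0 976)
(fin 1234 6 978)))))
(mv 1043 (cons (fin 915 5 914)
(fin 1234 6 978)))))))
(cons (mv 1041 (cons (fin 1039 0 1039)
(fin 1234 7 977)))
(mv 1041 (cons (fin 1043 0 1040)
(fin 1234 7 977))))))))))))))
(mv 1171 (cons (fin 1103 3 1103)
(mv 1107 (cons (fin 1108 2 1104)
(mv 1236 (cons (fin 1235 0 1168)
(mv 1172 (cons (fin 1237 0 1169)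
(mv 979 (cons (fin 1043 4 979)
(mv 978 (cons (fin 1039 1 975)
(mv 915 (cons (fin 916 2 912)
(mv 980 (cons (fin 1041 1 976)
(mv 1045 (cons (fin 1044 0 977)
(mv 981 (cons (fin 1046 0 978)
(mv 918 (cons (fin 917 2 914)
(mv 982 (cons (fin 914 3 914)
(fin 919 2 915))))))))))))))))))))))))))))))))))))))
(mv 1104 (cons (cons (mv 911 (cons (fin 975 7 911)
(mv 977 (cons (fin 913 6 912)
(mv 1232 (cons (fin 1041 6 976)
(mv 1233 (cons (fin 1169 4 976)
(fin 1297 4 1040)))))))))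
(mv 977 (cons (fin 913 6 912)
(mv 1232 (cons (fin 1041 6 976)
(mv 1233 (cons (fin 1169 4 976)
(fin 1297 4 1040))))))))
(cons (mv 975 (cons (fin 911 7 911)
(mv 1232 (cons (fin 1039 7 975)
(mv 1233 (cons (fin 1169 4 976)
(fin 1297 4 1040)))))))
(cons (mv 975 (cons (fin 911 7 911)
(mv 977 (cons (fin 913 6 912)
(mv 1232 (cons (fin 1039 7 975)
(fin 1041 6 976)))))))
(mv 975 (cons (fin 911 7 911)
(mv 977 (cons (fin 913 6 912)
(mv 1169 (cons (fin 1233 4 976)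
(mv 974 (cons (cons (mv 1041 (cons (fin 973 0 973)
(fin 1042 0 974)))
(mv 909 (cons (fin 910 3 909)
(mv 908 (cons (fin 973 3 908)
(mv 1038 (cons (fin 1037 1 973)
(mv 978 (cons (fin 1039 1 974)
(mv 915 (cons (fin 914 2 911)
(mv 979 (cons (fin 916 2 912)
(mv 1043 (cons (fin 1042 0 975)
(fin 1044 0 976))))))))))))))))
(cons (mv 909 (cons (fin 910 3 909)
(mv 1037 (cons (fin 1038 1 973)
(mv 1042 (cons (fin 1041 0 974)
(mv 978 (cons (fin 1043 0 975)
(mv 915 (cons (fin 914 2 911)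
(mv 979 (cons (fin 1039 1 975)
(fin 916 2 912)))))))))))))
(mv 909 (cons (fin 910 3 909)
(mv 973 (cons (fin 908 3 908)
(fin 1041 0 973)))))))))))))))))))
(cons (mv 1104 (cons (cons (mv 911 (cons (fin 975 7 911)
(mv 977 (cons (fin 913 6 912)
(mv 1231 (cons (fin 1167 5 975)
(mv 1232 (cons (fin 1295 5 1039)
(fin 1041 6 976)))))))))
(mv 977 (cons (fin 913 6 912)
(mv 1231 (cons (fin 1167 5 975)
(mv 1232 (cons (fin 1295 5 1039)
(fin 1041 6 976))))))))
(cons (mv 975 (cons (fin 911 7 911)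
(mv 1231 (cons (fin 1167 5 975)
(mv 1232 (cons (fin 1039 7 975)
(fin 1295 5 1039)))))))
(cons (mv 975 (cons (fin 911 7 911)
(mv 977 (cons (fin 913 6 912)
(mv 1232 (cons (fin 1039 7 975)
(fin 1041 6 976)))))))
(mv 975 (cons (fin 911 7 911)
(mv 977 (cons (fin 913 6 912)
(mv 1167 (cons (fin 1231 5 975)
(mv 974 (cons (cons (mv 1041 (cons (fin 973 0 973)
(fin 1042 0 974)))
(mv 909 (cons (fin 910 3 909)
(mv 908 (cons (fin 973 3 908)
(mv 1038 (cons (fin 1037 1 973)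
(mv 978 (cons (fin 1039 1 974)
(mv 915 (cons (fin 914 2 911)
(mv 979 (cons (fin 916 2 912)
(mv 1043 (cons (fin 1042 0 975)
(fin 1044 0 976))))))))))))))))
(cons (mv 909 (cons (fin 910 3 909)
(mv 1037 (cons (fin 1038 1 973)
(mv 1042 (cons (fin 1041 0 974)
(mv 978 (cons (fin 1043 0 975)
(mv 915 (cons (fin 914 2 911)
(mv 979 (cons (fin 1039 1 975)
(fin 916 2 912)))))))))))))
(mv 909 (cons (fin 910 3 909)
(mv 973 (cons (fin 908 3 908)
(fin 1041 0 973))))))))))))))))))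
(mv 1104 (cons (cons (mv 911 (cons (fin 975 7 911)
(mv 913 (cons (fin 977 6 912)
(mv 1167 (cons (fin 1231 5 975)
(mv 1169 (cons (fin 1233 4 976)
(mv 1166 (cons (cons (mv 1101 (cons (fin 1102 3 1101)
(mv 1165 (cons (fin 1100 3 1100)
(mv 1229 (cons (fin 1228 1 1164)
(fin 1230 1 1165)))))))
(mv 1229 (cons (fin 1230 1 1165)
(mv 1165 (cons (fin 1228 1 1164)
(mv 1100 (cons (fin 1101 3 1100)
(mv 1164 (cons (fin 1099 3 1099)
(fin 1103 2 1100))))))))))
(cons (mv 1229 (cons (fin 1230 1 1165)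
(mv 1165 (cons (fin 1228 1 1164)
(mv 1103 (cons (fin 1164 2 1100)
(mv 1170 (cons (fin 1102 3 1102)
(fin 1171 3 1103)))))))))
(mv 1102 (cons (fin 1101 3 1101)
(mv 1170 (cons (fin 1103 3 1102)
(mv 1107 (cons (fin 1106 2 1103)
(mv 1171 (cons (fin 1108 2 1104)
(mv 1235 (cons (fin 1234 0 1167)
(fin 1236 0 1168))))))))))))))))))))))
(mv 913 (cons (fin 977 6 912)
(mv 1167 (cons (fin 1231 5 975)
(mv 1169 (cons (fin 1233 4 976)
(mv 1170 (cons (mv 1103 (cons (fin 1102 3 1102)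
(fin 1171 3 1103)))
(cons (mv 1107 (cons (fin 1106 2 1103)
(mv 1171 (cons (fin 1108 2 1104)
(mv 1235 (cons (fin 1234 0 1167)
(fin 1236 0 1168)))))))
(mv 1106 (cons (fin 1107 2 1103)
(mv 1234 (cons (fin 1235 0 1167)
(mv 1166 (cons (cons (mv 1102 (cons (fin 1101 3 1101)
(fin 1103 3 1102)))
(mv 1229 (cons (fin 1230 1 1165)
(mv 1165 (cons (fin 1228 1 1164)
(mv 1100 (cons (fin 1101 3 1100)
(mv 1164 (cons (fin 1099 3 1099)
(fin 1103 2 1100))))))))))
(cons (mv 1101 (cons (fin 1102 3 1101)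
(mv 1165 (cons (fin 1100 3 1100)
(mv 1229 (cons (fin 1228 1 1164)
(fin 1230 1 1165)))))))
(mv 1103 (cons (fin 1102 3 1102)
(mv 1165 (cons (fin 1164 2 1100)
(mv 1229 (cons (fin 1228 1 1164)
(fin 1230 1 1165))))))))))))))))))))))))
(cons (mv 911 (cons (fin 975 7 911)
(mv 1167 (cons (fin 1231 5 975)
(mv 1169 (cons (fin 1233 4 976)
(mv 1170 (cons (mv 1103 (cons (fin 1102 3 1102)
(fin 1171 3 1103)))
(cons (mv 1107 (cons (fin 1106 2 1103)
(mv 1171 (cons (fin 1108 2 1104)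
(mv 1235 (cons (fin 1234 0 1167)
(fin 1236 0 1168)))))))
(mv 1106 (cons (fin 1107 2 1103)
(mv 1234 (cons (fin 1235 0 1167)
(mv 1166 (cons (cons (mv 1102 (cons (fin 1101 3 1101)
(fin 1103 3 1102)))
(mv 1229 (cons (fin 1230 1 1165)
(mv 1165 (cons (fin 1228 1 1164)
(mv 1100 (cons (fin 1101 3 1100)
(mv 1164 (cons (fin 1099 3 1099)
(fin 1103 2 1100))))))))))
(cons (mv 1101 (cons (fin 1102 3 1101)
(mv 1165 (cons (fin 1100 3 1100)
(mv 1229 (cons (fin 1228 1 1164)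
(fin 1230 1 1165)))))))
(mv 1103 (cons (fin 1102 3 1102)
(mv 1165 (cons (fin 1164 2 1100)
(mv 1229 (cons (fin 1228 1 1164)
(fin 1230 1 1165)))))))))))))))))))))))
(cons (mv 975 (cons (fin 911 7 911)
(mv 977 (cons (fin 913 6 912)
(mv 1169 (cons (fin 1233 4 976)
(mv 974 (cons (cons (mv 1041 (cons (fin 973 0 973)
(fin 1042 0 974)))
(mv 909 (cons (fin 910 3 909)
(mv 908 (cons (fin 973 3 908)
(mv 1038 (cons (fin 1037 1 973)
(mv 978 (cons (fin 1039 1 974)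
(mv 915 (cons (fin 914 2 911)
(mv 979 (cons (fin 916 2 912)
(mv 1043 (cons (fin 1042 0 975)
(fin 1044 0 976))))))))))))))))
(cons (mv 909 (cons (fin 910 3 909)
(mv 1037 (cons (fin 1038 1 973)
(mv 1042 (cons (fin 1041 0 974)
(mv 978 (cons (fin 1043 0 975)
(mv 915 (cons (fin 914 2 911)
(mv 979 (cons (fin 1039 1 975)
(fin 916 2 912)))))))))))))
(mv 909 (cons (fin 910 3 909)
(mv 973 (cons (fin 908 3 908)
(fin 1041 0 973))))))))))))))
(mv 975 (cons (fin 911 7 911)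
(mv 977 (cons (fin 913 6 912)
(mv 1167 (cons (fin 1231 5 975)
(mv 974 (cons (cons (mv 1041 (cons (fin 973 0 973)
(fin 1042 0 974)))
(mv 909 (cons (fin 910 3 909)
(mv 908 (cons (fin 973 3 908)
(mv 1038 (cons (fin 1037 1 973)
(mv 978 (cons (fin 1039 1 974)
(mv 915 (cons (fin 914 2 911)
(mv 979 (cons (fin 916 2 912)
(mv 1043 (cons (fin 1042 0 975)
(fin 1044 0 976))))))))))))))))
(cons (mv 909 (cons (fin 910 3 909)
(mv 1037 (cons (fin 1038 1 973)
(mv 1042 (cons (fin 1041 0 974)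
(mv 978 (cons (fin 1043 0 975)
(mv 915 (cons (fin 914 2 911)
(mv 979 (cons (fin 1039 1 975)
(fin 916 2 912)))))))))))))
(mv 909 (cons (fin 910 3 909)
(mv 973 (cons (fin 908 3 908)
(fin 1041 0 973))))))))))))))))))))))
def l73 : Lem := ⟨11781361728633673533533443397406062833968813197368088696213098202092515054870126237445090575199368781731314332188895059436116029279163206249762429370674526186657931638943130497570144079131611440698089315210039093965026117276249703078140228958042332339181772754128421771855461400024448621079244630891963236233510912, 58026160979198597404793788312063608385004763708019021875811502372045077518758310460267531532857992717269996515291694214614291962995298193228840994480155741908491066030876097933431265623871744365441155217084424066071964034120597777775954769110099612013702823375415658308658532498566512547513960622695256844992869414771250520038918186602751010925952575955675711784115418658952714157138369779400537756848052328691381562737363517440,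 58026160979198597404793788312063608385004763708019021875811502372045077518758310460267531532857992717269996515291694214614291962995298193228840994480155741908491066030876097933431265623871744365441155217084424066071964034120597777775954769110099612013702823375415658308658532498566512547513960622695256844992869414771250520038918186602751010925952575955675711784115418658952714157138369779400537756848052328691381562737363517440, 19, 33⟩
theorem l73_valid : l73.Valid :=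
  Lem.valid_of_chk t73 t73_valid [976, 1040] c73 l73 (by decide +kernel)
end Crest.Agent.SnakyAux
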