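import Crest.Agent.S0047_aux.Checker

set_option autoImplicit false
set_option maxRecDepth 100000
namespace Crest.Agent.SnakyAux
open Cert
def t74 : Tbl := Tbl.nil
theorem t74_valid : t74.Valid := Tbl.valid_nil
def c74 : Cert :=
(mv 977 (cons (cons (cons (mv 1039 (cons (cons (mv 978 (cons (fin 979 1 975)
(mv 1038 (cons (fin 975 1 974)
(fin 1037 2 973)))))
(mv 1038 (cons (fin 1037 2 973)
(mv 1041 (cons (cons (mv 973 (cons (fin 974 3 973)
(mv 1102 (cons (fin 1101 1 1037)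
(mv 1042 (cons (fin 1103 1 1038)
(mv 1043 (cons (fin 975 3 975)
(fin 1044 3 976)))))))))
(mv 1102 (cons (fin 1101 1 1037)
(mv 1042 (cons (fin 1103 1 1038)
(mv 1043 (cons (fin 975 3 975)
(fin 1044 3 976))))))))
(cons (mv 974 (cons (fin 973 3 973)
(mv 975 (cons (fin 1042 3 974)
(mv 909 (cons (fin 910 3 909)
(mv 913 (cons (fin 914 2 910)
(mv 849 (cons (fin 785 5 784)
(fin 1104 5 848)))))))))))
(cons (mv 974 (cons (fin 973 3 973)
(mv 1101 (cons (fin 1102 1 1037)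
(mv 913 (cons (mv 849 (cons (fin 785 5 784)
(fin 1104 5 848)))
(mv 975 (cons (fin 914 2 910)
(mv 910 (cons (fin 909 3 909)
(mv 846 (cons (fin 782 4 782)
(fin 1103 4 846)))))))))))))
(mv 973 (cons (fin 974 3 973)
(mv 1102 (cons (fin 1101 1 1037)
(mv 1042 (cons (fin 1103 1 1038)
(mv 1043 (cons (fin 1044 3 976)
(mv 1107 (cons (fin 1106 0 1039)
(fin 1108 0 1040))))))))))))))))))
(cons (mv 978 (cons (fin 979 1 975)
(mv 975 (cons (cons (mv 914 (cons (fin 915 2 911)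
(mv 913 (cons (fin 974 2 910)
(mv 785 (cons (fin 849 5 784)
(mv 1042 (cons (fin 1043 0 975)
(mv 1104 (cons (fin 1168 6 912)
(mv 1106 (cons (fin 1170 7 913)
(mv 1107 (cons (fin 1041 0 1039)
(fin 1171 4 914)))))))))))))))
(mv 914 (cons (fin 915 2 911)
(mv 913 (cons (fin 974 2 910)
(mv 849 (cons (fin 785 5 784)
(mv 1104 (cons (fin 1041 5 848)
(fin 912 6 848))))))))))
(cons (mv 1042 (cons (fin 1043 0 975)
(mv 974 (cons (fin 1041 3 974)
(mv 909 (cons (fin 910 3 909)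
(mv 973 (cons (fin 908 3 908)
(fin 972 0 972)))))))))
(cons (mv 914 (cons (fin 915 2 911)
(mv 1042 (cons (fin 1043 0 975)
(mv 913 (cons (mv 849 (cons (fin 1106 7 849)
(fin 785 5 784)))
(cons (mv 1104 (cons (fin 1168 6 912)
(mv 1106 (cons (fin 1170 7 913)
(mv 1107 (cons (fin 1041 0 1039)
(fin 1171 4 914)))))))
(mv 849 (cons (fin 785 5 784)
(mv 1104 (cons (fin 1041 5 848)
(fin 912 6 848))))))))))))
(mv 914 (cons (fin 915 2 911)
(mv 913 (cons (fin 974 2 910)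
(mv 849 (cons (fin 785 5 784)
(mv 1042 (cons (fin 1043 0 975)
(fin 1106 7 849)))))))))))))))
(mv 978 (cons (fin 979 1 975)
(mv 1038 (cons (fin 1037 2 973)
(fin 1041 2 974))))))))
(cons (mv 975 (cons (cons (mv 974 (cons (mv 1041 (cons (fin 973 0 973)
(fin 1042 0 974)))
(cons (mv 909 (cons (fin 910 3 909)
(mv 908 (cons (fin 973 3 908)
(mv 913 (cons (fin 914 2 910)
(mv 849 (cons (fin 785 5 784)
(mv 1104 (cons (fin 912 6 848)
(fin 1168 6 912)))))))))))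
(mv 909 (cons (fin 910 3 909)
(mv 913 (cons (fin 914 2 910)
(mv 849 (cons (fin 785 5 784)
(mv 1041 (cons (fin 1042 0 974)
(fin 1104 5 848))))))))))))
(mv 978 (cons (cons (mv 914 (cons (fin 915 2 911)
(mv 1043 (cons (fin 1042 0 975)
(mv 979 (cons (fin 1044 0 976)
(mv 786 (cons (fin 850 4 786)
(mv 980 (cons (fin 1041 1 976)
(mv 913 (cons (fin 912 3 912)
(fin 981 3 913)))))))))))))
(cons (mv 915 (cons (fin 914 2 911)
(mv 979 (cons (fin 916 2 912)
(mv 913 (cons (cons (mv 980 (cons (fin 912 3 912)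
(fin 1041 1 976)))
(mv 849 (cons (fin 785 5 784)
(mv 1104 (cons (fin 1041 5 848)
(fin 912 6 848))))))
(cons (mv 849 (cons (fin 785 5 784)
(mv 1041 (cons (fin 980 1 976)
(fin 1104 5 848)))))
(mv 849 (cons (fin 785 5 784)
(mv 912 (cons (fin 980 3 912)
(fin 1104 6 848))))))))))))
(mv 1043 (cons (fin 1042 0 975)
(mv 979 (cons (fin 1044 0 976)
(mv 980 (cons (fin 1041 1 976)
(mv 913 (cons (fin 912 3 912)
(mv 785 (cons (fin 849 5 784)
(mv 917 (cons (fin 916 2 913)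
(mv 981 (cons (fin 914 3 913)
(fin 918 2 914)))))))))))))))))
(cons (mv 1043 (cons (fin 1042 0 975)
(mv 979 (cons (fin 1044 0 976)
(mv 916 (cons (fin 915 2 912)
(mv 980 (cons (fin 1041 1 976)
(fin 917 2 913)))))))))
(cons (mv 914 (cons (fin 915 2 911)
(mv 1042 (cons (fin 1043 0 975)
(mv 849 (cons (mv 785 (cons (fin 850 7 785)
(fin 913 5 784)))
(cons (mv 850 (cons (fin 785 7 785)
(mv 786 (cons (fin 1041 5 785)
(mv 787 (cons (fin 723 6 722)
(fin 851 6 786)))))))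
(mv 913 (cons (fin 1106 7 849)
(mv 1104 (cons (fin 1041 5 848)
(fin 912 6 848))))))))))))
(mv 915 (cons (fin 914 2 911)
(mv 979 (cons (fin 916 2 912)
(mv 1043 (cons (fin 1042 0 975)
(fin 1044 0 976))))))))))))
(cons (mv 974 (cons (mv 1041 (cons (fin 973 0 973)
(fin 1042 0 974)))
(cons (mv 909 (cons (fin 910 3 909)
(mv 973 (cons (fin 908 3 908)
(mv 1037 (cons (fin 1036 1 972)
(fin 1038 1 973)))))))
(mv 909 (cons (fin 910 3 909)
(mv 1037 (cons (fin 1038 1 973)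
(mv 978 (cons (cons (mv 1042 (cons (fin 1041 0 974)
(fin 1043 0 975)))
(mv 915 (cons (fin 914 2 911)
(mv 979 (cons (fin 916 2 912)
(mv 980 (cons (fin 1041 1 976)
(mv 1044 (cons (fin 1043 0 976)
(fin 1045 0 977))))))))))
(cons (mv 915 (cons (fin 914 2 911)
(mv 979 (cons (fin 916 2 912)
(mv 1043 (cons (fin 1042 0 975)
(fin 1044 0 976)))))))
(mv 915 (cons (fin 914 2 911)
(mv 979 (cons (fin 916 2 912)
(mv 1041 (cons (fin 980 1 976)
(fin 1042 0 974)))))))))))))))))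
(cons (mv 913 (cons (cons (mv 785 (cons (fin 849 5 784)
(mv 914 (cons (fin 974 2 910)
(mv 915 (cons (fin 912 1 911)
(fin 916 1 912)))))))
(mv 849 (cons (fin 785 5 784)
(mv 1104 (cons (fin 912 6 848)
(fin 1168 6 912))))))
(cons (mv 914 (cons (fin 974 2 910)
(mv 915 (cons (fin 912 1 911)
(fin 916 1 912)))))
(mv 785 (cons (fin 849 5 784)
(mv 914 (cons (fin 974 2 910)
(mv 915 (cons (fin 916 1 912)
(fin 978 2 911))))))))))
(mv 974 (cons (mv 1041 (cons (fin 973 0 973)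
(fin 1042 0 974)))
(cons (mv 909 (cons (fin 910 3 909)
(mv 973 (cons (fin 908 3 908)
(mv 1037 (cons (fin 1036 1 972)
(fin 1038 1 973)))))))
(mv 910 (cons (fin 909 3 909)
(mv 1038 (cons (fin 1037 1 973)
(mv 913 (cons (cons (mv 849 (cons (fin 785 5 784)
(mv 1041 (cons (fin 1042 0 974)
(fin 1104 5 848)))))
(mv 1102 (cons (cons (cons (mv 1041 (cons (fin 1042 0 974)
(mv 1101 (cons (fin 1165 5 909)
(mv 1103 (cons (fin 1104 2 1037)
(fin 1167 4 910)))))))
(mv 1101 (cons (fin 1165 5 909)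
(mv 1103 (cons (fin 1167 4 910)
(mv 1104 (cons (fin 1041 2 1037)
(fin 1168 6 912))))))))
(cons (mv 1101 (cons (fin 1165 5 909)
(mv 1167 (cons (fin 1103 4 910)
(mv 1166 (cons (fin 1231 4 974)
(mv 1168 (cons (fin 1169 3 1101)
(fin 1104 6 912)))))))))
(mv 1041 (cons (fin 1042 0 974)
(mv 1101 (cons (fin 1165 5 909)
(mv 1104 (cons (fin 1103 2 1037)
(fin 1168 6 912)))))))))
(cons (cons (mv 1041 (cons (fin 1042 0 974)
(mv 1103 (cons (fin 1167 4 910)
(mv 1104 (cons (fin 1101 2 1037)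
(fin 1168 6 912)))))))
(mv 1041 (cons (fin 1042 0 974)
(mv 1165 (cons (fin 1101 5 909)
(mv 1166 (cons (fin 1229 5 973)
(mv 1167 (cons (fin 1103 4 910)
(fin 1231 4 974))))))))))
(cons (mv 1042 (cons (fin 1041 0 974)
(mv 978 (cons (fin 1043 0 975)
(mv 1168 (cons (fin 1104 6 912)
(mv 1170 (cons (fin 1106 7 913)
(mv 1166 (cons (mv 1165 (cons (fin 1101 5 909)
(fin 1229 5 973)))
(cons (mv 1167 (cons (fin 1231 4 974)
(mv 1169 (cons (fin 1101 3 1101)
(mv 1234 (cons (fin 1233 0 1166)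
(fin 1235 0 1167)))))))
(mv 1167 (cons (fin 1231 4 974)
(mv 1229 (cons (fin 1165 5 973)
(mv 1230 (cons (fin 1169 1 1165)
(fin 1293 5 1037))))))))))))))))))
(mv 1041 (cons (fin 1042 0 974)
(mv 1167 (cons (fin 1103 4 910)
(mv 1166 (cons (fin 1231 4 974)
(mv 1168 (cons (fin 1104 6 912)
(mv 1229 (cons (fin 1165 5 973)
(mv 1230 (cons (fin 1169 1 1165)
(fin 1293 5 1037))))))))))))))))))
(cons (mv 849 (cons (fin 785 5 784)
(mv 1104 (cons (fin 912 6 848)
(fin 1168 6 912)))))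
(mv 846 (cons (cons (mv 781 (cons (fin 845 7 781)
(mv 782 (cons (fin 717 7 717)
(mv 783 (cons (fin 719 6 718)
(fin 847 6 782)))))))
(cons (mv 781 (cons (fin 845 7 781)
(mv 782 (cons (fin 717 7 717)
(mv 849 (cons (fin 785 5 784)
(mv 848 (cons (fin 847 3 781)
(mv 1041 (cons (fin 1042 0 974)
(fin 784 7 784)))))))))))
(mv 783 (cons (fin 847 6 782)
(mv 782 (cons (fin 719 6 718)
(mv 785 (cons (fin 849 5 784)
(mv 784 (cons (fin 845 1 781)
(mv 722 (cons (fin 721 2 718)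
(mv 786 (cons (fin 723 2 719)
(mv 851 (cons (fin 850 0 783)
(mv 787 (cons (fin 852 0 784)
(mv 979 (cons (fin 915 7 722)
(mv 978 (cons (mv 980 (cons (fin 912 3 912)
(fin 1041 1 976)))
(cons (mv 1042 (cons (fin 1041 0 974)
(fin 1043 0 975)))
(mv 1043 (cons (fin 1042 0 975)
(fin 1044 0 976))))))))))))))))))))))))))
(cons (mv 785 (cons (fin 849 5 784)
(mv 1041 (cons (fin 1042 0 974)
(mv 782 (cons (mv 781 (cons (fin 717 7 717)
(fin 845 7 781)))
(cons (mv 719 (cons (fin 783 6 718)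
(mv 718 (cons (fin 655 6 654)
(mv 717 (cons (fin 653 7 653)
(mv 720 (cons (fin 784 0 717)
(mv 657 (cons (fin 656 2 653)
(mv 721 (cons (fin 658 2 654)
(fin 786 0 718)))))))))))))
(mv 783 (cons (fin 719 6 718)
(mv 845 (cons (fin 784 1 781)
(fin 781 7 781))))))))))))
(cons (mv 783 (cons (fin 847 6 782)
(mv 782 (cons (fin 719 6 718)
(mv 717 (cons (fin 781 7 717)
(mv 718 (cons (fin 653 7 653)
(mv 785 (cons (fin 784 3 717)
(fin 849 5 784)))))))))))
(mv 785 (cons (fin 849 5 784)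
(mv 845 (cons (fin 781 7 781)
(mv 847 (cons (fin 783 6 782)
(mv 848 (cons (fin 784 2 781)
(fin 912 0 845)))))))))))))))))))))))))))
(mv 978 (cons (cons (mv 979 (cons (fin 1039 1 975)
(mv 915 (cons (fin 916 2 912)
(mv 914 (cons (fin 975 2 911)
(mv 980 (cons (fin 1041 1 976)
(mv 1044 (cons (fin 1043 0 976)
(fin 1045 0 977)))))))))))
(cons (mv 979 (cons (cons (mv 915 (cons (fin 916 2 912)
(mv 914 (cons (fin 975 2 911)
(mv 980 (cons (fin 1041 1 976)
(mv 1044 (cons (fin 1043 0 976)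
(fin 1045 0 977)))))))))
(mv 915 (cons (fin 916 2 912)
(mv 914 (cons (fin 975 2 911)
(mv 1043 (cons (fin 1044 0 976)
(mv 850 (cons (fin 1107 7 850)
(fin 786 4 786))))))))))
(cons (mv 915 (cons (fin 916 2 912)
(mv 914 (cons (fin 975 2 911)
(mv 980 (cons (fin 1041 1 976)
(mv 981 (cons (fin 982 3 914)
(mv 1045 (cons (fin 1044 0 977)
(fin 1046 0 978)))))))))))
(cons (mv 980 (cons (fin 1041 1 976)
(mv 1044 (cons (fin 1043 0 976)
(fin 1045 0 977)))))
(mv 915 (cons (fin 916 2 912)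
(mv 975 (cons (fin 914 2 911)
(mv 1041 (cons (fin 980 1 976)
(mv 974 (cons (fin 973 0 973)
(fin 1042 0 974)))))))))))))
(mv 975 (cons (cons (mv 914 (cons (fin 915 2 911)
(mv 1038 (cons (fin 1039 1 974)
(mv 974 (cons (fin 1037 1 973)
(mv 1041 (cons (fin 973 0 973)
(fin 1042 0 974)))))))))
(cons (mv 914 (cons (fin 915 2 911)
(mv 1042 (cons (fin 1043 0 975)
(mv 974 (cons (fin 1041 0 974)
(mv 909 (cons (fin 910 3 909)
(mv 973 (cons (fin 908 3 908)
(mv 972 (cons (fin 1039 0 972)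
(mv 1036 (cons (fin 1035 1 971)
(fin 1037 1 972)))))))))))))))
(mv 914 (cons (fin 915 2 911)
(mv 1042 (cons (fin 1043 0 975)
(mv 974 (cons (fin 1041 0 974)
(mv 909 (cons (fin 910 3 909)
(mv 973 (cons (fin 908 3 908)
(mv 1037 (cons (fin 1036 1 972)
(fin 1038 1 973)))))))))))))))
(cons (cons (mv 914 (cons (fin 915 2 911)
(mv 1038 (cons (fin 1039 1 974)
(mv 974 (cons (fin 1037 1 973)
(mv 909 (cons (fin 910 3 909)
(mv 973 (cons (fin 908 3 908)
(fin 1041 0 973)))))))))))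
(mv 1038 (cons (fin 1039 1 974)
(mv 974 (cons (fin 1037 1 973)
(mv 1041 (cons (fin 973 0 973)
(fin 1042 0 974))))))))
(cons (mv 914 (cons (fin 915 2 911)
(mv 1042 (cons (fin 1043 0 975)
(mv 974 (cons (cons (mv 1038 (cons (fin 1037 1 973)
(fin 1039 1 974)))
(mv 909 (cons (fin 910 3 909)
(mv 973 (cons (fin 908 3 908)
(mv 972 (cons (fin 1039 0 972)
(mv 1036 (cons (fin 1035 1 971)
(fin 1037 1 972))))))))))
(cons (mv 909 (cons (fin 910 3 909)
(mv 973 (cons (fin 908 3 908)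
(mv 1037 (cons (fin 1036 1 972)
(fin 1038 1 973)))))))
(mv 909 (cons (fin 910 3 909)
(mv 973 (cons (fin 908 3 908)
(mv 1039 (cons (fin 1038 1 974)
(fin 972 0 972))))))))))))))
(mv 914 (cons (fin 915 2 911)
(mv 1039 (cons (fin 1038 1 974)
(mv 1042 (cons (fin 1043 0 975)
(mv 1106 (cons (cons (mv 1107 (cons (fin 1041 0 1039)
(fin 1171 4 914)))
(mv 1170 (cons (mv 1041 (cons (fin 1234 7 977)
(mv 786 (cons (fin 850 5 785)
(mv 1103 (cons (fin 1102 1 1038)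
(mv 912 (cons (fin 848 5 847)
(fin 1167 6 911)))))))))
(cons (mv 1169 (cons (fin 1233 5 977)
(mv 1171 (cons (fin 1235 4 978)
(mv 1168 (cons (cons (mv 1104 (cons (fin 1103 3 1103)
(fin 1232 7 975)))
(mv 1231 (cons (fin 1232 1 1167)
(mv 1167 (cons (fin 1230 1 1166)
(fin 1103 6 975))))))
(cons (mv 1103 (cons (fin 1104 3 1103)
(mv 912 (cons (fin 848 5 847)
(fin 1167 6 911)))))
(mv 1232 (cons (fin 1231 1 1167)
(fin 1104 7 975))))))))))
(mv 1169 (cons (fin 1233 5 977)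
(mv 1234 (cons (fin 1041 7 977)
(mv 1235 (cons (fin 1171 4 978)
(fin 1299 4 1042)))))))))))
(cons (mv 1171 (cons (fin 1107 4 914)
(mv 1170 (cons (fin 1235 4 978)
(mv 1169 (cons (fin 1233 5 977)
(mv 1168 (cons (cons (mv 1104 (cons (fin 1103 3 1103)
(fin 1232 7 975)))
(mv 1231 (cons (fin 1232 1 1167)
(mv 1167 (cons (fin 1230 1 1166)
(fin 1103 6 975))))))
(cons (mv 1103 (cons (fin 1104 3 1103)
(mv 912 (cons (fin 848 5 847)
(fin 1167 6 911)))))
(mv 1232 (cons (fin 1231 1 1167)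
(fin 1104 7 975))))))))))))
(mv 1041 (cons (fin 1107 0 1039)
(mv 786 (cons (fin 850 5 785)
(mv 1103 (cons (fin 1102 1 1038)
(mv 912 (cons (fin 848 5 847)
(fin 1167 6 911))))))))))))))))))))))))
(cons (cons (mv 979 (cons (fin 1039 1 975)
(mv 915 (cons (fin 916 2 912)
(mv 980 (cons (fin 1041 1 976)
(mv 1044 (cons (fin 1043 0 976)
(fin 1045 0 977)))))))))
(mv 979 (cons (fin 1039 1 975)
(mv 915 (cons (fin 916 2 912)
(mv 914 (cons (fin 975 2 911)
(mv 1043 (cons (fin 1044 0 976)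
(mv 850 (cons (fin 1107 7 850)
(fin 786 4 786))))))))))))
(cons (mv 979 (cons (fin 1039 1 975)
(mv 915 (cons (fin 916 2 912)
(mv 914 (cons (fin 975 2 911)
(mv 980 (cons (fin 1041 1 976)
(mv 981 (cons (fin 982 3 914)
(mv 1045 (cons (fin 1044 0 977)
(fin 1046 0 978)))))))))))))
(mv 979 (cons (fin 1039 1 975)
(mv 980 (cons (fin 1041 1 976)
(mv 1044 (cons (fin 1043 0 976)
(fin 1045 0 977)))))))))))))
(cons (cons (mv 1038 (cons (cons (cons (mv 1039 (cons (fin 1037 2 973)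
(mv 1041 (cons (cons (mv 973 (cons (fin 974 3 973)
(mv 1102 (cons (fin 1101 1 1037)
(mv 1042 (cons (fin 1103 1 1038)
(mv 1043 (cons (fin 975 3 975)
(fin 1044 3 976)))))))))
(mv 1102 (cons (fin 1101 1 1037)
(mv 1042 (cons (fin 1103 1 1038)
(mv 1043 (cons (fin 975 3 975)
(fin 1044 3 976))))))))
(cons (mv 974 (cons (fin 973 3 973)
(mv 975 (cons (fin 1042 3 974)
(mv 909 (cons (fin 910 3 909)
(mv 913 (cons (fin 914 2 910)
(mv 849 (cons (fin 785 5 784)
(fin 1104 5 848)))))))))))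
(cons (mv 974 (cons (fin 973 3 973)
(mv 1101 (cons (fin 1102 1 1037)
(mv 913 (cons (mv 849 (cons (fin 785 5 784)
(fin 1104 5 848)))
(mv 975 (cons (fin 914 2 910)
(mv 910 (cons (fin 909 3 909)
(mv 846 (cons (fin 782 4 782)
(fin 1103 4 846)))))))))))))
(mv 973 (cons (fin 974 3 973)
(mv 1102 (cons (fin 1101 1 1037)
(mv 1042 (cons (fin 1103 1 1038)
(mv 1043 (cons (fin 1044 3 976)
(mv 1107 (cons (fin 1106 0 1039)
(fin 1108 0 1040)))))))))))))))))
(mv 974 (cons (cons (mv 975 (cons (mv 1041 (cons (fin 973 0 973)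
(fin 1042 0 974)))
(cons (mv 909 (cons (fin 910 3 909)
(mv 908 (cons (fin 973 3 908)
(mv 913 (cons (fin 914 2 910)
(mv 849 (cons (fin 785 5 784)
(mv 1104 (cons (fin 912 6 848)
(fin 1168 6 912)))))))))))
(mv 909 (cons (fin 910 3 909)
(mv 913 (cons (fin 914 2 910)
(mv 849 (cons (fin 785 5 784)
(mv 1041 (cons (fin 1042 0 974)
(fin 1104 5 848))))))))))))
(cons (mv 1102 (cons (cons (cons (mv 910 (cons (cons (mv 845 (cons (fin 909 7 845)
(mv 781 (cons (fin 846 7 781)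
(mv 1101 (cons (fin 1165 5 909)
(mv 1039 (cons (fin 1041 1 1037)
(mv 1100 (cons (fin 1099 2 1035)
(fin 1103 2 1036)))))))))))
(mv 909 (cons (fin 845 7 845)
(mv 1101 (cons (fin 1165 5 909)
(mv 1041 (cons (fin 1039 1 1037)
(mv 1166 (cons (fin 973 7 909)
(mv 1167 (cons (fin 1231 4 974)
(mv 1099 (cons (fin 1100 0 1099)
(mv 1168 (cons (fin 1169 3 1101)
(mv 1104 (cons (fin 913 6 912)
(fin 1232 6 976))))))))))))))))))
(cons (mv 845 (cons (fin 909 7 845)
(mv 781 (cons (fin 846 7 781)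
(mv 1167 (cons (fin 1103 4 910)
(mv 1166 (cons (fin 1231 4 974)
(mv 1229 (cons (fin 1165 5 973)
(mv 1230 (cons (fin 1293 5 1037)
(mv 1168 (cons (fin 1169 1 1165)
(mv 1104 (cons (fin 913 6 912)
(mv 1227 (cons (fin 1228 2 1163)
(mv 1232 (cons (fin 1041 6 976)
(mv 1297 (cons (fin 1233 4 1040)
(mv 1296 (cons (fin 1361 4 1104)
(mv 1295 (cons (fin 1294 3 1229)
(fin 1359 5 1103)))))))))))))))))))))))))))
(cons (mv 1101 (cons (fin 1165 5 909)
(mv 1039 (cons (fin 1041 1 1037)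
(mv 1100 (cons (fin 1099 2 1035)
(fin 1103 2 1036)))))))
(mv 845 (cons (fin 909 7 845)
(mv 846 (cons (fin 781 7 781)
(mv 1103 (cons (fin 1039 4 846)
(fin 1167 4 910)))))))))))
(mv 1166 (cons (cons (cons (mv 909 (cons (fin 973 7 909)
(mv 1167 (cons (fin 1231 4 974)
(mv 1229 (cons (fin 1165 5 973)
(mv 1230 (cons (fin 1293 5 1037)
(mv 1168 (cons (fin 1169 1 1165)
(mv 1104 (cons (fin 913 6 912)
(mv 912 (cons (fin 1103 5 911)
(mv 1227 (cons (fin 1228 2 1163)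
(mv 1232 (cons (fin 1041 6 976)
(mv 1297 (cons (fin 1233 4 1040)
(mv 1296 (cons (fin 1361 4 1104)
(mv 1295 (cons (fin 1294 3 1229)
(fin 1359 5 1103)))))))))))))))))))))))))
(mv 973 (cons (fin 909 7 909)
(mv 1039 (cons (fin 1041 3 973)
(mv 971 (cons (fin 972 0 971)
(mv 1229 (cons (fin 1165 5 973)
(mv 1230 (cons (fin 1293 5 1037)
(mv 1103 (cons (fin 1294 6 1038)
(mv 912 (cons (fin 848 5 847)
(mv 1100 (cons (fin 1101 2 1036)
(mv 1104 (cons (fin 1167 5 911)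
(mv 913 (cons (fin 849 6 848)
(fin 1168 6 912))))))))))))))))))))))
(cons (mv 909 (cons (fin 973 7 909)
(mv 1167 (cons (fin 1231 4 974)
(mv 1101 (cons (cons (mv 1039 (cons (fin 1041 1 1037)
(mv 1100 (cons (fin 1099 2 1035)
(fin 1103 2 1036)))))
(mv 1039 (cons (fin 1041 1 1037)
(mv 1168 (cons (fin 1169 3 1101)
(mv 1104 (cons (fin 913 6 912)
(mv 1103 (cons (fin 912 5 911)
(mv 1165 (cons (fin 1164 1 1100)
(mv 1232 (cons (fin 1233 0 1165)
(fin 1296 7 1039))))))))))))))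
(cons (mv 1099 (cons (fin 1100 0 1099)
(mv 1168 (cons (fin 1169 3 1101)
(mv 1104 (cons (fin 913 6 912)
(mv 1041 (cons (fin 1103 2 1037)
(fin 1232 6 976)))))))))
(cons (mv 1099 (cons (fin 1100 0 1099)
(mv 1168 (cons (fin 1169 3 1101)
(mv 1104 (cons (fin 913 6 912)
(mv 1103 (cons (fin 912 5 911)
(mv 1165 (cons (fin 1164 1 1100)
(mv 1232 (cons (fin 1233 0 1165)
(mv 1296 (cons (fin 1039 7 1039)
(fin 1360 7 1103)))))))))))))))
(mv 1039 (cons (fin 1041 1 1037)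
(mv 1100 (cons (fin 1099 2 1035)
(mv 1168 (cons (fin 1165 3 1100)
(fin 1169 3 1101)))))))))))))))
(mv 1167 (cons (fin 1231 4 974)
(mv 1229 (cons (fin 1165 5 973)
(mv 1230 (cons (fin 1293 5 1037)
(mv 1168 (cons (fin 1169 1 1165)
(mv 1104 (cons (fin 913 6 912)
(mv 912 (cons (fin 1103 5 911)
(mv 1227 (cons (fin 1228 2 1163)
(mv 1232 (cons (fin 1041 6 976)
(mv 1297 (cons (fin 1233 4 1040)
(mv 1296 (cons (fin 1361 4 1104)
(mv 1295 (cons (fin 1294 3 1229)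
(fin 1359 5 1103)))))))))))))))))))))))))
(cons (cons (mv 973 (cons (fin 909 7 909)
(mv 1039 (cons (fin 1041 3 973)
(mv 971 (cons (fin 972 0 971)
(mv 1229 (cons (fin 1165 5 973)
(mv 1230 (cons (fin 1293 5 1037)
(mv 1294 (cons (fin 1103 6 1038)
(mv 1295 (cons (fin 1231 4 1038)
(fin 1359 4 1102)))))))))))))))
(mv 973 (cons (fin 909 7 909)
(mv 1039 (cons (fin 1041 3 973)
(mv 971 (cons (fin 972 0 971)
(mv 1231 (cons (fin 1167 4 974)
(mv 1230 (cons (fin 1295 4 1038)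
(mv 1293 (cons (fin 1229 5 1037)
(mv 1294 (cons (fin 1357 5 1101)
(fin 1103 6 1038))))))))))))))))
(cons (mv 909 (cons (fin 973 7 909)
(mv 1167 (cons (fin 1231 4 974)
(mv 1229 (cons (fin 1165 5 973)
(mv 1230 (cons (fin 1293 5 1037)
(mv 1168 (cons (fin 1169 1 1165)
(mv 1104 (cons (fin 913 6 912)
(mv 1103 (cons (fin 912 5 911)
(mv 1294 (cons (fin 1039 6 1038)
(fin 1358 6 1102)))))))))))))))))
(mv 909 (cons (fin 973 7 909)
(mv 1167 (cons (fin 1231 4 974)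
(mv 1229 (cons (fin 1165 5 973)
(mv 1230 (cons (fin 1293 5 1037)
(mv 1168 (cons (fin 1169 1 1165)
(mv 1104 (cons (fin 913 6 912)
(mv 1227 (cons (fin 1228 2 1163)
(mv 1232 (cons (fin 1041 6 976)
(mv 1297 (cons (fin 1233 4 1040)
(mv 1296 (cons (fin 1361 4 1104)
(mv 1295 (cons (fin 1294 3 1229)
(fin 1359 5 1103))))))))))))))))))))))))))))
(cons (mv 910 (cons (cons (mv 845 (cons (fin 909 7 845)
(mv 781 (cons (fin 846 7 781)
(mv 1101 (cons (fin 1165 5 909)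
(mv 1039 (cons (fin 1041 1 1037)
(mv 1100 (cons (fin 1099 2 1035)
(fin 1103 2 1036)))))))))))
(mv 845 (cons (fin 909 7 845)
(mv 846 (cons (fin 781 7 781)
(mv 847 (cons (fin 783 6 782)
(mv 1101 (cons (fin 1165 5 909)
(mv 1041 (cons (fin 1039 1 1037)
(mv 848 (cons (cons (mv 784 (cons (fin 785 2 781)
(fin 912 4 784)))
(mv 785 (cons (fin 784 2 781)
(mv 849 (cons (fin 786 2 782)
(fin 913 5 784))))))
(cons (mv 913 (cons (fin 912 0 845)
(mv 849 (cons (fin 914 0 846)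
(fin 785 5 784)))))
(mv 912 (cons (fin 913 0 845)
(fin 784 4 784)))))))))))))))))
(cons (mv 845 (cons (fin 909 7 845)
(mv 846 (cons (fin 781 7 781)
(mv 1103 (cons (fin 1039 4 846)
(fin 1167 4 910)))))))
(cons (mv 1101 (cons (fin 1165 5 909)
(mv 1039 (cons (fin 1041 1 1037)
(mv 1100 (cons (fin 1099 2 1035)
(fin 1103 2 1036)))))))
(mv 845 (cons (fin 909 7 845)
(mv 781 (cons (fin 846 7 781)
(mv 1101 (cons (fin 1165 5 909)
(mv 1103 (cons (fin 1167 4 910)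
(mv 1104 (cons (fin 1041 2 1037)
(mv 1168 (cons (fin 1169 0 1101)
(fin 913 6 912)))))))))))))))))
(cons (mv 1166 (cons (cons (mv 909 (cons (fin 973 7 909)
(mv 845 (cons (fin 910 7 845)
(mv 1167 (cons (fin 1231 4 974)
(mv 1229 (cons (fin 1165 5 973)
(mv 1230 (cons (fin 1293 5 1037)
(mv 1168 (cons (fin 1169 1 1165)
(mv 1104 (cons (fin 913 6 912)
(mv 912 (cons (fin 1103 5 911)
(mv 1227 (cons (fin 1228 2 1163)
(mv 1232 (cons (fin 1041 6 976)
(mv 1297 (cons (fin 1233 4 1040)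
(mv 1296 (cons (fin 1361 4 1104)
(mv 1295 (cons (fin 1294 3 1229)
(fin 1359 5 1103)))))))))))))))))))))))))))
(mv 909 (cons (fin 973 7 909)
(mv 910 (cons (fin 845 7 845)
(mv 1165 (cons (fin 1101 5 909)
(fin 1229 5 973))))))))
(cons (mv 909 (cons (fin 973 7 909)
(mv 910 (cons (fin 845 7 845)
(mv 1167 (cons (fin 1103 4 910)
(fin 1231 4 974)))))))
(cons (mv 1165 (cons (fin 1229 5 973)
(mv 910 (cons (fin 1101 5 909)
(mv 1167 (cons (fin 1103 4 910)
(fin 1231 4 974)))))))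
(mv 909 (cons (fin 973 7 909)
(mv 1167 (cons (fin 1231 4 974)
(mv 1229 (cons (fin 1165 5 973)
(mv 1230 (cons (fin 1293 5 1037)
(mv 1168 (cons (fin 1169 1 1165)
(mv 1104 (cons (fin 913 6 912)
(mv 912 (cons (fin 1103 5 911)
(mv 1227 (cons (fin 1228 2 1163)
(mv 1232 (cons (fin 1041 6 976)
(mv 1297 (cons (fin 1233 4 1040)
(mv 1296 (cons (fin 1361 4 1104)
(mv 1295 (cons (fin 1294 3 1229)
(fin 1359 5 1103)))))))))))))))))))))))))))))
(mv 910 (cons (cons (mv 845 (cons (fin 909 7 845)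
(mv 781 (cons (fin 846 7 781)
(mv 1101 (cons (fin 1165 5 909)
(mv 1103 (cons (fin 1167 4 910)
(mv 1100 (cons (fin 1039 2 1036)
(mv 1035 (cons (fin 1036 3 1035)
(mv 1099 (cons (fin 1034 3 1034)
(mv 1163 (cons (fin 1162 1 1098)
(fin 1164 1 1099)))))))))))))))))
(mv 909 (cons (fin 845 7 845)
(mv 1165 (cons (fin 1101 5 909)
(mv 1166 (cons (fin 973 7 909)
(fin 1229 5 973))))))))
(cons (mv 1101 (cons (fin 1165 5 909)
(mv 1103 (cons (fin 1167 4 910)
(mv 1039 (cons (fin 1100 2 1036)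
(fin 846 4 846)))))))
(mv 845 (cons (fin 909 7 845)
(mv 846 (cons (fin 781 7 781)
(mv 1103 (cons (fin 1039 4 846)
(fin 1167 4 910)))))))))))))
(cons (cons (mv 1041 (cons (mv 1039 (cons (fin 973 3 973)
(fin 1101 1 1037)))
(cons (mv 1104 (cons (mv 913 (cons (fin 849 5 848)
(fin 1168 6 912)))
(mv 1101 (cons (fin 1103 2 1037)
(mv 1165 (cons (fin 910 5 909)
(mv 1229 (cons (fin 1166 5 973)
(fin 1293 6 1037)))))))))
(mv 973 (cons (fin 1039 3 973)
(mv 909 (cons (fin 1166 7 909)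
(mv 845 (cons (fin 910 7 845)
(fin 781 4 781))))))))))
(mv 1166 (cons (cons (mv 909 (cons (fin 973 7 909)
(mv 845 (cons (fin 910 7 845)
(mv 1167 (cons (fin 1231 4 974)
(mv 1229 (cons (fin 1165 5 973)
(mv 1230 (cons (fin 1293 5 1037)
(mv 1168 (cons (fin 1169 1 1165)
(mv 1104 (cons (fin 913 6 912)
(mv 912 (cons (fin 1103 5 911)
(mv 1227 (cons (fin 1228 2 1163)
(mv 1232 (cons (fin 1041 6 976)
(mv 1297 (cons (fin 1233 4 1040)
(mv 1296 (cons (fin 1361 4 1104)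
(mv 1295 (cons (fin 1294 3 1229)
(fin 1359 5 1103)))))))))))))))))))))))))))
(mv 973 (cons (fin 909 7 909)
(mv 1039 (cons (fin 1041 3 973)
(mv 971 (cons (fin 972 0 971)
(mv 1229 (cons (fin 1165 5 973)
(mv 1230 (cons (fin 1293 5 1037)
(mv 1294 (cons (fin 1103 6 1038)
(mv 1295 (cons (fin 1231 4 1038)
(fin 1359 4 1102))))))))))))))))
(cons (mv 909 (cons (fin 973 7 909)
(mv 910 (cons (fin 845 7 845)
(mv 1103 (cons (fin 1167 4 910)
(mv 846 (cons (fin 1039 4 846)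
(mv 847 (cons (fin 783 6 782)
(mv 849 (cons (fin 848 1 845)
(mv 907 (cons (fin 908 2 843)
(mv 913 (cons (fin 785 5 784)
(mv 1104 (cons (fin 1041 5 848)
(fin 912 6 848)))))))))))))))))))
(cons (mv 1165 (cons (fin 1229 5 973)
(mv 1167 (cons (fin 1231 4 974)
(mv 1103 (cons (fin 910 4 910)
(mv 1104 (cons (fin 1164 2 1100)
(fin 912 5 911)))))))))
(mv 909 (cons (fin 973 7 909)
(mv 845 (cons (fin 910 7 845)
(mv 1167 (cons (fin 1231 4 974)
(mv 1229 (cons (fin 1165 5 973)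
(mv 1230 (cons (fin 1293 5 1037)
(mv 1168 (cons (fin 1169 1 1165)
(mv 1104 (cons (fin 913 6 912)
(mv 1227 (cons (fin 1228 2 1163)
(mv 1232 (cons (fin 1041 6 976)
(mv 1297 (cons (fin 1233 4 1040)
(mv 1296 (cons (fin 1361 4 1104)
(mv 1295 (cons (fin 1294 3 1229)
(fin 1359 5 1103))))))))))))))))))))))))))))))
(cons (mv 1039 (cons (mv 1041 (cons (fin 973 3 973)
(fin 1101 1 1037)))
(cons (mv 909 (cons (mv 845 (cons (fin 910 7 845)
(mv 973 (cons (fin 1166 7 909)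
(fin 781 4 781)))))
(cons (mv 1166 (cons (fin 973 7 909)
(mv 1231 (cons (fin 1167 4 974)
(mv 1230 (cons (fin 1295 4 1038)
(mv 1293 (cons (fin 1229 5 1037)
(mv 1294 (cons (fin 1357 5 1101)
(fin 1103 6 1038)))))))))))
(mv 910 (cons (fin 845 7 845)
(mv 1103 (cons (fin 846 4 846)
(fin 1167 4 910))))))))
(mv 1041 (cons (fin 1101 1 1037)
(mv 1042 (cons (fin 1103 1 1038)
(mv 1043 (cons (fin 1044 3 976)
(mv 1107 (cons (fin 1106 0 1039)
(fin 1108 0 1040))))))))))))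
(cons (mv 1039 (cons (mv 1041 (cons (fin 973 3 973)
(fin 1101 1 1037)))
(cons (mv 1103 (cons (mv 910 (cons (fin 846 4 846)
(fin 1167 4 910)))
(cons (mv 848 (cons (fin 912 5 847)
(mv 910 (cons (fin 846 4 846)
(mv 1101 (cons (fin 1100 2 1036)
(fin 1165 5 909)))))))
(mv 912 (cons (fin 848 5 847)
(mv 1167 (cons (fin 1231 7 974)
(fin 1104 5 911))))))))
(mv 1041 (cons (fin 973 3 973)
(mv 1042 (cons (fin 1103 1 1038)
(mv 1043 (cons (fin 1044 3 976)
(mv 1107 (cons (fin 1106 0 1039)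
(fin 1108 0 1040))))))))))))
(mv 1166 (cons (cons (mv 909 (cons (fin 973 7 909)
(mv 845 (cons (fin 910 7 845)
(mv 1167 (cons (fin 1231 4 974)
(mv 1229 (cons (fin 1165 5 973)
(mv 1230 (cons (fin 1293 5 1037)
(mv 1168 (cons (fin 1169 1 1165)
(mv 1104 (cons (fin 913 6 912)
(mv 1227 (cons (fin 1228 2 1163)
(mv 1232 (cons (fin 1041 6 976)
(mv 1297 (cons (fin 1233 4 1040)
(mv 1296 (cons (fin 1361 4 1104)
(mv 1295 (cons (fin 1294 3 1229)
(fin 1359 5 1103)))))))))))))))))))))))))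
(mv 973 (cons (fin 909 7 909)
(mv 1041 (cons (fin 1039 3 973)
(mv 1167 (cons (fin 1231 4 974)
(mv 913 (cons (mv 849 (cons (fin 785 5 784)
(fin 1104 5 848)))
(cons (mv 1168 (cons (fin 1104 6 912)
(mv 1169 (cons (fin 1101 3 1101)
(mv 1229 (cons (fin 1230 1 1165)
(mv 1234 (cons (fin 1233 0 1166)
(mv 1170 (cons (fin 1235 0 1167)
(mv 1106 (cons (fin 1107 2 1103)
(fin 1042 7 977)))))))))))))
(mv 849 (cons (fin 785 5 784)
(mv 848 (cons (fin 784 7 784)
(mv 850 (cons (fin 786 6 785)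
(mv 1042 (cons (fin 1106 4 849)
(mv 1043 (cons (fin 1044 3 976)
(mv 979 (cons (fin 980 2 976)
(mv 1107 (cons (fin 1108 0 1040)
(mv 915 (cons (fin 914 7 850)
(mv 916 (cons (fin 851 0 848)
(fin 852 6 851)))))))))))))))))))))))))))))
(cons (mv 909 (cons (fin 973 7 909)
(mv 910 (cons (fin 845 7 845)
(mv 1165 (cons (fin 1101 5 909)
(fin 1229 5 973)))))))
(cons (mv 909 (cons (fin 973 7 909)
(mv 910 (cons (fin 845 7 845)
(mv 1101 (cons (fin 1165 5 909)
(mv 1041 (cons (fin 1039 1 1037)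
(mv 1167 (cons (fin 1231 4 974)
(mv 1099 (cons (fin 1100 0 1099)
(mv 1168 (cons (fin 1169 3 1101)
(mv 1104 (cons (fin 913 6 912)
(fin 1232 6 976)))))))))))))))))
(mv 1165 (cons (fin 1229 5 973)
(mv 1101 (cons (fin 910 5 909)
(mv 1039 (cons (fin 1041 1 1037)
(mv 1100 (cons (fin 1099 2 1035)
(mv 1167 (cons (fin 1168 3 1100)
(fin 1231 4 974))))))))))))))))))))
(mv 913 (cons (cons (mv 785 (cons (fin 849 5 784)
(mv 975 (cons (fin 914 2 910)
(mv 909 (cons (fin 910 3 909)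
(mv 973 (cons (fin 908 3 908)
(fin 912 2 909)))))))))
(mv 849 (cons (fin 785 5 784)
(mv 1104 (cons (fin 912 6 848)
(fin 1168 6 912))))))
(cons (mv 975 (cons (fin 914 2 910)
(mv 909 (cons (fin 910 3 909)
(mv 973 (cons (fin 908 3 908)
(fin 912 2 909)))))))
(mv 785 (cons (fin 849 5 784)
(mv 975 (cons (fin 914 2 910)
(mv 909 (cons (fin 910 3 909)
(mv 973 (cons (fin 908 3 908)
(mv 781 (cons (fin 845 4 781)
(mv 1039 (cons (fin 972 0 972)
(mv 1166 (cons (fin 1102 7 909)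
(mv 1168 (cons (fin 1104 6 912)
(mv 1167 (cons (cons (mv 1103 (cons (fin 1231 7 974)
(fin 1230 5 974)))
(mv 1165 (cons (cons (mv 1100 (cons (fin 1101 3 1100)
(mv 1164 (cons (fin 1099 3 1099)
(mv 1228 (cons (fin 1227 1 1163)
(fin 1229 1 1164)))))))
(mv 1100 (cons (fin 1101 3 1100)
(mv 1164 (cons (fin 1099 3 1099)
(mv 1232 (cons (fin 1231 0 1164)
(fin 1233 0 1165))))))))
(cons (mv 1228 (cons (fin 1229 1 1164)
(mv 1164 (cons (fin 1227 1 1163)
(mv 1232 (cons (fin 1231 0 1164)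
(fin 1233 0 1165)))))))
(mv 1100 (cons (fin 1101 3 1100)
(mv 1229 (cons (fin 1228 1 1164)
(mv 1169 (cons (fin 1230 1 1165)
(mv 1233 (cons (fin 1232 0 1165)
(fin 1234 0 1166)))))))))))))
(cons (mv 1103 (cons (fin 1230 5 974)
(fin 1232 4 975)))
(mv 1103 (cons (fin 1231 7 974)
(fin 1232 4 975)))))))))))))))))))))))))))
(cons (mv 1041 (cons (cons (mv 973 (cons (fin 1039 3 973)
(fin 975 0 973)))
(mv 1039 (cons (fin 973 3 973)
(mv 1102 (cons (fin 1101 1 1037)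
(mv 1042 (cons (fin 1103 1 1038)
(mv 1043 (cons (fin 1044 3 976)
(mv 1107 (cons (fin 1106 0 1039)
(fin 1108 0 1040))))))))))))
(cons (mv 1042 (cons (fin 975 0 974)
(mv 1043 (cons (fin 1044 3 976)
(mv 979 (cons (fin 980 2 976)
(mv 1103 (cons (fin 1104 1 1039)
(mv 1039 (cons (fin 1102 1 1038)
(mv 1107 (cons (fin 1106 0 1039)
(fin 1108 0 1040)))))))))))))
(mv 975 (cons (fin 973 0 973)
(fin 1042 0 974))))))
(cons (mv 913 (cons (cons (mv 785 (cons (fin 849 5 784)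
(mv 975 (cons (fin 914 2 910)
(mv 910 (cons (fin 909 3 909)
(mv 1041 (cons (fin 1042 0 974)
(mv 1168 (cons (fin 1104 6 912)
(mv 1039 (cons (mv 846 (cons (fin 782 4 782)
(fin 1103 4 846)))
(cons (mv 846 (cons (fin 782 4 782)
(mv 845 (cons (fin 781 7 781)
(mv 847 (cons (fin 783 6 782)
(mv 848 (cons (fin 784 2 781)
(fin 912 0 845)))))))))
(mv 1102 (cons (fin 1101 1 1037)
(mv 1166 (cons (fin 1230 6 974)
(mv 1167 (cons (fin 1103 7 910)
(fin 1231 4 974))))))))))))))))))))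
(cons (mv 914 (cons (fin 975 2 910)
(mv 915 (cons (fin 916 1 912)
(mv 1104 (cons (fin 1168 6 912)
(mv 912 (cons (mv 848 (cons (fin 847 3 847)
(mv 784 (cons (fin 720 4 720)
(fin 1041 4 784)))))
(cons (mv 851 (cons (fin 852 2 848)
(mv 979 (cons (fin 980 0 912)
(mv 1103 (cons (fin 1167 5 911)
(mv 1043 (cons (mv 850 (cons (fin 786 7 786)
(fin 1107 7 850)))
(mv 1042 (cons (fin 1041 1 1039)
(fin 1106 5 850)))))))))))
(mv 848 (cons (fin 847 3 847)
(mv 1103 (cons (fin 1039 5 847)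
(fin 1167 5 911))))))))))))))
(mv 785 (cons (fin 849 5 784)
(mv 975 (cons (fin 914 2 910)
(mv 910 (cons (fin 909 3 909)
(mv 1041 (cons (fin 1042 0 974)
(mv 1039 (cons (mv 846 (cons (fin 782 4 782)
(fin 1103 4 846)))
(cons (mv 846 (cons (fin 782 4 782)
(mv 845 (cons (fin 781 7 781)
(mv 847 (cons (fin 783 6 782)
(mv 848 (cons (fin 784 2 781)
(fin 912 0 845)))))))))
(mv 1102 (cons (fin 1101 1 1037)
(mv 1166 (cons (fin 1230 6 974)
(mv 1167 (cons (fin 1103 7 910)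
(fin 1231 4 974))))))))))))))))))))
(cons (mv 849 (cons (fin 785 5 784)
(mv 1104 (cons (fin 1041 5 848)
(fin 912 6 848)))))
(cons (mv 785 (cons (fin 849 5 784)
(mv 975 (cons (fin 914 2 910)
(mv 910 (cons (fin 909 3 909)
(mv 1168 (cons (fin 1104 6 912)
(mv 846 (cons (mv 1039 (cons (fin 782 4 782)
(fin 1103 4 846)))
(cons (mv 781 (cons (fin 845 7 781)
(mv 782 (cons (fin 717 7 717)
(mv 783 (cons (fin 719 6 718)
(fin 847 6 782)))))))
(mv 845 (cons (fin 781 7 781)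
(mv 847 (cons (fin 783 6 782)
(mv 848 (cons (fin 784 2 781)
(fin 912 0 845))))))))))))))))))
(mv 785 (cons (fin 849 5 784)
(mv 975 (cons (fin 914 2 910)
(mv 910 (cons (fin 909 3 909)
(mv 1041 (cons (fin 1042 0 974)
(mv 1168 (cons (fin 1104 6 912)
(mv 846 (cons (mv 1039 (cons (fin 782 4 782)
(fin 1103 4 846)))
(cons (mv 781 (cons (fin 845 7 781)
(mv 782 (cons (fin 717 7 717)
(mv 783 (cons (fin 719 6 718)
(fin 847 6 782)))))))
(mv 781 (cons (fin 845 7 781)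
(mv 783 (cons (fin 847 6 782)
(mv 1102 (cons (cons (mv 1039 (cons (fin 1101 1 1037)
(fin 1103 4 846)))
(mv 1101 (cons (fin 1165 5 909)
(mv 1167 (cons (fin 1103 4 910)
(mv 1166 (cons (fin 1169 3 1101)
(fin 1231 4 974))))))))
(cons (mv 1101 (cons (fin 1039 1 1037)
(fin 1165 5 909)))
(mv 1103 (cons (fin 1039 4 846)
(fin 1167 4 910)))))))))))))))))))))))))))
(mv 975 (cons (mv 1041 (cons (fin 973 0 973)
(fin 1042 0 974)))
(cons (mv 909 (cons (fin 910 3 909)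
(mv 913 (cons (fin 914 2 910)
(mv 973 (cons (fin 908 3 908)
(fin 912 2 909)))))))
(mv 910 (cons (fin 909 3 909)
(mv 913 (cons (fin 914 2 910)
(mv 785 (cons (fin 849 5 784)
(mv 1041 (cons (fin 1042 0 974)
(mv 1039 (cons (mv 846 (cons (fin 782 4 782)
(fin 1103 4 846)))
(cons (mv 846 (cons (fin 782 4 782)
(mv 845 (cons (fin 781 7 781)
(mv 847 (cons (fin 783 6 782)
(mv 848 (cons (fin 784 2 781)
(fin 912 0 845)))))))))
(mv 1102 (cons (fin 1101 1 1037)
(mv 1166 (cons (fin 1230 6 974)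
(mv 1167 (cons (fin 1103 7 910)
(fin 1231 4 974))))))))))))))))))))))))))
(cons (mv 974 (cons (cons (mv 975 (cons (fin 1037 1 973)
(mv 1041 (cons (fin 973 0 973)
(fin 1042 0 974)))))
(mv 1102 (cons (cons (cons (mv 1166 (cons (cons (mv 909 (cons (fin 973 7 909)
(mv 845 (cons (fin 910 7 845)
(mv 1167 (cons (fin 1231 4 974)
(mv 1229 (cons (fin 1165 5 973)
(mv 1230 (cons (fin 1293 5 1037)
(mv 1168 (cons (fin 1169 1 1165)
(mv 1104 (cons (fin 913 6 912)
(mv 912 (cons (fin 1103 5 911)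
(mv 1227 (cons (fin 1228 2 1163)
(mv 1232 (cons (fin 1041 6 976)
(mv 1297 (cons (fin 1233 4 1040)
(mv 1296 (cons (fin 1361 4 1104)
(mv 1295 (cons (fin 1294 3 1229)
(fin 1359 5 1103)))))))))))))))))))))))))))
(mv 909 (cons (fin 973 7 909)
(mv 910 (cons (fin 845 7 845)
(mv 1165 (cons (fin 1101 5 909)
(fin 1229 5 973))))))))
(cons (mv 909 (cons (fin 973 7 909)
(mv 910 (cons (fin 845 7 845)
(mv 1167 (cons (fin 1103 4 910)
(fin 1231 4 974)))))))
(cons (mv 1165 (cons (fin 1229 5 973)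
(mv 910 (cons (fin 1101 5 909)
(mv 1167 (cons (fin 1103 4 910)
(fin 1231 4 974)))))))
(mv 909 (cons (fin 973 7 909)
(mv 1167 (cons (fin 1231 4 974)
(mv 1229 (cons (fin 1165 5 973)
(mv 1230 (cons (fin 1293 5 1037)
(mv 1168 (cons (fin 1169 1 1165)
(mv 1104 (cons (fin 913 6 912)
(mv 912 (cons (fin 1103 5 911)
(mv 1227 (cons (fin 1228 2 1163)
(mv 1232 (cons (fin 1041 6 976)
(mv 1297 (cons (fin 1233 4 1040)
(mv 1296 (cons (fin 1361 4 1104)
(mv 1295 (cons (fin 1294 3 1229)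
(fin 1359 5 1103)))))))))))))))))))))))))))))
(mv 910 (cons (cons (mv 845 (cons (fin 909 7 845)
(mv 781 (cons (fin 846 7 781)
(mv 1101 (cons (fin 1165 5 909)
(mv 1103 (cons (fin 1167 4 910)
(mv 1104 (cons (fin 1041 2 1037)
(mv 1168 (cons (fin 1169 0 1101)
(fin 913 6 912)))))))))))))
(mv 845 (cons (fin 909 7 845)
(mv 846 (cons (fin 781 7 781)
(mv 847 (cons (fin 783 6 782)
(mv 1103 (cons (fin 1167 4 910)
(mv 848 (cons (cons (mv 784 (cons (fin 785 2 781)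
(mv 912 (cons (fin 913 0 845)
(fin 1041 4 784)))))
(mv 785 (cons (fin 784 2 781)
(mv 849 (cons (fin 786 2 782)
(fin 912 6 784))))))
(cons (mv 913 (cons (fin 912 0 845)
(mv 849 (cons (fin 914 0 846)
(mv 1041 (cons (fin 784 7 784)
(fin 1104 5 848)))))))
(cons (mv 785 (cons (fin 784 2 781)
(mv 849 (cons (fin 786 2 782)
(fin 913 5 784)))))
(mv 913 (cons (fin 912 0 845)
(mv 849 (cons (fin 914 0 846)
(fin 785 5 784))))))))))))))))))
(cons (mv 1101 (cons (fin 1165 5 909)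
(mv 846 (cons (fin 1037 5 845)
(mv 783 (cons (fin 847 6 782)
(mv 719 (cons (fin 782 6 718)
(mv 1103 (cons (fin 1167 4 910)
(mv 1104 (cons (fin 1041 2 1037)
(mv 1168 (cons (fin 1169 0 1101)
(fin 913 6 912)))))))))))))))
(cons (mv 845 (cons (fin 909 7 845)
(mv 846 (cons (fin 781 7 781)
(mv 1101 (cons (fin 1037 5 845)
(fin 1165 5 909)))))))
(mv 845 (cons (fin 909 7 845)
(mv 1101 (cons (fin 1165 5 909)
(mv 1103 (cons (fin 1167 4 910)
(mv 1104 (cons (fin 1041 2 1037)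
(mv 1168 (cons (fin 1169 0 1101)
(fin 913 6 912))))))))))))))))
(cons (mv 1166 (cons (cons (mv 909 (cons (fin 973 7 909)
(mv 1167 (cons (fin 1231 4 974)
(mv 1229 (cons (fin 1165 5 973)
(mv 1230 (cons (fin 1293 5 1037)
(mv 1168 (cons (fin 1169 1 1165)
(mv 1104 (cons (fin 913 6 912)
(mv 912 (cons (fin 1103 5 911)
(mv 1227 (cons (fin 1228 2 1163)
(mv 1232 (cons (fin 1041 6 976)
(mv 1297 (cons (fin 1233 4 1040)
(mv 1296 (cons (fin 1361 4 1104)
(mv 1295 (cons (fin 1294 3 1229)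
(fin 1359 5 1103)))))))))))))))))))))))))
(mv 973 (cons (fin 909 7 909)
(mv 1229 (cons (fin 1165 5 973)
(mv 1230 (cons (fin 1037 7 973)
(fin 1293 5 1037))))))))
(cons (mv 1167 (cons (fin 1231 4 974)
(mv 1229 (cons (fin 1165 5 973)
(mv 1230 (cons (fin 1293 5 1037)
(mv 1168 (cons (fin 1169 1 1165)
(mv 1104 (cons (fin 913 6 912)
(mv 912 (cons (fin 1103 5 911)
(mv 1227 (cons (fin 1228 2 1163)
(mv 1232 (cons (fin 1041 6 976)
(mv 1297 (cons (fin 1233 4 1040)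
(mv 1296 (cons (fin 1361 4 1104)
(mv 1295 (cons (fin 1294 3 1229)
(fin 1359 5 1103)))))))))))))))))))))))
(cons (mv 973 (cons (fin 909 7 909)
(mv 1230 (cons (fin 1037 7 973)
(mv 1231 (cons (fin 1167 4 974)
(fin 1295 4 1038)))))))
(mv 909 (cons (fin 973 7 909)
(mv 1165 (cons (fin 1229 5 973)
(mv 1167 (cons (fin 1231 4 974)
(mv 1168 (cons (mv 1101 (cons (fin 1100 3 1100)
(fin 1169 3 1101)))
(mv 1104 (cons (fin 913 6 912)
(mv 1103 (cons (fin 1164 2 1100)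
(fin 912 5 911)))))))))))))))))
(mv 1166 (cons (cons (mv 909 (cons (fin 973 7 909)
(mv 845 (cons (fin 910 7 845)
(mv 1229 (cons (fin 1165 5 973)
(mv 1230 (cons (fin 1293 5 1037)
(mv 1231 (cons (fin 1167 4 974)
(fin 1295 4 1038)))))))))))
(mv 909 (cons (fin 973 7 909)
(mv 910 (cons (fin 845 7 845)
(mv 1165 (cons (fin 1101 5 909)
(fin 1229 5 973))))))))
(cons (mv 909 (cons (fin 973 7 909)
(mv 910 (cons (fin 845 7 845)
(mv 1167 (cons (fin 1103 4 910)
(fin 1231 4 974)))))))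
(cons (mv 1165 (cons (fin 1229 5 973)
(mv 910 (cons (fin 1101 5 909)
(mv 1167 (cons (fin 1103 4 910)
(fin 1231 4 974)))))))
(mv 909 (cons (fin 973 7 909)
(mv 1229 (cons (fin 1165 5 973)
(mv 1230 (cons (fin 1293 5 1037)
(mv 1231 (cons (fin 1167 4 974)
(fin 1295 4 1038)))))))))))))))
(cons (cons (mv 913 (cons (mv 849 (cons (fin 785 5 784)
(mv 1104 (cons (fin 1041 5 848)
(fin 912 6 848)))))
(cons (mv 1104 (cons (fin 1168 6 912)
(mv 1166 (cons (cons (mv 909 (cons (fin 973 7 909)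
(mv 910 (cons (fin 845 7 845)
(mv 1165 (cons (fin 1101 5 909)
(fin 1229 5 973)))))))
(mv 973 (cons (fin 909 7 909)
(mv 1230 (cons (fin 1037 7 973)
(mv 1293 (cons (fin 1229 5 1037)
(mv 1294 (cons (fin 1357 5 1101)
(mv 1295 (cons (fin 1231 4 1038)
(fin 1359 4 1102))))))))))))
(cons (mv 1165 (cons (fin 1229 5 973)
(mv 1101 (cons (fin 910 5 909)
(mv 1103 (cons (fin 1164 1 1100)
(fin 1041 2 1037)))))))
(mv 909 (cons (fin 973 7 909)
(mv 910 (cons (fin 845 7 845)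
(mv 1101 (cons (fin 1165 5 909)
(mv 1037 (cons (fin 846 5 845)
(mv 1103 (cons (fin 1036 3 1036)
(fin 1041 2 1037))))))))))))))))
(mv 785 (cons (fin 849 5 784)
(mv 1166 (cons (cons (mv 909 (cons (fin 973 7 909)
(mv 910 (cons (fin 845 7 845)
(mv 1165 (cons (fin 1101 5 909)
(fin 1229 5 973)))))))
(mv 973 (cons (fin 909 7 909)
(mv 1230 (cons (fin 1037 7 973)
(mv 1293 (cons (fin 1229 5 1037)
(mv 1294 (cons (fin 1357 5 1101)
(mv 1295 (cons (fin 1231 4 1038)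
(fin 1359 4 1102))))))))))))
(cons (mv 1165 (cons (fin 1229 5 973)
(mv 910 (cons (fin 1101 5 909)
(mv 845 (cons (fin 909 7 845)
(mv 846 (cons (fin 781 7 781)
(mv 783 (cons (fin 847 6 782)
(mv 782 (cons (fin 784 1 781)
(fin 719 6 718)))))))))))))
(cons (mv 909 (cons (fin 973 7 909)
(mv 910 (cons (fin 845 7 845)
(mv 1101 (cons (fin 1165 5 909)
(mv 846 (cons (fin 1037 5 845)
(mv 783 (cons (fin 847 6 782)
(mv 782 (cons (fin 719 6 718)
(mv 717 (cons (fin 781 7 717)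
(mv 718 (cons (fin 784 3 717)
(fin 653 7 653)))))))))))))))))
(mv 1229 (cons (fin 1165 5 973)
(mv 1230 (cons (fin 1293 5 1037)
(mv 1037 (cons (fin 973 7 973)
(mv 1294 (cons (fin 1101 7 1037)
(mv 1295 (cons (fin 1231 4 1038)
(fin 1359 4 1102))))))))))))))))))))
(mv 1166 (cons (cons (mv 909 (cons (fin 973 7 909)
(mv 910 (cons (fin 845 7 845)
(mv 1167 (cons (fin 1103 4 910)
(fin 1231 4 974)))))))
(mv 973 (cons (fin 909 7 909)
(mv 1230 (cons (fin 1037 7 973)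
(mv 1293 (cons (fin 1229 5 1037)
(mv 1294 (cons (fin 1357 5 1101)
(mv 1295 (cons (fin 1231 4 1038)
(fin 1359 4 1102))))))))))))
(cons (mv 1167 (cons (fin 1231 4 974)
(mv 910 (cons (fin 1103 4 910)
(mv 845 (cons (fin 909 7 845)
(mv 846 (cons (fin 781 7 781)
(mv 783 (cons (fin 847 6 782)
(mv 782 (cons (fin 719 6 718)
(mv 785 (cons (fin 784 1 781)
(mv 843 (cons (fin 844 2 779)
(mv 913 (cons (fin 849 5 784)
(mv 1101 (cons (fin 1037 5 845)
(mv 1168 (cons (fin 1169 3 1101)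
(fin 1104 6 912)))))))))))))))))))))))
(cons (mv 909 (cons (fin 973 7 909)
(mv 910 (cons (fin 845 7 845)
(mv 1103 (cons (fin 1167 4 910)
(mv 1104 (cons (mv 913 (cons (fin 1168 6 912)
(mv 849 (cons (fin 785 5 784)
(fin 1041 5 848)))))
(cons (mv 913 (cons (fin 1168 6 912)
(mv 849 (cons (fin 785 5 784)
(fin 912 6 848)))))
(mv 1101 (cons (fin 1041 2 1037)
(mv 1037 (cons (fin 1036 3 1036)
(fin 846 5 845))))))))))))))
(mv 1167 (cons (fin 1231 4 974)
(mv 1103 (cons (fin 910 4 910)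
(mv 1104 (cons (fin 912 5 911)
(mv 913 (cons (fin 1168 6 912)
(mv 849 (cons (fin 785 5 784)
(fin 1041 5 848))))))))))))))))
(cons (mv 1166 (cons (cons (mv 1165 (cons (fin 1229 5 973)
(mv 910 (cons (fin 1101 5 909)
(mv 1167 (cons (fin 1103 4 910)
(fin 1231 4 974)))))))
(mv 1229 (cons (fin 1165 5 973)
(mv 1230 (cons (fin 1293 5 1037)
(mv 1037 (cons (fin 973 7 973)
(mv 1294 (cons (fin 1101 7 1037)
(mv 1295 (cons (fin 1231 4 1038)
(fin 1359 4 1102))))))))))))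
(cons (mv 1167 (cons (fin 1231 4 974)
(mv 1103 (cons (fin 910 4 910)
(mv 1104 (cons (fin 912 5 911)
(mv 913 (cons (fin 1168 6 912)
(mv 849 (cons (fin 785 5 784)
(fin 1041 5 848)))))))))))
(mv 1229 (cons (fin 1165 5 973)
(mv 1230 (cons (fin 1293 5 1037)
(mv 1037 (cons (fin 973 7 973)
(mv 1101 (cons (fin 1294 7 1037)
(mv 910 (cons (fin 846 5 845)
(mv 1103 (cons (fin 1167 4 910)
(mv 1036 (cons (fin 1104 3 1036)
(fin 1035 0 1035))))))))))))))))))
(cons (mv 1166 (cons (cons (mv 909 (cons (fin 973 7 909)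
(mv 845 (cons (fin 910 7 845)
(mv 1167 (cons (fin 1231 4 974)
(mv 1229 (cons (fin 1165 5 973)
(mv 1230 (cons (fin 1293 5 1037)
(mv 1168 (cons (fin 1169 1 1165)
(mv 1104 (cons (fin 913 6 912)
(mv 912 (cons (fin 1103 5 911)
(mv 1227 (cons (fin 1228 2 1163)
(mv 1232 (cons (fin 1041 6 976)
(mv 1297 (cons (fin 1233 4 1040)
(mv 1296 (cons (fin 1361 4 1104)
(mv 1295 (cons (fin 1294 3 1229)
(fin 1359 5 1103)))))))))))))))))))))))))))
(mv 973 (cons (fin 909 7 909)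
(mv 1229 (cons (fin 1165 5 973)
(mv 1230 (cons (fin 1037 7 973)
(fin 1293 5 1037))))))))
(cons (mv 1165 (cons (fin 1229 5 973)
(mv 1167 (cons (fin 1231 4 974)
(mv 1103 (cons (fin 910 4 910)
(mv 1104 (cons (fin 1164 2 1100)
(fin 912 5 911)))))))))
(mv 909 (cons (fin 973 7 909)
(mv 910 (cons (fin 845 7 845)
(mv 1167 (cons (fin 1103 4 910)
(fin 1231 4 974))))))))))
(mv 1166 (cons (cons (mv 909 (cons (fin 973 7 909)
(mv 845 (cons (fin 910 7 845)
(mv 1167 (cons (fin 1231 4 974)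
(mv 1229 (cons (fin 1165 5 973)
(mv 1230 (cons (fin 1293 5 1037)
(mv 1168 (cons (fin 1169 1 1165)
(mv 1104 (cons (fin 913 6 912)
(mv 1227 (cons (fin 1228 2 1163)
(mv 1232 (cons (fin 1041 6 976)
(mv 1297 (cons (fin 1233 4 1040)
(mv 1296 (cons (fin 1361 4 1104)
(mv 1295 (cons (fin 1294 3 1229)
(fin 1359 5 1103)))))))))))))))))))))))))
(mv 973 (cons (fin 909 7 909)
(mv 1167 (cons (fin 1231 4 974)
(mv 1230 (cons (fin 1037 7 973)
(mv 1229 (cons (fin 1293 5 1037)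
(mv 1168 (cons (fin 1169 1 1165)
(mv 1104 (cons (fin 913 6 912)
(mv 1227 (cons (fin 1228 2 1163)
(mv 1232 (cons (fin 1041 6 976)
(mv 1297 (cons (fin 1233 4 1040)
(mv 1296 (cons (fin 1361 4 1104)
(mv 1295 (cons (fin 1294 3 1229)
(fin 1359 5 1103))))))))))))))))))))))))
(cons (mv 1165 (cons (fin 1229 5 973)
(mv 1101 (cons (fin 910 5 909)
(mv 1167 (cons (fin 1231 4 974)
(mv 1100 (cons (fin 1168 3 1100)
(fin 1099 0 1099)))))))))
(cons (mv 909 (cons (fin 973 7 909)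
(mv 910 (cons (fin 845 7 845)
(mv 1101 (cons (fin 1165 5 909)
(mv 846 (cons (fin 1037 5 845)
(mv 783 (cons (fin 847 6 782)
(mv 782 (cons (fin 719 6 718)
(mv 717 (cons (fin 781 7 717)
(mv 718 (cons (fin 653 7 653)
(mv 715 (cons (fin 716 0 715)
(mv 785 (cons (fin 784 3 717)
(mv 913 (cons (fin 849 5 784)
(mv 1167 (cons (fin 1231 4 974)
(mv 1168 (cons (fin 1169 3 1101)
(fin 1104 6 912)))))))))))))))))))))))))))
(mv 909 (cons (fin 973 7 909)
(mv 910 (cons (fin 845 7 845)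
(mv 1165 (cons (fin 1101 5 909)
(fin 1229 5 973)))))))))))))))))
(cons (mv 975 (cons (mv 1041 (cons (fin 973 0 973)
(fin 1042 0 974)))
(cons (mv 909 (cons (fin 910 3 909)
(mv 908 (cons (fin 973 3 908)
(mv 913 (cons (fin 914 2 910)
(mv 849 (cons (fin 785 5 784)
(mv 1104 (cons (fin 912 6 848)
(fin 1168 6 912)))))))))))
(mv 909 (cons (fin 910 3 909)
(mv 913 (cons (fin 914 2 910)
(mv 849 (cons (fin 785 5 784)
(mv 1041 (cons (fin 1042 0 974)
(fin 1104 5 848))))))))))))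
(cons (mv 975 (cons (fin 1037 1 973)
(mv 909 (cons (fin 910 3 909)
(mv 908 (cons (fin 973 3 908)
(mv 913 (cons (fin 914 2 910)
(mv 849 (cons (fin 785 5 784)
(mv 1104 (cons (fin 912 6 848)
(fin 1168 6 912)))))))))))))
(mv 975 (cons (fin 1037 1 973)
(mv 909 (cons (fin 910 3 909)
(mv 913 (cons (fin 914 2 910)
(mv 849 (cons (fin 785 5 784)
(mv 1041 (cons (fin 1042 0 974)
(fin 1104 5 848)))))))))))))))
(cons (mv 1037 (cons (fin 1039 2 973)
(mv 974 (cons (fin 975 1 973)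
(mv 1101 (cons (cons (mv 910 (cons (fin 846 5 845)
(mv 1165 (cons (fin 1102 5 909)
(fin 973 6 909)))))
(mv 910 (cons (fin 846 5 845)
(mv 1102 (cons (cons (mv 845 (cons (fin 909 7 845)
(mv 1103 (cons (fin 1167 4 910)
(mv 1036 (cons (fin 1104 3 1036)
(fin 1035 0 1035)))))))
(mv 909 (cons (fin 845 7 845)
(mv 973 (cons (fin 1166 7 909)
(mv 908 (cons (fin 844 7 844)
(mv 906 (cons (fin 907 0 906)
(mv 1100 (cons (fin 1164 5 908)
(mv 1099 (cons (fin 1098 2 1034)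
(mv 1035 (cons (fin 1034 3 1034)
(mv 1163 (cons (fin 1162 1 1098)
(mv 971 (cons (fin 970 7 906)
(fin 972 6 907))))))))))))))))))))
(cons (mv 1103 (cons (fin 1167 4 910)
(mv 1036 (cons (fin 1104 3 1036)
(fin 1035 0 1035)))))
(mv 845 (cons (fin 909 7 845)
(mv 1103 (cons (fin 1167 4 910)
(mv 1104 (cons (fin 1036 3 1036)
(fin 1041 2 1037)))))))))))))
(cons (mv 1165 (cons (fin 1229 6 973)
(mv 973 (cons (cons (mv 908 (cons (fin 972 7 908)
(mv 909 (cons (fin 844 7 844)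
(mv 845 (cons (fin 781 4 781)
(fin 1102 4 845)))))))
(mv 1164 (cons (fin 1228 5 972)
(mv 909 (cons (fin 1100 5 908)
(mv 845 (cons (fin 781 4 781)
(fin 1102 4 845))))))))
(cons (mv 972 (cons (fin 908 7 908)
(mv 971 (cons (fin 970 0 970)
(mv 907 (cons (fin 906 3 906)
(mv 1034 (cons (fin 1035 1 970)
(mv 1164 (cons (fin 1228 5 972)
(mv 1100 (cons (fin 1036 7 907)
(mv 1098 (cons (fin 1099 2 1034)
(mv 1166 (cons (fin 1230 4 973)
(mv 1167 (cons (fin 1168 3 1100)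
(mv 1231 (cons (fin 1232 0 1164)
(fin 1102 4 974)))))))))))))))))))))
(mv 908 (cons (fin 972 7 908)
(mv 909 (cons (fin 844 7 844)
(mv 1164 (cons (fin 1100 5 908)
(fin 1228 5 972))))))))))))
(cons (mv 910 (cons (fin 846 5 845)
(mv 1165 (cons (fin 973 6 909)
(fin 1229 6 973)))))
(mv 910 (cons (fin 846 5 845)
(mv 1165 (cons (fin 1102 5 909)
(fin 1229 6 973)))))))))))))
(mv 1039 (cons (fin 1037 2 973)
(mv 1103 (cons (cons (mv 912 (cons (fin 848 5 847)
(mv 1167 (cons (fin 1104 5 911)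
(fin 1231 6 975)))))
(mv 848 (cons (fin 912 5 847)
(mv 1041 (cons (mv 1102 (cons (fin 1101 1 1037)
(fin 1042 1 1038)))
(cons (mv 974 (cons (fin 973 3 973)
(mv 846 (cons (fin 910 4 846)
(mv 1104 (cons (mv 913 (cons (fin 849 5 848)
(fin 1168 6 912)))
(cons (mv 1042 (cons (fin 1043 1 1039)
(mv 1106 (cons (fin 1107 0 1039)
(mv 1168 (cons (fin 1232 6 976)
(mv 1169 (cons (fin 1233 4 976)
(mv 1170 (cons (fin 1171 3 1103)
(fin 1234 7 977)))))))))))
(mv 849 (cons (fin 913 5 848)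
(mv 1042 (cons (fin 1043 1 1039)
(mv 1106 (cons (fin 1107 0 1039)
(mv 847 (cons (cons (mv 781 (cons (fin 782 3 781)
(mv 785 (cons (fin 786 2 782)
(mv 845 (cons (fin 780 3 780)
(fin 784 2 781)))))))
(mv 785 (cons (fin 786 2 782)
(mv 845 (cons (fin 784 2 781)
(mv 780 (cons (fin 781 3 780)
(mv 844 (cons (fin 779 3 779)
(mv 908 (cons (fin 907 1 843)
(fin 909 1 844))))))))))))
(cons (mv 782 (cons (fin 781 3 781)
(mv 850 (cons (fin 783 3 782)
(mv 787 (cons (fin 786 2 783)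
(mv 851 (cons (fin 788 2 784)
(mv 915 (cons (fin 914 0 847)
(fin 916 0 848)))))))))))
(cons (mv 786 (cons (fin 785 2 782)
(mv 850 (cons (fin 787 2 783)
(mv 783 (cons (fin 782 3 782)
(mv 851 (cons (fin 784 3 783)
(mv 915 (cons (fin 914 0 847)
(fin 916 0 848)))))))))))
(mv 781 (cons (fin 782 3 781)
(mv 845 (cons (fin 780 3 780)
(mv 784 (cons (fin 785 2 781)
(mv 844 (cons (fin 783 2 780)
(mv 908 (cons (fin 907 1 843)
(fin 909 1 844))))))))))))))))))))))))))))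
(mv 974 (cons (fin 973 3 973)
(mv 846 (cons (fin 910 4 846)
(mv 1101 (cons (fin 1102 1 1037)
(mv 849 (cons (cons (mv 913 (cons (fin 784 7 784)
(fin 785 5 784)))
(mv 847 (cons (cons (mv 781 (cons (fin 782 3 781)
(mv 785 (cons (fin 786 2 782)
(mv 845 (cons (fin 780 3 780)
(fin 784 2 781)))))))
(mv 785 (cons (fin 786 2 782)
(mv 845 (cons (fin 784 2 781)
(mv 780 (cons (fin 781 3 780)
(mv 844 (cons (fin 779 3 779)
(mv 908 (cons (fin 907 1 843)
(fin 909 1 844))))))))))))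
(cons (mv 782 (cons (fin 781 3 781)
(mv 850 (cons (fin 783 3 782)
(mv 787 (cons (fin 786 2 783)
(mv 851 (cons (fin 788 2 784)
(mv 915 (cons (fin 914 0 847)
(fin 916 0 848)))))))))))
(cons (mv 786 (cons (fin 785 2 782)
(mv 850 (cons (fin 787 2 783)
(mv 783 (cons (fin 782 3 782)
(mv 851 (cons (fin 784 3 783)
(mv 915 (cons (fin 914 0 847)
(fin 916 0 848)))))))))))
(mv 781 (cons (fin 782 3 781)
(mv 845 (cons (fin 780 3 780)
(mv 784 (cons (fin 785 2 781)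
(mv 844 (cons (fin 783 2 780)
(mv 908 (cons (fin 907 1 843)
(fin 909 1 844))))))))))))))))
(cons (mv 913 (cons (fin 784 7 784)
(fin 1104 5 848)))
(mv 913 (cons (fin 785 5 784)
(fin 1104 5 848))))))))))))))))))
(cons (mv 1167 (cons (fin 1231 6 975)
(mv 1102 (cons (mv 1041 (cons (fin 1101 1 1037)
(fin 1042 1 1038)))
(cons (mv 974 (cons (fin 910 4 910)
(mv 1041 (cons (fin 973 3 973)
(fin 1042 1 1038)))))
(mv 910 (cons (fin 974 4 910)
(mv 1101 (cons (fin 1100 2 1036)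
(mv 1168 (cons (mv 1104 (cons (fin 1169 0 1101)
(fin 913 6 912)))
(cons (mv 1104 (cons (fin 913 6 912)
(mv 1165 (cons (fin 1164 1 1100)
(mv 1229 (cons (fin 1293 6 1037)
(mv 1166 (cons (fin 1228 1 1164)
(mv 1232 (cons (fin 1233 0 1165)
(fin 1296 7 1039)))))))))))
(mv 1169 (cons (fin 1166 3 1101)
(fin 1170 3 1102)))))))))))))))
(mv 848 (cons (fin 912 5 847)
(mv 1167 (cons (fin 1231 6 975)
(mv 1041 (cons (mv 1102 (cons (fin 1101 1 1037)
(fin 1042 1 1038)))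
(mv 974 (cons (fin 973 3 973)
(mv 846 (cons (fin 910 4 846)
(mv 849 (cons (cons (mv 913 (cons (fin 784 7 784)
(fin 785 5 784)))
(mv 847 (cons (cons (mv 781 (cons (fin 782 3 781)
(mv 785 (cons (fin 786 2 782)
(mv 845 (cons (fin 780 3 780)
(fin 784 2 781)))))))
(mv 785 (cons (fin 786 2 782)
(mv 845 (cons (fin 784 2 781)
(mv 780 (cons (fin 781 3 780)
(mv 844 (cons (fin 779 3 779)
(mv 908 (cons (fin 907 1 843)
(fin 909 1 844))))))))))))
(cons (mv 782 (cons (fin 781 3 781)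
(mv 850 (cons (fin 783 3 782)
(mv 787 (cons (fin 786 2 783)
(mv 851 (cons (fin 788 2 784)
(mv 915 (cons (fin 914 0 847)
(fin 916 0 848)))))))))))
(cons (mv 786 (cons (fin 785 2 782)
(mv 850 (cons (fin 787 2 783)
(mv 783 (cons (fin 782 3 782)
(mv 851 (cons (fin 784 3 783)
(mv 915 (cons (fin 914 0 847)
(fin 916 0 848)))))))))))
(mv 781 (cons (fin 782 3 781)
(mv 845 (cons (fin 780 3 780)
(mv 784 (cons (fin 785 2 781)
(mv 844 (cons (fin 783 2 780)
(mv 908 (cons (fin 907 1 843)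
(fin 909 1 844))))))))))))))))
(cons (mv 913 (cons (fin 784 7 784)
(mv 847 (cons (fin 914 0 846)
(mv 782 (cons (fin 781 3 781)
(mv 850 (cons (fin 783 3 782)
(fin 786 6 785)))))))))
(mv 913 (cons (fin 785 5 784)
(mv 847 (cons (fin 914 0 846)
(mv 782 (cons (fin 781 3 781)
(mv 850 (cons (fin 783 3 782)
(fin 786 6 785))))))))))))))))))))))))))))))
(cons (cons (mv 1037 (cons (fin 1039 2 973)
(mv 974 (cons (fin 975 1 973)
(mv 910 (cons (cons (mv 846 (cons (fin 1101 5 845)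
(mv 781 (cons (fin 845 7 781)
(mv 782 (cons (fin 717 7 717)
(fin 973 5 781)))))))
(mv 1102 (cons (cons (cons (mv 845 (cons (fin 909 7 845)
(mv 1101 (cons (fin 1165 5 909)
(mv 1167 (cons (fin 1103 4 910)
(mv 1166 (cons (fin 1231 4 974)
(mv 1230 (cons (fin 973 7 973)
(fin 1294 7 1037)))))))))))
(mv 845 (cons (fin 909 7 845)
(mv 1167 (cons (fin 1103 4 910)
(mv 1166 (cons (fin 1231 4 974)
(mv 1230 (cons (fin 973 7 973)
(mv 1293 (cons (fin 1229 5 1037)
(mv 1294 (cons (fin 1101 7 1037)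
(fin 1357 5 1101))))))))))))))
(cons (mv 845 (cons (fin 909 7 845)
(mv 1167 (cons (fin 1103 4 910)
(mv 1166 (cons (fin 1231 4 974)
(mv 1229 (cons (fin 1165 5 973)
(mv 1230 (cons (fin 973 7 973)
(fin 1293 5 1037)))))))))))
(mv 1101 (cons (fin 1165 5 909)
(mv 1167 (cons (fin 1103 4 910)
(mv 1166 (cons (fin 1231 4 974)
(mv 1230 (cons (fin 973 7 973)
(fin 1294 7 1037)))))))))))
(cons (cons (mv 909 (cons (fin 845 7 845)
(mv 973 (cons (fin 1166 7 909)
(mv 1101 (cons (fin 1165 5 909)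
(mv 844 (cons (fin 908 7 844)
(mv 1100 (cons (fin 1164 5 908)
(mv 1099 (cons (fin 1098 2 1034)
(mv 1035 (cons (fin 1034 3 1034)
(mv 1036 (cons (fin 1103 3 1035)
(mv 970 (cons (fin 971 3 970)
(mv 1163 (cons (fin 1162 1 1098)
(mv 1227 (cons (fin 972 6 971)
(fin 1291 6 1035)))))))))))))))))))))))
(mv 845 (cons (fin 909 7 845)
(mv 1165 (cons (fin 1101 5 909)
(mv 1166 (cons (fin 1229 5 973)
(mv 1230 (cons (fin 973 7 973)
(mv 1231 (cons (fin 1167 4 974)
(fin 1295 4 1038))))))))))))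
(cons (mv 845 (cons (fin 909 7 845)
(mv 1165 (cons (fin 1101 5 909)
(mv 1166 (cons (fin 1229 5 973)
(mv 1167 (cons (fin 1103 4 910)
(fin 1231 4 974)))))))))
(mv 845 (cons (fin 909 7 845)
(mv 1101 (cons (fin 1165 5 909)
(mv 1103 (cons (fin 1167 4 910)
(mv 1100 (cons (mv 1035 (cons (fin 1036 3 1035)
(mv 1099 (cons (fin 1034 3 1034)
(fin 1098 2 1034)))))
(cons (mv 1099 (cons (fin 1098 2 1034)
(mv 1163 (cons (fin 1162 1 1098)
(fin 1164 1 1099)))))
(mv 1036 (cons (fin 1035 3 1035)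
(mv 1164 (cons (fin 1163 1 1099)
(mv 1228 (cons (fin 973 6 972)
(fin 1292 6 1036)))))))))))))))))))))
(cons (mv 846 (cons (cons (mv 781 (cons (fin 845 7 781)
(mv 782 (cons (fin 717 7 717)
(fin 973 5 781)))))
(mv 783 (cons (fin 847 6 782)
(mv 845 (cons (fin 781 7 781)
(mv 1102 (cons (fin 909 7 845)
(mv 1167 (cons (fin 1103 4 910)
(mv 1166 (cons (fin 1231 4 974)
(mv 1229 (cons (fin 1165 5 973)
(mv 1230 (cons (fin 973 7 973)
(fin 1293 5 1037))))))))))))))))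
(cons (mv 782 (cons (fin 973 5 781)
(mv 783 (cons (fin 719 6 718)
(fin 847 6 782)))))
(mv 781 (cons (fin 845 7 781)
(mv 782 (cons (fin 717 7 717)
(mv 783 (cons (fin 719 6 718)
(fin 847 6 782))))))))))
(cons (mv 846 (cons (fin 1101 5 845)
(mv 781 (cons (fin 845 7 781)
(mv 782 (cons (fin 717 7 717)
(mv 783 (cons (fin 719 6 718)
(fin 847 6 782)))))))))
(mv 846 (cons (fin 1101 5 845)
(mv 782 (cons (fin 973 5 781)
(mv 783 (cons (fin 719 6 718)
(fin 847 6 782)))))))))))))))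
(cons (mv 1039 (cons (fin 1037 2 973)
(mv 913 (cons (cons (mv 849 (cons (fin 785 5 784)
(mv 1104 (cons (fin 1041 5 848)
(fin 912 6 848)))))
(mv 1167 (cons (cons (mv 1103 (cons (fin 1231 6 975)
(mv 912 (cons (fin 848 5 847)
(fin 1104 5 911)))))
(mv 1168 (cons (fin 1104 6 912)
(mv 1166 (cons (cons (mv 1102 (cons (mv 1101 (cons (fin 1169 3 1101)
(fin 1041 1 1037)))
(cons (mv 1230 (cons (fin 975 6 974)
(mv 1229 (cons (fin 1169 1 1165)
(fin 1293 5 1037)))))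
(mv 975 (cons (fin 1230 6 974)
(mv 1101 (cons (fin 1041 1 1037)
(mv 1100 (cons (fin 1165 3 1100)
(fin 1099 2 1035))))))))))
(cons (mv 1165 (cons (cons (mv 1100 (cons (fin 1101 3 1100)
(mv 1099 (cons (fin 1164 3 1099)
(mv 1229 (cons (fin 1228 1 1164)
(mv 1169 (cons (fin 1230 1 1165)
(mv 1233 (cons (fin 1232 0 1165)
(fin 1234 0 1166)))))))))))
(mv 1100 (cons (fin 1101 3 1100)
(mv 1164 (cons (fin 1099 3 1099)
(mv 1232 (cons (fin 1231 0 1164)
(fin 1233 0 1165))))))))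
(cons (mv 1100 (cons (fin 1101 3 1100)
(mv 1164 (cons (fin 1099 3 1099)
(mv 1228 (cons (fin 1227 1 1163)
(fin 1229 1 1164)))))))
(cons (mv 1228 (cons (fin 1229 1 1164)
(mv 1164 (cons (fin 1227 1 1163)
(mv 1232 (cons (fin 1231 0 1164)
(fin 1233 0 1165)))))))
(mv 1100 (cons (fin 1101 3 1100)
(mv 1229 (cons (fin 1228 1 1164)
(mv 1169 (cons (fin 1230 1 1165)
(mv 1233 (cons (fin 1232 0 1165)
(fin 1234 0 1166)))))))))))))
(mv 1102 (cons (mv 1101 (cons (fin 1169 3 1101)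
(fin 1041 1 1037)))
(cons (mv 1230 (cons (fin 975 6 974)
(mv 1229 (cons (fin 1169 1 1165)
(fin 1293 5 1037)))))
(mv 1041 (cons (fin 1101 1 1037)
(mv 1230 (cons (fin 975 6 974)
(mv 1229 (cons (fin 1293 5 1037)
(mv 1228 (cons (fin 1227 2 1163)
(fin 1231 2 1164))))))))))))))
(cons (mv 1165 (cons (cons (mv 1100 (cons (fin 1101 3 1100)
(mv 1164 (cons (fin 1099 3 1099)
(mv 1228 (cons (fin 1227 1 1163)
(fin 1229 1 1164)))))))
(mv 1228 (cons (fin 1229 1 1164)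
(mv 1164 (cons (fin 1227 1 1163)
(mv 1232 (cons (fin 1231 0 1164)
(fin 1233 0 1165))))))))
(cons (mv 1100 (cons (fin 1101 3 1100)
(mv 1164 (cons (fin 1099 3 1099)
(mv 1232 (cons (fin 1231 0 1164)
(fin 1233 0 1165)))))))
(mv 1101 (cons (fin 1100 3 1100)
(mv 1102 (cons (fin 1041 1 1037)
(mv 1229 (cons (fin 1228 1 1164)
(fin 1293 6 1037))))))))))
(cons (mv 1165 (cons (cons (mv 1228 (cons (fin 1229 1 1164)
(mv 1164 (cons (fin 1227 1 1163)
(mv 1232 (cons (fin 1231 0 1164)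
(fin 1233 0 1165)))))))
(mv 1232 (cons (fin 1233 0 1165)
(mv 1164 (cons (fin 1231 0 1164)
(mv 1099 (cons (fin 1100 3 1099)
(mv 1163 (cons (fin 1098 3 1098)
(mv 1227 (cons (fin 1226 1 1162)
(fin 1228 1 1163))))))))))))
(cons (mv 1229 (cons (fin 1228 1 1164)
(mv 1230 (cons (fin 1169 1 1165)
(mv 1102 (cons (fin 1293 5 1037)
(fin 975 6 974)))))))
(mv 1233 (cons (fin 1232 0 1165)
(mv 1169 (cons (fin 1234 0 1166)
(mv 1230 (cons (fin 1229 1 1165)
(mv 1102 (cons (fin 975 6 974)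
(mv 1231 (cons (fin 1170 1 1166)
(fin 1295 4 1038))))))))))))))
(mv 1165 (cons (cons (mv 1100 (cons (fin 1101 3 1100)
(mv 1164 (cons (fin 1099 3 1099)
(mv 1232 (cons (fin 1231 0 1164)
(fin 1233 0 1165)))))))
(mv 1232 (cons (fin 1233 0 1165)
(mv 1164 (cons (fin 1231 0 1164)
(mv 1099 (cons (fin 1100 3 1099)
(mv 1163 (cons (fin 1098 3 1098)
(mv 1227 (cons (fin 1226 1 1162)
(fin 1228 1 1163))))))))))))
(cons (mv 1101 (cons (fin 1100 3 1100)
(mv 1102 (cons (fin 1169 3 1101)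
(fin 1041 1 1037)))))
(mv 1233 (cons (fin 1232 0 1165)
(mv 1169 (cons (fin 1234 0 1166)
(mv 1102 (cons (fin 1101 3 1101)
(mv 1230 (cons (fin 975 6 974)
(mv 1231 (cons (fin 1170 1 1166)
(fin 1295 4 1038)))))))))))))))))))))
(cons (mv 1103 (cons (fin 1231 6 975)
(mv 912 (cons (fin 848 5 847)
(fin 975 6 911)))))
(mv 1103 (cons (mv 912 (cons (fin 848 5 847)
(fin 1104 5 911)))
(cons (mv 1168 (cons (fin 1104 6 912)
(mv 975 (cons (fin 1232 4 975)
(mv 1166 (cons (fin 1230 5 974)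
(mv 1165 (cons (cons (mv 1100 (cons (fin 1101 3 1100)
(mv 1164 (cons (fin 1099 3 1099)
(mv 1228 (cons (fin 1227 1 1163)
(fin 1229 1 1164)))))))
(mv 1228 (cons (fin 1229 1 1164)
(mv 1164 (cons (fin 1227 1 1163)
(mv 1099 (cons (fin 1100 3 1099)
(mv 1163 (cons (fin 1098 3 1098)
(fin 1102 2 1099))))))))))
(cons (mv 1228 (cons (fin 1229 1 1164)
(mv 1164 (cons (fin 1227 1 1163)
(mv 1102 (cons (fin 1163 2 1099)
(mv 1041 (cons (fin 1101 1 1037)
(fin 1042 1 1038)))))))))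
(mv 1101 (cons (fin 1100 3 1100)
(mv 1102 (cons (fin 1169 3 1101)
(fin 1041 1 1037))))))))))))))
(mv 912 (cons (fin 848 5 847)
(fin 975 6 911))))))))))
(cons (mv 849 (cons (fin 785 5 784)
(mv 1041 (cons (cons (mv 784 (cons (fin 848 7 784)
(mv 786 (cons (fin 850 6 785)
(mv 1042 (cons (fin 1106 4 849)
(mv 1043 (cons (fin 975 3 975)
(fin 1044 3 976)))))))))
(mv 786 (cons (fin 850 6 785)
(mv 848 (cons (fin 784 7 784)
(mv 912 (cons (fin 1103 5 847)
(mv 847 (cons (fin 783 7 783)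
(mv 846 (cons (fin 845 0 845)
(fin 914 0 846))))))))))))
(cons (mv 786 (cons (fin 850 6 785)
(mv 1042 (cons (fin 1106 4 849)
(mv 1043 (cons (fin 975 3 975)
(fin 1044 3 976)))))))
(mv 784 (cons (fin 848 7 784)
(mv 1042 (cons (fin 1106 4 849)
(mv 1043 (cons (fin 975 3 975)
(fin 1044 3 976))))))))))))
(cons (mv 849 (cons (fin 785 5 784)
(mv 1104 (cons (fin 1041 5 848)
(fin 1168 6 912)))))
(mv 849 (cons (fin 785 5 784)
(mv 1104 (cons (fin 912 6 848)
(fin 1168 6 912)))))))))))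
(mv 913 (cons (cons (mv 849 (cons (fin 785 5 784)
(mv 1104 (cons (fin 1041 5 848)
(fin 912 6 848)))))
(mv 1168 (cons (fin 1104 6 912)
(mv 974 (cons (mv 975 (cons (fin 1037 1 973)
(fin 914 2 910)))
(cons (mv 1102 (cons (cons (mv 1037 (cons (fin 1039 2 973)
(mv 1166 (cons (mv 973 (cons (fin 909 7 909)
(fin 1230 7 973)))
(mv 1165 (cons (fin 1229 5 973)
(mv 1101 (cons (fin 910 5 909)
(mv 1167 (cons (fin 1100 3 1100)
(fin 1169 3 1101)))))))))))
(cons (mv 1166 (cons (cons (mv 909 (cons (fin 973 7 909)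
(mv 845 (cons (fin 910 7 845)
(mv 1165 (cons (fin 1229 5 973)
(mv 1167 (cons (fin 1231 4 974)
(mv 1101 (cons (fin 1100 3 1100)
(fin 1169 3 1101)))))))))))
(cons (mv 909 (cons (fin 973 7 909)
(mv 910 (cons (fin 845 7 845)
(mv 1165 (cons (fin 1101 5 909)
(fin 1229 5 973)))))))
(mv 973 (cons (fin 909 7 909)
(mv 1167 (cons (fin 1231 4 974)
(mv 1169 (cons (fin 1101 3 1101)
(mv 1230 (cons (fin 1229 1 1165)
(fin 1037 7 973)))))))))))
(cons (mv 909 (cons (fin 973 7 909)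
(mv 845 (cons (fin 910 7 845)
(mv 1167 (cons (fin 1231 4 974)
(mv 1101 (cons (fin 1169 3 1101)
(mv 1100 (cons (fin 1165 3 1100)
(fin 1099 0 1099)))))))))))
(cons (mv 1165 (cons (fin 1229 5 973)
(mv 1101 (cons (fin 910 5 909)
(mv 1167 (cons (fin 1100 3 1100)
(fin 1169 3 1101)))))))
(mv 909 (cons (fin 973 7 909)
(mv 845 (cons (fin 910 7 845)
(mv 1167 (cons (fin 1231 4 974)
(mv 1229 (cons (fin 1165 5 973)
(mv 1230 (cons (fin 1169 1 1165)
(fin 1293 5 1037)))))))))))))))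
(mv 1166 (cons (cons (mv 909 (cons (fin 973 7 909)
(mv 845 (cons (fin 910 7 845)
(mv 1165 (cons (fin 1229 5 973)
(mv 1167 (cons (fin 1231 4 974)
(mv 1101 (cons (fin 1100 3 1100)
(fin 1169 3 1101)))))))))))
(cons (mv 909 (cons (fin 973 7 909)
(mv 910 (cons (fin 845 7 845)
(mv 1165 (cons (fin 1101 5 909)
(fin 1229 5 973)))))))
(mv 973 (cons (fin 909 7 909)
(mv 1041 (cons (fin 1039 3 973)
(mv 1167 (cons (fin 1231 4 974)
(mv 1169 (cons (fin 1101 3 1101)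
(mv 1229 (cons (fin 1230 1 1165)
(mv 1234 (cons (fin 1233 0 1166)
(mv 1170 (cons (fin 1235 0 1167)
(mv 1106 (cons (fin 1107 2 1103)
(fin 1042 7 977)))))))))))))))))))
(cons (mv 909 (cons (fin 973 7 909)
(mv 845 (cons (fin 910 7 845)
(mv 1167 (cons (fin 1231 4 974)
(mv 1101 (cons (fin 1169 3 1101)
(mv 1100 (cons (fin 1165 3 1100)
(fin 1099 0 1099)))))))))))
(cons (mv 1165 (cons (fin 1229 5 973)
(mv 1101 (cons (fin 910 5 909)
(mv 1167 (cons (fin 1100 3 1100)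
(fin 1169 3 1101)))))))
(mv 909 (cons (fin 973 7 909)
(mv 845 (cons (fin 910 7 845)
(mv 1167 (cons (fin 1231 4 974)
(mv 1229 (cons (fin 1165 5 973)
(mv 1230 (cons (fin 1169 1 1165)
(fin 1293 5 1037)))))))))))))))))
(cons (mv 1039 (cons (fin 1037 2 973)
(mv 1041 (cons (fin 973 3 973)
(fin 1101 1 1037)))))
(cons (mv 1039 (cons (fin 1037 2 973)
(mv 973 (cons (fin 1041 3 973)
(mv 909 (cons (fin 1166 7 909)
(mv 845 (cons (fin 910 7 845)
(fin 781 4 781)))))))))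
(mv 1039 (cons (fin 1037 2 973)
(mv 1101 (cons (fin 1041 1 1037)
(mv 1099 (cons (fin 1100 2 1035)
(mv 1165 (cons (fin 910 5 909)
(mv 1229 (cons (fin 1166 5 973)
(fin 1293 6 1037)))))))))))))))
(mv 975 (cons (fin 914 2 910)
(mv 973 (cons (fin 912 2 909)
(fin 1041 0 973)))))))))))
(cons (mv 849 (cons (fin 785 5 784)
(mv 1037 (cons (fin 1039 2 973)
(mv 974 (cons (fin 975 1 973)
(mv 1041 (cons (cons (mv 784 (cons (fin 848 7 784)
(mv 850 (cons (fin 786 6 785)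
(mv 1042 (cons (fin 1106 4 849)
(mv 1043 (cons (fin 1044 3 976)
(mv 979 (cons (fin 980 2 976)
(mv 1107 (cons (fin 1108 0 1040)
(mv 915 (cons (fin 914 7 850)
(mv 852 (cons (fin 916 6 851)
(mv 851 (cons (fin 912 1 848)
(fin 788 6 787)))))))))))))))))))
(cons (mv 850 (cons (fin 786 6 785)
(mv 1042 (cons (fin 1106 4 849)
(mv 1043 (cons (fin 1044 3 976)
(mv 979 (cons (fin 980 2 976)
(mv 1107 (cons (fin 1108 0 1040)
(mv 915 (cons (fin 914 7 850)
(mv 852 (cons (fin 916 6 851)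
(mv 851 (cons (fin 912 1 848)
(fin 788 6 787)))))))))))))))))
(mv 786 (cons (fin 850 6 785)
(mv 848 (cons (fin 784 7 784)
(mv 846 (cons (mv 847 (cons (fin 914 0 846)
(mv 783 (cons (fin 912 7 783)
(fin 910 6 782)))))
(cons (mv 910 (cons (fin 1101 5 845)
(mv 781 (cons (fin 845 7 781)
(mv 782 (cons (fin 717 7 717)
(fin 973 5 781)))))))
(mv 847 (cons (fin 914 0 846)
(mv 912 (cons (fin 845 0 845)
(fin 783 7 783))))))))))))))
(cons (mv 848 (cons (fin 784 7 784)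
(mv 1042 (cons (fin 1106 4 849)
(mv 1043 (cons (fin 1044 3 976)
(mv 979 (cons (fin 980 2 976)
(mv 1107 (cons (fin 1108 0 1040)
(mv 846 (cons (mv 847 (cons (fin 914 0 846)
(mv 783 (cons (fin 912 7 783)
(fin 910 6 782)))))
(cons (mv 910 (cons (fin 1101 5 845)
(mv 781 (cons (fin 845 7 781)
(mv 782 (cons (fin 717 7 717)
(fin 973 5 781)))))))
(mv 847 (cons (fin 914 0 846)
(mv 912 (cons (fin 845 0 845)
(fin 783 7 783))))))))))))))))))
(cons (mv 848 (cons (fin 784 7 784)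
(mv 850 (cons (fin 786 6 785)
(mv 1042 (cons (fin 1106 4 849)
(mv 1043 (cons (fin 1044 3 976)
(mv 979 (cons (fin 980 2 976)
(mv 1107 (cons (fin 1108 0 1040)
(mv 847 (cons (cons (mv 783 (cons (fin 782 3 782)
(fin 912 7 783)))
(mv 846 (cons (mv 910 (cons (fin 909 1 845)
(fin 1101 5 845)))
(mv 781 (cons (fin 782 3 781)
(mv 845 (cons (fin 780 3 780)
(fin 912 0 845))))))))
(cons (mv 782 (cons (fin 783 3 782)
(mv 846 (cons (fin 781 3 781)
(mv 910 (cons (fin 909 1 845)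
(fin 973 5 781)))))))
(mv 912 (cons (fin 783 7 783)
(mv 846 (cons (fin 845 0 845)
(mv 910 (cons (fin 909 1 845)
(fin 1101 5 845))))))))))))))))))))))
(mv 848 (cons (fin 784 7 784)
(mv 850 (cons (fin 786 6 785)
(mv 1042 (cons (fin 1106 4 849)
(mv 1043 (cons (fin 1044 3 976)
(mv 979 (cons (fin 980 2 976)
(mv 1107 (cons (fin 1108 0 1040)
(mv 914 (cons (fin 915 7 850)
(mv 846 (cons (fin 847 0 846)
(mv 910 (cons (fin 1101 5 845)
(mv 781 (cons (fin 845 7 781)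
(mv 782 (cons (fin 717 7 717)
(fin 973 5 781)))))))))))))))))))))))))))))))))
(cons (mv 849 (cons (fin 785 5 784)
(mv 1104 (cons (fin 912 6 848)
(fin 1168 6 912)))))
(mv 849 (cons (fin 785 5 784)
(mv 1104 (cons (fin 1041 5 848)
(fin 1168 6 912)))))))))))
(cons (mv 1039 (cons (fin 1037 2 973)
(mv 1103 (cons (cons (mv 912 (cons (fin 848 5 847)
(mv 1167 (cons (fin 1104 5 911)
(fin 975 6 911)))))
(mv 848 (cons (fin 912 5 847)
(mv 1041 (cons (cons (mv 973 (cons (fin 974 3 973)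
(mv 1042 (cons (fin 1102 1 1038)
(mv 1043 (cons (fin 975 3 975)
(fin 1044 3 976)))))))
(mv 974 (cons (fin 973 3 973)
(mv 910 (cons (fin 846 4 846)
(mv 975 (cons (fin 909 3 909)
(mv 913 (cons (fin 914 2 910)
(mv 849 (cons (fin 784 7 784)
(fin 785 5 784))))))))))))
(cons (mv 1042 (cons (fin 1102 1 1038)
(mv 1043 (cons (fin 975 3 975)
(fin 1044 3 976)))))
(mv 973 (cons (fin 974 3 973)
(mv 1042 (cons (fin 1102 1 1038)
(mv 1043 (cons (fin 1044 3 976)
(fin 1104 1 1039)))))))))))))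
(cons (mv 1167 (cons (fin 1231 6 975)
(mv 974 (cons (mv 910 (cons (fin 975 7 910)
(fin 846 4 846)))
(cons (mv 973 (cons (fin 1041 3 973)
(mv 972 (cons (fin 971 0 971)
(fin 975 0 972)))))
(mv 910 (cons (fin 846 4 846)
(fin 1102 4 910))))))))
(mv 912 (cons (fin 848 5 847)
(mv 1167 (cons (fin 1104 5 911)
(fin 1231 6 975))))))))))
(cons (mv 1039 (cons (fin 1037 2 973)
(mv 1103 (cons (cons (mv 912 (cons (fin 848 5 847)
(mv 1167 (cons (fin 1104 5 911)
(fin 975 6 911)))))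
(mv 848 (cons (fin 912 5 847)
(mv 846 (cons (cons (mv 974 (cons (fin 910 4 846)
(mv 973 (cons (fin 1041 3 973)
(mv 972 (cons (fin 971 0 971)
(fin 975 0 972)))))))
(mv 849 (cons (cons (mv 785 (cons (fin 913 5 784)
(mv 847 (cons (fin 786 2 782)
(mv 781 (cons (fin 782 3 781)
(mv 845 (cons (fin 780 3 780)
(fin 784 2 781)))))))))
(mv 847 (cons (cons (mv 781 (cons (fin 782 3 781)
(mv 785 (cons (fin 786 2 782)
(mv 845 (cons (fin 780 3 780)
(fin 784 2 781)))))))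
(mv 785 (cons (fin 786 2 782)
(mv 845 (cons (fin 784 2 781)
(mv 909 (cons (fin 908 1 844)
(fin 910 1 845))))))))
(cons (mv 781 (cons (fin 782 3 781)
(mv 845 (cons (fin 780 3 780)
(mv 909 (cons (fin 908 1 844)
(fin 910 1 845)))))))
(mv 782 (cons (fin 781 3 781)
(mv 785 (cons (fin 786 2 782)
(mv 850 (cons (fin 783 3 782)
(mv 909 (cons (fin 910 1 845)
(mv 915 (cons (fin 914 0 847)
(mv 851 (cons (fin 916 0 848)
(mv 788 (cons (fin 787 2 784)
(mv 852 (cons (fin 784 3 784)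
(fin 789 2 785)))))))))))))))))))))
(cons (mv 913 (cons (mv 1041 (cons (fin 784 7 784)
(fin 1104 5 848)))
(mv 847 (cons (fin 914 0 846)
(mv 781 (cons (fin 782 3 781)
(mv 845 (cons (fin 780 3 780)
(mv 909 (cons (fin 908 1 844)
(fin 910 1 845)))))))))))
(cons (mv 913 (cons (fin 785 5 784)
(mv 1041 (cons (fin 784 7 784)
(fin 1104 5 848)))))
(mv 785 (cons (fin 913 5 784)
(mv 847 (cons (fin 786 2 782)
(mv 781 (cons (fin 782 3 781)
(mv 845 (cons (fin 780 3 780)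
(mv 909 (cons (fin 908 1 844)
(fin 910 1 845))))))))))))))))
(cons (mv 849 (cons (cons (mv 785 (cons (fin 913 5 784)
(mv 847 (cons (fin 786 2 782)
(mv 781 (cons (fin 782 3 781)
(mv 845 (cons (fin 780 3 780)
(fin 784 2 781)))))))))
(mv 847 (cons (cons (mv 781 (cons (fin 782 3 781)
(mv 785 (cons (fin 786 2 782)
(mv 845 (cons (fin 780 3 780)
(fin 784 2 781)))))))
(mv 785 (cons (fin 786 2 782)
(mv 845 (cons (fin 784 2 781)
(mv 780 (cons (fin 781 3 780)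
(mv 844 (cons (fin 779 3 779)
(mv 908 (cons (fin 907 1 843)
(fin 909 1 844))))))))))))
(cons (mv 782 (cons (fin 781 3 781)
(mv 850 (cons (fin 783 3 782)
(mv 787 (cons (fin 786 2 783)
(mv 851 (cons (fin 788 2 784)
(mv 915 (cons (fin 914 0 847)
(fin 916 0 848)))))))))))
(cons (mv 786 (cons (fin 785 2 782)
(mv 850 (cons (fin 787 2 783)
(mv 783 (cons (fin 782 3 782)
(mv 851 (cons (fin 784 3 783)
(mv 915 (cons (fin 914 0 847)
(fin 916 0 848)))))))))))
(mv 781 (cons (fin 782 3 781)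
(mv 845 (cons (fin 780 3 780)
(mv 784 (cons (fin 785 2 781)
(mv 844 (cons (fin 783 2 780)
(mv 908 (cons (fin 907 1 843)
(fin 909 1 844))))))))))))))))
(cons (mv 1041 (cons (mv 913 (cons (fin 784 7 784)
(fin 1104 5 848)))
(cons (mv 974 (cons (fin 973 3 973)
(mv 1042 (cons (fin 975 3 974)
(mv 1043 (cons (fin 1044 3 976)
(fin 1104 1 1039)))))))
(mv 784 (cons (fin 913 7 784)
(mv 974 (cons (fin 973 3 973)
(mv 1042 (cons (fin 975 3 974)
(mv 1043 (cons (fin 1044 3 976)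
(mv 1107 (cons (fin 1106 0 1039)
(fin 1108 0 1040))))))))))))))
(mv 913 (cons (fin 785 5 784)
(mv 1104 (cons (fin 1041 5 848)
(fin 1168 6 912))))))))
(mv 910 (cons (fin 974 4 846)
(mv 847 (cons (cons (mv 849 (cons (fin 909 1 845)
(mv 785 (cons (fin 786 2 782)
(fin 913 5 784)))))
(mv 845 (cons (cons (mv 780 (cons (fin 781 3 780)
(mv 784 (cons (fin 785 2 781)
(mv 844 (cons (fin 779 3 779)
(fin 783 2 780)))))))
(mv 784 (cons (fin 785 2 781)
(mv 844 (cons (fin 783 2 780)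
(mv 908 (cons (fin 907 1 843)
(fin 909 1 844))))))))
(cons (mv 780 (cons (fin 781 3 780)
(mv 844 (cons (fin 779 3 779)
(mv 908 (cons (fin 907 1 843)
(fin 909 1 844)))))))
(mv 781 (cons (fin 780 3 780)
(mv 717 (cons (fin 653 4 653)
(mv 784 (cons (fin 785 2 781)
(mv 909 (cons (fin 908 1 844)
(mv 716 (cons (fin 652 7 652)
(mv 718 (cons (fin 654 6 653)
(mv 782 (cons (fin 783 3 716)
(fin 973 5 717)))))))))))))))))))
(cons (mv 849 (cons (mv 785 (cons (fin 786 2 782)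
(fin 913 5 784)))
(cons (mv 782 (cons (fin 781 3 781)
(mv 783 (cons (fin 850 3 782)
(mv 913 (cons (fin 914 0 846)
(mv 1104 (cons (fin 1168 6 912)
(mv 718 (cons (cons (mv 590 (cons (fin 654 4 590)
(mv 717 (cons (fin 653 7 653)
(mv 716 (cons (fin 715 0 715)
(mv 719 (cons (fin 784 0 716)
(fin 655 5 654)))))))))
(mv 653 (cons (fin 717 7 653)
(mv 654 (cons (fin 589 7 589)
(fin 590 4 590))))))
(cons (mv 717 (cons (fin 653 7 653)
(mv 716 (cons (fin 715 0 715)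
(mv 719 (cons (fin 784 0 716)
(fin 655 5 654)))))))
(mv 654 (cons (fin 590 4 590)
(mv 655 (cons (fin 719 5 654)
(fin 591 6 590))))))))))))))))
(mv 781 (cons (fin 782 3 781)
(mv 785 (cons (fin 786 2 782)
(mv 845 (cons (fin 780 3 780)
(fin 784 2 781))))))))))
(mv 849 (cons (fin 909 1 845)
(mv 782 (cons (fin 781 3 781)
(mv 783 (cons (fin 850 3 782)
(mv 913 (cons (fin 914 0 846)
(mv 1104 (cons (fin 1168 6 912)
(mv 718 (cons (cons (mv 590 (cons (fin 654 4 590)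
(mv 717 (cons (fin 653 7 653)
(mv 716 (cons (fin 715 0 715)
(mv 719 (cons (fin 784 0 716)
(fin 655 5 654)))))))))
(mv 653 (cons (fin 717 7 653)
(mv 654 (cons (fin 589 7 589)
(fin 590 4 590))))))
(cons (mv 717 (cons (fin 653 7 653)
(mv 716 (cons (fin 715 0 715)
(mv 719 (cons (fin 784 0 716)
(fin 655 5 654)))))))
(mv 654 (cons (fin 590 4 590)
(mv 655 (cons (fin 719 5 654)
(fin 591 6 590)))))))))))))))))))))))))))))
(cons (mv 1167 (cons (fin 1231 6 975)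
(mv 1168 (cons (cons (mv 913 (cons (fin 1104 6 912)
(mv 785 (cons (fin 849 5 784)
(mv 975 (cons (fin 1232 4 975)
(mv 974 (cons (fin 914 2 910)
(fin 910 7 910)))))))))
(mv 975 (cons (fin 1232 4 975)
(mv 974 (cons (fin 910 7 910)
(mv 973 (cons (fin 1041 3 973)
(fin 972 0 972))))))))
(cons (mv 1104 (cons (fin 913 6 912)
(mv 1169 (cons (fin 1233 4 976)
(mv 1170 (cons (fin 1171 3 1103)
(mv 1106 (cons (fin 1107 2 1103)
(mv 1234 (cons (fin 1235 0 1167)
(mv 1041 (cons (fin 1042 7 977)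
(mv 974 (cons (fin 973 3 973)
(mv 910 (cons (fin 975 7 910)
(fin 846 4 846)))))))))))))))))
(mv 1104 (cons (fin 913 6 912)
(mv 1232 (cons (fin 1296 7 1039)
(fin 1041 6 976))))))))))
(cons (mv 912 (cons (fin 848 5 847)
(mv 1167 (cons (fin 975 6 911)
(fin 1231 6 975)))))
(mv 912 (cons (fin 848 5 847)
(mv 1167 (cons (fin 1104 5 911)
(fin 1231 6 975)))))))))))
(mv 1037 (cons (fin 1039 2 973)
(mv 974 (cons (fin 975 1 973)
(mv 1104 (cons (cons (mv 913 (cons (fin 1168 6 912)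
(mv 849 (cons (fin 785 5 784)
(fin 1041 5 848)))))
(mv 849 (cons (cons (mv 913 (cons (fin 785 5 784)
(fin 1041 5 848)))
(mv 1103 (cons (mv 912 (cons (fin 1167 5 911)
(mv 848 (cons (fin 785 6 784)
(mv 783 (cons (fin 847 7 783)
(mv 784 (cons (fin 719 7 719)
(fin 1041 4 784)))))))))
(cons (mv 1101 (cons (mv 1102 (cons (fin 1036 3 1036)
(fin 1041 2 1037)))
(mv 1165 (cons (fin 1229 6 973)
(mv 973 (cons (fin 910 6 909)
(mv 908 (cons (fin 972 7 908)
(mv 909 (cons (fin 844 7 844)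
(mv 1164 (cons (fin 1100 5 908)
(fin 1228 5 972)))))))))))))
(mv 1167 (cons (fin 912 5 911)
(mv 1102 (cons (fin 910 4 910)
(mv 1036 (cons (fin 1101 3 1036)
(fin 1035 0 1035)))))))))))
(cons (mv 913 (cons (fin 1041 5 848)
(fin 912 6 848)))
(mv 913 (cons (fin 785 5 784)
(fin 912 6 848)))))))
(cons (mv 1168 (cons (mv 1041 (cons (fin 1232 6 976)
(mv 1167 (cons (fin 1231 5 975)
(mv 1103 (cons (fin 912 5 911)
(mv 1102 (cons (fin 1101 2 1037)
(fin 910 4 910)))))))))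
(cons (mv 1167 (cons (fin 1231 5 975)
(mv 1103 (cons (fin 912 5 911)
(mv 1102 (cons (fin 910 4 910)
(mv 1036 (cons (fin 1101 3 1036)
(fin 1035 0 1035)))))))))
(mv 1232 (cons (fin 1041 6 976)
(mv 1233 (cons (fin 1169 4 976)
(fin 1297 4 1040))))))))
(mv 913 (cons (fin 1168 6 912)
(mv 849 (cons (fin 785 5 784)
(fin 912 6 848)))))))))))))))))
(mv 1039 (cons (cons (mv 978 (cons (fin 979 1 975)
(mv 1038 (cons (fin 975 1 974)
(fin 1037 2 973)))))
(mv 1038 (cons (fin 1037 2 973)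
(mv 1041 (cons (cons (mv 973 (cons (fin 974 3 973)
(mv 1102 (cons (fin 1101 1 1037)
(mv 1042 (cons (fin 1103 1 1038)
(mv 1043 (cons (fin 975 3 975)
(fin 1044 3 976)))))))))
(cons (mv 1102 (cons (fin 1101 1 1037)
(mv 1042 (cons (fin 1103 1 1038)
(mv 1043 (cons (fin 975 3 975)
(fin 1044 3 976)))))))
(mv 974 (cons (fin 973 3 973)
(mv 975 (cons (fin 1042 3 974)
(mv 910 (cons (fin 909 3 909)
(mv 846 (cons (fin 782 4 782)
(fin 1103 4 846)))))))))))
(cons (mv 974 (cons (fin 973 3 973)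
(mv 1101 (cons (fin 1102 1 1037)
(mv 1103 (cons (cons (mv 846 (cons (fin 910 4 846)
(mv 912 (cons (fin 848 5 847)
(mv 1167 (cons (fin 1231 7 974)
(fin 975 6 911)))))))
(mv 848 (cons (fin 912 5 847)
(mv 910 (cons (fin 846 4 846)
(mv 975 (cons (fin 909 3 909)
(mv 913 (cons (fin 914 2 910)
(mv 849 (cons (fin 784 7 784)
(fin 785 5 784))))))))))))
(cons (mv 910 (cons (fin 846 4 846)
(mv 975 (cons (fin 909 3 909)
(fin 1167 7 910)))))
(cons (mv 912 (cons (fin 848 5 847)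
(mv 1167 (cons (fin 1231 7 974)
(fin 975 6 911)))))
(mv 846 (cons (fin 910 4 846)
(mv 848 (cons (fin 912 5 847)
(mv 1167 (cons (fin 1231 7 974)
(mv 849 (cons (cons (mv 913 (cons (fin 784 7 784)
(fin 785 5 784)))
(mv 847 (cons (cons (mv 781 (cons (fin 782 3 781)
(mv 785 (cons (fin 786 2 782)
(mv 845 (cons (fin 780 3 780)
(fin 784 2 781)))))))
(mv 785 (cons (fin 786 2 782)
(mv 845 (cons (fin 784 2 781)
(mv 780 (cons (fin 781 3 780)
(mv 844 (cons (fin 779 3 779)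
(mv 908 (cons (fin 907 1 843)
(fin 909 1 844))))))))))))
(cons (mv 782 (cons (fin 781 3 781)
(mv 850 (cons (fin 783 3 782)
(mv 787 (cons (fin 786 2 783)
(mv 851 (cons (fin 788 2 784)
(mv 915 (cons (fin 914 0 847)
(fin 916 0 848)))))))))))
(cons (mv 786 (cons (fin 785 2 782)
(mv 850 (cons (fin 787 2 783)
(mv 783 (cons (fin 782 3 782)
(mv 851 (cons (fin 784 3 783)
(mv 915 (cons (fin 914 0 847)
(fin 916 0 848)))))))))))
(mv 781 (cons (fin 782 3 781)
(mv 845 (cons (fin 780 3 780)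
(mv 784 (cons (fin 785 2 781)
(mv 844 (cons (fin 783 2 780)
(mv 908 (cons (fin 907 1 843)
(fin 909 1 844))))))))))))))))
(cons (mv 913 (cons (fin 784 7 784)
(mv 847 (cons (fin 914 0 846)
(mv 782 (cons (fin 781 3 781)
(mv 850 (cons (fin 783 3 782)
(fin 786 6 785)))))))))
(mv 913 (cons (fin 785 5 784)
(mv 847 (cons (fin 914 0 846)
(mv 782 (cons (fin 781 3 781)
(mv 850 (cons (fin 783 3 782)
(fin 786 6 785))))))))))))))))))))))))))
(cons (mv 973 (cons (fin 974 3 973)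
(mv 1102 (cons (fin 1101 1 1037)
(mv 1042 (cons (fin 1103 1 1038)
(mv 1043 (cons (fin 1044 3 976)
(mv 1107 (cons (fin 1106 0 1039)
(fin 1108 0 1040)))))))))))
(mv 974 (cons (fin 973 3 973)
(mv 975 (cons (fin 1042 3 974)
(mv 910 (cons (fin 909 3 909)
(mv 846 (cons (fin 782 4 782)
(mv 845 (cons (fin 781 7 781)
(mv 847 (cons (fin 783 6 782)
(mv 913 (cons (fin 914 2 910)
(mv 785 (cons (fin 849 5 784)
(mv 848 (cons (fin 784 2 781)
(fin 912 0 845))))))))))))))))))))))))))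
(cons (mv 978 (cons (fin 979 1 975)
(mv 975 (cons (cons (mv 914 (cons (fin 915 2 911)
(mv 913 (cons (fin 974 2 910)
(mv 785 (cons (fin 849 5 784)
(mv 1042 (cons (fin 1043 0 975)
(mv 1106 (cons (fin 1170 7 913)
(mv 1107 (cons (fin 1041 0 1039)
(fin 1171 4 914)))))))))))))
(mv 914 (cons (fin 915 2 911)
(mv 974 (cons (fin 913 2 910)
(mv 973 (cons (fin 972 0 972)
(fin 1041 0 973))))))))
(cons (mv 1042 (cons (fin 1043 0 975)
(mv 974 (cons (fin 1041 3 974)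
(mv 909 (cons (fin 910 3 909)
(mv 973 (cons (fin 908 3 908)
(fin 972 0 972)))))))))
(cons (mv 914 (cons (fin 915 2 911)
(mv 1042 (cons (fin 1043 0 975)
(mv 1106 (cons (mv 913 (cons (fin 849 7 849)
(fin 1170 7 913)))
(mv 1107 (cons (fin 1041 0 1039)
(fin 1171 4 914)))))))))
(mv 914 (cons (fin 915 2 911)
(mv 913 (cons (fin 974 2 910)
(mv 849 (cons (fin 785 5 784)
(mv 1042 (cons (fin 1043 0 975)
(fin 1106 7 849)))))))))))))))
(mv 978 (cons (fin 979 1 975)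
(mv 1038 (cons (fin 1037 2 973)
(fin 1041 2 974)))))))))
(cons (mv 913 (cons (cons (mv 849 (cons (fin 785 5 784)
(mv 1104 (cons (fin 1041 5 848)
(fin 912 6 848)))))
(mv 1168 (cons (fin 1104 6 912)
(mv 1039 (cons (cons (mv 1038 (cons (fin 1037 2 973)
(mv 978 (cons (fin 975 1 974)
(fin 1041 2 974)))))
(mv 975 (cons (cons (mv 914 (cons (fin 974 2 910)
(mv 915 (cons (fin 912 1 911)
(fin 916 1 912)))))
(mv 1042 (cons (cons (mv 1043 (cons (fin 1041 3 975)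
(fin 978 0 975)))
(mv 1103 (cons (mv 912 (cons (fin 848 5 847)
(fin 1167 6 911)))
(cons (mv 848 (cons (fin 912 5 847)
(mv 1041 (cons (fin 1102 1 1038)
(mv 1106 (cons (fin 1107 0 1039)
(mv 1170 (cons (fin 978 7 913)
(fin 1234 7 977)))))))))
(mv 1167 (cons (fin 1231 6 975)
(fin 1232 4 975)))))))
(cons (mv 978 (cons (fin 1043 0 975)
(mv 914 (cons (fin 915 2 911)
(mv 1170 (cons (fin 1106 7 913)
(mv 1167 (cons (mv 1103 (cons (fin 912 6 911)
(fin 1231 6 975)))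
(cons (mv 1169 (cons (cons (mv 1230 (cons (fin 1231 1 1166)
(mv 1166 (cons (fin 1229 1 1165)
(mv 1234 (cons (fin 1233 0 1166)
(fin 1235 0 1167)))))))
(mv 1234 (cons (fin 1235 0 1167)
(mv 1166 (cons (fin 1233 0 1166)
(mv 1101 (cons (fin 1102 3 1101)
(mv 1165 (cons (fin 1100 3 1100)
(mv 1229 (cons (fin 1228 1 1164)
(fin 1230 1 1165))))))))))))
(cons (mv 1231 (cons (fin 1230 1 1166)
(mv 1171 (cons (fin 1232 1 1167)
(mv 1108 (cons (fin 1107 2 1104)
(mv 1172 (cons (fin 1109 2 1105)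
(mv 1236 (cons (fin 1235 0 1168)
(fin 1237 0 1169)))))))))))
(cons (mv 1235 (cons (fin 1234 0 1167)
(mv 1171 (cons (fin 1236 0 1168)
(mv 1108 (cons (fin 1107 2 1104)
(mv 1172 (cons (fin 1109 2 1105)
(mv 1232 (cons (fin 1231 1 1167)
(fin 1233 1 1168)))))))))))
(mv 1230 (cons (fin 1231 1 1166)
(mv 1166 (cons (fin 1229 1 1165)
(mv 1101 (cons (fin 1102 3 1101)
(mv 1165 (cons (fin 1100 3 1100)
(mv 1233 (cons (fin 1232 0 1165)
(fin 1234 0 1166)))))))))))))))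
(mv 1103 (cons (fin 912 6 911)
(fin 1232 4 975))))))))))))
(mv 1041 (cons (fin 1043 3 975)
(mv 1103 (cons (fin 1102 1 1038)
(mv 912 (cons (fin 848 5 847)
(fin 1167 6 911)))))))))))
(cons (mv 974 (cons (mv 973 (cons (fin 912 2 909)
(fin 972 0 972)))
(mv 910 (cons (fin 909 3 909)
(mv 782 (cons (fin 846 4 782)
(mv 1042 (cons (fin 1041 3 974)
(mv 978 (cons (fin 1043 0 975)
(mv 1167 (cons (fin 1103 7 910)
(mv 1170 (cons (fin 1106 7 913)
(mv 1169 (cons (cons (mv 1230 (cons (fin 1231 1 1166)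
(mv 1166 (cons (fin 1229 1 1165)
(mv 1234 (cons (fin 1233 0 1166)
(fin 1235 0 1167)))))))
(mv 1234 (cons (fin 1235 0 1167)
(mv 1166 (cons (fin 1233 0 1166)
(mv 1101 (cons (fin 1102 3 1101)
(mv 1165 (cons (fin 1100 3 1100)
(mv 1229 (cons (fin 1228 1 1164)
(fin 1230 1 1165))))))))))))
(cons (mv 1231 (cons (fin 1230 1 1166)
(mv 1171 (cons (fin 1232 1 1167)
(mv 1108 (cons (fin 1107 2 1104)
(mv 1172 (cons (fin 1109 2 1105)
(mv 1236 (cons (fin 1235 0 1168)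
(fin 1237 0 1169)))))))))))
(cons (mv 1230 (cons (fin 1231 1 1166)
(mv 1166 (cons (fin 1229 1 1165)
(mv 1101 (cons (fin 1102 3 1101)
(mv 1165 (cons (fin 1100 3 1100)
(mv 1233 (cons (fin 1232 0 1165)
(fin 1234 0 1166)))))))))))
(mv 1235 (cons (fin 1234 0 1167)
(mv 1171 (cons (fin 1236 0 1168)
(mv 1108 (cons (fin 1107 2 1104)
(mv 1172 (cons (fin 1109 2 1105)
(mv 1232 (cons (fin 1231 1 1167)
(fin 1233 1 1168)))))))))))))))))))))))))))))
(mv 914 (cons (fin 974 2 910)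
(mv 915 (cons (fin 916 1 912)
(fin 978 2 911)))))))))
(cons (mv 1038 (cons (fin 1037 2 973)
(mv 1041 (cons (fin 978 2 974)
(mv 973 (cons (fin 974 3 973)
(mv 1102 (cons (fin 1101 1 1037)
(mv 1042 (cons (fin 1103 1 1038)
(mv 1043 (cons (fin 1044 3 976)
(mv 1107 (cons (fin 1106 0 1039)
(fin 1108 0 1040)))))))))))))))
(cons (mv 1038 (cons (fin 1037 2 973)
(mv 974 (cons (cons (mv 914 (cons (fin 975 2 910)
(mv 915 (cons (fin 916 1 912)
(mv 1041 (cons (fin 973 3 973)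
(mv 1102 (cons (fin 1101 1 1037)
(mv 1042 (cons (fin 1103 1 1038)
(mv 1043 (cons (fin 1044 3 976)
(mv 1107 (cons (fin 1106 0 1039)
(fin 1108 0 1040)))))))))))))))
(mv 1041 (cons (fin 973 3 973)
(mv 1102 (cons (fin 1101 1 1037)
(mv 1042 (cons (fin 1103 1 1038)
(mv 1043 (cons (fin 1044 3 976)
(mv 1107 (cons (fin 1106 0 1039)
(fin 1108 0 1040))))))))))))
(cons (mv 975 (cons (fin 914 2 910)
(mv 973 (cons (fin 912 2 909)
(fin 972 0 972)))))
(mv 975 (cons (fin 914 2 910)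
(mv 909 (cons (fin 910 3 909)
(mv 1041 (cons (fin 1042 3 974)
(mv 1102 (cons (fin 1101 1 1037)
(mv 1166 (cons (fin 1230 6 974)
(mv 1165 (cons (fin 1229 5 973)
(mv 1167 (cons (fin 1231 4 974)
(mv 1103 (cons (fin 912 6 911)
(fin 1232 4 975))))))))))))))))))))))
(mv 1038 (cons (fin 1037 2 973)
(mv 975 (cons (fin 978 1 974)
(mv 914 (cons (fin 974 2 910)
(mv 915 (cons (fin 912 1 911)
(fin 916 1 912))))))))))))))))
(cons (mv 849 (cons (fin 785 5 784)
(mv 1041 (cons (cons (mv 784 (cons (fin 848 7 784)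
(mv 786 (cons (fin 850 6 785)
(mv 1042 (cons (fin 1106 4 849)
(mv 975 (cons (fin 1043 3 975)
(fin 974 0 974)))))))))
(mv 786 (cons (fin 850 6 785)
(mv 848 (cons (fin 784 7 784)
(mv 914 (cons (cons (mv 846 (cons (fin 847 0 846)
(mv 915 (cons (fin 916 3 848)
(mv 975 (cons (fin 912 1 911)
(fin 974 2 910)))))))
(mv 847 (cons (fin 846 0 846)
(mv 912 (cons (fin 783 7 783)
(mv 974 (cons (fin 975 2 910)
(mv 1039 (cons (fin 1103 5 847)
(mv 1038 (cons (fin 973 3 973)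
(fin 1037 2 973))))))))))))
(cons (mv 847 (cons (fin 846 0 846)
(mv 912 (cons (fin 915 3 847)
(fin 783 7 783)))))
(cons (mv 915 (cons (fin 916 3 848)
(mv 975 (cons (fin 912 1 911)
(fin 974 2 910)))))
(mv 846 (cons (fin 847 0 846)
(mv 915 (cons (fin 916 3 848)
(mv 975 (cons (fin 974 2 910)
(fin 978 2 911))))))))))))))))
(cons (mv 786 (cons (fin 850 6 785)
(mv 1042 (cons (fin 1106 4 849)
(mv 975 (cons (fin 1043 3 975)
(fin 974 0 974)))))))
(cons (mv 784 (cons (fin 848 7 784)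
(mv 1042 (cons (fin 1106 4 849)
(mv 975 (cons (fin 1043 3 975)
(fin 974 0 974)))))))
(mv 848 (cons (fin 784 7 784)
(mv 850 (cons (fin 786 6 785)
(mv 1042 (cons (fin 1106 4 849)
(mv 1043 (cons (fin 1044 3 976)
(mv 1107 (cons (fin 1108 0 1040)
(mv 914 (cons (fin 978 4 850)
(mv 847 (cons (fin 846 0 846)
(fin 915 0 847)))))))))))))))))))))
(cons (mv 849 (cons (fin 785 5 784)
(mv 1104 (cons (fin 912 6 848)
(fin 1168 6 912)))))
(mv 849 (cons (fin 785 5 784)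
(mv 1104 (cons (fin 1041 5 848)
(fin 1168 6 912)))))))))
(mv 1104 (cons (cons (mv 913 (cons (fin 1168 6 912)
(mv 849 (cons (fin 785 5 784)
(fin 1041 5 848)))))
(mv 849 (cons (cons (mv 913 (cons (fin 785 5 784)
(fin 1041 5 848)))
(mv 978 (cons (cons (mv 979 (cons (fin 1039 1 975)
(mv 915 (cons (fin 916 2 912)
(mv 914 (cons (fin 975 2 911)
(mv 980 (cons (fin 1041 1 976)
(mv 1044 (cons (fin 1043 0 976)
(fin 1045 0 977)))))))))))
(cons (mv 1042 (cons (cons (mv 975 (cons (fin 1043 0 975)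
(mv 914 (cons (fin 915 2 911)
(mv 785 (cons (fin 850 7 785)
(mv 848 (cons (fin 912 6 784)
(mv 974 (cons (fin 1041 0 974)
(mv 909 (cons (fin 910 3 909)
(mv 973 (cons (fin 908 3 908)
(mv 972 (cons (fin 1039 0 972)
(mv 1036 (cons (fin 1035 1 971)
(fin 1037 1 972)))))))))))))))))))
(mv 914 (cons (cons (mv 785 (cons (fin 850 7 785)
(mv 848 (cons (fin 912 6 784)
(mv 915 (cons (fin 975 2 911)
(mv 851 (cons (fin 1106 6 850)
(mv 787 (cons (fin 723 5 722)
(mv 786 (cons (fin 788 1 784)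
(mv 784 (cons (fin 847 1 783)
(fin 852 0 784)))))))))))))))
(mv 915 (cons (fin 975 2 911)
(mv 916 (cons (fin 917 1 913)
(mv 1106 (cons (fin 851 6 850)
(mv 1171 (cons (fin 1107 4 914)
(mv 1170 (cons (fin 1235 4 978)
(mv 1233 (cons (fin 1169 5 977)
(mv 1234 (cons (fin 1041 7 977)
(fin 1297 5 1041))))))))))))))))
(cons (mv 850 (cons (fin 785 7 785)
(mv 786 (cons (fin 1041 5 785)
(mv 787 (cons (fin 723 6 722)
(fin 851 6 786)))))))
(mv 785 (cons (fin 850 7 785)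
(mv 848 (cons (fin 912 6 784)
(mv 975 (cons (fin 915 2 911)
(mv 974 (cons (fin 1041 0 974)
(mv 909 (cons (fin 910 3 909)
(mv 973 (cons (fin 908 3 908)
(mv 972 (cons (fin 1039 0 972)
(mv 1036 (cons (fin 1035 1 971)
(fin 1037 1 972)))))))))))))))))))))
(cons (mv 1103 (cons (mv 912 (cons (fin 1167 5 911)
(mv 848 (cons (fin 1039 5 847)
(fin 785 6 784)))))
(cons (mv 1041 (cons (fin 1043 1 1039)
(mv 1102 (cons (fin 1039 1 1038)
(fin 1101 2 1037)))))
(mv 912 (cons (fin 1167 5 911)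
(mv 848 (cons (fin 785 6 784)
(mv 1041 (cons (fin 1043 1 1039)
(fin 784 4 784))))))))))
(cons (mv 914 (cons (mv 975 (cons (fin 915 2 911)
(fin 1043 0 975)))
(cons (mv 850 (cons (fin 785 7 785)
(mv 851 (cons (fin 787 6 786)
(mv 915 (cons (fin 1106 6 850)
(mv 848 (cons (fin 847 0 847)
(fin 916 0 848)))))))))
(mv 850 (cons (fin 785 7 785)
(mv 1043 (cons (fin 975 0 975)
(fin 1107 4 850))))))))
(mv 975 (cons (fin 1043 0 975)
(mv 914 (cons (fin 915 2 911)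
(mv 974 (cons (fin 1041 0 974)
(mv 909 (cons (fin 910 3 909)
(mv 973 (cons (fin 908 3 908)
(mv 972 (cons (fin 1039 0 972)
(mv 1036 (cons (fin 1035 1 971)
(fin 1037 1 972)))))))))))))))))))
(mv 979 (cons (cons (mv 915 (cons (fin 916 2 912)
(mv 914 (cons (fin 975 2 911)
(mv 980 (cons (fin 1041 1 976)
(mv 1044 (cons (fin 1043 0 976)
(fin 1045 0 977)))))))))
(mv 915 (cons (fin 916 2 912)
(mv 914 (cons (fin 975 2 911)
(mv 1043 (cons (fin 1044 0 976)
(mv 850 (cons (fin 1107 7 850)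
(fin 786 4 786))))))))))
(cons (mv 915 (cons (fin 916 2 912)
(mv 914 (cons (fin 975 2 911)
(mv 980 (cons (fin 1041 1 976)
(mv 981 (cons (fin 982 3 914)
(mv 1045 (cons (fin 1044 0 977)
(fin 1046 0 978)))))))))))
(cons (mv 980 (cons (fin 1041 1 976)
(mv 1044 (cons (fin 1043 0 976)
(fin 1045 0 977)))))
(mv 915 (cons (fin 916 2 912)
(mv 914 (cons (fin 975 2 911)
(mv 1041 (cons (fin 980 1 976)
(mv 850 (cons (fin 786 5 785)
(mv 785 (cons (fin 1042 7 785)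
(mv 848 (cons (fin 847 0 847)
(fin 912 6 784)))))))))))))))))))
(cons (cons (mv 979 (cons (fin 1039 1 975)
(mv 915 (cons (fin 916 2 912)
(mv 914 (cons (fin 975 2 911)
(mv 980 (cons (fin 1041 1 976)
(mv 981 (cons (fin 982 3 914)
(mv 1045 (cons (fin 1044 0 977)
(fin 1046 0 978)))))))))))))
(mv 979 (cons (fin 1039 1 975)
(mv 915 (cons (fin 916 2 912)
(mv 980 (cons (fin 1041 1 976)
(mv 1044 (cons (fin 1043 0 976)
(fin 1045 0 977))))))))))
(cons (mv 979 (cons (fin 1039 1 975)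
(mv 980 (cons (fin 1041 1 976)
(mv 1044 (cons (fin 1043 0 976)
(fin 1045 0 977)))))))
(mv 979 (cons (fin 1039 1 975)
(mv 915 (cons (fin 916 2 912)
(mv 914 (cons (fin 975 2 911)
(mv 1043 (cons (fin 1044 0 976)
(mv 850 (cons (fin 1107 7 850)
(fin 786 4 786))))))))))))))))
(cons (mv 913 (cons (fin 1041 5 848)
(fin 912 6 848)))
(mv 913 (cons (fin 785 5 784)
(fin 912 6 848)))))))
(cons (mv 1168 (cons (cons (mv 1041 (cons (fin 1232 6 976)
(mv 1167 (cons (fin 1231 5 975)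
(mv 1103 (cons (fin 912 5 911)
(mv 1042 (cons (fin 1043 1 1039)
(mv 1102 (cons (fin 1039 1 1038)
(fin 1101 2 1037)))))))))))
(mv 1167 (cons (fin 1231 5 975)
(mv 1103 (cons (fin 912 5 911)
(mv 1169 (cons (fin 1233 4 976)
(mv 1102 (cons (fin 1170 3 1102)
(fin 1101 0 1101))))))))))
(cons (mv 1169 (cons (fin 1233 4 976)
(mv 1232 (cons (fin 1041 6 976)
(mv 1039 (cons (fin 975 7 975)
(mv 978 (cons (fin 979 1 975)
(mv 1295 (cons (fin 1231 5 1039)
(mv 1296 (cons (fin 1103 7 1039)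
(fin 1359 5 1103)))))))))))))
(cons (mv 1169 (cons (fin 1233 4 976)
(mv 1232 (cons (fin 1041 6 976)
(mv 1039 (cons (fin 975 7 975)
(mv 978 (cons (fin 979 1 975)
(mv 1103 (cons (fin 1296 7 1039)
(mv 912 (cons (fin 848 5 847)
(fin 1167 5 911)))))))))))))
(mv 1167 (cons (fin 1231 5 975)
(mv 1232 (cons (fin 1041 6 976)
(mv 1233 (cons (fin 1169 4 976)
(fin 1297 4 1040)))))))))))
(mv 913 (cons (fin 1168 6 912)
(mv 849 (cons (fin 785 5 784)
(fin 912 6 848)))))))))))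
(cons (cons (mv 913 (cons (cons (mv 849 (cons (fin 785 5 784)
(mv 1104 (cons (fin 1041 5 848)
(fin 912 6 848)))))
(mv 1104 (cons (fin 1168 6 912)
(mv 914 (cons (cons (mv 915 (cons (fin 916 1 912)
(mv 975 (cons (fin 912 1 911)
(fin 974 2 910)))))
(mv 975 (cons (fin 974 2 910)
(mv 978 (cons (mv 1039 (cons (fin 1038 1 974)
(fin 979 1 975)))
(cons (mv 1043 (cons (fin 1042 0 975)
(mv 979 (cons (fin 1044 0 976)
(mv 980 (cons (fin 912 3 912)
(fin 981 3 913)))))))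
(mv 1039 (cons (fin 1038 1 974)
(mv 1042 (cons (fin 1043 0 975)
(mv 1106 (cons (fin 1170 7 913)
(mv 1107 (cons (fin 1041 0 1039)
(fin 1171 4 914)))))))))))))))
(cons (mv 915 (cons (fin 916 1 912)
(mv 912 (cons (mv 847 (cons (fin 848 3 847)
(mv 851 (cons (fin 852 2 848)
(mv 979 (cons (fin 980 0 912)
(mv 978 (cons (fin 1039 1 975)
(mv 787 (cons (fin 723 5 722)
(fin 1042 5 786)))))))))))
(cons (mv 851 (cons (fin 852 2 848)
(mv 979 (cons (fin 980 0 912)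
(mv 978 (cons (fin 1039 1 975)
(mv 787 (cons (fin 723 5 722)
(fin 1042 5 786)))))))))
(mv 848 (cons (fin 847 3 847)
(mv 784 (cons (fin 720 4 720)
(fin 1041 4 784))))))))))
(mv 915 (cons (fin 916 1 912)
(mv 975 (cons (fin 974 2 910)
(fin 978 2 911)))))))))))
(cons (mv 785 (cons (fin 849 5 784)
(mv 914 (cons (cons (mv 915 (cons (fin 916 1 912)
(mv 975 (cons (fin 912 1 911)
(fin 974 2 910)))))
(mv 975 (cons (fin 974 2 910)
(mv 978 (cons (mv 1039 (cons (fin 1038 1 974)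
(fin 979 1 975)))
(cons (mv 1043 (cons (fin 1042 0 975)
(mv 979 (cons (fin 1044 0 976)
(mv 980 (cons (fin 912 3 912)
(fin 981 3 913)))))))
(mv 1039 (cons (fin 1038 1 974)
(mv 1042 (cons (fin 1043 0 975)
(mv 1106 (cons (fin 1170 7 913)
(mv 1107 (cons (fin 1041 0 1039)
(fin 1171 4 914)))))))))))))))
(cons (mv 915 (cons (fin 916 1 912)
(mv 912 (cons (mv 847 (cons (fin 848 3 847)
(mv 851 (cons (fin 852 2 848)
(mv 979 (cons (fin 980 0 912)
(mv 978 (cons (fin 1039 1 975)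
(mv 787 (cons (fin 723 5 722)
(fin 1042 5 786)))))))))))
(cons (mv 851 (cons (fin 852 2 848)
(mv 979 (cons (fin 980 0 912)
(mv 978 (cons (fin 1039 1 975)
(mv 787 (cons (fin 723 5 722)
(fin 1042 5 786)))))))))
(mv 848 (cons (fin 847 3 847)
(mv 784 (cons (fin 721 6 720)
(fin 720 4 720))))))))))
(mv 915 (cons (fin 916 1 912)
(mv 975 (cons (fin 974 2 910)
(fin 978 2 911))))))))))
(cons (mv 849 (cons (fin 785 5 784)
(mv 1104 (cons (fin 912 6 848)
(fin 1168 6 912)))))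
(mv 849 (cons (fin 785 5 784)
(mv 1104 (cons (fin 1041 5 848)
(fin 1168 6 912)))))))))
(cons (mv 913 (cons (cons (mv 849 (cons (fin 785 5 784)
(mv 1104 (cons (fin 912 6 848)
(fin 1168 6 912)))))
(mv 1168 (cons (fin 1104 6 912)
(mv 914 (cons (cons (mv 915 (cons (fin 916 1 912)
(mv 975 (cons (fin 912 1 911)
(fin 974 2 910)))))
(mv 975 (cons (fin 974 2 910)
(mv 978 (cons (mv 1039 (cons (fin 1038 1 974)
(fin 979 1 975)))
(cons (mv 1043 (cons (fin 1042 0 975)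
(mv 979 (cons (fin 1044 0 976)
(mv 980 (cons (fin 912 3 912)
(fin 981 3 913)))))))
(mv 1039 (cons (fin 1038 1 974)
(mv 1042 (cons (fin 1043 0 975)
(mv 1170 (cons (fin 1106 7 913)
(mv 1167 (cons (mv 1103 (cons (fin 912 6 911)
(fin 1231 6 975)))
(cons (mv 1169 (cons (cons (mv 1230 (cons (fin 1231 1 1166)
(mv 1166 (cons (fin 1229 1 1165)
(mv 1234 (cons (fin 1233 0 1166)
(fin 1235 0 1167)))))))
(mv 1234 (cons (fin 1235 0 1167)
(mv 1166 (cons (fin 1233 0 1166)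
(mv 1101 (cons (fin 1102 3 1101)
(mv 1165 (cons (fin 1100 3 1100)
(mv 1229 (cons (fin 1228 1 1164)
(fin 1230 1 1165))))))))))))
(cons (mv 1231 (cons (fin 1230 1 1166)
(mv 1171 (cons (fin 1232 1 1167)
(mv 1108 (cons (fin 1107 2 1104)
(mv 1172 (cons (fin 1109 2 1105)
(mv 1236 (cons (fin 1235 0 1168)
(fin 1237 0 1169)))))))))))
(cons (mv 1235 (cons (fin 1234 0 1167)
(mv 1171 (cons (fin 1236 0 1168)
(mv 1108 (cons (fin 1107 2 1104)
(mv 1172 (cons (fin 1109 2 1105)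
(mv 1232 (cons (fin 1231 1 1167)
(fin 1233 1 1168)))))))))))
(mv 1230 (cons (fin 1231 1 1166)
(mv 1166 (cons (fin 1229 1 1165)
(mv 1101 (cons (fin 1102 3 1101)
(mv 1165 (cons (fin 1100 3 1100)
(mv 1233 (cons (fin 1232 0 1165)
(fin 1234 0 1166)))))))))))))))
(mv 1103 (cons (fin 912 6 911)
(fin 1232 4 975))))))))))))))))))
(cons (mv 915 (cons (fin 916 1 912)
(mv 912 (cons (cons (mv 847 (cons (fin 848 3 847)
(mv 851 (cons (fin 852 2 848)
(mv 979 (cons (fin 980 0 912)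
(mv 978 (cons (fin 1039 1 975)
(mv 787 (cons (fin 723 5 722)
(fin 1042 5 786)))))))))))
(mv 851 (cons (fin 852 2 848)
(mv 979 (cons (fin 980 0 912)
(mv 978 (cons (fin 1039 1 975)
(mv 787 (cons (fin 723 5 722)
(fin 1042 5 786))))))))))
(cons (mv 848 (cons (fin 847 3 847)
(mv 784 (cons (fin 720 4 720)
(mv 783 (cons (fin 719 7 719)
(mv 785 (cons (fin 721 6 720)
(mv 851 (cons (fin 852 2 848)
(mv 786 (cons (fin 850 0 783)
(mv 723 (cons (fin 722 2 719)
(mv 787 (cons (fin 724 2 720)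
(fin 978 5 722)))))))))))))))))
(cons (mv 847 (cons (fin 848 3 847)
(mv 979 (cons (fin 980 0 912)
(mv 978 (cons (fin 1039 1 975)
(mv 1043 (cons (fin 1044 0 976)
(mv 850 (cons (fin 1107 7 850)
(fin 786 4 786)))))))))))
(mv 848 (cons (fin 847 3 847)
(mv 784 (cons (fin 720 4 720)
(mv 783 (cons (fin 719 7 719)
(mv 785 (cons (fin 721 6 720)
(mv 851 (cons (fin 852 2 848)
(mv 786 (cons (fin 850 0 783)
(mv 722 (cons (fin 723 2 719)
(mv 979 (cons (fin 980 0 912)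
(fin 787 7 722)))))))))))))))))))))))
(mv 915 (cons (fin 916 1 912)
(mv 975 (cons (fin 974 2 910)
(fin 978 2 911)))))))))))
(cons (mv 849 (cons (fin 785 5 784)
(mv 914 (cons (mv 915 (cons (fin 916 1 912)
(mv 975 (cons (fin 912 1 911)
(fin 974 2 910)))))
(cons (mv 975 (cons (fin 974 2 910)
(mv 978 (cons (mv 1039 (cons (fin 1038 1 974)
(fin 979 1 975)))
(mv 1042 (cons (fin 1043 0 975)
(fin 1106 7 849)))))))
(mv 915 (cons (fin 916 1 912)
(mv 912 (cons (cons (mv 847 (cons (fin 848 3 847)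
(mv 851 (cons (fin 852 2 848)
(mv 979 (cons (fin 980 0 912)
(mv 978 (cons (fin 1039 1 975)
(mv 787 (cons (fin 723 5 722)
(fin 1042 5 786)))))))))))
(mv 851 (cons (fin 852 2 848)
(mv 979 (cons (fin 980 0 912)
(mv 978 (cons (fin 1039 1 975)
(mv 787 (cons (fin 723 5 722)
(fin 1042 5 786))))))))))
(cons (mv 848 (cons (fin 847 3 847)
(mv 784 (cons (fin 720 4 720)
(mv 783 (cons (fin 719 7 719)
(mv 851 (cons (fin 850 3 783)
(fin 852 2 848)))))))))
(mv 847 (cons (fin 848 3 847)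
(mv 979 (cons (fin 980 0 912)
(mv 978 (cons (fin 1039 1 975)
(mv 1042 (cons (fin 1106 7 849)
(mv 1043 (cons (fin 1044 0 976)
(mv 850 (cons (fin 1107 7 850)
(fin 786 4 786)))))))))))))))))))))))
(cons (mv 1104 (cons (fin 1168 6 912)
(mv 849 (cons (fin 912 6 848)
(mv 978 (cons (cons (mv 979 (cons (fin 1039 1 975)
(mv 915 (cons (fin 916 2 912)
(mv 914 (cons (fin 975 2 911)
(mv 980 (cons (fin 981 3 913)
(mv 1044 (cons (fin 1043 0 976)
(fin 1045 0 977)))))))))))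
(cons (mv 975 (cons (mv 914 (cons (fin 974 2 910)
(fin 915 2 911)))
(cons (mv 1042 (cons (fin 1043 0 975)
(mv 1106 (cons (fin 1170 7 913)
(mv 974 (cons (cons (mv 1038 (cons (fin 1037 1 973)
(fin 1039 1 974)))
(mv 909 (cons (fin 910 3 909)
(mv 973 (cons (fin 908 3 908)
(mv 972 (cons (fin 1039 0 972)
(mv 1036 (cons (fin 1035 1 971)
(fin 1037 1 972))))))))))
(cons (mv 909 (cons (fin 910 3 909)
(mv 973 (cons (fin 908 3 908)
(mv 1037 (cons (fin 1036 1 972)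
(fin 1038 1 973)))))))
(mv 909 (cons (fin 910 3 909)
(mv 973 (cons (fin 908 3 908)
(mv 1039 (cons (fin 1038 1 974)
(fin 972 0 972))))))))))))))
(mv 914 (cons (fin 915 2 911)
(mv 1042 (cons (fin 1043 0 975)
(fin 1106 7 849))))))))
(mv 914 (cons (mv 915 (cons (fin 916 1 912)
(fin 975 2 911)))
(cons (mv 975 (cons (fin 974 2 910)
(mv 1042 (cons (fin 1043 0 975)
(fin 1106 7 849)))))
(mv 915 (cons (fin 916 1 912)
(mv 1042 (cons (fin 1106 7 849)
(mv 850 (cons (cons (mv 722 (cons (fin 786 5 721)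
(mv 787 (cons (fin 851 6 786)
(mv 847 (cons (fin 848 0 847)
(mv 1043 (cons (fin 1107 4 850)
(mv 1044 (cons (fin 1045 3 977)
(fin 979 0 976)))))))))))
(mv 787 (cons (fin 851 6 786)
(mv 847 (cons (fin 848 0 847)
(mv 1043 (cons (fin 1107 4 850)
(mv 1044 (cons (fin 1045 3 977)
(fin 979 0 976))))))))))
(cons (mv 786 (cons (fin 722 5 721)
(mv 787 (cons (fin 723 6 722)
(fin 851 6 786)))))
(mv 722 (cons (fin 786 5 721)
(mv 847 (cons (fin 848 0 847)
(mv 1043 (cons (fin 1107 4 850)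
(mv 1044 (cons (fin 1045 3 977)
(fin 979 0 976)))))))))))))))))))))
(cons (cons (mv 979 (cons (fin 1039 1 975)
(mv 915 (cons (fin 916 2 912)
(mv 1043 (cons (fin 1044 0 976)
(mv 1042 (cons (fin 975 0 975)
(mv 851 (cons (fin 787 5 786)
(fin 1106 5 850)))))))))))
(mv 979 (cons (fin 1039 1 975)
(mv 916 (cons (fin 915 2 912)
(mv 980 (cons (fin 917 2 913)
(mv 1044 (cons (fin 1043 0 976)
(fin 1045 0 977))))))))))
(cons (mv 979 (cons (fin 1039 1 975)
(mv 1043 (cons (fin 1044 0 976)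
(mv 975 (cons (fin 1042 0 975)
(mv 974 (cons (fin 914 2 910)
(mv 909 (cons (fin 910 3 909)
(mv 973 (cons (fin 908 3 908)
(mv 1037 (cons (fin 1036 1 972)
(fin 1038 1 973)))))))))))))))
(mv 979 (cons (fin 1039 1 975)
(mv 916 (cons (fin 915 2 912)
(mv 980 (cons (fin 917 2 913)
(mv 981 (cons (fin 914 3 913)
(mv 1045 (cons (fin 1044 0 977)
(fin 1046 0 978)))))))))))))))))))
(mv 849 (cons (fin 785 5 784)
(mv 1104 (cons (fin 1168 6 912)
(mv 978 (cons (cons (mv 979 (cons (fin 1039 1 975)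
(mv 915 (cons (fin 916 2 912)
(mv 914 (cons (fin 975 2 911)
(mv 980 (cons (fin 981 3 913)
(mv 1044 (cons (fin 1043 0 976)
(fin 1045 0 977)))))))))))
(cons (mv 975 (cons (mv 914 (cons (fin 974 2 910)
(fin 915 2 911)))
(cons (mv 1042 (cons (fin 1043 0 975)
(mv 1106 (cons (fin 1170 7 913)
(mv 974 (cons (cons (mv 1038 (cons (fin 1037 1 973)
(fin 1039 1 974)))
(mv 909 (cons (fin 910 3 909)
(mv 973 (cons (fin 908 3 908)
(mv 972 (cons (fin 1039 0 972)
(mv 1036 (cons (fin 1035 1 971)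
(fin 1037 1 972))))))))))
(cons (mv 909 (cons (fin 910 3 909)
(mv 973 (cons (fin 908 3 908)
(mv 1037 (cons (fin 1036 1 972)
(fin 1038 1 973)))))))
(mv 909 (cons (fin 910 3 909)
(mv 973 (cons (fin 908 3 908)
(mv 1039 (cons (fin 1038 1 974)
(fin 972 0 972))))))))))))))
(mv 914 (cons (fin 915 2 911)
(mv 1042 (cons (fin 1043 0 975)
(fin 1106 7 849))))))))
(mv 914 (cons (mv 915 (cons (fin 916 1 912)
(fin 975 2 911)))
(cons (mv 975 (cons (fin 974 2 910)
(mv 1042 (cons (fin 1043 0 975)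
(fin 1106 7 849)))))
(mv 915 (cons (fin 916 1 912)
(mv 1042 (cons (fin 1106 7 849)
(mv 850 (cons (cons (mv 722 (cons (fin 786 5 721)
(mv 787 (cons (fin 851 6 786)
(mv 847 (cons (fin 848 0 847)
(mv 1043 (cons (fin 1107 4 850)
(mv 1044 (cons (fin 1045 3 977)
(fin 979 0 976)))))))))))
(mv 787 (cons (fin 851 6 786)
(mv 847 (cons (fin 848 0 847)
(mv 1043 (cons (fin 1107 4 850)
(mv 1044 (cons (fin 1045 3 977)
(fin 979 0 976))))))))))
(cons (mv 786 (cons (fin 722 5 721)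
(mv 787 (cons (fin 723 6 722)
(fin 851 6 786)))))
(mv 722 (cons (fin 786 5 721)
(mv 847 (cons (fin 848 0 847)
(mv 1043 (cons (fin 1107 4 850)
(mv 1044 (cons (fin 1045 3 977)
(fin 979 0 976)))))))))))))))))))))
(cons (cons (mv 979 (cons (fin 1039 1 975)
(mv 915 (cons (fin 916 2 912)
(mv 1043 (cons (fin 1044 0 976)
(mv 1042 (cons (fin 975 0 975)
(mv 851 (cons (fin 787 5 786)
(fin 1106 5 850)))))))))))
(mv 979 (cons (fin 1039 1 975)
(mv 916 (cons (fin 915 2 912)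
(mv 980 (cons (fin 917 2 913)
(mv 1044 (cons (fin 1043 0 976)
(fin 1045 0 977))))))))))
(cons (mv 979 (cons (fin 1039 1 975)
(mv 1043 (cons (fin 1044 0 976)
(mv 975 (cons (fin 1042 0 975)
(mv 974 (cons (fin 914 2 910)
(mv 909 (cons (fin 910 3 909)
(mv 973 (cons (fin 908 3 908)
(mv 1037 (cons (fin 1036 1 972)
(fin 1038 1 973)))))))))))))))
(mv 979 (cons (fin 1039 1 975)
(mv 916 (cons (fin 915 2 912)
(mv 980 (cons (fin 917 2 913)
(mv 981 (cons (fin 914 3 913)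
(mv 1045 (cons (fin 1044 0 977)
(fin 1046 0 978)))))))))))))))))))))))
(mv 913 (cons (cons (mv 849 (cons (fin 785 5 784)
(mv 1104 (cons (fin 1041 5 848)
(fin 912 6 848)))))
(mv 1104 (cons (fin 1168 6 912)
(mv 979 (cons (cons (mv 978 (cons (fin 1039 1 975)
(mv 980 (cons (fin 912 3 912)
(fin 1041 1 976)))))
(mv 915 (cons (cons (mv 914 (cons (fin 916 1 912)
(mv 912 (cons (fin 980 0 912)
(mv 848 (cons (fin 847 3 847)
(mv 784 (cons (fin 720 4 720)
(fin 1041 4 784)))))))))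
(mv 1043 (cons (cons (mv 1042 (cons (mv 1041 (cons (fin 1044 3 976)
(fin 1103 1 1039)))
(cons (mv 851 (cons (fin 1106 5 850)
(mv 786 (cons (fin 850 7 786)
(mv 722 (cons (fin 787 7 722)
(mv 852 (cons (fin 788 6 787)
(mv 1107 (cons (fin 916 6 851)
(mv 1108 (cons (fin 1044 4 851)
(fin 1172 4 915)))))))))))))
(mv 1041 (cons (fin 1103 1 1039)
(fin 980 2 976))))))
(cons (mv 851 (cons (cons (mv 786 (cons (fin 850 7 786)
(mv 722 (cons (fin 787 7 722)
(mv 852 (cons (fin 788 6 787)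
(mv 1044 (cons (fin 1108 4 851)
(mv 1107 (cons (fin 916 6 851)
(mv 1170 (cons (fin 1106 5 914)
(mv 1171 (cons (fin 1234 5 978)
(mv 1235 (cons (fin 980 6 979)
(mv 1236 (cons (fin 1172 4 979)
(fin 1300 4 1043)))))))))))))))))))
(cons (mv 786 (cons (fin 850 7 786)
(mv 787 (cons (fin 722 7 722)
(mv 1044 (cons (fin 980 4 787)
(fin 1108 4 851)))))))
(mv 786 (cons (fin 850 7 786)
(mv 722 (cons (fin 787 7 722)
(mv 852 (cons (fin 788 6 787)
(mv 1107 (cons (fin 916 6 851)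
(mv 1170 (cons (fin 1106 5 914)
(mv 1171 (cons (fin 1234 5 978)
(mv 1172 (cons (fin 1108 4 915)
(fin 1236 4 979)))))))))))))))))
(cons (mv 786 (cons (fin 850 7 786)
(mv 787 (cons (fin 722 7 722)
(mv 788 (cons (fin 724 6 723)
(fin 852 6 787)))))))
(cons (mv 788 (cons (fin 852 6 787)
(mv 787 (cons (fin 724 6 723)
(mv 1044 (cons (fin 980 4 787)
(fin 1108 4 851)))))))
(mv 786 (cons (fin 850 7 786)
(mv 852 (cons (fin 788 6 787)
(mv 1044 (cons (fin 1108 4 851)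
(mv 1107 (cons (fin 916 6 851)
(mv 1170 (cons (fin 1106 5 914)
(mv 1171 (cons (fin 1234 5 978)
(mv 1235 (cons (fin 980 6 979)
(mv 1236 (cons (fin 1172 4 979)
(fin 1300 4 1043)))))))))))))))))))))
(mv 1107 (cons (cons (mv 852 (cons (fin 916 6 851)
(mv 1170 (cons (fin 1106 5 914)
(mv 1171 (cons (fin 1234 5 978)
(mv 1172 (cons (fin 1108 4 915)
(fin 1236 4 979)))))))))
(cons (mv 916 (cons (fin 852 6 851)
(mv 1106 (cons (fin 1170 5 914)
(mv 1171 (cons (fin 980 6 915)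
(mv 1236 (cons (fin 1172 4 979)
(mv 1235 (cons (fin 1300 4 1043)
(mv 1042 (cons (fin 1299 7 1042)
(mv 1041 (cons (fin 1044 3 976)
(fin 1103 1 1039)))))))))))))))
(mv 1170 (cons (fin 1106 5 914)
(mv 1171 (cons (fin 1234 5 978)
(mv 1172 (cons (fin 1108 4 915)
(fin 1236 4 979)))))))))
(cons (mv 916 (cons (fin 852 6 851)
(mv 1170 (cons (fin 1106 5 914)
(mv 1171 (cons (fin 1234 5 978)
(fin 980 6 915)))))))
(cons (mv 916 (cons (fin 852 6 851)
(mv 980 (cons (fin 1171 6 915)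
(mv 1042 (cons (fin 1041 2 976)
(mv 981 (cons (fin 982 1 978)
(mv 1108 (cons (fin 1172 4 915)
(mv 1109 (cons (fin 1110 3 1042)
(mv 1173 (cons (fin 1045 7 916)
(fin 1044 4 916)))))))))))))))
(mv 916 (cons (fin 852 6 851)
(mv 1106 (cons (fin 1170 5 914)
(mv 1108 (cons (fin 1172 4 915)
(mv 1042 (cons (fin 1041 0 1040)
(mv 1109 (cons (fin 1110 3 1042)
(mv 1045 (cons (fin 1046 2 1042)
(mv 1173 (cons (fin 1174 0 1106)
(mv 980 (cons (fin 981 7 916)
(fin 1044 4 916)))))))))))))))))))))))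
(cons (cons (mv 851 (cons (cons (mv 786 (cons (fin 850 7 786)
(mv 722 (cons (fin 787 7 722)
(mv 788 (cons (fin 852 6 787)
(mv 1042 (cons (fin 1106 5 850)
(mv 1041 (cons (fin 1044 3 976)
(fin 1103 1 1039)))))))))))
(mv 786 (cons (fin 850 7 786)
(mv 787 (cons (fin 722 7 722)
(mv 788 (cons (fin 724 6 723)
(fin 852 6 787))))))))
(cons (mv 786 (cons (fin 850 7 786)
(mv 722 (cons (fin 787 7 722)
(mv 1042 (cons (fin 1106 5 850)
(mv 1041 (cons (fin 1044 3 976)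
(fin 1103 1 1039)))))))))
(cons (mv 788 (cons (fin 852 6 787)
(mv 724 (cons (fin 787 6 723)
(mv 1042 (cons (fin 1106 5 850)
(mv 1041 (cons (fin 1044 3 976)
(fin 1103 1 1039)))))))))
(mv 786 (cons (fin 850 7 786)
(mv 788 (cons (fin 852 6 787)
(mv 1042 (cons (fin 1106 5 850)
(mv 1041 (cons (fin 1044 3 976)
(fin 1103 1 1039)))))))))))))
(mv 1107 (cons (cons (mv 852 (cons (fin 916 6 851)
(mv 788 (cons (fin 851 6 787)
(mv 1170 (cons (fin 1106 5 914)
(mv 1171 (cons (fin 1234 5 978)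
(mv 1172 (cons (fin 1108 4 915)
(fin 1236 4 979)))))))))))
(mv 916 (cons (fin 852 6 851)
(mv 1171 (cons (fin 980 6 915)
(mv 1172 (cons (fin 1108 4 915)
(fin 1236 4 979))))))))
(cons (mv 852 (cons (fin 916 6 851)
(mv 851 (cons (fin 788 6 787)
(mv 1106 (cons (fin 1042 5 850)
(fin 1170 5 914)))))))
(cons (mv 1106 (cons (fin 1170 5 914)
(mv 851 (cons (fin 1042 5 850)
(mv 786 (cons (fin 850 7 786)
(mv 787 (cons (fin 722 7 722)
(mv 788 (cons (fin 724 6 723)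
(fin 852 6 787)))))))))))
(mv 1106 (cons (fin 1170 5 914)
(mv 1042 (cons (fin 851 5 850)
(mv 1041 (cons (fin 1103 1 1039)
(fin 980 2 976))))))))))))
(cons (mv 1042 (cons (mv 1041 (cons (fin 1044 3 976)
(fin 1103 1 1039)))
(cons (mv 851 (cons (fin 1106 5 850)
(mv 786 (cons (fin 850 7 786)
(mv 787 (cons (fin 722 7 722)
(mv 1044 (cons (fin 980 4 787)
(fin 1108 4 851)))))))))
(mv 1041 (cons (fin 1103 1 1039)
(fin 980 2 976))))))
(mv 851 (cons (cons (mv 786 (cons (fin 850 7 786)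
(mv 722 (cons (fin 787 7 722)
(mv 852 (cons (fin 788 6 787)
(mv 1107 (cons (fin 916 6 851)
(mv 1108 (cons (fin 1044 4 851)
(fin 1172 4 915)))))))))))
(mv 786 (cons (fin 850 7 786)
(mv 787 (cons (fin 722 7 722)
(mv 788 (cons (fin 724 6 723)
(fin 852 6 787))))))))
(cons (mv 786 (cons (fin 850 7 786)
(mv 787 (cons (fin 722 7 722)
(mv 1044 (cons (fin 980 4 787)
(fin 1108 4 851)))))))
(cons (mv 788 (cons (fin 852 6 787)
(mv 787 (cons (fin 724 6 723)
(mv 1044 (cons (fin 980 4 787)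
(fin 1108 4 851)))))))
(mv 786 (cons (fin 850 7 786)
(mv 852 (cons (fin 788 6 787)
(mv 1107 (cons (fin 916 6 851)
(mv 1108 (cons (fin 1044 4 851)
(fin 1172 4 915))))))))))))))))))
(cons (mv 912 (cons (cons (mv 914 (cons (fin 980 0 912)
(mv 848 (cons (fin 847 3 847)
(mv 784 (cons (fin 720 4 720)
(fin 1041 4 784)))))))
(mv 1103 (cons (fin 1167 5 911)
(mv 848 (cons (fin 1039 5 847)
(mv 784 (cons (fin 720 4 720)
(fin 1041 4 784))))))))
(cons (mv 1167 (cons (fin 1103 5 911)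
(mv 914 (cons (fin 980 0 912)
(mv 851 (cons (fin 852 2 848)
(mv 1043 (cons (mv 850 (cons (fin 786 7 786)
(fin 1107 7 850)))
(mv 1042 (cons (fin 1106 5 850)
(mv 1044 (cons (fin 1041 3 976)
(fin 1108 4 851)))))))))))))
(mv 914 (cons (fin 980 0 912)
(mv 848 (cons (fin 847 3 847)
(mv 1103 (cons (fin 1039 5 847)
(fin 1167 5 911))))))))))
(cons (mv 914 (cons (fin 916 1 912)
(mv 912 (cons (mv 848 (cons (fin 847 3 847)
(mv 784 (cons (fin 720 4 720)
(fin 1041 4 784)))))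
(cons (mv 851 (cons (fin 852 2 848)
(mv 1103 (cons (fin 1167 5 911)
(mv 1043 (cons (mv 850 (cons (fin 786 7 786)
(fin 1107 7 850)))
(mv 1042 (cons (fin 1041 1 1039)
(fin 1106 5 850)))))))))
(mv 848 (cons (fin 847 3 847)
(mv 1103 (cons (fin 1039 5 847)
(fin 1167 5 911))))))))))
(mv 914 (cons (fin 916 1 912)
(mv 912 (cons (fin 980 0 912)
(mv 848 (cons (fin 847 3 847)
(mv 1103 (cons (fin 1039 5 847)
(fin 1167 5 911))))))))))))))
(cons (mv 978 (cons (mv 980 (cons (fin 912 3 912)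
(fin 1041 1 976)))
(cons (mv 915 (cons (fin 916 2 912)
(mv 1043 (cons (fin 1044 0 976)
(mv 1042 (cons (mv 851 (cons (fin 787 5 786)
(fin 1106 5 850)))
(cons (mv 787 (cons (fin 851 5 786)
(mv 1041 (cons (fin 1103 1 1039)
(mv 1107 (cons (fin 1108 0 1040)
(mv 914 (cons (fin 850 7 850)
(fin 1171 7 914)))))))))
(mv 1041 (cons (fin 1103 1 1039)
(mv 1106 (cons (fin 1170 7 913)
(mv 1107 (cons (fin 1108 0 1040)
(mv 914 (cons (fin 850 7 850)
(fin 1171 7 914))))))))))))))))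
(mv 915 (cons (fin 916 2 912)
(mv 980 (cons (fin 912 3 912)
(mv 1044 (cons (fin 1043 0 976)
(fin 1045 0 977))))))))))
(cons (mv 978 (cons (fin 1039 1 975)
(mv 915 (cons (fin 916 2 912)
(mv 1043 (cons (fin 1044 0 976)
(mv 1042 (cons (mv 851 (cons (fin 787 5 786)
(fin 1106 5 850)))
(cons (mv 787 (cons (fin 851 5 786)
(mv 1041 (cons (fin 1103 1 1039)
(mv 1107 (cons (fin 1108 0 1040)
(mv 914 (cons (fin 850 7 850)
(fin 1171 7 914)))))))))
(mv 1041 (cons (fin 1103 1 1039)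
(mv 1106 (cons (fin 1170 7 913)
(mv 1107 (cons (fin 1108 0 1040)
(mv 914 (cons (fin 850 7 850)
(fin 1171 7 914))))))))))))))))))
(mv 978 (cons (fin 1039 1 975)
(mv 915 (cons (fin 916 2 912)
(mv 980 (cons (fin 912 3 912)
(mv 1044 (cons (fin 1043 0 976)
(fin 1045 0 977))))))))))))))))
(cons (mv 849 (cons (fin 785 5 784)
(mv 1041 (cons (cons (mv 784 (cons (fin 848 7 784)
(mv 786 (cons (fin 850 6 785)
(mv 1042 (cons (fin 1106 4 849)
(mv 1043 (cons (fin 1044 3 976)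
(mv 979 (cons (fin 980 2 976)
(mv 978 (cons (fin 1039 1 975)
(mv 915 (cons (fin 916 2 912)
(mv 787 (cons (fin 851 5 786)
(mv 1107 (cons (fin 1108 0 1040)
(mv 1171 (cons (fin 914 7 914)
(fin 1235 7 978)))))))))))))))))))))
(cons (mv 786 (cons (fin 850 6 785)
(mv 848 (cons (fin 784 7 784)
(mv 1039 (cons (mv 978 (cons (fin 979 1 975)
(fin 1038 2 974)))
(mv 912 (cons (fin 1103 5 847)
(mv 847 (cons (fin 783 7 783)
(mv 846 (cons (fin 845 0 845)
(fin 914 0 846)))))))))))))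
(mv 786 (cons (fin 850 6 785)
(mv 1042 (cons (fin 1106 4 849)
(mv 1043 (cons (fin 1044 3 976)
(mv 979 (cons (fin 980 2 976)
(mv 978 (cons (fin 1039 1 975)
(mv 915 (cons (fin 916 2 912)
(mv 787 (cons (fin 851 5 786)
(mv 1107 (cons (fin 1108 0 1040)
(mv 1171 (cons (fin 914 7 914)
(fin 1235 7 978)))))))))))))))))))))
(cons (cons (mv 784 (cons (fin 848 7 784)
(mv 1042 (cons (fin 1106 4 849)
(mv 1043 (cons (fin 1044 3 976)
(mv 979 (cons (fin 980 2 976)
(mv 978 (cons (fin 1039 1 975)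
(mv 915 (cons (fin 916 2 912)
(mv 787 (cons (fin 851 5 786)
(mv 1107 (cons (fin 1108 0 1040)
(mv 1171 (cons (fin 914 7 914)
(fin 1235 7 978)))))))))))))))))))
(mv 784 (cons (fin 848 7 784)
(mv 850 (cons (fin 786 6 785)
(mv 1042 (cons (fin 1106 4 849)
(mv 1043 (cons (fin 1044 3 976)
(mv 979 (cons (fin 980 2 976)
(mv 1107 (cons (fin 1108 0 1040)
(mv 915 (cons (fin 914 7 850)
(mv 852 (cons (fin 916 6 851)
(mv 851 (cons (fin 912 1 848)
(fin 788 6 787))))))))))))))))))))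
(cons (mv 848 (cons (fin 784 7 784)
(mv 850 (cons (fin 786 6 785)
(mv 1042 (cons (fin 1106 4 849)
(mv 1043 (cons (fin 1044 3 976)
(mv 1107 (cons (fin 1108 0 1040)
(mv 914 (cons (fin 978 4 850)
(mv 847 (cons (fin 846 0 846)
(fin 915 0 847)))))))))))))))
(mv 784 (cons (fin 848 7 784)
(mv 786 (cons (fin 850 6 785)
(mv 1042 (cons (fin 1106 4 849)
(mv 1043 (cons (fin 1044 3 976)
(mv 979 (cons (fin 980 2 976)
(mv 1039 (cons (fin 978 1 975)
(mv 1038 (cons (fin 1037 2 973)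
(mv 1102 (cons (fin 1101 1 1037)
(fin 1103 1 1038)))))))))))))))))))))))
(cons (mv 849 (cons (fin 785 5 784)
(mv 1104 (cons (fin 912 6 848)
(fin 1168 6 912)))))
(mv 849 (cons (fin 785 5 784)
(mv 1104 (cons (fin 1041 5 848)
(fin 1168 6 912)))))))))))
(cons (cons (mv 1039 (cons (cons (mv 978 (cons (fin 979 1 975)
(mv 1038 (cons (fin 975 1 974)
(fin 1037 2 973)))))
(mv 978 (cons (fin 979 1 975)
(mv 975 (cons (cons (mv 914 (cons (fin 915 2 911)
(mv 913 (cons (fin 974 2 910)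
(mv 785 (cons (fin 849 5 784)
(mv 1042 (cons (fin 1043 0 975)
(mv 1104 (cons (fin 1168 6 912)
(mv 1106 (cons (fin 1170 7 913)
(mv 1107 (cons (fin 1041 0 1039)
(fin 1171 4 914)))))))))))))))
(mv 914 (cons (fin 915 2 911)
(mv 913 (cons (fin 974 2 910)
(mv 849 (cons (fin 785 5 784)
(mv 1104 (cons (fin 1041 5 848)
(fin 1168 6 912))))))))))
(cons (mv 1042 (cons (fin 1043 0 975)
(mv 974 (cons (fin 1041 3 974)
(mv 909 (cons (fin 910 3 909)
(mv 973 (cons (fin 908 3 908)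
(fin 972 0 972)))))))))
(cons (mv 914 (cons (fin 915 2 911)
(mv 1042 (cons (fin 1043 0 975)
(mv 913 (cons (mv 849 (cons (fin 1106 7 849)
(fin 785 5 784)))
(cons (mv 1104 (cons (fin 1168 6 912)
(mv 1106 (cons (fin 1170 7 913)
(mv 1107 (cons (fin 1041 0 1039)
(fin 1171 4 914)))))))
(mv 849 (cons (fin 785 5 784)
(mv 1104 (cons (fin 1041 5 848)
(fin 1168 6 912))))))))))))
(mv 914 (cons (fin 915 2 911)
(mv 913 (cons (fin 974 2 910)
(mv 849 (cons (fin 785 5 784)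
(mv 1042 (cons (fin 1043 0 975)
(fin 1106 7 849))))))))))))))))
(cons (mv 1038 (cons (fin 1037 2 973)
(mv 1041 (cons (cons (mv 973 (cons (fin 974 3 973)
(mv 1102 (cons (fin 1101 1 1037)
(mv 1042 (cons (fin 1103 1 1038)
(mv 1043 (cons (fin 975 3 975)
(fin 1044 3 976)))))))))
(mv 1102 (cons (fin 1101 1 1037)
(mv 1042 (cons (fin 1103 1 1038)
(mv 1043 (cons (fin 975 3 975)
(fin 1044 3 976))))))))
(cons (mv 974 (cons (fin 973 3 973)
(mv 975 (cons (fin 1042 3 974)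
(mv 909 (cons (fin 910 3 909)
(mv 913 (cons (fin 914 2 910)
(mv 849 (cons (fin 785 5 784)
(fin 1104 5 848)))))))))))
(cons (mv 974 (cons (fin 973 3 973)
(mv 1101 (cons (fin 1102 1 1037)
(mv 913 (cons (mv 849 (cons (fin 785 5 784)
(fin 1104 5 848)))
(mv 975 (cons (fin 914 2 910)
(mv 910 (cons (fin 909 3 909)
(mv 846 (cons (fin 782 4 782)
(fin 1103 4 846)))))))))))))
(mv 973 (cons (fin 974 3 973)
(mv 1102 (cons (fin 1101 1 1037)
(mv 1042 (cons (fin 1103 1 1038)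
(mv 1043 (cons (fin 1044 3 976)
(mv 1107 (cons (fin 1106 0 1039)
(fin 1108 0 1040)))))))))))))))))
(mv 978 (cons (fin 979 1 975)
(mv 1038 (cons (fin 1037 2 973)
(fin 1041 2 974))))))))
(mv 913 (cons (cons (mv 849 (cons (fin 785 5 784)
(mv 1104 (cons (fin 1041 5 848)
(fin 912 6 848)))))
(mv 1104 (cons (fin 1168 6 912)
(mv 914 (cons (cons (mv 915 (cons (fin 916 1 912)
(mv 975 (cons (fin 912 1 911)
(fin 974 2 910)))))
(mv 1038 (cons (cons (mv 974 (cons (fin 975 2 910)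
(mv 1039 (cons (fin 1037 2 973)
(mv 978 (cons (fin 979 1 975)
(fin 1041 2 974)))))))
(mv 974 (cons (fin 975 2 910)
(mv 1102 (cons (cons (cons (mv 1103 (cons (mv 1167 (cons (fin 912 5 911)
(fin 910 4 910)))
(cons (mv 1101 (cons (fin 1041 2 1037)
(mv 1165 (cons (fin 1164 1 1100)
(fin 910 5 909)))))
(mv 912 (cons (fin 1167 5 911)
(mv 1101 (cons (fin 1041 2 1037)
(mv 1036 (cons (fin 1037 3 1036)
(mv 1035 (cons (fin 1100 3 1035)
(mv 1165 (cons (fin 1164 1 1100)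
(mv 1229 (cons (fin 1166 5 973)
(fin 1293 6 1037))))))))))))))))
(mv 1166 (cons (cons (mv 909 (cons (fin 973 7 909)
(mv 845 (cons (fin 910 7 845)
(mv 1229 (cons (fin 1165 5 973)
(mv 1230 (cons (fin 1293 5 1037)
(mv 1231 (cons (fin 1167 4 974)
(fin 1295 4 1038)))))))))))
(mv 973 (cons (fin 909 7 909)
(mv 1230 (cons (fin 1037 7 973)
(mv 1231 (cons (fin 1167 4 974)
(fin 1295 4 1038))))))))
(cons (mv 1165 (cons (fin 1229 5 973)
(mv 1101 (cons (fin 910 5 909)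
(mv 1231 (cons (fin 1167 4 974)
(mv 1230 (cons (fin 1295 4 1038)
(mv 1294 (cons (fin 1037 7 1037)
(fin 1358 7 1101)))))))))))
(mv 909 (cons (fin 973 7 909)
(mv 910 (cons (fin 845 7 845)
(mv 1165 (cons (fin 1101 5 909)
(fin 1229 5 973)))))))))))
(cons (mv 1103 (cons (mv 1167 (cons (fin 912 5 911)
(fin 910 4 910)))
(cons (mv 1101 (cons (fin 1041 2 1037)
(mv 1165 (cons (fin 1164 1 1100)
(fin 910 5 909)))))
(mv 912 (cons (fin 1167 5 911)
(mv 1101 (cons (fin 1041 2 1037)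
(mv 1036 (cons (fin 1037 3 1036)
(mv 1100 (cons (fin 1035 3 1035)
(mv 1164 (cons (fin 1163 1 1099)
(fin 1165 1 1100))))))))))))))
(mv 1166 (cons (cons (mv 909 (cons (fin 973 7 909)
(mv 1165 (cons (fin 1229 5 973)
(mv 1167 (cons (fin 1231 4 974)
(mv 1103 (cons (fin 1164 2 1100)
(fin 912 5 911)))))))))
(mv 973 (cons (fin 909 7 909)
(mv 1165 (cons (fin 1229 5 973)
(mv 1230 (cons (fin 1037 7 973)
(mv 1295 (cons (fin 1231 4 1038)
(mv 1294 (cons (fin 1359 4 1102)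
(mv 1101 (cons (fin 1358 7 1101)
(mv 1103 (cons (fin 1164 1 1100)
(fin 1041 2 1037))))))))))))))))
(cons (mv 1165 (cons (fin 1229 5 973)
(mv 1167 (cons (fin 1231 4 974)
(mv 1103 (cons (fin 1164 2 1100)
(fin 912 5 911)))))))
(cons (mv 973 (cons (fin 909 7 909)
(mv 1229 (cons (fin 1165 5 973)
(mv 1230 (cons (fin 1037 7 973)
(fin 1293 5 1037)))))))
(mv 909 (cons (fin 973 7 909)
(mv 1167 (cons (fin 1231 4 974)
(mv 1103 (cons (fin 912 5 911)
(mv 1101 (cons (fin 1041 2 1037)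
(mv 1036 (cons (fin 1037 3 1036)
(mv 1100 (cons (fin 1035 3 1035)
(fin 1099 0 1099)))))))))))))))))))
(cons (cons (mv 1166 (cons (cons (mv 909 (cons (fin 973 7 909)
(mv 910 (cons (fin 845 7 845)
(mv 1165 (cons (fin 1101 5 909)
(fin 1229 5 973)))))))
(mv 973 (cons (fin 909 7 909)
(mv 1230 (cons (fin 1037 7 973)
(mv 1293 (cons (fin 1229 5 1037)
(mv 1294 (cons (fin 1357 5 1101)
(mv 1295 (cons (fin 1231 4 1038)
(fin 1359 4 1102))))))))))))
(cons (mv 1165 (cons (fin 1229 5 973)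
(mv 1101 (cons (fin 910 5 909)
(mv 1103 (cons (fin 1164 1 1100)
(fin 1041 2 1037)))))))
(mv 909 (cons (fin 973 7 909)
(mv 910 (cons (fin 845 7 845)
(mv 1101 (cons (fin 1165 5 909)
(mv 1037 (cons (fin 846 5 845)
(mv 1103 (cons (fin 1036 3 1036)
(fin 1041 2 1037))))))))))))))
(mv 1166 (cons (cons (mv 909 (cons (fin 973 7 909)
(mv 845 (cons (fin 910 7 845)
(mv 1165 (cons (fin 1229 5 973)
(mv 1167 (cons (fin 1231 4 974)
(mv 1103 (cons (fin 1164 2 1100)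
(fin 912 5 911)))))))))))
(mv 973 (cons (fin 909 7 909)
(mv 1229 (cons (fin 1165 5 973)
(mv 1230 (cons (fin 1037 7 973)
(fin 1293 5 1037))))))))
(cons (mv 1165 (cons (fin 1229 5 973)
(mv 1167 (cons (fin 1231 4 974)
(mv 1103 (cons (fin 1164 2 1100)
(fin 912 5 911)))))))
(mv 909 (cons (fin 973 7 909)
(mv 910 (cons (fin 845 7 845)
(mv 1167 (cons (fin 1103 4 910)
(fin 1231 4 974)))))))))))
(cons (mv 1166 (cons (cons (mv 909 (cons (fin 973 7 909)
(mv 845 (cons (fin 910 7 845)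
(mv 1167 (cons (fin 1231 4 974)
(mv 1103 (cons (fin 912 5 911)
(mv 1101 (cons (fin 1041 2 1037)
(mv 1036 (cons (fin 1037 3 1036)
(mv 1100 (cons (fin 1035 3 1035)
(fin 1099 0 1099)))))))))))))))
(mv 973 (cons (fin 909 7 909)
(mv 1230 (cons (fin 1037 7 973)
(mv 1293 (cons (fin 1229 5 1037)
(mv 1294 (cons (fin 1357 5 1101)
(mv 1295 (cons (fin 1231 4 1038)
(fin 1359 4 1102))))))))))))
(cons (mv 1167 (cons (fin 1231 4 974)
(mv 1103 (cons (fin 912 5 911)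
(fin 910 4 910)))))
(mv 909 (cons (fin 973 7 909)
(mv 910 (cons (fin 845 7 845)
(mv 1103 (cons (fin 1167 4 910)
(mv 1101 (cons (fin 1041 2 1037)
(mv 1037 (cons (fin 1036 3 1036)
(fin 846 5 845))))))))))))))
(mv 1103 (cons (mv 1167 (cons (fin 912 5 911)
(fin 910 4 910)))
(cons (mv 1101 (cons (fin 1041 2 1037)
(mv 1165 (cons (fin 1164 1 1100)
(fin 910 5 909)))))
(mv 912 (cons (fin 1167 5 911)
(mv 1101 (cons (fin 1041 2 1037)
(mv 1165 (cons (fin 1164 1 1100)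
(mv 1229 (cons (fin 1166 5 973)
(fin 1293 6 1037)))))))))))))))))))
(cons (mv 1039 (cons (fin 1037 2 973)
(mv 978 (cons (fin 979 1 975)
(fin 1041 2 974)))))
(cons (mv 1039 (cons (mv 975 (cons (fin 978 1 974)
(fin 974 2 910)))
(cons (mv 974 (cons (fin 975 2 910)
(mv 1041 (cons (fin 973 3 973)
(mv 1102 (cons (fin 1101 1 1037)
(mv 1166 (cons (cons (mv 1165 (cons (fin 1229 5 973)
(mv 1167 (cons (fin 1231 4 974)
(mv 1103 (cons (fin 1164 2 1100)
(fin 912 5 911)))))))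
(mv 1229 (cons (fin 1165 5 973)
(mv 1230 (cons (fin 1293 5 1037)
(mv 1294 (cons (fin 1103 6 1038)
(mv 1295 (cons (fin 1231 4 1038)
(fin 1359 4 1102))))))))))
(cons (mv 1229 (cons (fin 1165 5 973)
(mv 1230 (cons (fin 1293 5 1037)
(mv 1103 (cons (fin 1294 6 1038)
(mv 910 (cons (fin 846 4 846)
(fin 1167 4 910)))))))))
(cons (mv 1167 (cons (fin 1231 4 974)
(mv 1103 (cons (fin 912 5 911)
(fin 910 4 910)))))
(mv 1229 (cons (fin 1165 5 973)
(mv 1230 (cons (fin 1293 5 1037)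
(mv 1231 (cons (fin 1167 4 974)
(fin 1295 4 1038)))))))))))))))))
(mv 978 (cons (fin 979 1 975)
(fin 1041 2 974))))))
(mv 975 (cons (fin 974 2 910)
(mv 1039 (cons (fin 978 1 974)
(fin 1037 2 973))))))))))
(cons (mv 915 (cons (fin 916 1 912)
(mv 912 (cons (mv 847 (cons (fin 848 3 847)
(mv 851 (cons (fin 852 2 848)
(mv 979 (cons (fin 980 0 912)
(mv 978 (cons (fin 1039 1 975)
(mv 723 (cons (fin 787 5 722)
(mv 1043 (cons (fin 1044 0 976)
(mv 850 (cons (fin 786 7 786)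
(fin 1107 7 850)))))))))))))))
(cons (mv 851 (cons (fin 852 2 848)
(mv 979 (cons (fin 980 0 912)
(mv 978 (cons (fin 1039 1 975)
(mv 723 (cons (fin 787 5 722)
(mv 1043 (cons (fin 1044 0 976)
(mv 850 (cons (fin 786 7 786)
(fin 1107 7 850)))))))))))))
(mv 848 (cons (fin 847 3 847)
(mv 784 (cons (fin 720 4 720)
(fin 1041 4 784))))))))))
(mv 915 (cons (fin 916 1 912)
(mv 975 (cons (fin 974 2 910)
(fin 978 2 911)))))))))))
(cons (mv 849 (cons (fin 785 5 784)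
(mv 914 (cons (cons (mv 915 (cons (fin 916 1 912)
(mv 975 (cons (fin 912 1 911)
(fin 974 2 910)))))
(mv 974 (cons (fin 975 2 910)
(mv 848 (cons (mv 784 (cons (fin 1041 7 784)
(mv 720 (cons (fin 656 4 656)
(fin 912 4 720)))))
(cons (mv 847 (cons (fin 846 0 846)
(mv 783 (cons (fin 912 7 783)
(mv 850 (cons (fin 782 3 782)
(mv 786 (cons (fin 787 2 783)
(fin 722 5 721)))))))))
(mv 784 (cons (fin 1041 7 784)
(mv 656 (cons (fin 720 4 656)
(mv 847 (cons (fin 846 0 846)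
(mv 850 (cons (mv 783 (cons (fin 782 3 782)
(fin 851 3 783)))
(mv 786 (cons (fin 787 2 783)
(fin 722 5 721)))))))))))))))))
(cons (mv 915 (cons (fin 916 1 912)
(mv 848 (cons (mv 847 (cons (fin 912 3 847)
(fin 846 0 846)))
(cons (mv 784 (cons (fin 1041 7 784)
(mv 720 (cons (fin 656 4 656)
(fin 912 4 720)))))
(mv 847 (cons (fin 846 0 846)
(fin 850 0 847))))))))
(mv 915 (cons (fin 916 1 912)
(mv 975 (cons (fin 974 2 910)
(fin 978 2 911))))))))))
(cons (mv 849 (cons (fin 785 5 784)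
(mv 1104 (cons (fin 1041 5 848)
(fin 1168 6 912)))))
(mv 849 (cons (fin 785 5 784)
(mv 1104 (cons (fin 912 6 848)
(fin 1168 6 912))))))))))
(cons (mv 1039 (cons (cons (mv 978 (cons (fin 979 1 975)
(mv 1038 (cons (fin 975 1 974)
(fin 1037 2 973)))))
(mv 978 (cons (fin 979 1 975)
(mv 913 (cons (cons (mv 849 (cons (fin 785 5 784)
(mv 1104 (cons (fin 1041 5 848)
(fin 912 6 848)))))
(mv 914 (cons (mv 915 (cons (fin 916 1 912)
(fin 975 2 911)))
(cons (mv 1042 (cons (cons (mv 974 (cons (fin 975 2 910)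
(mv 1104 (cons (fin 1168 6 912)
(mv 1106 (cons (fin 1170 7 913)
(mv 1107 (cons (fin 1041 0 1039)
(fin 1171 4 914)))))))))
(mv 1104 (cons (fin 1168 6 912)
(mv 1106 (cons (fin 1170 7 913)
(mv 1107 (cons (fin 1041 0 1039)
(fin 1171 4 914))))))))
(cons (mv 974 (cons (fin 975 2 910)
(mv 1104 (cons (fin 1168 6 912)
(mv 1103 (cons (mv 912 (cons (fin 848 5 847)
(fin 1167 5 911)))
(cons (mv 848 (cons (fin 912 5 847)
(mv 1102 (cons (fin 1041 1 1038)
(mv 1101 (cons (fin 1100 2 1036)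
(mv 1037 (cons (fin 1036 3 1036)
(mv 1165 (cons (fin 1164 1 1100)
(mv 973 (cons (fin 910 6 909)
(mv 1166 (cons (fin 909 4 909)
(fin 1230 4 973)))))))))))))))
(mv 1102 (cons (fin 1041 1 1038)
(mv 1101 (cons (fin 1100 2 1036)
(mv 1037 (cons (fin 1036 3 1036)
(mv 1165 (cons (fin 1164 1 1100)
(mv 973 (cons (fin 910 6 909)
(mv 1166 (cons (fin 909 4 909)
(fin 1230 4 973))))))))))))))))))))
(cons (mv 974 (cons (fin 975 2 910)
(mv 1106 (cons (fin 1170 7 913)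
(mv 1107 (cons (fin 1041 0 1039)
(fin 1171 4 914)))))))
(mv 975 (cons (fin 974 2 910)
(mv 1168 (cons (fin 1104 6 912)
(mv 1170 (cons (fin 1106 7 913)
(mv 1167 (cons (mv 1103 (cons (fin 912 6 911)
(fin 1231 6 975)))
(cons (mv 1169 (cons (cons (mv 1230 (cons (fin 1231 1 1166)
(mv 1166 (cons (fin 1229 1 1165)
(mv 1234 (cons (fin 1233 0 1166)
(fin 1235 0 1167)))))))
(mv 1234 (cons (fin 1235 0 1167)
(mv 1166 (cons (fin 1233 0 1166)
(mv 1101 (cons (fin 1102 3 1101)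
(mv 1165 (cons (fin 1100 3 1100)
(mv 1229 (cons (fin 1228 1 1164)
(fin 1230 1 1165))))))))))))
(cons (mv 1231 (cons (fin 1230 1 1166)
(mv 1171 (cons (fin 1232 1 1167)
(mv 1108 (cons (fin 1107 2 1104)
(mv 1172 (cons (fin 1109 2 1105)
(mv 1236 (cons (fin 1235 0 1168)
(fin 1237 0 1169)))))))))))
(cons (mv 1235 (cons (fin 1234 0 1167)
(mv 1171 (cons (fin 1236 0 1168)
(mv 1108 (cons (fin 1107 2 1104)
(mv 1172 (cons (fin 1109 2 1105)
(mv 1232 (cons (fin 1231 1 1167)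
(fin 1233 1 1168)))))))))))
(mv 1230 (cons (fin 1231 1 1166)
(mv 1166 (cons (fin 1229 1 1165)
(mv 1101 (cons (fin 1102 3 1101)
(mv 1165 (cons (fin 1100 3 1100)
(mv 1233 (cons (fin 1232 0 1165)
(fin 1234 0 1166)))))))))))))))
(mv 1103 (cons (fin 912 6 911)
(fin 1232 4 975))))))))))))))))
(mv 915 (cons (fin 916 1 912)
(mv 1104 (cons (fin 1168 6 912)
(mv 912 (cons (mv 848 (cons (fin 847 3 847)
(fin 1103 5 847)))
(mv 851 (cons (fin 852 2 848)
(mv 787 (cons (fin 723 5 722)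
(mv 1042 (cons (fin 850 6 786)
(fin 1106 6 850)))))))))))))))))
(cons (mv 849 (cons (fin 785 5 784)
(mv 914 (cons (mv 915 (cons (fin 916 1 912)
(fin 975 2 911)))
(cons (mv 974 (cons (fin 975 2 910)
(mv 1042 (cons (fin 1106 7 849)
(mv 850 (cons (mv 786 (cons (fin 722 5 721)
(fin 1041 5 785)))
(mv 851 (cons (fin 787 6 786)
(mv 852 (cons (fin 912 1 848)
(fin 853 1 849)))))))))))
(mv 915 (cons (fin 916 1 912)
(mv 1042 (cons (fin 1106 7 849)
(mv 850 (cons (mv 786 (cons (fin 722 5 721)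
(fin 1041 5 785)))
(cons (mv 787 (cons (fin 851 6 786)
(mv 848 (cons (fin 847 0 847)
(mv 784 (cons (fin 1041 7 784)
(mv 720 (cons (fin 656 4 656)
(fin 912 4 720)))))))))
(mv 722 (cons (fin 786 5 721)
(mv 847 (cons (fin 848 0 847)
(mv 851 (cons (fin 787 6 786)
(mv 852 (cons (fin 912 1 848)
(fin 853 1 849)))))))))))))))))))))
(cons (mv 849 (cons (fin 785 5 784)
(mv 1104 (cons (fin 1041 5 848)
(fin 1168 6 912)))))
(mv 849 (cons (fin 785 5 784)
(mv 1104 (cons (fin 912 6 848)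
(fin 1168 6 912))))))))))))
(cons (mv 1038 (cons (fin 1037 2 973)
(mv 1041 (cons (cons (mv 973 (cons (fin 974 3 973)
(mv 1102 (cons (fin 1101 1 1037)
(mv 1103 (cons (fin 1042 1 1038)
(mv 912 (cons (fin 848 5 847)
(mv 1167 (cons (fin 1104 5 911)
(fin 975 6 911)))))))))))
(cons (mv 1102 (cons (fin 1101 1 1037)
(mv 1103 (cons (fin 1042 1 1038)
(mv 912 (cons (fin 848 5 847)
(mv 1167 (cons (fin 1104 5 911)
(fin 975 6 911)))))))))
(mv 974 (cons (fin 973 3 973)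
(mv 975 (cons (fin 1042 3 974)
(mv 909 (cons (fin 910 3 909)
(mv 913 (cons (fin 914 2 910)
(mv 849 (cons (fin 785 5 784)
(fin 1104 5 848)))))))))))))
(cons (mv 974 (cons (fin 973 3 973)
(mv 1101 (cons (fin 1102 1 1037)
(mv 913 (cons (mv 849 (cons (fin 785 5 784)
(fin 1104 5 848)))
(mv 975 (cons (fin 914 2 910)
(mv 910 (cons (fin 909 3 909)
(mv 846 (cons (fin 782 4 782)
(fin 1103 4 846)))))))))))))
(cons (mv 973 (cons (fin 974 3 973)
(mv 1102 (cons (fin 1101 1 1037)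
(mv 1103 (cons (fin 1042 1 1038)
(mv 912 (cons (fin 848 5 847)
(mv 1167 (cons (fin 1104 5 911)
(fin 1231 6 975)))))))))))
(mv 973 (cons (fin 974 3 973)
(mv 1102 (cons (fin 1101 1 1037)
(mv 1103 (cons (fin 1042 1 1038)
(mv 912 (cons (fin 848 5 847)
(mv 1167 (cons (fin 975 6 911)
(fin 1231 6 975)))))))))))))))))
(cons (mv 978 (cons (fin 979 1 975)
(mv 1038 (cons (fin 975 1 974)
(fin 1041 2 974)))))
(mv 978 (cons (fin 979 1 975)
(mv 1038 (cons (fin 1037 2 973)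
(fin 1041 2 974)))))))))
(mv 1039 (cons (cons (mv 978 (cons (fin 979 1 975)
(mv 1038 (cons (fin 975 1 974)
(fin 1037 2 973)))))
(mv 978 (cons (fin 979 1 975)
(mv 913 (cons (cons (mv 849 (cons (fin 785 5 784)
(mv 1104 (cons (fin 1041 5 848)
(fin 912 6 848)))))
(mv 1168 (cons (fin 1104 6 912)
(mv 1170 (cons (cons (mv 1042 (cons (fin 1106 7 913)
(mv 975 (cons (fin 1043 0 975)
(mv 974 (cons (fin 1041 3 974)
(mv 973 (cons (fin 912 2 909)
(fin 972 0 972)))))))))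
(mv 1167 (cons (mv 1103 (cons (fin 1231 6 975)
(mv 912 (cons (fin 848 5 847)
(fin 975 6 911)))))
(cons (mv 1169 (cons (cons (mv 1106 (cons (fin 1107 2 1103)
(mv 1230 (cons (fin 1231 1 1166)
(mv 1166 (cons (fin 1229 1 1165)
(mv 1234 (cons (fin 1233 0 1166)
(fin 1235 0 1167)))))))))
(mv 1107 (cons (fin 1106 2 1103)
(mv 1171 (cons (fin 1108 2 1104)
(mv 1231 (cons (fin 1230 1 1166)
(fin 1232 1 1167))))))))
(cons (mv 1106 (cons (fin 1107 2 1103)
(mv 1234 (cons (fin 1235 0 1167)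
(mv 1166 (cons (fin 1233 0 1166)
(mv 1101 (cons (fin 1102 3 1101)
(mv 1165 (cons (fin 1100 3 1100)
(mv 1229 (cons (fin 1228 1 1164)
(fin 1230 1 1165)))))))))))))
(cons (mv 1107 (cons (fin 1106 2 1103)
(mv 1171 (cons (fin 1108 2 1104)
(mv 1235 (cons (fin 1234 0 1167)
(fin 1236 0 1168)))))))
(mv 1230 (cons (fin 1231 1 1166)
(mv 1166 (cons (fin 1229 1 1165)
(mv 1234 (cons (fin 1233 0 1166)
(fin 1235 0 1167)))))))))))
(mv 1103 (cons (mv 912 (cons (fin 848 5 847)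
(fin 975 6 911)))
(cons (mv 848 (cons (fin 912 5 847)
(mv 1169 (cons (fin 1102 3 1102)
(mv 1106 (cons (fin 1107 2 1103)
(mv 1234 (cons (fin 1235 0 1167)
(mv 1233 (cons (fin 1166 0 1166)
(mv 1298 (cons (mv 1297 (cons (fin 1361 5 1105)
(mv 1299 (cons (fin 1363 4 1106)
(mv 1300 (cons (fin 1232 3 1232)
(fin 1301 3 1233)))))))
(cons (mv 1362 (cons (fin 1426 7 1169)
(mv 1363 (cons (fin 1299 4 1106)
(fin 1427 4 1170)))))
(mv 1361 (cons (fin 1297 5 1105)
(mv 1362 (cons (fin 1426 7 1169)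
(fin 1425 5 1169))))))))))))))))))
(mv 975 (cons (fin 1232 4 975)
(mv 910 (cons (fin 974 7 910)
(mv 1166 (cons (fin 1230 5 974)
(mv 1169 (cons (fin 1102 3 1102)
(mv 1234 (cons (fin 1233 0 1166)
(fin 1235 0 1167))))))))))))))))))
(cons (mv 1167 (cons (mv 1103 (cons (fin 1231 6 975)
(mv 912 (cons (fin 848 5 847)
(fin 975 6 911)))))
(cons (mv 1169 (cons (cons (mv 1230 (cons (fin 1231 1 1166)
(mv 1166 (cons (fin 1229 1 1165)
(mv 1234 (cons (fin 1233 0 1166)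
(fin 1235 0 1167)))))))
(mv 1231 (cons (fin 1230 1 1166)
(mv 1171 (cons (fin 1232 1 1167)
(mv 1108 (cons (fin 1107 2 1104)
(mv 1172 (cons (fin 1109 2 1105)
(mv 1236 (cons (fin 1235 0 1168)
(fin 1237 0 1169))))))))))))
(cons (mv 1234 (cons (fin 1235 0 1167)
(mv 1166 (cons (fin 1233 0 1166)
(mv 1101 (cons (fin 1102 3 1101)
(mv 1165 (cons (fin 1100 3 1100)
(mv 1229 (cons (fin 1228 1 1164)
(fin 1230 1 1165)))))))))))
(cons (mv 1230 (cons (fin 1231 1 1166)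
(mv 1166 (cons (fin 1229 1 1165)
(mv 1101 (cons (fin 1102 3 1101)
(mv 1165 (cons (fin 1100 3 1100)
(mv 1233 (cons (fin 1232 0 1165)
(fin 1234 0 1166)))))))))))
(mv 1235 (cons (fin 1234 0 1167)
(mv 1171 (cons (fin 1236 0 1168)
(mv 1108 (cons (fin 1107 2 1104)
(mv 1172 (cons (fin 1109 2 1105)
(mv 1232 (cons (fin 1231 1 1167)
(fin 1233 1 1168)))))))))))))))
(mv 975 (cons (mv 1103 (cons (fin 912 6 911)
(fin 1232 4 975)))
(cons (mv 1042 (cons (fin 1043 0 975)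
(mv 974 (cons (fin 1041 3 974)
(mv 973 (cons (fin 912 2 909)
(fin 972 0 972)))))))
(mv 1042 (cons (fin 1043 0 975)
(mv 974 (cons (fin 1041 3 974)
(mv 910 (cons (fin 909 3 909)
(fin 1103 7 910)))))))))))))
(mv 1106 (cons (fin 1042 7 913)
(mv 1169 (cons (mv 1107 (cons (fin 1167 2 1103)
(mv 1108 (cons (fin 1109 1 1105)
(fin 1171 2 1104)))))
(cons (mv 1171 (cons (cons (mv 1107 (cons (fin 1108 2 1104)
(mv 1231 (cons (fin 1232 1 1167)
(mv 1235 (cons (fin 1236 0 1168)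
(mv 1299 (cons (fin 1363 7 1106)
(mv 1298 (cons (fin 1362 5 1106)
(mv 1234 (cons (fin 1043 5 1042)
(mv 1297 (cons (fin 1361 5 1105)
(mv 1300 (cons (fin 1364 4 1107)
(mv 1301 (cons (fin 1233 3 1233)
(fin 1302 3 1234)))))))))))))))))))
(cons (mv 1232 (cons (fin 1231 1 1167)
(mv 1172 (cons (fin 1233 1 1168)
(mv 1236 (cons (fin 1235 0 1168)
(fin 1237 0 1169)))))))
(mv 1107 (cons (fin 1108 2 1104)
(mv 1232 (cons (fin 1231 1 1167)
(mv 1172 (cons (fin 1233 1 1168)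
(mv 1173 (cons (fin 1174 3 1106)
(mv 1237 (cons (fin 1236 0 1169)
(fin 1238 0 1170)))))))))))))
(cons (mv 1107 (cons (fin 1108 2 1104)
(mv 1235 (cons (fin 1236 0 1168)
(mv 1299 (cons (fin 1363 7 1106)
(mv 1298 (cons (fin 1362 5 1106)
(mv 1234 (cons (fin 1043 5 1042)
(mv 1297 (cons (fin 1361 5 1105)
(mv 1295 (cons (fin 1296 2 1231)
(mv 1300 (cons (fin 1364 4 1107)
(mv 1301 (cons (fin 1233 3 1233)
(fin 1302 3 1234)))))))))))))))))))
(cons (mv 1108 (cons (fin 1107 2 1104)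
(mv 1172 (cons (fin 1109 2 1105)
(mv 1232 (cons (fin 1231 1 1167)
(fin 1233 1 1168)))))))
(mv 1108 (cons (fin 1107 2 1104)
(mv 1172 (cons (fin 1109 2 1105)
(mv 1236 (cons (fin 1235 0 1168)
(fin 1237 0 1169)))))))))))
(mv 1167 (cons (mv 1103 (cons (fin 1102 3 1102)
(fin 1231 6 975)))
(cons (mv 1102 (cons (fin 1103 3 1102)
(mv 1166 (cons (fin 1101 3 1101)
(mv 1234 (cons (fin 1233 0 1166)
(fin 1235 0 1167)))))))
(mv 1230 (cons (fin 1231 1 1166)
(mv 1166 (cons (fin 1229 1 1165)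
(mv 1234 (cons (fin 1233 0 1166)
(fin 1235 0 1167)))))))))))))))))))))
(cons (mv 849 (cons (fin 785 5 784)
(mv 848 (cons (cons (mv 784 (cons (fin 1041 7 784)
(mv 720 (cons (fin 656 4 656)
(fin 912 4 720)))))
(mv 1041 (cons (fin 784 7 784)
(mv 786 (cons (fin 850 6 785)
(mv 1042 (cons (fin 1106 4 849)
(mv 975 (cons (fin 974 3 974)
(fin 1043 3 975))))))))))
(cons (mv 912 (cons (fin 1103 5 847)
(mv 847 (cons (fin 783 7 783)
(mv 846 (cons (fin 845 0 845)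
(mv 782 (cons (fin 781 3 781)
(mv 910 (cons (fin 909 1 845)
(mv 975 (cons (fin 974 4 782)
(mv 1042 (cons (fin 1043 0 975)
(mv 1106 (cons (fin 1170 7 913)
(fin 1041 4 849)))))))))))))))))
(mv 912 (cons (fin 1103 5 847)
(mv 784 (cons (fin 975 5 783)
(fin 720 4 720))))))))))
(cons (mv 849 (cons (fin 785 5 784)
(mv 1104 (cons (fin 1041 5 848)
(fin 1168 6 912)))))
(mv 849 (cons (fin 785 5 784)
(mv 1104 (cons (fin 912 6 848)
(fin 1168 6 912))))))))))))
(cons (mv 1038 (cons (fin 1037 2 973)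
(mv 1041 (cons (cons (mv 973 (cons (fin 974 3 973)
(mv 1102 (cons (fin 1101 1 1037)
(mv 1042 (cons (fin 1103 1 1038)
(mv 1043 (cons (fin 975 3 975)
(fin 1044 3 976)))))))))
(cons (mv 1102 (cons (fin 1101 1 1037)
(mv 1042 (cons (fin 1103 1 1038)
(mv 1043 (cons (fin 975 3 975)
(fin 1044 3 976)))))))
(mv 974 (cons (fin 973 3 973)
(mv 975 (cons (fin 1042 3 974)
(mv 910 (cons (fin 909 3 909)
(mv 846 (cons (fin 782 4 782)
(fin 1103 4 846)))))))))))
(cons (mv 974 (cons (fin 973 3 973)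
(mv 1102 (cons (fin 1101 1 1037)
(mv 1103 (cons (mv 910 (cons (fin 846 4 846)
(fin 1167 4 910)))
(cons (mv 848 (cons (fin 912 5 847)
(mv 910 (cons (fin 846 4 846)
(mv 909 (cons (fin 975 3 909)
(fin 845 7 845)))))))
(mv 912 (cons (fin 848 5 847)
(mv 1167 (cons (fin 1231 7 974)
(fin 1104 5 911))))))))))))
(cons (mv 973 (cons (fin 974 3 973)
(mv 1102 (cons (fin 1101 1 1037)
(mv 1042 (cons (fin 1103 1 1038)
(mv 1043 (cons (fin 1044 3 976)
(mv 1107 (cons (fin 1106 0 1039)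
(fin 1108 0 1040)))))))))))
(mv 974 (cons (fin 973 3 973)
(mv 1042 (cons (fin 975 3 974)
(mv 1043 (cons (fin 1044 3 976)
(mv 1107 (cons (fin 1106 0 1039)
(fin 1108 0 1040)))))))))))))))
(mv 978 (cons (fin 979 1 975)
(mv 1038 (cons (fin 1037 2 973)
(fin 1041 2 974)))))))))))))
def l74 : Lem := ⟨11781361728633673533533443397406062833968813197368088696213098202092515054870126237445090575199368781731314332188895059436116029279163206249762429370674526186657931638943130497570144079131611440698089315210039093965026117276249703078140228958042332339181772754128421771855461400024448621079244630891963236233510912, 6498930029670242885125186533483641379644221843068682876328662914058069679595155730822326637797878164579188981339201026597120696119667814574131924674309338722430103586156054514990507429224072034600608404235514124854419064150831683810169462601709245784173522134461917272961510839138959336284833084181143400163822237441230343480908883177345615112946504929241423878184618865365880609073965984105256433168386483569366610349943892738048,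 6498930029670242885125186533483641379644221843068682876328662914058069679595155730822326637797878164579188981339201026597120696119667814574131924674309338722430103586156054514990507429224072034600608404235514124854419064150831683810169462601709245784173522134461917272961510839138959336284833084181143400163822237441230343480908883177345615112946504929241423878184618865365880609073965984105256433168386483569366610349943892738048, 19, 33⟩
theorem l74_valid : l74.Valid :=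
  Lem.valid_of_chk t74 t74_valid [976, 1040] c74 l74 (by decide +kernel)
end Crest.Agent.SnakyAux
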