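import Crest.Agent.S0047_aux.Checker

set_option autoImplicit false
set_option maxRecDepth 100000
namespace Crest.Agent.SnakyAux
open Cert
def t75 : Tbl := Tbl.nil
theorem t75_valid : t75.Valid := Tbl.valid_nil
def c75 : Cert :=
(mv 977 (cons (cons (cons (cons (mv 913 (cons (cons (mv 849 (cons (fin 785 5 784)
(mv 1104 (cons (fin 1041 5 848)
(fin 912 6 848)))))
(mv 1104 (cons (fin 1168 6 912)
(mv 914 (cons (cons (mv 915 (cons (fin 916 1 912)
(mv 975 (cons (fin 912 1 911)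
(fin 974 2 910)))))
(mv 915 (cons (fin 916 1 912)
(mv 912 (cons (mv 847 (cons (fin 848 3 847)
(fin 911 7 847)))
(cons (mv 851 (cons (fin 852 2 848)
(mv 850 (cons (fin 911 2 847)
(mv 722 (cons (fin 786 5 721)
(mv 979 (cons (fin 980 0 912)
(mv 1043 (cons (fin 1107 7 850)
(mv 1044 (cons (fin 978 0 976)
(fin 1108 4 851)))))))))))))
(mv 848 (cons (fin 847 3 847)
(mv 784 (cons (fin 720 4 720)
(fin 1041 4 784)))))))))))
(cons (mv 975 (cons (fin 974 2 910)
(mv 911 (cons (mv 847 (cons (fin 912 7 847)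
(fin 783 4 783)))
(cons (mv 910 (cons (fin 978 3 910)
(mv 909 (cons (fin 908 0 908)
(fin 912 0 909)))))
(mv 783 (cons (fin 847 4 783)
(mv 978 (cons (fin 910 3 910)
(mv 1043 (cons (fin 1042 0 975)
(mv 979 (cons (fin 1044 0 976)
(mv 980 (cons (fin 981 3 913)
(fin 1041 1 976))))))))))))))))
(mv 915 (cons (fin 916 1 912)
(mv 975 (cons (fin 974 2 910)
(fin 978 2 911)))))))))))
(cons (mv 785 (cons (fin 849 5 784)
(mv 914 (cons (cons (mv 915 (cons (fin 916 1 912)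
(mv 975 (cons (fin 912 1 911)
(fin 974 2 910)))))
(mv 915 (cons (fin 916 1 912)
(mv 912 (cons (cons (mv 847 (cons (fin 848 3 847)
(mv 851 (cons (fin 852 2 848)
(mv 911 (cons (fin 846 3 846)
(fin 850 2 847)))))))
(mv 851 (cons (fin 852 2 848)
(mv 850 (cons (fin 911 2 847)
(mv 722 (cons (fin 786 5 721)
(mv 979 (cons (fin 980 0 912)
(mv 1043 (cons (fin 1107 7 850)
(mv 1044 (cons (fin 978 0 976)
(fin 1108 4 851))))))))))))))
(cons (mv 847 (cons (fin 848 3 847)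
(mv 911 (cons (fin 846 3 846)
(mv 910 (cons (fin 909 0 909)
(fin 978 0 910)))))))
(mv 848 (cons (fin 847 3 847)
(mv 784 (cons (fin 721 6 720)
(fin 720 4 720)))))))))))
(cons (mv 975 (cons (fin 974 2 910)
(mv 978 (cons (cons (mv 910 (cons (fin 911 3 910)
(mv 1043 (cons (fin 1042 0 975)
(mv 979 (cons (fin 1044 0 976)
(mv 980 (cons (fin 912 3 912)
(fin 981 3 913)))))))))
(mv 1043 (cons (fin 1042 0 975)
(mv 979 (cons (fin 1044 0 976)
(mv 980 (cons (fin 912 3 912)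
(fin 981 3 913))))))))
(cons (mv 911 (cons (fin 910 3 910)
(mv 783 (cons (fin 847 4 783)
(mv 912 (cons (fin 979 3 911)
(mv 850 (cons (fin 851 2 847)
(mv 786 (cons (fin 721 7 721)
(fin 722 5 721)))))))))))
(cons (mv 911 (cons (fin 910 3 910)
(mv 847 (cons (fin 783 4 783)
(mv 912 (cons (fin 846 3 846)
(mv 850 (cons (fin 851 2 847)
(mv 786 (cons (fin 721 7 721)
(fin 722 5 721)))))))))))
(mv 910 (cons (fin 911 3 910)
(mv 1043 (cons (fin 1042 0 975)
(mv 979 (cons (fin 1044 0 976)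
(mv 980 (cons (fin 981 3 913)
(fin 1041 1 976)))))))))))))))
(mv 915 (cons (fin 916 1 912)
(mv 975 (cons (fin 974 2 910)
(fin 978 2 911))))))))))
(cons (mv 849 (cons (fin 785 5 784)
(mv 1104 (cons (fin 1041 5 848)
(fin 1168 6 912)))))
(mv 849 (cons (fin 785 5 784)
(mv 1104 (cons (fin 912 6 848)
(fin 1168 6 912)))))))))
(mv 975 (cons (cons (mv 974 (cons (mv 1041 (cons (fin 973 0 973)
(fin 1042 0 974)))
(cons (mv 909 (cons (fin 910 3 909)
(mv 973 (cons (fin 908 3 908)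
(mv 1037 (cons (fin 1036 1 972)
(fin 1038 1 973)))))))
(mv 910 (cons (fin 909 3 909)
(mv 911 (cons (fin 978 3 910)
(mv 783 (cons (fin 847 4 783)
(mv 1038 (cons (fin 1037 1 973)
(mv 1041 (cons (fin 1042 0 974)
(mv 1102 (cons (fin 1166 6 910)
(mv 1101 (cons (fin 1165 5 909)
(mv 1103 (cons (fin 1104 2 1037)
(fin 1167 4 910))))))))))))))))))))
(cons (mv 978 (cons (cons (mv 910 (cons (fin 911 3 910)
(mv 915 (cons (fin 914 2 911)
(mv 979 (cons (fin 916 2 912)
(mv 1043 (cons (fin 1042 0 975)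
(fin 1044 0 976)))))))))
(mv 915 (cons (fin 914 2 911)
(mv 979 (cons (fin 916 2 912)
(mv 1043 (cons (fin 1042 0 975)
(fin 1044 0 976))))))))
(cons (mv 911 (cons (fin 910 3 910)
(mv 783 (cons (fin 847 4 783)
(mv 914 (cons (fin 915 2 911)
(mv 979 (cons (fin 912 3 911)
(mv 980 (cons (fin 1041 1 976)
(mv 917 (cons (fin 916 2 913)
(mv 981 (cons (fin 918 2 914)
(mv 1045 (cons (fin 1044 0 977)
(fin 1046 0 978)))))))))))))))))
(cons (mv 911 (cons (fin 910 3 910)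
(mv 783 (cons (fin 847 4 783)
(mv 979 (cons (fin 912 3 911)
(mv 1043 (cons (fin 1042 0 975)
(fin 1044 0 976)))))))))
(mv 911 (cons (fin 910 3 910)
(mv 847 (cons (fin 783 4 783)
(mv 1104 (cons (fin 912 7 847)
(fin 1168 7 911)))))))))))
(mv 974 (cons (mv 1041 (cons (fin 973 0 973)
(fin 1042 0 974)))
(cons (mv 909 (cons (fin 910 3 909)
(mv 973 (cons (fin 908 3 908)
(mv 1037 (cons (fin 1036 1 972)
(fin 1038 1 973)))))))
(mv 909 (cons (fin 910 3 909)
(mv 1037 (cons (fin 1038 1 973)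
(mv 978 (cons (cons (mv 1042 (cons (fin 1041 0 974)
(fin 1043 0 975)))
(mv 915 (cons (fin 914 2 911)
(mv 979 (cons (fin 916 2 912)
(mv 980 (cons (fin 1041 1 976)
(mv 1044 (cons (fin 1043 0 976)
(fin 1045 0 977))))))))))
(cons (mv 915 (cons (fin 914 2 911)
(mv 979 (cons (fin 916 2 912)
(mv 1043 (cons (fin 1042 0 975)
(fin 1044 0 976)))))))
(mv 915 (cons (fin 914 2 911)
(mv 979 (cons (fin 916 2 912)
(mv 1041 (cons (fin 980 1 976)
(fin 1042 0 974)))))))))))))))))))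
(cons (mv 911 (cons (mv 783 (cons (fin 847 4 783)
(mv 910 (cons (fin 978 3 910)
(mv 909 (cons (fin 974 3 909)
(fin 908 0 908)))))))
(cons (mv 847 (cons (fin 783 4 783)
(mv 1104 (cons (fin 912 7 847)
(fin 1168 7 911)))))
(mv 910 (cons (fin 978 3 910)
(mv 909 (cons (fin 974 3 909)
(fin 908 0 908))))))))
(cons (mv 974 (cons (mv 1041 (cons (fin 973 0 973)
(fin 1042 0 974)))
(cons (mv 909 (cons (fin 910 3 909)
(mv 973 (cons (fin 908 3 908)
(mv 1037 (cons (fin 1036 1 972)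
(fin 1038 1 973)))))))
(mv 910 (cons (fin 909 3 909)
(mv 1038 (cons (fin 1037 1 973)
(mv 1041 (cons (fin 1042 0 974)
(mv 911 (cons (mv 847 (cons (fin 783 5 782)
(fin 1102 6 846)))
(cons (mv 1102 (cons (fin 1166 6 910)
(mv 1101 (cons (fin 1165 5 909)
(mv 1103 (cons (fin 1104 2 1037)
(fin 1167 4 910)))))))
(mv 847 (cons (fin 783 5 782)
(mv 1104 (cons (fin 912 7 847)
(fin 1168 7 911)))))))))))))))))
(mv 978 (cons (cons (mv 915 (cons (fin 914 2 911)
(mv 979 (cons (fin 916 2 912)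
(mv 1043 (cons (fin 1042 0 975)
(fin 1044 0 976)))))))
(mv 915 (cons (fin 914 2 911)
(mv 979 (cons (fin 916 2 912)
(mv 911 (cons (fin 912 3 911)
(mv 783 (cons (fin 847 4 783)
(mv 980 (cons (fin 1041 1 976)
(mv 1044 (cons (fin 1043 0 976)
(fin 1045 0 977))))))))))))))
(cons (mv 915 (cons (fin 914 2 911)
(mv 979 (cons (fin 916 2 912)
(mv 911 (cons (fin 912 3 911)
(mv 783 (cons (fin 847 4 783)
(mv 1041 (cons (fin 980 1 976)
(mv 974 (cons (fin 973 0 973)
(fin 1042 0 974)))))))))))))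
(cons (mv 979 (cons (mv 1043 (cons (fin 1042 0 975)
(fin 1044 0 976)))
(cons (mv 911 (cons (fin 912 3 911)
(mv 783 (cons (fin 847 4 783)
(mv 980 (cons (fin 1041 1 976)
(mv 917 (cons (fin 916 2 913)
(mv 981 (cons (fin 918 2 914)
(mv 1045 (cons (fin 1044 0 977)
(fin 1046 0 978)))))))))))))
(mv 911 (cons (fin 912 3 911)
(mv 783 (cons (fin 847 4 783)
(mv 1041 (cons (fin 980 1 976)
(mv 974 (cons (fin 973 0 973)
(fin 1042 0 974))))))))))))
(mv 914 (cons (fin 915 2 911)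
(mv 1042 (cons (fin 1043 0 975)
(mv 785 (cons (cons (mv 849 (cons (fin 850 7 785)
(mv 912 (cons (fin 848 6 784)
(mv 974 (cons (fin 1041 0 974)
(mv 1037 (cons (fin 1038 1 973)
(mv 973 (cons (fin 1036 1 972)
(mv 908 (cons (fin 909 3 908)
(mv 972 (cons (fin 907 3 907)
(fin 911 2 908)))))))))))))))
(mv 974 (cons (fin 1041 0 974)
(mv 1037 (cons (fin 1038 1 973)
(mv 973 (cons (fin 1036 1 972)
(mv 908 (cons (fin 909 3 908)
(mv 972 (cons (fin 907 3 907)
(mv 780 (cons (fin 844 4 780)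
(mv 912 (cons (fin 911 2 908)
(mv 848 (cons (fin 849 6 784)
(mv 783 (cons (fin 847 7 783)
(mv 784 (cons (fin 719 7 719)
(fin 721 6 720))))))))))))))))))))))
(cons (mv 850 (cons (fin 849 7 785)
(mv 786 (cons (fin 721 7 721)
(mv 787 (cons (fin 723 6 722)
(fin 851 6 786)))))))
(mv 1041 (cons (fin 974 0 974)
(mv 786 (cons (fin 850 5 785)
(mv 784 (cons (cons (mv 848 (cons (fin 912 4 784)
(mv 787 (cons (fin 847 1 783)
(mv 719 (cons (fin 720 3 719)
(mv 718 (cons (fin 783 3 718)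
(mv 724 (cons (fin 723 2 720)
(mv 788 (cons (fin 725 2 721)
(mv 852 (cons (fin 851 0 784)
(fin 853 0 785)))))))))))))))
(cons (mv 783 (cons (mv 847 (cons (fin 846 1 782)
(fin 911 4 783)))
(mv 718 (cons (fin 719 3 718)
(mv 722 (cons (fin 723 2 719)
(mv 782 (cons (fin 717 3 717)
(fin 721 2 718)))))))))
(mv 848 (cons (fin 912 4 784)
(mv 787 (cons (fin 847 1 783)
(mv 719 (cons (fin 720 3 719)
(mv 724 (cons (fin 723 2 720)
(mv 788 (cons (fin 725 2 721)
(mv 852 (cons (fin 851 0 784)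
(fin 853 0 785)))))))))))))))
(cons (mv 848 (cons (fin 912 4 784)
(mv 787 (cons (cons (mv 719 (cons (fin 720 3 719)
(mv 718 (cons (fin 783 3 718)
(mv 724 (cons (fin 723 2 720)
(mv 788 (cons (fin 725 2 721)
(mv 852 (cons (fin 851 0 784)
(fin 853 0 785)))))))))))
(mv 723 (cons (fin 724 2 720)
(mv 722 (cons (fin 783 2 719)
(mv 852 (cons (fin 851 0 784)
(mv 788 (cons (fin 853 0 785)
(mv 789 (cons (fin 721 3 721)
(fin 790 3 722))))))))))))
(cons (mv 720 (cons (fin 719 3 719)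
(mv 788 (cons (fin 721 3 720)
(mv 852 (cons (fin 851 0 784)
(fin 853 0 785)))))))
(mv 719 (cons (fin 720 3 719)
(mv 723 (cons (fin 724 2 720)
(mv 783 (cons (fin 718 3 718)
(fin 722 2 719))))))))))))
(cons (mv 848 (cons (fin 912 4 784)
(mv 787 (cons (fin 847 1 783)
(mv 723 (cons (fin 724 2 720)
(mv 722 (cons (fin 783 2 719)
(mv 852 (cons (fin 851 0 784)
(mv 788 (cons (fin 853 0 785)
(mv 721 (cons (fin 720 3 720)
(fin 789 3 721)))))))))))))))
(mv 848 (cons (fin 912 4 784)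
(mv 787 (cons (fin 847 1 783)
(mv 720 (cons (fin 719 3 719)
(mv 788 (cons (fin 721 3 720)
(mv 852 (cons (fin 851 0 784)
(fin 853 0 785)))))))))))))))))))))))))))))))))))
(cons (mv 975 (cons (cons (mv 974 (cons (mv 1041 (cons (fin 973 0 973)
(fin 1042 0 974)))
(cons (mv 909 (cons (fin 910 3 909)
(mv 913 (cons (fin 914 2 910)
(mv 973 (cons (fin 908 3 908)
(fin 912 2 909)))))))
(mv 909 (cons (fin 910 3 909)
(mv 914 (cons (fin 913 2 910)
(mv 978 (cons (fin 915 2 911)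
(mv 1042 (cons (fin 1041 0 974)
(fin 1043 0 975))))))))))))
(cons (mv 978 (cons (cons (mv 910 (cons (fin 911 3 910)
(mv 914 (cons (fin 915 2 911)
(mv 1043 (cons (fin 1042 0 975)
(mv 979 (cons (fin 1044 0 976)
(mv 786 (cons (fin 850 4 786)
(mv 980 (cons (fin 1041 1 976)
(mv 913 (cons (fin 912 3 912)
(fin 981 3 913)))))))))))))))
(cons (mv 914 (cons (fin 915 2 911)
(mv 1043 (cons (fin 1042 0 975)
(mv 979 (cons (fin 1044 0 976)
(mv 786 (cons (fin 850 4 786)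
(mv 980 (cons (fin 1041 1 976)
(mv 913 (cons (fin 912 3 912)
(fin 981 3 913)))))))))))))
(mv 911 (cons (fin 910 3 910)
(mv 783 (cons (fin 847 4 783)
(mv 914 (cons (fin 915 2 911)
(mv 979 (cons (fin 912 3 911)
(mv 980 (cons (fin 1041 1 976)
(mv 916 (cons (fin 917 2 913)
(mv 981 (cons (fin 913 3 913)
(mv 1045 (cons (fin 1044 0 977)
(fin 1046 0 978)))))))))))))))))))
(cons (cons (mv 910 (cons (fin 911 3 910)
(mv 1043 (cons (fin 1042 0 975)
(mv 979 (cons (fin 1044 0 976)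
(mv 980 (cons (fin 1041 1 976)
(mv 913 (cons (fin 912 3 912)
(mv 785 (cons (fin 849 5 784)
(mv 917 (cons (fin 916 2 913)
(mv 981 (cons (fin 914 3 913)
(fin 918 2 914)))))))))))))))))
(mv 910 (cons (fin 911 3 910)
(mv 1043 (cons (fin 1042 0 975)
(mv 979 (cons (fin 1044 0 976)
(mv 916 (cons (fin 915 2 912)
(mv 980 (cons (fin 1041 1 976)
(fin 917 2 913))))))))))))
(cons (mv 910 (cons (fin 911 3 910)
(mv 914 (cons (fin 915 2 911)
(mv 1042 (cons (fin 1043 0 975)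
(mv 849 (cons (mv 785 (cons (fin 850 7 785)
(fin 913 5 784)))
(cons (mv 850 (cons (fin 785 7 785)
(mv 786 (cons (fin 1041 5 785)
(mv 787 (cons (fin 723 6 722)
(fin 851 6 786)))))))
(mv 1106 (cons (fin 913 7 849)
(mv 1171 (cons (fin 1107 4 914)
(mv 1170 (cons (fin 1235 4 978)
(mv 1233 (cons (fin 1169 5 977)
(mv 1234 (cons (fin 1041 7 977)
(fin 1297 5 1041))))))))))))))))))))
(mv 910 (cons (fin 911 3 910)
(mv 915 (cons (fin 914 2 911)
(mv 979 (cons (fin 916 2 912)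
(mv 1043 (cons (fin 1042 0 975)
(fin 1044 0 976)))))))))))))
(mv 974 (cons (mv 1041 (cons (fin 973 0 973)
(fin 1042 0 974)))
(cons (mv 909 (cons (fin 910 3 909)
(mv 913 (cons (fin 914 2 910)
(mv 973 (cons (fin 908 3 908)
(fin 912 2 909)))))))
(mv 910 (cons (fin 909 3 909)
(mv 913 (cons (fin 914 2 910)
(mv 849 (cons (fin 785 5 784)
(mv 1037 (cons (fin 1038 1 973)
(mv 1041 (cons (fin 1042 0 974)
(mv 848 (cons (fin 784 7 784)
(mv 850 (cons (fin 786 6 785)
(mv 911 (cons (fin 847 1 846)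
(fin 912 2 846))))))))))))))))))))))
(cons (mv 974 (cons (cons (mv 909 (cons (fin 910 3 909)
(mv 913 (cons (fin 914 2 910)
(mv 973 (cons (fin 908 3 908)
(fin 912 2 909)))))))
(mv 909 (cons (fin 910 3 909)
(mv 973 (cons (fin 908 3 908)
(mv 1037 (cons (fin 1036 1 972)
(fin 1038 1 973))))))))
(cons (mv 913 (cons (fin 914 2 910)
(mv 785 (cons (fin 849 5 784)
(mv 973 (cons (fin 912 2 909)
(mv 1037 (cons (fin 1036 1 972)
(fin 1038 1 973)))))))))
(mv 910 (cons (fin 909 3 909)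
(mv 911 (cons (fin 978 3 910)
(mv 783 (cons (fin 847 4 783)
(mv 913 (cons (fin 914 2 910)
(mv 849 (cons (fin 785 5 784)
(mv 912 (cons (fin 850 2 846)
(mv 846 (cons (fin 845 3 845)
(mv 782 (cons (fin 719 6 718)
(fin 718 4 718))))))))))))))))))))
(cons (mv 974 (cons (mv 1041 (cons (fin 973 0 973)
(fin 1042 0 974)))
(cons (mv 909 (cons (fin 910 3 909)
(mv 973 (cons (fin 908 3 908)
(mv 1037 (cons (fin 1036 1 972)
(fin 1038 1 973)))))))
(mv 910 (cons (fin 909 3 909)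
(mv 911 (cons (fin 978 3 910)
(mv 847 (cons (fin 783 4 783)
(mv 1038 (cons (fin 1037 1 973)
(fin 1102 6 846))))))))))))
(mv 974 (cons (mv 1041 (cons (fin 973 0 973)
(fin 1042 0 974)))
(cons (mv 913 (cons (fin 914 2 910)
(mv 785 (cons (fin 849 5 784)
(mv 973 (cons (fin 912 2 909)
(mv 1037 (cons (fin 1036 1 972)
(fin 1038 1 973)))))))))
(mv 914 (cons (fin 913 2 910)
(mv 978 (cons (fin 915 2 911)
(mv 1042 (cons (fin 1041 0 974)
(fin 1043 0 975))))))))))))))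
(mv 1104 (cons (cons (mv 913 (cons (fin 1168 6 912)
(mv 914 (cons (cons (mv 915 (cons (fin 916 1 912)
(mv 975 (cons (fin 912 1 911)
(fin 974 2 910)))))
(mv 915 (cons (fin 916 1 912)
(mv 912 (cons (mv 847 (cons (fin 848 3 847)
(fin 911 7 847)))
(cons (mv 851 (cons (fin 852 2 848)
(mv 850 (cons (fin 911 2 847)
(mv 722 (cons (fin 786 5 721)
(mv 979 (cons (fin 980 0 912)
(mv 1043 (cons (fin 1107 7 850)
(mv 1044 (cons (fin 978 0 976)
(fin 1108 4 851)))))))))))))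
(mv 848 (cons (fin 847 3 847)
(mv 784 (cons (fin 720 4 720)
(fin 1041 4 784)))))))))))
(cons (mv 975 (cons (fin 974 2 910)
(mv 911 (cons (mv 847 (cons (fin 912 7 847)
(fin 783 4 783)))
(cons (mv 910 (cons (fin 978 3 910)
(mv 909 (cons (fin 908 0 908)
(fin 912 0 909)))))
(mv 783 (cons (fin 847 4 783)
(mv 978 (cons (fin 910 3 910)
(mv 1043 (cons (fin 1042 0 975)
(mv 979 (cons (fin 1044 0 976)
(mv 980 (cons (fin 981 3 913)
(fin 1041 1 976))))))))))))))))
(mv 915 (cons (fin 916 1 912)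
(mv 975 (cons (fin 974 2 910)
(fin 978 2 911))))))))))
(cons (mv 911 (cons (cons (mv 847 (cons (fin 912 7 847)
(mv 975 (cons (fin 783 4 783)
(mv 910 (cons (fin 978 3 910)
(mv 909 (cons (fin 974 3 909)
(fin 908 0 908)))))))))
(cons (mv 975 (cons (cons (mv 783 (cons (fin 847 4 783)
(mv 910 (cons (fin 978 3 910)
(mv 909 (cons (fin 974 3 909)
(fin 908 0 908)))))))
(mv 783 (cons (fin 847 4 783)
(mv 974 (cons (mv 1041 (cons (fin 973 0 973)
(fin 1042 0 974)))
(cons (mv 909 (cons (fin 910 3 909)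
(mv 913 (cons (fin 914 2 910)
(mv 973 (cons (fin 908 3 908)
(mv 1037 (cons (fin 1036 1 972)
(fin 1038 1 973)))))))))
(mv 910 (cons (fin 909 3 909)
(mv 913 (cons (fin 914 2 910)
(mv 1038 (cons (fin 1037 1 973)
(mv 1041 (cons (fin 1042 0 974)
(mv 1102 (cons (fin 1166 6 910)
(mv 1101 (cons (fin 1103 2 1037)
(fin 1165 5 909)))))))))))))))))))
(cons (mv 783 (cons (fin 847 4 783)
(mv 978 (cons (cons (mv 914 (cons (fin 915 2 911)
(mv 913 (cons (fin 974 2 910)
(mv 1043 (cons (fin 1042 0 975)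
(mv 979 (cons (fin 1044 0 976)
(mv 980 (cons (fin 981 3 913)
(fin 1041 1 976)))))))))))
(mv 914 (cons (fin 915 2 911)
(mv 974 (cons (fin 913 2 910)
(mv 973 (cons (fin 1041 0 973)
(mv 1037 (cons (fin 1036 1 972)
(fin 1038 1 973))))))))))
(cons (mv 1043 (cons (fin 1042 0 975)
(mv 979 (cons (fin 1044 0 976)
(mv 916 (cons (fin 915 2 912)
(mv 980 (cons (fin 1041 1 976)
(fin 917 2 913)))))))))
(cons (mv 979 (cons (mv 1043 (cons (fin 1042 0 975)
(fin 1044 0 976)))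
(cons (mv 980 (cons (fin 1041 1 976)
(mv 917 (cons (fin 916 2 913)
(mv 981 (cons (fin 918 2 914)
(mv 1045 (cons (fin 1044 0 977)
(fin 1046 0 978)))))))))
(mv 1041 (cons (fin 980 1 976)
(mv 974 (cons (fin 973 0 973)
(fin 1042 0 974))))))))
(mv 915 (cons (fin 914 2 911)
(mv 979 (cons (fin 916 2 912)
(mv 1043 (cons (fin 1042 0 975)
(fin 1044 0 976)))))))))))))
(cons (mv 910 (cons (fin 978 3 910)
(mv 909 (cons (fin 974 3 909)
(fin 908 0 908)))))
(mv 783 (cons (fin 847 4 783)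
(mv 978 (cons (fin 910 3 910)
(mv 914 (cons (fin 915 2 911)
(mv 1043 (cons (fin 1042 0 975)
(mv 979 (cons (fin 1044 0 976)
(mv 786 (cons (fin 850 4 786)
(mv 980 (cons (fin 1041 1 976)
(mv 917 (cons (fin 916 2 913)
(mv 981 (cons (fin 913 3 913)
(fin 918 2 914)))))))))))))))))))))))
(mv 978 (cons (cons (mv 910 (cons (fin 975 3 910)
(mv 912 (cons (fin 979 3 911)
(fin 909 0 909)))))
(mv 910 (cons (fin 975 3 910)
(mv 912 (cons (fin 909 0 909)
(fin 913 0 910))))))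
(cons (mv 975 (cons (fin 910 3 910)
(mv 914 (cons (fin 915 2 911)
(mv 913 (cons (fin 974 2 910)
(mv 1043 (cons (fin 1042 0 975)
(mv 979 (cons (fin 1044 0 976)
(mv 980 (cons (fin 981 3 913)
(fin 1041 1 976)))))))))))))
(cons (mv 912 (cons (fin 979 3 911)
(mv 910 (cons (fin 909 0 909)
(fin 913 0 910)))))
(mv 979 (cons (fin 912 3 911)
(mv 915 (cons (fin 916 2 912)
(mv 914 (cons (fin 975 2 911)
(mv 980 (cons (fin 1041 1 976)
(mv 981 (cons (fin 913 3 913)
(fin 982 3 914)))))))))))))))))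
(cons (mv 912 (cons (fin 847 7 847)
(mv 910 (cons (fin 909 0 909)
(mv 978 (cons (fin 979 3 911)
(fin 913 0 910)))))))
(cons (mv 847 (cons (fin 912 7 847)
(mv 783 (cons (fin 975 4 783)
(mv 719 (cons (cons (mv 654 (cons (fin 718 7 654)
(mv 655 (cons (fin 590 7 590)
(mv 656 (cons (fin 592 6 591)
(fin 720 6 655)))))))
(mv 656 (cons (fin 720 6 655)
(mv 655 (cons (fin 592 6 591)
(mv 910 (cons (fin 846 5 654)
(fin 974 5 718))))))))
(cons (mv 654 (cons (fin 718 7 654)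
(mv 655 (cons (fin 590 7 590)
(mv 910 (cons (fin 846 5 654)
(fin 974 5 718)))))))
(mv 718 (cons (fin 654 7 654)
(mv 720 (cons (fin 656 6 655)
(mv 910 (cons (fin 974 5 718)
(mv 717 (cons (cons (mv 784 (cons (fin 716 0 716)
(fin 785 0 717)))
(mv 652 (cons (fin 653 3 652)
(mv 651 (cons (fin 716 3 651)
(mv 781 (cons (fin 780 1 716)
(mv 721 (cons (fin 782 1 717)
(mv 658 (cons (fin 657 2 654)
(mv 722 (cons (fin 659 2 655)
(mv 786 (cons (fin 785 0 718)
(fin 787 0 719))))))))))))))))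
(cons (mv 652 (cons (fin 653 3 652)
(mv 780 (cons (fin 781 1 716)
(mv 785 (cons (fin 784 0 717)
(mv 721 (cons (fin 786 0 718)
(mv 658 (cons (fin 657 2 654)
(mv 722 (cons (fin 782 1 718)
(fin 659 2 655)))))))))))))
(mv 652 (cons (fin 653 3 652)
(mv 716 (cons (fin 651 3 651)
(fin 784 0 716)))))))))))))))))))))
(mv 847 (cons (fin 912 7 847)
(mv 975 (cons (fin 783 4 783)
(mv 978 (cons (cons (mv 914 (cons (fin 915 2 911)
(mv 913 (cons (fin 974 2 910)
(mv 1043 (cons (fin 1042 0 975)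
(mv 979 (cons (fin 1044 0 976)
(mv 980 (cons (fin 981 3 913)
(fin 1041 1 976)))))))))))
(mv 914 (cons (fin 915 2 911)
(mv 974 (cons (fin 913 2 910)
(mv 973 (cons (fin 1041 0 973)
(mv 1037 (cons (fin 1036 1 972)
(fin 1038 1 973))))))))))
(cons (mv 1043 (cons (fin 1042 0 975)
(mv 979 (cons (fin 1044 0 976)
(mv 916 (cons (fin 915 2 912)
(mv 980 (cons (fin 1041 1 976)
(fin 917 2 913)))))))))
(cons (mv 979 (cons (mv 1043 (cons (fin 1042 0 975)
(fin 1044 0 976)))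
(cons (mv 980 (cons (fin 1041 1 976)
(mv 917 (cons (fin 916 2 913)
(mv 981 (cons (fin 918 2 914)
(mv 1045 (cons (fin 1044 0 977)
(fin 1046 0 978)))))))))
(mv 1041 (cons (fin 980 1 976)
(mv 974 (cons (fin 973 0 973)
(fin 1042 0 974))))))))
(mv 915 (cons (fin 914 2 911)
(mv 979 (cons (fin 916 2 912)
(mv 1043 (cons (fin 1042 0 975)
(fin 1044 0 976)))))))))))))))))))
(mv 1168 (cons (cons (mv 911 (cons (fin 975 7 911)
(mv 847 (cons (fin 912 7 847)
(mv 1167 (cons (fin 1231 5 975)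
(mv 1232 (cons (fin 1041 6 976)
(mv 1233 (cons (fin 1169 4 976)
(fin 1297 4 1040)))))))))))
(cons (mv 911 (cons (fin 975 7 911)
(mv 912 (cons (fin 847 7 847)
(mv 1167 (cons (fin 1103 5 911)
(fin 1231 5 975)))))))
(mv 1041 (cons (fin 1232 6 976)
(mv 1167 (cons (fin 1231 5 975)
(mv 1103 (cons (fin 912 5 911)
(mv 1042 (cons (fin 1043 1 1039)
(mv 974 (cons (fin 975 0 974)
(mv 1101 (cons (fin 1102 2 1037)
(mv 1169 (cons (fin 1233 4 976)
(mv 1170 (cons (fin 1171 3 1103)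
(mv 1106 (cons (fin 1107 2 1103)
(fin 1234 7 977)))))))))))))))))))))
(cons (mv 911 (cons (fin 975 7 911)
(mv 847 (cons (fin 912 7 847)
(mv 1232 (cons (fin 1041 6 976)
(mv 1233 (cons (fin 1169 4 976)
(fin 1297 4 1040)))))))))
(cons (mv 1041 (cons (fin 1232 6 976)
(mv 1167 (cons (fin 1231 5 975)
(mv 912 (cons (fin 1103 5 911)
(mv 847 (cons (fin 911 7 847)
(mv 848 (cons (fin 783 7 783)
(fin 784 4 784)))))))))))
(mv 911 (cons (fin 975 7 911)
(mv 1167 (cons (fin 1231 5 975)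
(mv 1232 (cons (fin 1041 6 976)
(mv 1233 (cons (fin 1169 4 976)
(fin 1297 4 1040)))))))))))))))
(cons (cons (mv 1168 (cons (fin 913 6 912)
(mv 911 (cons (fin 975 7 911)
(mv 1167 (cons (fin 1231 5 975)
(mv 1232 (cons (fin 1041 6 976)
(mv 1233 (cons (fin 1169 4 976)
(fin 1297 4 1040)))))))))))
(mv 1168 (cons (fin 913 6 912)
(mv 1041 (cons (fin 1232 6 976)
(mv 1167 (cons (fin 1231 5 975)
(mv 1103 (cons (fin 912 5 911)
(mv 1042 (cons (fin 1043 1 1039)
(mv 974 (cons (fin 975 0 974)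
(mv 1101 (cons (fin 1102 2 1037)
(mv 1169 (cons (fin 1233 4 976)
(mv 1170 (cons (fin 1171 3 1103)
(mv 1106 (cons (fin 1107 2 1103)
(fin 1234 7 977))))))))))))))))))))))
(cons (mv 1168 (cons (fin 913 6 912)
(mv 1041 (cons (fin 1232 6 976)
(mv 1167 (cons (fin 1231 5 975)
(mv 912 (cons (fin 1103 5 911)
(mv 847 (cons (fin 911 7 847)
(mv 848 (cons (fin 783 7 783)
(fin 784 4 784)))))))))))))
(mv 1168 (cons (fin 913 6 912)
(mv 911 (cons (fin 975 7 911)
(mv 847 (cons (fin 912 7 847)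
(mv 1231 (cons (fin 1167 5 975)
(mv 1232 (cons (fin 1295 5 1039)
(mv 1233 (cons (fin 1169 4 976)
(fin 1297 4 1040)))))))))))))))))))
(cons (cons (mv 1104 (cons (cons (mv 913 (cons (fin 1168 6 912)
(mv 849 (cons (fin 1041 5 848)
(fin 912 6 848)))))
(mv 913 (cons (cons (mv 849 (cons (fin 1041 5 848)
(fin 912 6 848)))
(mv 914 (cons (cons (mv 915 (cons (fin 916 1 912)
(mv 975 (cons (fin 912 1 911)
(fin 974 2 910)))))
(mv 915 (cons (fin 916 1 912)
(mv 912 (cons (mv 847 (cons (fin 848 3 847)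
(fin 911 7 847)))
(cons (mv 851 (cons (fin 852 2 848)
(mv 850 (cons (fin 911 2 847)
(mv 722 (cons (fin 786 5 721)
(mv 979 (cons (fin 980 0 912)
(mv 1043 (cons (fin 1107 7 850)
(mv 1044 (cons (fin 978 0 976)
(fin 1108 4 851)))))))))))))
(mv 848 (cons (fin 847 3 847)
(mv 784 (cons (fin 720 4 720)
(fin 1041 4 784)))))))))))
(cons (mv 975 (cons (fin 974 2 910)
(mv 911 (cons (mv 847 (cons (fin 912 7 847)
(fin 783 4 783)))
(cons (mv 910 (cons (fin 978 3 910)
(mv 909 (cons (fin 908 0 908)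
(fin 912 0 909)))))
(mv 783 (cons (fin 847 4 783)
(mv 978 (cons (fin 910 3 910)
(mv 1043 (cons (fin 1042 0 975)
(mv 979 (cons (fin 1044 0 976)
(mv 980 (cons (fin 981 3 913)
(fin 1041 1 976))))))))))))))))
(mv 915 (cons (fin 916 1 912)
(mv 975 (cons (fin 974 2 910)
(fin 978 2 911)))))))))
(cons (mv 975 (cons (cons (mv 849 (cons (fin 1041 5 848)
(mv 914 (cons (fin 974 2 910)
(mv 915 (cons (fin 916 1 912)
(fin 978 2 911)))))))
(mv 978 (cons (cons (mv 849 (cons (fin 1041 5 848)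
(mv 910 (cons (fin 911 3 910)
(mv 914 (cons (fin 915 2 911)
(mv 1042 (cons (fin 1043 0 975)
(fin 1106 7 849)))))))))
(cons (mv 910 (cons (fin 911 3 910)
(mv 914 (cons (fin 915 2 911)
(mv 1042 (cons (fin 1043 0 975)
(mv 1106 (cons (fin 849 7 849)
(fin 1170 7 913)))))))))
(mv 910 (cons (fin 911 3 910)
(mv 915 (cons (fin 914 2 911)
(mv 979 (cons (fin 916 2 912)
(mv 1041 (cons (fin 980 1 976)
(fin 849 5 848)))))))))))
(cons (cons (mv 849 (cons (fin 1041 5 848)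
(mv 910 (cons (fin 911 3 910)
(mv 1042 (cons (fin 1043 0 975)
(mv 1106 (cons (fin 914 7 849)
(fin 1170 7 913)))))))))
(mv 910 (cons (fin 911 3 910)
(mv 1041 (cons (fin 849 5 848)
(mv 979 (cons (fin 980 1 976)
(mv 1043 (cons (fin 1042 3 975)
(fin 1044 0 976))))))))))
(cons (mv 849 (cons (fin 1041 5 848)
(mv 914 (cons (fin 915 2 911)
(mv 1042 (cons (fin 1043 0 975)
(fin 1106 7 849)))))))
(mv 910 (cons (fin 911 3 910)
(mv 914 (cons (fin 915 2 911)
(mv 1043 (cons (fin 1042 0 975)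
(mv 979 (cons (fin 1044 0 976)
(mv 980 (cons (fin 981 3 913)
(fin 1041 1 976))))))))))))))))
(cons (mv 914 (cons (fin 974 2 910)
(mv 915 (cons (fin 916 1 912)
(fin 978 2 911)))))
(mv 1041 (cons (fin 849 5 848)
(mv 974 (cons (fin 973 0 973)
(fin 1042 0 974))))))))
(mv 912 (cons (fin 849 6 848)
(mv 911 (cons (fin 847 7 847)
(mv 910 (cons (fin 909 0 909)
(fin 978 0 910)))))))))))
(cons (mv 1168 (cons (cons (mv 911 (cons (fin 975 7 911)
(mv 847 (cons (fin 912 7 847)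
(mv 1167 (cons (fin 1231 5 975)
(mv 1232 (cons (fin 1041 6 976)
(mv 1233 (cons (fin 1169 4 976)
(fin 1297 4 1040)))))))))))
(cons (mv 911 (cons (fin 975 7 911)
(mv 912 (cons (fin 847 7 847)
(mv 1167 (cons (fin 1103 5 911)
(fin 1231 5 975)))))))
(mv 1041 (cons (fin 1232 6 976)
(mv 1167 (cons (fin 1231 5 975)
(mv 1103 (cons (fin 912 5 911)
(mv 1042 (cons (fin 1043 1 1039)
(mv 974 (cons (fin 975 0 974)
(mv 1101 (cons (fin 1102 2 1037)
(mv 1169 (cons (fin 1233 4 976)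
(mv 1170 (cons (fin 1171 3 1103)
(mv 1106 (cons (fin 1107 2 1103)
(fin 1234 7 977)))))))))))))))))))))
(cons (mv 911 (cons (fin 975 7 911)
(mv 847 (cons (fin 912 7 847)
(mv 1232 (cons (fin 1041 6 976)
(mv 1233 (cons (fin 1169 4 976)
(fin 1297 4 1040)))))))))
(cons (mv 1041 (cons (fin 1232 6 976)
(mv 1167 (cons (fin 1231 5 975)
(mv 912 (cons (fin 1103 5 911)
(mv 847 (cons (fin 911 7 847)
(mv 848 (cons (fin 783 7 783)
(fin 784 4 784)))))))))))
(mv 911 (cons (fin 975 7 911)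
(mv 1167 (cons (fin 1231 5 975)
(mv 1232 (cons (fin 1041 6 976)
(mv 1233 (cons (fin 1169 4 976)
(fin 1297 4 1040)))))))))))))
(cons (mv 913 (cons (fin 1168 6 912)
(mv 975 (cons (cons (mv 849 (cons (fin 1041 5 848)
(mv 914 (cons (fin 974 2 910)
(mv 915 (cons (fin 916 1 912)
(fin 978 2 911)))))))
(mv 978 (cons (cons (mv 849 (cons (fin 1041 5 848)
(mv 910 (cons (fin 911 3 910)
(mv 914 (cons (fin 915 2 911)
(mv 1042 (cons (fin 1043 0 975)
(fin 1106 7 849)))))))))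
(cons (mv 910 (cons (fin 911 3 910)
(mv 914 (cons (fin 915 2 911)
(mv 1042 (cons (fin 1043 0 975)
(mv 1106 (cons (fin 849 7 849)
(fin 1170 7 913)))))))))
(mv 910 (cons (fin 911 3 910)
(mv 915 (cons (fin 914 2 911)
(mv 979 (cons (fin 916 2 912)
(mv 1041 (cons (fin 980 1 976)
(fin 849 5 848)))))))))))
(cons (cons (mv 849 (cons (fin 1041 5 848)
(mv 910 (cons (fin 911 3 910)
(mv 1042 (cons (fin 1043 0 975)
(mv 1106 (cons (fin 914 7 849)
(fin 1170 7 913)))))))))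
(mv 910 (cons (fin 911 3 910)
(mv 1041 (cons (fin 849 5 848)
(mv 979 (cons (fin 980 1 976)
(mv 1043 (cons (fin 1042 3 975)
(fin 1044 0 976))))))))))
(cons (mv 849 (cons (fin 1041 5 848)
(mv 914 (cons (fin 915 2 911)
(mv 1042 (cons (fin 1043 0 975)
(fin 1106 7 849)))))))
(mv 910 (cons (fin 911 3 910)
(mv 914 (cons (fin 915 2 911)
(mv 1043 (cons (fin 1042 0 975)
(mv 979 (cons (fin 1044 0 976)
(mv 980 (cons (fin 981 3 913)
(fin 1041 1 976))))))))))))))))
(cons (mv 914 (cons (fin 974 2 910)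
(mv 915 (cons (fin 916 1 912)
(fin 978 2 911)))))
(mv 1041 (cons (fin 849 5 848)
(mv 974 (cons (fin 973 0 973)
(fin 1042 0 974))))))))))
(mv 913 (cons (fin 1168 6 912)
(mv 912 (cons (fin 849 6 848)
(mv 911 (cons (fin 847 7 847)
(mv 910 (cons (fin 909 0 909)
(fin 978 0 910)))))))))))))
(mv 1104 (cons (cons (mv 913 (cons (fin 1168 6 912)
(mv 849 (cons (fin 785 5 784)
(fin 1041 5 848)))))
(mv 912 (cons (cons (mv 847 (cons (fin 911 7 847)
(mv 848 (cons (fin 783 7 783)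
(mv 849 (cons (fin 785 6 784)
(fin 913 6 848)))))))
(cons (mv 847 (cons (fin 911 7 847)
(mv 848 (cons (fin 783 7 783)
(mv 784 (cons (fin 1041 4 784)
(mv 720 (cons (fin 913 4 720)
(mv 721 (cons (fin 657 6 656)
(fin 785 6 720)))))))))))
(mv 847 (cons (fin 911 7 847)
(mv 848 (cons (fin 783 7 783)
(mv 784 (cons (fin 1041 4 784)
(mv 785 (cons (fin 721 6 720)
(fin 849 6 784)))))))))))
(cons (mv 849 (cons (fin 913 6 848)
(mv 848 (cons (fin 785 6 784)
(mv 783 (cons (fin 847 7 783)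
(mv 784 (cons (fin 719 7 719)
(fin 1041 4 784)))))))))
(cons (mv 913 (cons (fin 849 6 848)
(mv 1103 (cons (fin 1167 5 911)
(mv 784 (cons (mv 848 (cons (fin 720 4 720)
(fin 1041 4 784)))
(cons (mv 914 (cons (cons (mv 915 (cons (fin 916 1 912)
(mv 851 (cons (fin 852 2 848)
(mv 850 (cons (fin 911 2 847)
(mv 722 (cons (fin 786 5 721)
(mv 979 (cons (fin 980 0 912)
(mv 1043 (cons (fin 1107 7 850)
(mv 1042 (cons (fin 1041 1 1039)
(fin 1106 5 850)))))))))))))))
(cons (mv 978 (cons (mv 911 (cons (fin 979 3 911)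
(fin 910 0 910)))
(cons (mv 911 (cons (fin 910 0 910)
(mv 850 (cons (fin 851 2 847)
(mv 786 (cons (fin 722 5 721)
(fin 1041 5 785)))))))
(mv 979 (cons (fin 980 3 912)
(mv 1043 (cons (fin 1044 0 976)
(mv 850 (cons (fin 786 4 786)
(mv 1042 (cons (fin 1041 1 1039)
(fin 1107 4 850))))))))))))
(mv 915 (cons (fin 916 1 912)
(mv 851 (cons (fin 852 2 848)
(mv 979 (cons (fin 980 0 912)
(mv 1043 (cons (mv 850 (cons (fin 786 7 786)
(fin 1107 7 850)))
(mv 1042 (cons (fin 1041 1 1039)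
(fin 1106 5 850)))))))))))))
(cons (cons (mv 915 (cons (fin 916 1 912)
(mv 851 (cons (fin 852 2 848)
(mv 850 (cons (fin 911 2 847)
(mv 786 (cons (fin 722 5 721)
(mv 783 (cons (fin 785 0 783)
(mv 978 (cons (fin 1041 5 785)
(mv 787 (cons (fin 723 5 722)
(fin 1042 6 786)))))))))))))))
(mv 915 (cons (fin 916 1 912)
(mv 851 (cons (fin 852 2 848)
(mv 850 (cons (fin 911 2 847)
(mv 722 (cons (fin 786 5 721)
(mv 979 (cons (fin 980 0 912)
(mv 1043 (cons (fin 1107 7 850)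
(mv 1044 (cons (fin 978 0 976)
(fin 1108 4 851))))))))))))))))
(cons (mv 915 (cons (fin 916 1 912)
(mv 851 (cons (fin 852 2 848)
(mv 979 (cons (fin 980 0 912)
(mv 978 (cons (fin 911 3 911)
(mv 787 (cons (fin 723 5 722)
(fin 1042 5 786)))))))))))
(mv 915 (cons (fin 916 1 912)
(mv 979 (cons (fin 980 0 912)
(mv 978 (cons (fin 911 3 911)
(mv 1043 (cons (fin 1044 0 976)
(mv 850 (cons (fin 1107 7 850)
(fin 786 4 786)))))))))))))))
(mv 720 (cons (fin 848 4 720)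
(mv 914 (cons (cons (mv 915 (cons (fin 916 1 912)
(mv 851 (cons (fin 852 2 848)
(mv 850 (cons (fin 911 2 847)
(mv 722 (cons (fin 786 5 721)
(mv 979 (cons (fin 980 0 912)
(mv 1043 (cons (fin 1107 7 850)
(mv 1044 (cons (fin 978 0 976)
(fin 1108 4 851)))))))))))))))
(cons (mv 978 (cons (mv 911 (cons (fin 979 3 911)
(fin 910 0 910)))
(cons (mv 911 (cons (fin 910 0 910)
(mv 850 (cons (fin 851 2 847)
(mv 786 (cons (fin 722 5 721)
(mv 785 (cons (fin 721 7 721)
(mv 787 (cons (fin 719 3 719)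
(fin 723 6 722)))))))))))
(mv 979 (cons (fin 980 3 912)
(mv 1043 (cons (fin 1044 0 976)
(mv 850 (cons (fin 786 4 786)
(mv 1107 (cons (fin 1171 7 914)
(fin 1042 4 850))))))))))))
(mv 915 (cons (fin 916 1 912)
(mv 851 (cons (fin 852 2 848)
(mv 979 (cons (fin 980 0 912)
(mv 1043 (cons (mv 850 (cons (fin 786 7 786)
(fin 1107 7 850)))
(mv 1044 (cons (fin 978 0 976)
(fin 1108 4 851)))))))))))))
(cons (cons (mv 915 (cons (fin 916 1 912)
(mv 851 (cons (fin 852 2 848)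
(mv 850 (cons (fin 911 2 847)
(mv 786 (cons (fin 722 5 721)
(mv 979 (cons (fin 980 0 912)
(fin 1043 7 786)))))))))))
(mv 915 (cons (fin 916 1 912)
(mv 851 (cons (fin 852 2 848)
(mv 850 (cons (fin 911 2 847)
(mv 786 (cons (fin 722 5 721)
(mv 785 (cons (fin 783 0 783)
(mv 719 (cons (fin 787 3 719)
(mv 718 (cons (fin 717 0 717)
(fin 721 0 718))))))))))))))))
(cons (mv 915 (cons (fin 916 1 912)
(mv 851 (cons (fin 852 2 848)
(mv 979 (cons (fin 980 0 912)
(mv 978 (cons (fin 911 3 911)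
(mv 787 (cons (fin 723 5 722)
(fin 1042 5 786)))))))))))
(mv 915 (cons (fin 916 1 912)
(mv 979 (cons (fin 980 0 912)
(mv 978 (cons (fin 911 3 911)
(mv 1043 (cons (fin 1044 0 976)
(mv 850 (cons (fin 1107 7 850)
(fin 786 4 786))))))))))))))))))))))))
(mv 911 (cons (fin 847 7 847)
(mv 910 (cons (fin 909 0 909)
(mv 913 (cons (fin 978 0 910)
(fin 849 6 848))))))))))))
(cons (mv 1168 (cons (cons (mv 1041 (cons (fin 1232 6 976)
(mv 1167 (cons (fin 1231 5 975)
(mv 912 (cons (fin 1103 5 911)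
(mv 847 (cons (fin 911 7 847)
(mv 848 (cons (fin 783 7 783)
(fin 784 4 784)))))))))))
(mv 1167 (cons (fin 1231 5 975)
(mv 912 (cons (fin 1103 5 911)
(mv 847 (cons (fin 911 7 847)
(mv 848 (cons (fin 783 7 783)
(mv 784 (cons (fin 1041 4 784)
(mv 785 (cons (fin 721 6 720)
(fin 849 6 784))))))))))))))
(cons (mv 1232 (cons (fin 1041 6 976)
(mv 1233 (cons (fin 1169 4 976)
(fin 1297 4 1040)))))
(mv 1167 (cons (fin 1231 5 975)
(mv 1103 (cons (fin 912 5 911)
(mv 1169 (cons (fin 1233 4 976)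
(mv 1102 (cons (fin 1170 3 1102)
(fin 1101 0 1101))))))))))))
(cons (mv 1168 (cons (fin 913 6 912)
(mv 1041 (cons (fin 1232 6 976)
(mv 1167 (cons (fin 1231 5 975)
(mv 912 (cons (fin 1103 5 911)
(mv 847 (cons (fin 911 7 847)
(mv 848 (cons (fin 783 7 783)
(fin 784 4 784)))))))))))))
(mv 913 (cons (fin 1168 6 912)
(mv 849 (cons (fin 785 5 784)
(fin 912 6 848))))))))))
(cons (mv 978 (cons (cons (cons (mv 975 (cons (cons (mv 910 (cons (fin 911 3 910)
(mv 909 (cons (fin 974 3 909)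
(mv 914 (cons (fin 915 2 911)
(mv 1043 (cons (fin 1042 0 975)
(mv 979 (cons (fin 1044 0 976)
(mv 786 (cons (fin 850 4 786)
(mv 980 (cons (fin 1041 1 976)
(mv 917 (cons (fin 916 2 913)
(mv 981 (cons (fin 913 3 913)
(fin 918 2 914)))))))))))))))))))
(cons (mv 910 (cons (fin 911 3 910)
(mv 909 (cons (fin 974 3 909)
(mv 915 (cons (fin 914 2 911)
(mv 979 (cons (fin 916 2 912)
(mv 980 (cons (fin 1041 1 976)
(mv 1044 (cons (fin 1043 0 976)
(fin 1045 0 977)))))))))))))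
(mv 910 (cons (fin 911 3 910)
(mv 914 (cons (fin 915 2 911)
(mv 974 (cons (fin 909 3 909)
(fin 913 2 910)))))))))
(cons (cons (mv 914 (cons (fin 915 2 911)
(mv 913 (cons (fin 974 2 910)
(mv 785 (cons (fin 849 5 784)
(mv 1043 (cons (fin 1042 0 975)
(mv 979 (cons (fin 1044 0 976)
(mv 980 (cons (fin 981 3 913)
(fin 1041 1 976)))))))))))))
(mv 910 (cons (fin 911 3 910)
(mv 909 (cons (fin 974 3 909)
(mv 1043 (cons (fin 1042 0 975)
(mv 979 (cons (fin 1044 0 976)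
(mv 916 (cons (fin 915 2 912)
(mv 980 (cons (fin 1041 1 976)
(fin 917 2 913))))))))))))))
(cons (mv 910 (cons (fin 911 3 910)
(mv 974 (cons (fin 909 3 909)
(mv 1041 (cons (fin 973 0 973)
(fin 1042 0 974)))))))
(mv 910 (cons (fin 911 3 910)
(mv 914 (cons (fin 915 2 911)
(mv 1043 (cons (fin 1042 0 975)
(mv 979 (cons (fin 1044 0 976)
(mv 786 (cons (fin 850 4 786)
(mv 980 (cons (fin 1041 1 976)
(mv 917 (cons (fin 916 2 913)
(mv 981 (cons (fin 913 3 913)
(fin 918 2 914)))))))))))))))))))))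
(mv 979 (cons (cons (mv 915 (cons (fin 916 2 912)
(mv 980 (cons (fin 1041 1 976)
(mv 1044 (cons (fin 1043 0 976)
(fin 1045 0 977)))))))
(mv 915 (cons (fin 916 2 912)
(mv 1043 (cons (fin 1044 0 976)
(mv 1107 (cons (mv 914 (cons (fin 850 7 850)
(fin 1171 7 914)))
(cons (mv 1106 (cons (fin 1170 5 914)
(mv 851 (cons (fin 1042 5 850)
(mv 786 (cons (fin 850 7 786)
(mv 787 (cons (fin 722 7 722)
(mv 788 (cons (fin 724 6 723)
(fin 852 6 787)))))))))))
(mv 914 (cons (fin 1171 7 914)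
(mv 1106 (cons (fin 1170 5 914)
(mv 851 (cons (fin 1042 5 850)
(mv 787 (cons (fin 723 5 722)
(mv 788 (cons (fin 724 6 723)
(fin 852 6 787)))))))))))))))))))
(cons (mv 980 (cons (fin 1041 1 976)
(mv 1044 (cons (fin 1043 0 976)
(fin 1045 0 977)))))
(mv 916 (cons (fin 915 2 912)
(mv 980 (cons (fin 1041 1 976)
(fin 917 2 913)))))))))
(cons (mv 975 (cons (cons (mv 910 (cons (fin 911 3 910)
(mv 914 (cons (fin 915 2 911)
(mv 974 (cons (fin 909 3 909)
(fin 913 2 910)))))))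
(mv 914 (cons (fin 915 2 911)
(mv 913 (cons (fin 974 2 910)
(mv 849 (cons (fin 785 5 784)
(mv 1042 (cons (fin 1043 0 975)
(fin 1106 7 849))))))))))
(cons (mv 910 (cons (fin 911 3 910)
(mv 974 (cons (fin 909 3 909)
(mv 1041 (cons (fin 973 0 973)
(fin 1042 0 974)))))))
(mv 910 (cons (fin 911 3 910)
(mv 914 (cons (fin 915 2 911)
(mv 1042 (cons (fin 1043 0 975)
(mv 849 (cons (mv 785 (cons (fin 850 7 785)
(fin 913 5 784)))
(cons (mv 850 (cons (fin 785 7 785)
(mv 786 (cons (fin 1041 5 785)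
(mv 787 (cons (fin 723 6 722)
(fin 851 6 786)))))))
(mv 913 (cons (fin 1106 7 849)
(mv 1104 (cons (fin 1041 5 848)
(fin 1168 6 912)))))))))))))))))
(mv 975 (cons (cons (mv 910 (cons (fin 911 3 910)
(mv 914 (cons (fin 915 2 911)
(mv 974 (cons (fin 909 3 909)
(fin 913 2 910)))))))
(mv 914 (cons (fin 915 2 911)
(mv 913 (cons (fin 974 2 910)
(mv 849 (cons (fin 785 5 784)
(mv 1104 (cons (fin 1041 5 848)
(fin 1168 6 912))))))))))
(cons (mv 910 (cons (fin 911 3 910)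
(mv 974 (cons (fin 909 3 909)
(mv 1041 (cons (fin 973 0 973)
(fin 1042 0 974)))))))
(mv 910 (cons (fin 911 3 910)
(mv 979 (cons (mv 915 (cons (fin 914 2 911)
(fin 916 2 912)))
(cons (mv 980 (cons (fin 1041 1 976)
(mv 917 (cons (fin 916 2 913)
(mv 981 (cons (fin 918 2 914)
(mv 1045 (cons (fin 1044 0 977)
(fin 1046 0 978)))))))))
(mv 914 (cons (fin 915 2 911)
(mv 980 (cons (fin 1041 1 976)
(mv 981 (cons (fin 913 3 913)
(mv 1045 (cons (fin 1044 0 977)
(fin 1046 0 978)))))))))))))))))))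
(cons (cons (mv 913 (cons (cons (mv 849 (cons (fin 785 5 784)
(mv 1104 (cons (fin 1041 5 848)
(fin 1168 6 912)))))
(mv 1104 (cons (fin 1168 6 912)
(mv 975 (cons (cons (mv 910 (cons (fin 911 3 910)
(mv 974 (cons (fin 909 3 909)
(fin 914 2 910)))))
(mv 910 (cons (fin 911 3 910)
(mv 1043 (cons (fin 1042 0 975)
(mv 979 (cons (fin 1044 0 976)
(mv 980 (cons (fin 1041 1 976)
(mv 917 (cons (fin 916 2 913)
(mv 981 (cons (fin 914 3 913)
(fin 918 2 914))))))))))))))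
(cons (mv 914 (cons (fin 974 2 910)
(mv 1043 (cons (fin 1042 0 975)
(mv 979 (cons (fin 1044 0 976)
(mv 980 (cons (fin 981 3 913)
(fin 1041 1 976)))))))))
(mv 910 (cons (fin 911 3 910)
(mv 974 (cons (fin 909 3 909)
(mv 1041 (cons (fin 973 0 973)
(fin 1042 0 974)))))))))))))
(cons (mv 785 (cons (fin 849 5 784)
(mv 975 (cons (cons (mv 910 (cons (fin 911 3 910)
(mv 974 (cons (fin 909 3 909)
(fin 914 2 910)))))
(mv 910 (cons (fin 911 3 910)
(mv 1043 (cons (fin 1042 0 975)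
(mv 979 (cons (fin 1044 0 976)
(mv 980 (cons (fin 1041 1 976)
(mv 917 (cons (fin 916 2 913)
(mv 981 (cons (fin 914 3 913)
(fin 918 2 914))))))))))))))
(cons (mv 914 (cons (fin 974 2 910)
(mv 1043 (cons (fin 1042 0 975)
(mv 979 (cons (fin 1044 0 976)
(mv 980 (cons (fin 981 3 913)
(fin 1041 1 976)))))))))
(mv 910 (cons (fin 911 3 910)
(mv 974 (cons (fin 909 3 909)
(mv 1041 (cons (fin 973 0 973)
(fin 1042 0 974))))))))))))
(mv 849 (cons (fin 785 5 784)
(mv 1104 (cons (fin 1168 6 912)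
(mv 1042 (cons (mv 1106 (cons (fin 914 7 849)
(fin 1170 7 913)))
(cons (mv 975 (cons (fin 1043 0 975)
(mv 910 (cons (fin 911 3 910)
(mv 974 (cons (fin 909 3 909)
(fin 914 2 910)))))))
(mv 1043 (cons (fin 975 0 975)
(mv 1044 (cons (fin 1045 3 977)
(fin 979 0 976)))))))))))))))
(mv 1043 (cons (cons (mv 975 (cons (fin 1042 0 975)
(mv 910 (cons (fin 911 3 910)
(mv 909 (cons (fin 974 3 909)
(mv 915 (cons (fin 914 2 911)
(mv 979 (cons (fin 916 2 912)
(fin 1044 0 976)))))))))))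
(mv 979 (cons (fin 1044 0 976)
(mv 915 (cons (fin 916 2 912)
(mv 851 (cons (mv 1042 (cons (fin 787 5 786)
(fin 1106 5 850)))
(cons (mv 786 (cons (fin 850 7 786)
(mv 787 (cons (fin 722 7 722)
(mv 788 (cons (fin 724 6 723)
(fin 852 6 787)))))))
(mv 786 (cons (fin 850 7 786)
(mv 788 (cons (fin 852 6 787)
(mv 1106 (cons (fin 1042 5 850)
(mv 1107 (cons (fin 1170 5 914)
(mv 1171 (cons (fin 914 7 914)
(mv 1172 (cons (fin 1108 4 915)
(fin 1236 4 979)))))))))))))))))))))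
(cons (mv 975 (cons (fin 1042 0 975)
(mv 910 (cons (fin 911 3 910)
(mv 914 (cons (fin 915 2 911)
(mv 974 (cons (fin 909 3 909)
(fin 913 2 910)))))))))
(cons (mv 979 (cons (fin 1044 0 976)
(mv 915 (cons (fin 916 2 912)
(mv 914 (cons (fin 975 2 911)
(mv 850 (cons (fin 1107 7 850)
(fin 786 4 786)))))))))
(mv 1042 (cons (fin 975 0 975)
(mv 1044 (cons (fin 1045 3 977)
(fin 979 0 976))))))))))
(cons (mv 979 (cons (mv 915 (cons (fin 916 2 912)
(mv 914 (cons (fin 975 2 911)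
(mv 980 (cons (fin 1041 1 976)
(mv 981 (cons (fin 913 3 913)
(fin 982 3 914)))))))))
(cons (mv 915 (cons (fin 916 2 912)
(mv 914 (cons (fin 975 2 911)
(mv 1043 (cons (fin 1044 0 976)
(mv 850 (cons (fin 1107 7 850)
(fin 786 4 786)))))))))
(mv 980 (cons (fin 1041 1 976)
(mv 1044 (cons (fin 1043 0 976)
(fin 1045 0 977))))))))
(mv 979 (cons (cons (mv 915 (cons (fin 916 2 912)
(mv 980 (cons (fin 1041 1 976)
(mv 1044 (cons (fin 1043 0 976)
(fin 1045 0 977)))))))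
(mv 915 (cons (fin 916 2 912)
(mv 1043 (cons (fin 1044 0 976)
(mv 975 (cons (fin 1042 0 975)
(mv 910 (cons (fin 911 3 910)
(mv 974 (cons (fin 909 3 909)
(mv 973 (cons (fin 1041 0 973)
(mv 1037 (cons (fin 1036 1 972)
(fin 1038 1 973))))))))))))))))
(cons (mv 916 (cons (fin 915 2 912)
(mv 980 (cons (fin 1041 1 976)
(fin 917 2 913)))))
(cons (mv 980 (cons (fin 1041 1 976)
(mv 1044 (cons (fin 1043 0 976)
(fin 1045 0 977)))))
(mv 915 (cons (fin 916 2 912)
(mv 1043 (cons (fin 1044 0 976)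
(mv 1042 (cons (fin 975 0 975)
(mv 851 (cons (fin 787 5 786)
(fin 1106 5 850)))))))))))))))))
(mv 912 (cons (cons (cons (mv 1104 (cons (mv 913 (cons (fin 849 6 848)
(fin 1168 6 912)))
(cons (mv 911 (cons (fin 847 7 847)
(mv 909 (cons (fin 910 0 909)
(mv 978 (cons (fin 979 3 911)
(mv 1167 (cons (fin 1103 5 911)
(mv 1168 (cons (fin 975 7 911)
(fin 1231 5 975)))))))))))
(mv 847 (cons (fin 911 7 847)
(mv 848 (cons (fin 783 7 783)
(mv 849 (cons (fin 785 6 784)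
(fin 913 6 848))))))))))
(mv 911 (cons (cons (mv 910 (cons (fin 909 0 909)
(mv 978 (cons (fin 975 3 910)
(fin 979 3 911)))))
(mv 978 (cons (fin 979 3 911)
(mv 848 (cons (cons (mv 783 (cons (fin 847 7 783)
(mv 784 (cons (fin 719 7 719)
(mv 720 (cons (fin 975 5 719)
(fin 913 4 720)))))))
(mv 785 (cons (fin 849 6 784)
(mv 784 (cons (fin 721 6 720)
(mv 720 (cons (fin 975 5 719)
(fin 913 4 720))))))))
(cons (mv 783 (cons (fin 847 7 783)
(mv 784 (cons (fin 719 7 719)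
(mv 785 (cons (fin 721 6 720)
(fin 849 6 784)))))))
(mv 847 (cons (fin 783 7 783)
(mv 849 (cons (fin 785 6 784)
(mv 850 (cons (fin 851 1 847)
(mv 786 (cons (fin 787 2 783)
(mv 914 (cons (fin 915 0 847)
(mv 913 (cons (fin 846 3 846)
(fin 722 5 721)))))))))))))))))))
(cons (mv 909 (cons (fin 910 0 909)
(mv 848 (cons (cons (mv 783 (cons (fin 847 7 783)
(mv 784 (cons (fin 719 7 719)
(mv 720 (cons (fin 975 5 719)
(fin 913 4 720)))))))
(mv 785 (cons (fin 849 6 784)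
(mv 784 (cons (fin 721 6 720)
(mv 720 (cons (fin 975 5 719)
(fin 913 4 720))))))))
(cons (mv 847 (cons (fin 783 7 783)
(mv 849 (cons (fin 785 6 784)
(mv 850 (cons (fin 851 1 847)
(mv 786 (cons (fin 787 2 783)
(mv 914 (cons (fin 915 0 847)
(mv 913 (cons (fin 846 3 846)
(fin 722 5 721)))))))))))))
(mv 783 (cons (fin 847 7 783)
(mv 784 (cons (fin 719 7 719)
(mv 785 (cons (fin 721 6 720)
(fin 849 6 784))))))))))))
(mv 910 (cons (fin 909 0 909)
(mv 978 (cons (fin 979 3 911)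
(fin 913 0 910)))))))))
(cons (mv 911 (cons (mv 847 (cons (fin 1104 7 847)
(mv 783 (cons (fin 848 7 783)
(fin 719 4 719)))))
(mv 910 (cons (fin 909 0 909)
(mv 978 (cons (fin 975 3 910)
(fin 979 3 911)))))))
(mv 848 (cons (cons (mv 783 (cons (fin 847 7 783)
(mv 784 (cons (fin 719 7 719)
(mv 785 (cons (fin 721 6 720)
(fin 849 6 784)))))))
(cons (mv 783 (cons (fin 847 7 783)
(mv 784 (cons (fin 719 7 719)
(mv 720 (cons (fin 913 4 720)
(mv 721 (cons (fin 657 6 656)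
(fin 785 6 720)))))))))
(mv 783 (cons (fin 847 7 783)
(mv 784 (cons (fin 719 7 719)
(mv 913 (cons (fin 720 4 720)
(mv 1104 (cons (fin 849 6 848)
(fin 1168 6 912)))))))))))
(cons (mv 849 (cons (fin 785 6 784)
(mv 913 (cons (fin 1104 6 848)
(mv 720 (cons (fin 784 4 720)
(mv 850 (cons (cons (mv 851 (cons (fin 852 1 848)
(mv 787 (cons (fin 788 2 784)
(mv 786 (cons (fin 847 2 783)
(mv 722 (cons (fin 658 5 657)
(fin 914 5 721)))))))))
(mv 914 (cons (mv 847 (cons (fin 915 3 847)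
(fin 846 0 846)))
(cons (mv 786 (cons (fin 722 5 721)
(mv 847 (cons (fin 787 2 783)
(fin 846 0 846)))))
(mv 915 (cons (fin 916 3 848)
(fin 975 1 911)))))))
(cons (mv 851 (cons (fin 852 1 848)
(mv 787 (cons (fin 788 2 784)
(mv 786 (cons (fin 847 2 783)
(mv 658 (cons (fin 722 5 657)
(mv 915 (cons (fin 916 0 848)
(mv 979 (cons (fin 1043 7 786)
(mv 978 (cons (fin 980 3 912)
(fin 1042 5 786)))))))))))))))
(cons (mv 851 (cons (fin 852 1 848)
(mv 787 (cons (fin 788 2 784)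
(mv 915 (cons (fin 916 0 848)
(mv 914 (cons (fin 975 1 911)
(mv 723 (cons (fin 659 5 658)
(fin 978 5 722)))))))))))
(mv 851 (cons (fin 852 1 848)
(mv 915 (cons (fin 916 0 848)
(mv 914 (cons (fin 847 3 847)
(fin 975 1 911)))))))))))))))))
(cons (mv 785 (cons (fin 849 6 784)
(mv 784 (cons (fin 721 6 720)
(mv 719 (cons (fin 783 7 719)
(mv 720 (cons (fin 655 7 655)
(fin 913 4 720)))))))))
(mv 847 (cons (fin 783 7 783)
(mv 849 (cons (fin 785 6 784)
(mv 913 (cons (fin 1104 6 848)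
(mv 846 (cons (fin 845 0 845)
(fin 914 0 846)))))))))))))))
(cons (cons (mv 1104 (cons (mv 913 (cons (fin 849 6 848)
(fin 1168 6 912)))
(cons (mv 911 (cons (fin 847 7 847)
(mv 909 (cons (fin 910 0 909)
(mv 978 (cons (fin 979 3 911)
(mv 1167 (cons (fin 1103 5 911)
(mv 1168 (cons (fin 975 7 911)
(fin 1231 5 975)))))))))))
(mv 849 (cons (fin 913 6 848)
(mv 911 (cons (fin 847 7 847)
(mv 910 (cons (fin 909 0 909)
(mv 978 (cons (fin 975 3 910)
(fin 979 3 911))))))))))))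
(mv 978 (cons (cons (mv 911 (cons (fin 979 3 911)
(mv 910 (cons (fin 975 3 910)
(fin 909 0 909)))))
(mv 975 (cons (cons (mv 910 (cons (fin 911 3 910)
(mv 914 (cons (fin 915 2 911)
(mv 974 (cons (fin 909 3 909)
(fin 913 2 910)))))))
(mv 914 (cons (fin 915 2 911)
(mv 913 (cons (fin 974 2 910)
(mv 849 (cons (fin 785 5 784)
(fin 1104 6 848))))))))
(cons (mv 910 (cons (fin 911 3 910)
(mv 974 (cons (fin 909 3 909)
(mv 913 (cons (fin 973 2 909)
(mv 849 (cons (fin 785 5 784)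
(fin 1104 6 848)))))))))
(cons (mv 914 (cons (fin 915 2 911)
(mv 1042 (cons (fin 1043 0 975)
(mv 974 (cons (cons (mv 910 (cons (fin 909 3 909)
(fin 911 3 910)))
(mv 1037 (cons (fin 1038 1 973)
(mv 973 (cons (fin 1036 1 972)
(mv 908 (cons (fin 909 3 908)
(mv 972 (cons (fin 907 3 907)
(fin 911 2 908))))))))))
(cons (mv 909 (cons (fin 910 3 909)
(mv 973 (cons (fin 908 3 908)
(mv 1037 (cons (fin 1036 1 972)
(fin 1038 1 973)))))))
(mv 911 (cons (fin 910 3 910)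
(mv 973 (cons (fin 972 2 908)
(mv 1037 (cons (fin 1036 1 972)
(fin 1038 1 973))))))))))))))
(mv 911 (cons (fin 910 3 910)
(mv 914 (cons (fin 915 2 911)
(mv 1042 (cons (fin 1043 0 975)
(mv 1104 (cons (fin 1168 7 911)
(mv 849 (cons (fin 913 6 848)
(mv 785 (cons (fin 850 7 785)
(fin 848 6 784))))))))))))))))))
(cons (mv 913 (cons (mv 849 (cons (fin 785 5 784)
(fin 1104 6 848)))
(mv 979 (cons (fin 980 3 912)
(mv 915 (cons (fin 916 2 912)
(mv 914 (cons (fin 975 1 911)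
(mv 851 (cons (fin 852 2 848)
(mv 787 (cons (fin 723 5 722)
(fin 1042 5 786)))))))))))))
(mv 911 (cons (fin 979 3 911)
(mv 910 (cons (fin 909 0 909)
(fin 913 0 910)))))))))
(cons (mv 1104 (cons (mv 913 (cons (fin 849 6 848)
(fin 1168 6 912)))
(cons (mv 911 (cons (fin 847 7 847)
(mv 909 (cons (fin 910 0 909)
(mv 1167 (cons (fin 1103 5 911)
(mv 1168 (cons (fin 975 7 911)
(fin 1231 5 975)))))))))
(mv 847 (cons (fin 911 7 847)
(mv 848 (cons (fin 783 7 783)
(mv 849 (cons (fin 785 6 784)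
(fin 913 6 848))))))))))
(mv 913 (cons (cons (mv 849 (cons (fin 785 5 784)
(fin 1104 6 848)))
(mv 1104 (cons (fin 1168 6 912)
(mv 847 (cons (fin 911 7 847)
(mv 848 (cons (fin 783 7 783)
(mv 784 (cons (fin 720 4 720)
(mv 785 (cons (fin 721 6 720)
(mv 787 (cons (fin 786 1 783)
(mv 915 (cons (fin 914 3 847)
(mv 1103 (cons (fin 1167 5 911)
(mv 979 (cons (cons (mv 978 (cons (fin 980 3 912)
(fin 916 2 912)))
(mv 851 (cons (cons (mv 724 (cons (fin 788 6 723)
(mv 723 (cons (fin 660 6 659)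
(mv 980 (cons (fin 916 4 723)
(fin 1044 4 787)))))))
(mv 980 (cons (fin 1044 4 787)
(mv 723 (cons (fin 916 4 723)
(mv 658 (cons (fin 722 7 658)
(mv 659 (cons (fin 594 7 594)
(mv 660 (cons (fin 596 6 595)
(fin 724 6 659))))))))))))
(cons (mv 788 (cons (fin 724 6 723)
(mv 1043 (cons (fin 852 6 787)
(mv 1106 (cons (fin 1042 5 850)
(mv 1107 (cons (fin 1170 5 914)
(mv 1108 (cons (fin 1044 4 851)
(fin 1172 4 915)))))))))))
(cons (mv 1044 (cons (fin 980 4 787)
(mv 1043 (cons (fin 1108 4 851)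
(mv 852 (cons (fin 788 6 787)
(mv 1106 (cons (fin 1042 5 850)
(mv 1107 (cons (fin 1170 5 914)
(fin 916 6 851)))))))))))
(mv 724 (cons (fin 788 6 723)
(mv 723 (cons (fin 660 6 659)
(mv 658 (cons (fin 722 7 658)
(mv 659 (cons (fin 594 7 594)
(mv 916 (cons (fin 852 4 659)
(fin 980 4 723))))))))))))))))
(cons (mv 845 (cons (fin 846 2 781)
(mv 978 (cons (fin 916 2 912)
(mv 851 (cons (fin 1042 5 786)
(mv 788 (cons (fin 724 6 723)
(mv 1043 (cons (fin 1044 0 976)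
(fin 852 6 787)))))))))))
(mv 845 (cons (fin 846 2 781)
(mv 978 (cons (fin 980 3 912)
(mv 851 (cons (fin 1042 5 786)
(mv 788 (cons (fin 724 6 723)
(mv 1043 (cons (fin 1044 0 976)
(fin 852 6 787)))))))))))))))))))))))))))))))
(cons (mv 785 (cons (fin 849 5 784)
(mv 911 (cons (mv 910 (cons (fin 909 0 909)
(fin 978 0 910)))
(cons (mv 910 (cons (fin 909 0 909)
(mv 846 (cons (fin 845 3 845)
(mv 847 (cons (fin 914 3 846)
(mv 783 (cons (fin 848 7 783)
(fin 719 4 719)))))))))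
(mv 978 (cons (fin 979 3 911)
(mv 914 (cons (mv 846 (cons (fin 847 3 846)
(mv 850 (cons (fin 851 2 847)
(mv 786 (cons (fin 721 7 721)
(fin 722 5 721)))))))
(cons (mv 850 (cons (fin 851 2 847)
(mv 786 (cons (fin 721 7 721)
(fin 722 5 721)))))
(mv 847 (cons (fin 846 3 846)
(mv 783 (cons (fin 848 7 783)
(fin 719 4 719)))))))))))))))
(mv 1104 (cons (fin 849 6 848)
(fin 1168 6 912)))))))))))))
(cons (cons (cons (mv 1104 (cons (cons (mv 913 (cons (fin 1168 6 912)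
(mv 849 (cons (fin 785 5 784)
(fin 1041 5 848)))))
(mv 912 (cons (cons (mv 847 (cons (fin 911 7 847)
(mv 848 (cons (fin 783 7 783)
(mv 849 (cons (fin 785 6 784)
(fin 913 6 848)))))))
(cons (mv 847 (cons (fin 911 7 847)
(mv 848 (cons (fin 783 7 783)
(mv 784 (cons (fin 1041 4 784)
(mv 720 (cons (fin 913 4 720)
(mv 721 (cons (fin 657 6 656)
(fin 785 6 720)))))))))))
(mv 847 (cons (fin 911 7 847)
(mv 848 (cons (fin 783 7 783)
(mv 784 (cons (fin 1041 4 784)
(mv 785 (cons (fin 721 6 720)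
(fin 849 6 784)))))))))))
(cons (mv 849 (cons (fin 913 6 848)
(mv 848 (cons (fin 785 6 784)
(mv 783 (cons (fin 847 7 783)
(mv 784 (cons (fin 719 7 719)
(fin 1041 4 784)))))))))
(cons (mv 1103 (cons (fin 1167 5 911)
(mv 848 (cons (mv 849 (cons (fin 785 6 784)
(fin 913 6 848)))
(cons (mv 784 (cons (fin 1041 4 784)
(mv 719 (cons (fin 783 7 719)
(mv 720 (cons (fin 655 7 655)
(fin 913 4 720)))))))
(mv 784 (cons (fin 1041 4 784)
(mv 785 (cons (fin 721 6 720)
(fin 849 6 784))))))))))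
(mv 911 (cons (fin 847 7 847)
(mv 910 (cons (fin 909 0 909)
(mv 913 (cons (fin 849 6 848)
(mv 845 (cons (fin 846 3 845)
(mv 974 (cons (fin 973 1 909)
(mv 914 (cons (fin 975 1 910)
(mv 851 (cons (fin 850 2 847)
(mv 915 (cons (fin 916 1 912)
(fin 852 2 848))))))))))))))))))))))
(cons (mv 1168 (cons (cons (mv 911 (cons (fin 975 7 911)
(mv 847 (cons (fin 912 7 847)
(mv 1167 (cons (fin 1231 5 975)
(mv 1232 (cons (fin 1041 6 976)
(mv 1233 (cons (fin 1169 4 976)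
(fin 1297 4 1040)))))))))))
(cons (mv 911 (cons (fin 975 7 911)
(mv 912 (cons (fin 847 7 847)
(mv 1167 (cons (fin 1103 5 911)
(fin 1231 5 975)))))))
(mv 911 (cons (fin 975 7 911)
(mv 847 (cons (fin 912 7 847)
(mv 1232 (cons (fin 1041 6 976)
(mv 1233 (cons (fin 1169 4 976)
(fin 1297 4 1040)))))))))))
(cons (mv 1041 (cons (fin 1232 6 976)
(mv 1167 (cons (fin 1231 5 975)
(mv 1103 (cons (fin 912 5 911)
(mv 1042 (cons (fin 1043 1 1039)
(mv 974 (cons (fin 975 0 974)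
(mv 1101 (cons (fin 1102 2 1037)
(mv 1169 (cons (fin 1233 4 976)
(mv 1170 (cons (fin 1171 3 1103)
(mv 1106 (cons (fin 1107 2 1103)
(fin 1234 7 977)))))))))))))))))))
(cons (mv 1041 (cons (fin 1232 6 976)
(mv 1167 (cons (fin 1231 5 975)
(mv 912 (cons (fin 1103 5 911)
(mv 847 (cons (fin 911 7 847)
(mv 848 (cons (fin 783 7 783)
(fin 784 4 784)))))))))))
(mv 911 (cons (fin 975 7 911)
(mv 1167 (cons (fin 1231 5 975)
(mv 1232 (cons (fin 1041 6 976)
(mv 1233 (cons (fin 1169 4 976)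
(fin 1297 4 1040)))))))))))))
(mv 913 (cons (fin 1168 6 912)
(mv 849 (cons (fin 785 5 784)
(fin 912 6 848))))))))
(mv 975 (cons (cons (mv 974 (cons (mv 1041 (cons (fin 973 0 973)
(fin 1042 0 974)))
(cons (mv 909 (cons (fin 910 3 909)
(mv 908 (cons (fin 973 3 908)
(mv 913 (cons (fin 914 2 910)
(mv 849 (cons (fin 785 5 784)
(mv 1104 (cons (fin 912 6 848)
(fin 1168 6 912)))))))))))
(mv 909 (cons (fin 910 3 909)
(mv 913 (cons (fin 914 2 910)
(mv 849 (cons (fin 785 5 784)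
(mv 1041 (cons (fin 1042 0 974)
(fin 1104 5 848))))))))))))
(mv 978 (cons (cons (mv 914 (cons (fin 915 2 911)
(mv 1043 (cons (fin 1042 0 975)
(mv 979 (cons (fin 1044 0 976)
(mv 786 (cons (fin 850 4 786)
(mv 980 (cons (fin 1041 1 976)
(mv 913 (cons (fin 912 3 912)
(fin 981 3 913)))))))))))))
(cons (mv 915 (cons (fin 914 2 911)
(mv 979 (cons (fin 916 2 912)
(mv 913 (cons (cons (mv 980 (cons (fin 912 3 912)
(fin 1041 1 976)))
(mv 849 (cons (fin 785 5 784)
(mv 1104 (cons (fin 1041 5 848)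
(fin 912 6 848))))))
(cons (mv 849 (cons (fin 785 5 784)
(mv 1041 (cons (fin 980 1 976)
(fin 1104 5 848)))))
(mv 849 (cons (fin 785 5 784)
(mv 912 (cons (fin 980 3 912)
(fin 1104 6 848))))))))))))
(mv 1043 (cons (fin 1042 0 975)
(mv 979 (cons (fin 1044 0 976)
(mv 980 (cons (fin 1041 1 976)
(mv 913 (cons (fin 912 3 912)
(mv 785 (cons (fin 849 5 784)
(mv 917 (cons (fin 916 2 913)
(mv 981 (cons (fin 914 3 913)
(fin 918 2 914)))))))))))))))))
(cons (mv 1043 (cons (fin 1042 0 975)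
(mv 979 (cons (fin 1044 0 976)
(mv 916 (cons (fin 915 2 912)
(mv 980 (cons (fin 1041 1 976)
(fin 917 2 913)))))))))
(cons (mv 914 (cons (fin 915 2 911)
(mv 1042 (cons (fin 1043 0 975)
(mv 849 (cons (mv 785 (cons (fin 850 7 785)
(fin 913 5 784)))
(cons (mv 850 (cons (fin 785 7 785)
(mv 786 (cons (fin 1041 5 785)
(mv 787 (cons (fin 723 6 722)
(fin 851 6 786)))))))
(mv 913 (cons (fin 1106 7 849)
(mv 1104 (cons (fin 1041 5 848)
(fin 912 6 848))))))))))))
(mv 915 (cons (fin 914 2 911)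
(mv 979 (cons (fin 916 2 912)
(mv 1043 (cons (fin 1042 0 975)
(fin 1044 0 976))))))))))))
(cons (mv 974 (cons (mv 1041 (cons (fin 973 0 973)
(fin 1042 0 974)))
(cons (mv 909 (cons (fin 910 3 909)
(mv 973 (cons (fin 908 3 908)
(mv 1037 (cons (fin 1036 1 972)
(fin 1038 1 973)))))))
(mv 909 (cons (fin 910 3 909)
(mv 1037 (cons (fin 1038 1 973)
(mv 978 (cons (cons (mv 1042 (cons (fin 1041 0 974)
(fin 1043 0 975)))
(mv 915 (cons (fin 914 2 911)
(mv 979 (cons (fin 916 2 912)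
(mv 980 (cons (fin 1041 1 976)
(mv 1044 (cons (fin 1043 0 976)
(fin 1045 0 977))))))))))
(cons (mv 915 (cons (fin 914 2 911)
(mv 979 (cons (fin 916 2 912)
(mv 1043 (cons (fin 1042 0 975)
(fin 1044 0 976)))))))
(mv 915 (cons (fin 914 2 911)
(mv 979 (cons (fin 916 2 912)
(mv 1041 (cons (fin 980 1 976)
(fin 1042 0 974)))))))))))))))))
(cons (mv 913 (cons (cons (mv 785 (cons (fin 849 5 784)
(mv 914 (cons (fin 974 2 910)
(mv 915 (cons (fin 912 1 911)
(fin 916 1 912)))))))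
(mv 849 (cons (fin 785 5 784)
(mv 1104 (cons (fin 912 6 848)
(fin 1168 6 912))))))
(cons (mv 914 (cons (fin 974 2 910)
(mv 915 (cons (fin 912 1 911)
(fin 916 1 912)))))
(mv 785 (cons (fin 849 5 784)
(mv 914 (cons (fin 974 2 910)
(mv 915 (cons (fin 916 1 912)
(fin 978 2 911))))))))))
(mv 974 (cons (mv 1041 (cons (fin 973 0 973)
(fin 1042 0 974)))
(cons (mv 909 (cons (fin 910 3 909)
(mv 973 (cons (fin 908 3 908)
(mv 1037 (cons (fin 1036 1 972)
(fin 1038 1 973)))))))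
(mv 910 (cons (fin 909 3 909)
(mv 1038 (cons (fin 1037 1 973)
(mv 913 (cons (cons (mv 849 (cons (fin 785 5 784)
(mv 1041 (cons (fin 1042 0 974)
(fin 1104 5 848)))))
(mv 1102 (cons (cons (cons (mv 1041 (cons (fin 1042 0 974)
(mv 1101 (cons (fin 1165 5 909)
(mv 1103 (cons (fin 1104 2 1037)
(fin 1167 4 910)))))))
(mv 1101 (cons (fin 1165 5 909)
(mv 1103 (cons (fin 1167 4 910)
(mv 1104 (cons (fin 1041 2 1037)
(fin 1168 6 912))))))))
(cons (mv 1101 (cons (fin 1165 5 909)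
(mv 1167 (cons (fin 1103 4 910)
(mv 1166 (cons (fin 1231 4 974)
(mv 1168 (cons (fin 1169 3 1101)
(fin 1104 6 912)))))))))
(mv 1041 (cons (fin 1042 0 974)
(mv 1101 (cons (fin 1165 5 909)
(mv 1104 (cons (fin 1103 2 1037)
(fin 1168 6 912)))))))))
(cons (cons (mv 1041 (cons (fin 1042 0 974)
(mv 1103 (cons (fin 1167 4 910)
(mv 1104 (cons (fin 1101 2 1037)
(fin 1168 6 912)))))))
(mv 1041 (cons (fin 1042 0 974)
(mv 1165 (cons (fin 1101 5 909)
(mv 1166 (cons (fin 1229 5 973)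
(mv 1167 (cons (fin 1103 4 910)
(fin 1231 4 974))))))))))
(cons (mv 1042 (cons (fin 1041 0 974)
(mv 978 (cons (fin 1043 0 975)
(mv 1168 (cons (fin 1104 6 912)
(mv 1170 (cons (fin 1106 7 913)
(mv 1166 (cons (mv 1165 (cons (fin 1101 5 909)
(fin 1229 5 973)))
(cons (mv 1167 (cons (fin 1231 4 974)
(mv 1169 (cons (fin 1101 3 1101)
(mv 1234 (cons (fin 1233 0 1166)
(fin 1235 0 1167)))))))
(mv 1167 (cons (fin 1231 4 974)
(mv 1229 (cons (fin 1165 5 973)
(mv 1230 (cons (fin 1169 1 1165)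
(fin 1293 5 1037))))))))))))))))))
(mv 1041 (cons (fin 1042 0 974)
(mv 1167 (cons (fin 1103 4 910)
(mv 1166 (cons (fin 1231 4 974)
(mv 1168 (cons (fin 1104 6 912)
(mv 1229 (cons (fin 1165 5 973)
(mv 1230 (cons (fin 1169 1 1165)
(fin 1293 5 1037))))))))))))))))))
(cons (mv 849 (cons (fin 785 5 784)
(mv 1104 (cons (fin 912 6 848)
(fin 1168 6 912)))))
(mv 846 (cons (cons (mv 781 (cons (fin 845 7 781)
(mv 782 (cons (fin 717 7 717)
(mv 783 (cons (fin 719 6 718)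
(fin 847 6 782)))))))
(cons (mv 781 (cons (fin 845 7 781)
(mv 782 (cons (fin 717 7 717)
(mv 849 (cons (fin 785 5 784)
(mv 848 (cons (fin 847 3 781)
(mv 1041 (cons (fin 1042 0 974)
(fin 784 7 784)))))))))))
(mv 783 (cons (fin 847 6 782)
(mv 782 (cons (fin 719 6 718)
(mv 785 (cons (fin 849 5 784)
(mv 784 (cons (fin 845 1 781)
(mv 722 (cons (fin 721 2 718)
(mv 786 (cons (fin 723 2 719)
(mv 851 (cons (fin 850 0 783)
(mv 787 (cons (fin 852 0 784)
(mv 979 (cons (fin 915 7 722)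
(mv 978 (cons (mv 980 (cons (fin 912 3 912)
(fin 1041 1 976)))
(cons (mv 1042 (cons (fin 1041 0 974)
(fin 1043 0 975)))
(mv 1043 (cons (fin 1042 0 975)
(fin 1044 0 976))))))))))))))))))))))))))
(cons (mv 785 (cons (fin 849 5 784)
(mv 1041 (cons (fin 1042 0 974)
(mv 782 (cons (mv 781 (cons (fin 717 7 717)
(fin 845 7 781)))
(cons (mv 719 (cons (fin 783 6 718)
(mv 718 (cons (fin 655 6 654)
(mv 717 (cons (fin 653 7 653)
(mv 720 (cons (fin 784 0 717)
(mv 657 (cons (fin 656 2 653)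
(mv 721 (cons (fin 658 2 654)
(fin 786 0 718)))))))))))))
(mv 783 (cons (fin 719 6 718)
(mv 845 (cons (fin 784 1 781)
(fin 781 7 781))))))))))))
(cons (mv 783 (cons (fin 847 6 782)
(mv 782 (cons (fin 719 6 718)
(mv 717 (cons (fin 781 7 717)
(mv 718 (cons (fin 653 7 653)
(mv 785 (cons (fin 784 3 717)
(fin 849 5 784)))))))))))
(mv 785 (cons (fin 849 5 784)
(mv 845 (cons (fin 781 7 781)
(mv 847 (cons (fin 783 6 782)
(mv 848 (cons (fin 784 2 781)
(fin 912 0 845))))))))))))))))))))))))))))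
(cons (mv 913 (cons (cons (mv 849 (cons (fin 785 5 784)
(mv 1104 (cons (fin 1041 5 848)
(fin 912 6 848)))))
(mv 1104 (cons (fin 1168 6 912)
(mv 975 (cons (cons (mv 914 (cons (fin 974 2 910)
(mv 915 (cons (fin 912 1 911)
(fin 916 1 912)))))
(mv 911 (cons (mv 847 (cons (fin 912 7 847)
(fin 783 4 783)))
(cons (mv 910 (cons (fin 978 3 910)
(mv 909 (cons (fin 908 0 908)
(fin 912 0 909)))))
(mv 783 (cons (fin 847 4 783)
(mv 978 (cons (fin 910 3 910)
(mv 915 (cons (fin 914 2 911)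
(mv 979 (cons (fin 916 2 912)
(mv 980 (cons (fin 1041 1 976)
(mv 1044 (cons (fin 1043 0 976)
(fin 1045 0 977)))))))))))))))))
(cons (mv 974 (cons (mv 973 (cons (fin 912 2 909)
(fin 1041 0 973)))
(cons (mv 910 (cons (fin 909 3 909)
(mv 911 (cons (fin 978 3 910)
(mv 847 (cons (fin 912 7 847)
(fin 783 4 783)))))))
(mv 909 (cons (fin 910 3 909)
(mv 973 (cons (fin 908 3 908)
(fin 1041 0 973))))))))
(mv 914 (cons (fin 974 2 910)
(mv 915 (cons (fin 916 1 912)
(fin 978 2 911)))))))))))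
(cons (mv 785 (cons (fin 849 5 784)
(mv 975 (cons (cons (mv 914 (cons (fin 974 2 910)
(mv 915 (cons (fin 912 1 911)
(fin 916 1 912)))))
(mv 978 (cons (cons (mv 910 (cons (fin 911 3 910)
(mv 915 (cons (fin 914 2 911)
(mv 979 (cons (fin 916 2 912)
(mv 980 (cons (fin 912 3 912)
(fin 1041 1 976)))))))))
(mv 915 (cons (fin 914 2 911)
(mv 979 (cons (fin 916 2 912)
(mv 980 (cons (fin 912 3 912)
(fin 1041 1 976))))))))
(cons (mv 911 (cons (fin 910 3 910)
(mv 783 (cons (fin 847 4 783)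
(mv 979 (cons (fin 912 3 911)
(mv 980 (cons (fin 1041 1 976)
(mv 1044 (cons (fin 1043 0 976)
(fin 1045 0 977)))))))))))
(cons (mv 911 (cons (fin 910 3 910)
(mv 847 (cons (fin 783 4 783)
(mv 914 (cons (fin 915 2 911)
(mv 912 (cons (fin 846 3 846)
(mv 850 (cons (fin 851 2 847)
(mv 786 (cons (fin 721 7 721)
(fin 722 5 721)))))))))))))
(mv 910 (cons (fin 911 3 910)
(mv 915 (cons (fin 914 2 911)
(mv 979 (cons (fin 916 2 912)
(mv 980 (cons (fin 1041 1 976)
(mv 1044 (cons (fin 1043 0 976)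
(fin 1045 0 977))))))))))))))))
(cons (mv 974 (cons (mv 973 (cons (fin 912 2 909)
(fin 1041 0 973)))
(mv 910 (cons (fin 909 3 909)
(mv 911 (cons (fin 978 3 910)
(mv 847 (cons (fin 783 4 783)
(mv 1038 (cons (fin 1037 1 973)
(fin 1102 6 846)))))))))))
(mv 914 (cons (fin 974 2 910)
(mv 915 (cons (fin 916 1 912)
(fin 978 2 911))))))))))
(cons (mv 849 (cons (fin 785 5 784)
(mv 1104 (cons (fin 1041 5 848)
(fin 1168 6 912)))))
(mv 849 (cons (fin 785 5 784)
(mv 1104 (cons (fin 912 6 848)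
(fin 1168 6 912)))))))))
(mv 913 (cons (cons (mv 849 (cons (fin 785 5 784)
(mv 1104 (cons (fin 1041 5 848)
(fin 912 6 848)))))
(mv 1104 (cons (fin 1168 6 912)
(mv 975 (cons (cons (mv 914 (cons (fin 974 2 910)
(mv 915 (cons (fin 912 1 911)
(fin 916 1 912)))))
(mv 911 (cons (mv 847 (cons (fin 912 7 847)
(fin 783 4 783)))
(cons (mv 910 (cons (fin 978 3 910)
(mv 909 (cons (fin 908 0 908)
(fin 912 0 909)))))
(mv 783 (cons (fin 847 4 783)
(mv 978 (cons (fin 910 3 910)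
(mv 979 (cons (cons (mv 915 (cons (fin 914 2 911)
(fin 916 2 912)))
(mv 980 (cons (fin 1041 1 976)
(mv 916 (cons (fin 917 2 913)
(mv 981 (cons (fin 914 3 913)
(mv 1045 (cons (fin 1044 0 977)
(fin 1046 0 978))))))))))
(cons (mv 916 (cons (fin 915 2 912)
(mv 980 (cons (fin 1041 1 976)
(fin 917 2 913)))))
(mv 914 (cons (fin 915 2 911)
(mv 980 (cons (fin 981 3 913)
(fin 1041 1 976))))))))))))))))
(cons (mv 974 (cons (mv 973 (cons (fin 912 2 909)
(fin 1041 0 973)))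
(cons (mv 910 (cons (fin 909 3 909)
(mv 911 (cons (fin 978 3 910)
(mv 847 (cons (fin 912 7 847)
(fin 783 4 783)))))))
(mv 1041 (cons (fin 973 0 973)
(fin 1042 0 974))))))
(mv 914 (cons (fin 974 2 910)
(mv 915 (cons (fin 916 1 912)
(fin 978 2 911)))))))))))
(cons (mv 849 (cons (fin 785 5 784)
(mv 914 (cons (cons (mv 915 (cons (fin 916 1 912)
(mv 975 (cons (fin 912 1 911)
(fin 974 2 910)))))
(mv 975 (cons (fin 974 2 910)
(mv 911 (cons (cons (mv 783 (cons (fin 847 4 783)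
(mv 910 (cons (fin 978 3 910)
(mv 909 (cons (fin 908 0 908)
(fin 912 0 909)))))))
(mv 847 (cons (fin 783 4 783)
(mv 846 (cons (fin 912 3 846)
(fin 848 0 846))))))
(cons (mv 910 (cons (fin 978 3 910)
(mv 909 (cons (fin 908 0 908)
(fin 912 0 909)))))
(mv 847 (cons (fin 783 4 783)
(mv 848 (cons (fin 846 0 846)
(mv 910 (cons (fin 978 3 910)
(fin 850 1 846)))))))))))))
(cons (mv 915 (cons (fin 916 1 912)
(mv 848 (cons (mv 847 (cons (fin 912 3 847)
(fin 846 0 846)))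
(cons (mv 784 (cons (fin 1041 7 784)
(mv 720 (cons (fin 656 4 656)
(fin 912 4 720)))))
(mv 847 (cons (fin 846 0 846)
(fin 850 0 847))))))))
(mv 915 (cons (fin 916 1 912)
(mv 975 (cons (fin 974 2 910)
(fin 978 2 911))))))))))
(cons (mv 849 (cons (fin 785 5 784)
(mv 1104 (cons (fin 1041 5 848)
(fin 1168 6 912)))))
(mv 849 (cons (fin 785 5 784)
(mv 1104 (cons (fin 912 6 848)
(fin 1168 6 912)))))))))))
(cons (cons (mv 913 (cons (cons (mv 849 (cons (fin 785 5 784)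
(mv 1104 (cons (fin 1041 5 848)
(fin 912 6 848)))))
(mv 975 (cons (cons (cons (mv 1104 (cons (fin 1168 6 912)
(mv 974 (cons (mv 973 (cons (fin 912 2 909)
(fin 1041 0 973)))
(cons (mv 910 (cons (fin 909 3 909)
(mv 911 (cons (fin 978 3 910)
(mv 847 (cons (fin 912 7 847)
(fin 783 4 783)))))))
(mv 1041 (cons (fin 973 0 973)
(fin 1042 0 974))))))))
(mv 974 (cons (mv 973 (cons (fin 912 2 909)
(fin 1041 0 973)))
(mv 910 (cons (fin 909 3 909)
(mv 911 (cons (fin 978 3 910)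
(mv 847 (cons (fin 783 4 783)
(mv 1038 (cons (fin 1037 1 973)
(fin 1102 6 846))))))))))))
(cons (mv 1104 (cons (fin 1168 6 912)
(mv 911 (cons (mv 847 (cons (fin 912 7 847)
(fin 783 4 783)))
(cons (mv 910 (cons (fin 978 3 910)
(mv 909 (cons (fin 908 0 908)
(fin 912 0 909)))))
(mv 783 (cons (fin 847 4 783)
(mv 978 (cons (fin 910 3 910)
(mv 1043 (cons (fin 1042 0 975)
(mv 979 (cons (fin 1044 0 976)
(mv 916 (cons (fin 915 2 912)
(mv 980 (cons (fin 1041 1 976)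
(fin 917 2 913))))))))))))))))))
(mv 974 (cons (mv 973 (cons (fin 912 2 909)
(fin 1041 0 973)))
(cons (mv 910 (cons (fin 909 3 909)
(mv 1038 (cons (fin 1037 1 973)
(mv 1102 (cons (cons (cons (mv 1041 (cons (fin 1042 0 974)
(mv 1101 (cons (fin 1165 5 909)
(mv 1103 (cons (fin 1104 2 1037)
(fin 1167 4 910)))))))
(mv 1101 (cons (fin 1165 5 909)
(mv 1103 (cons (fin 1167 4 910)
(mv 1104 (cons (fin 1041 2 1037)
(fin 1168 6 912))))))))
(cons (mv 1101 (cons (fin 1165 5 909)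
(mv 1167 (cons (fin 1103 4 910)
(mv 1166 (cons (fin 1231 4 974)
(mv 1168 (cons (fin 1169 3 1101)
(fin 1104 6 912)))))))))
(mv 1041 (cons (fin 1042 0 974)
(mv 1101 (cons (fin 1165 5 909)
(mv 1104 (cons (fin 1103 2 1037)
(fin 1168 6 912)))))))))
(cons (cons (mv 1041 (cons (fin 1042 0 974)
(mv 1103 (cons (fin 1167 4 910)
(mv 1104 (cons (fin 1101 2 1037)
(fin 1168 6 912)))))))
(mv 1041 (cons (fin 1042 0 974)
(mv 1165 (cons (fin 1101 5 909)
(mv 1166 (cons (fin 1229 5 973)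
(mv 1167 (cons (fin 1103 4 910)
(fin 1231 4 974))))))))))
(cons (mv 1042 (cons (fin 1041 0 974)
(mv 978 (cons (fin 1043 0 975)
(mv 1168 (cons (fin 1104 6 912)
(mv 1170 (cons (fin 1106 7 913)
(mv 1166 (cons (mv 1165 (cons (fin 1101 5 909)
(fin 1229 5 973)))
(cons (mv 1167 (cons (fin 1231 4 974)
(mv 1169 (cons (fin 1101 3 1101)
(mv 1234 (cons (fin 1233 0 1166)
(fin 1235 0 1167)))))))
(mv 1167 (cons (fin 1231 4 974)
(mv 1229 (cons (fin 1165 5 973)
(mv 1230 (cons (fin 1169 1 1165)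
(fin 1293 5 1037))))))))))))))))))
(mv 1041 (cons (fin 1042 0 974)
(mv 1167 (cons (fin 1103 4 910)
(mv 1166 (cons (fin 1231 4 974)
(mv 1168 (cons (fin 1104 6 912)
(mv 1229 (cons (fin 1165 5 973)
(mv 1230 (cons (fin 1169 1 1165)
(fin 1293 5 1037)))))))))))))))))))))
(mv 909 (cons (fin 910 3 909)
(mv 973 (cons (fin 908 3 908)
(fin 912 2 909))))))))))
(cons (cons (mv 1104 (cons (fin 1168 6 912)
(mv 911 (cons (mv 847 (cons (fin 912 7 847)
(fin 783 4 783)))
(mv 910 (cons (fin 978 3 910)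
(mv 909 (cons (fin 974 3 909)
(fin 908 0 908)))))))))
(mv 1104 (cons (fin 1168 6 912)
(mv 974 (cons (cons (mv 973 (cons (fin 912 2 909)
(fin 1041 0 973)))
(mv 910 (cons (fin 909 3 909)
(mv 1038 (cons (fin 1037 1 973)
(mv 1042 (cons (fin 1041 0 974)
(mv 846 (cons (cons (mv 781 (cons (fin 845 7 781)
(mv 717 (cons (fin 782 7 717)
(mv 847 (cons (fin 783 6 782)
(mv 911 (cons (fin 912 7 847)
(fin 1102 6 846)))))))))
(cons (mv 781 (cons (fin 845 7 781)
(mv 782 (cons (fin 717 7 717)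
(mv 718 (cons (fin 911 4 718)
(mv 719 (cons (fin 655 6 654)
(fin 783 6 718)))))))))
(mv 781 (cons (fin 845 7 781)
(mv 782 (cons (fin 717 7 717)
(mv 911 (cons (fin 718 4 718)
(mv 847 (cons (fin 912 7 847)
(fin 1102 6 846)))))))))))
(cons (mv 783 (cons (fin 847 6 782)
(mv 782 (cons (fin 719 6 718)
(mv 717 (cons (fin 781 7 717)
(mv 718 (cons (fin 653 7 653)
(fin 911 4 718)))))))))
(cons (mv 847 (cons (fin 783 6 782)
(mv 911 (cons (fin 912 7 847)
(fin 1102 6 846)))))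
(mv 781 (cons (fin 845 7 781)
(mv 782 (cons (fin 717 7 717)
(mv 783 (cons (fin 719 6 718)
(fin 847 6 782))))))))))))))))))
(cons (mv 909 (cons (fin 910 3 909)
(mv 973 (cons (fin 908 3 908)
(fin 912 2 909)))))
(mv 1041 (cons (fin 973 0 973)
(fin 1042 0 974)))))))))
(cons (mv 1104 (cons (fin 1168 6 912)
(mv 974 (cons (cons (mv 973 (cons (fin 912 2 909)
(fin 1041 0 973)))
(mv 1038 (cons (fin 1037 1 973)
(mv 1041 (cons (fin 1042 0 974)
(mv 1102 (cons (cons (mv 911 (cons (fin 1166 6 910)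
(mv 847 (cons (fin 912 7 847)
(fin 783 5 782)))))
(mv 1103 (cons (fin 1101 2 1037)
(mv 1167 (cons (fin 912 5 911)
(mv 1231 (cons (fin 1295 7 1038)
(fin 1166 4 974))))))))
(cons (mv 1103 (cons (fin 1101 2 1037)
(mv 912 (cons (fin 1167 5 911)
(mv 847 (cons (fin 911 7 847)
(mv 848 (cons (fin 783 7 783)
(fin 784 4 784)))))))))
(mv 1101 (cons (fin 1103 2 1037)
(mv 1166 (cons (fin 911 6 910)
(mv 1229 (cons (fin 1165 5 973)
(mv 1230 (cons (fin 1293 5 1037)
(mv 1231 (cons (fin 1167 4 974)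
(fin 1295 4 1038)))))))))))))))))))
(cons (mv 973 (cons (fin 912 2 909)
(mv 1037 (cons (fin 1036 1 972)
(fin 1038 1 973)))))
(mv 1041 (cons (fin 973 0 973)
(fin 1042 0 974))))))))
(mv 1104 (cons (fin 1168 6 912)
(mv 974 (cons (mv 1041 (cons (fin 973 0 973)
(fin 1042 0 974)))
(cons (mv 909 (cons (fin 910 3 909)
(mv 973 (cons (fin 908 3 908)
(mv 1037 (cons (fin 1036 1 972)
(fin 1038 1 973)))))))
(mv 910 (cons (fin 909 3 909)
(mv 911 (cons (fin 978 3 910)
(mv 783 (cons (fin 847 4 783)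
(mv 1038 (cons (fin 1037 1 973)
(mv 1041 (cons (fin 1042 0 974)
(mv 1102 (cons (fin 1166 6 910)
(mv 1101 (cons (fin 1103 2 1037)
(fin 1165 5 909)))))))))))))))))))))))))
(cons (mv 849 (cons (fin 785 5 784)
(mv 1041 (cons (cons (mv 784 (cons (fin 848 7 784)
(mv 786 (cons (fin 850 6 785)
(mv 1042 (cons (fin 1106 4 849)
(mv 975 (cons (fin 1043 3 975)
(fin 974 0 974)))))))))
(mv 848 (cons (fin 784 7 784)
(mv 850 (cons (fin 786 6 785)
(mv 851 (cons (mv 912 (cons (fin 911 1 847)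
(fin 852 1 848)))
(cons (mv 788 (cons (fin 787 2 784)
(mv 852 (cons (fin 789 2 785)
(mv 916 (cons (fin 915 0 848)
(fin 917 0 849)))))))
(mv 787 (cons (fin 788 2 784)
(mv 911 (cons (fin 912 1 847)
(mv 847 (cons (fin 910 1 846)
(mv 783 (cons (fin 782 3 782)
(fin 975 4 783)))))))))))))))))
(cons (mv 786 (cons (fin 850 6 785)
(mv 1042 (cons (fin 1106 4 849)
(mv 975 (cons (fin 1043 3 975)
(fin 974 0 974)))))))
(cons (mv 784 (cons (fin 848 7 784)
(mv 1042 (cons (fin 1106 4 849)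
(mv 975 (cons (fin 1043 3 975)
(fin 974 0 974)))))))
(mv 848 (cons (fin 784 7 784)
(mv 850 (cons (fin 786 6 785)
(mv 1042 (cons (fin 1106 4 849)
(mv 1043 (cons (fin 1044 3 976)
(mv 979 (cons (fin 980 2 976)
(mv 1107 (cons (fin 1108 0 1040)
(mv 912 (cons (mv 851 (cons (fin 911 1 847)
(fin 852 1 848)))
(cons (mv 783 (cons (fin 847 7 783)
(mv 851 (cons (fin 852 1 848)
(mv 787 (cons (fin 788 2 784)
(mv 915 (cons (fin 916 0 848)
(fin 978 5 786)))))))))
(mv 911 (cons (fin 978 3 911)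
(fin 910 2 846))))))))))))))))))))))))
(cons (mv 849 (cons (fin 785 5 784)
(mv 1104 (cons (fin 1041 5 848)
(fin 1168 6 912)))))
(mv 849 (cons (fin 785 5 784)
(mv 1104 (cons (fin 912 6 848)
(fin 1168 6 912)))))))))
(mv 913 (cons (cons (mv 849 (cons (fin 785 5 784)
(mv 1104 (cons (fin 1041 5 848)
(fin 912 6 848)))))
(mv 1104 (cons (fin 1168 6 912)
(mv 975 (cons (cons (mv 914 (cons (fin 974 2 910)
(mv 911 (cons (mv 847 (cons (fin 912 7 847)
(fin 783 4 783)))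
(cons (mv 910 (cons (fin 978 3 910)
(mv 909 (cons (fin 908 0 908)
(fin 912 0 909)))))
(mv 783 (cons (fin 847 4 783)
(mv 978 (cons (fin 910 3 910)
(mv 1043 (cons (fin 1042 0 975)
(mv 979 (cons (fin 1044 0 976)
(mv 980 (cons (fin 981 3 913)
(fin 1041 1 976))))))))))))))))
(mv 911 (cons (mv 847 (cons (fin 912 7 847)
(fin 783 4 783)))
(cons (mv 910 (cons (fin 978 3 910)
(mv 909 (cons (fin 908 0 908)
(fin 912 0 909)))))
(mv 783 (cons (fin 847 4 783)
(mv 978 (cons (fin 910 3 910)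
(mv 1043 (cons (fin 1042 0 975)
(mv 979 (cons (fin 1044 0 976)
(mv 980 (cons (fin 1041 1 976)
(mv 917 (cons (fin 916 2 913)
(mv 981 (cons (fin 914 3 913)
(fin 918 2 914)))))))))))))))))))
(cons (mv 974 (cons (mv 973 (cons (fin 912 2 909)
(fin 1041 0 973)))
(cons (mv 910 (cons (fin 909 3 909)
(mv 911 (cons (fin 978 3 910)
(mv 847 (cons (fin 912 7 847)
(fin 783 4 783)))))))
(mv 1041 (cons (fin 973 0 973)
(fin 1042 0 974))))))
(cons (mv 974 (cons (fin 914 2 910)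
(mv 1041 (cons (fin 973 0 973)
(fin 1042 0 974)))))
(mv 974 (cons (fin 914 2 910)
(mv 909 (cons (fin 910 3 909)
(mv 973 (cons (fin 908 3 908)
(fin 912 2 909))))))))))))))
(cons (mv 849 (cons (fin 785 5 784)
(mv 1041 (cons (cons (mv 784 (cons (fin 848 7 784)
(mv 786 (cons (fin 850 6 785)
(mv 1042 (cons (fin 1106 4 849)
(mv 975 (cons (fin 1043 3 975)
(fin 974 0 974)))))))))
(mv 786 (cons (fin 850 6 785)
(mv 848 (cons (fin 784 7 784)
(mv 847 (cons (cons (mv 783 (cons (fin 912 7 783)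
(mv 846 (cons (fin 914 0 846)
(mv 781 (cons (fin 782 3 781)
(mv 780 (cons (fin 845 3 780)
(mv 910 (cons (fin 909 1 845)
(mv 655 (cons (fin 719 5 654)
(mv 974 (cons (fin 1038 6 782)
(mv 975 (cons (fin 973 0 973)
(fin 911 4 783)))))))))))))))))
(mv 783 (cons (fin 912 7 783)
(mv 975 (cons (fin 911 4 783)
(mv 974 (cons (fin 914 2 910)
(fin 973 0 973))))))))
(cons (mv 846 (cons (fin 914 0 846)
(mv 781 (cons (fin 782 3 781)
(mv 845 (cons (fin 780 3 780)
(mv 909 (cons (fin 908 1 844)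
(fin 910 1 845)))))))))
(mv 783 (cons (fin 912 7 783)
(mv 975 (cons (fin 911 4 783)
(mv 974 (cons (fin 973 0 973)
(mv 910 (cons (fin 909 3 909)
(mv 1038 (cons (fin 1037 1 973)
(fin 846 6 782)))))))))))))))))))
(cons (mv 786 (cons (fin 850 6 785)
(mv 1042 (cons (fin 1106 4 849)
(mv 975 (cons (fin 1043 3 975)
(fin 974 0 974)))))))
(cons (mv 784 (cons (fin 848 7 784)
(mv 1042 (cons (fin 1106 4 849)
(mv 975 (cons (fin 1043 3 975)
(fin 974 0 974)))))))
(mv 848 (cons (fin 784 7 784)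
(mv 850 (cons (fin 786 6 785)
(mv 1042 (cons (fin 1106 4 849)
(mv 1043 (cons (fin 1044 3 976)
(mv 979 (cons (fin 980 2 976)
(mv 1107 (cons (fin 1108 0 1040)
(mv 914 (cons (fin 978 4 850)
(mv 847 (cons (fin 846 0 846)
(mv 783 (cons (fin 782 3 782)
(fin 912 7 783)))))))))))))))))))))))))
(cons (mv 849 (cons (fin 785 5 784)
(mv 1104 (cons (fin 1041 5 848)
(fin 1168 6 912)))))
(mv 849 (cons (fin 785 5 784)
(mv 1104 (cons (fin 912 6 848)
(fin 1168 6 912))))))))))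
(cons (mv 1104 (cons (cons (mv 913 (cons (fin 1168 6 912)
(mv 849 (cons (fin 785 5 784)
(fin 1041 5 848)))))
(mv 912 (cons (cons (mv 847 (cons (fin 911 7 847)
(mv 848 (cons (fin 783 7 783)
(mv 849 (cons (fin 785 6 784)
(fin 913 6 848)))))))
(cons (mv 847 (cons (fin 911 7 847)
(mv 848 (cons (fin 783 7 783)
(mv 784 (cons (fin 1041 4 784)
(mv 720 (cons (fin 913 4 720)
(mv 721 (cons (fin 657 6 656)
(fin 785 6 720)))))))))))
(mv 847 (cons (fin 911 7 847)
(mv 848 (cons (fin 783 7 783)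
(mv 784 (cons (fin 1041 4 784)
(mv 785 (cons (fin 721 6 720)
(fin 849 6 784)))))))))))
(cons (mv 849 (cons (fin 913 6 848)
(mv 848 (cons (fin 785 6 784)
(mv 783 (cons (fin 847 7 783)
(mv 784 (cons (fin 719 7 719)
(fin 1041 4 784)))))))))
(cons (mv 849 (cons (fin 913 6 848)
(mv 848 (cons (fin 785 6 784)
(mv 1041 (cons (fin 784 4 784)
(mv 1103 (cons (fin 1167 5 911)
(mv 1042 (cons (fin 1043 1 1039)
(mv 975 (cons (fin 974 0 974)
(mv 1101 (cons (fin 1102 2 1037)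
(mv 978 (cons (mv 979 (cons (fin 911 3 911)
(fin 980 1 976)))
(cons (mv 914 (cons (fin 915 2 911)
(mv 850 (cons (fin 786 5 785)
(mv 851 (cons (fin 911 1 847)
(fin 787 6 786)))))))
(mv 915 (cons (fin 914 2 911)
(mv 979 (cons (fin 980 1 976)
(fin 916 2 912))))))))))))))))))))))
(mv 911 (cons (fin 847 7 847)
(mv 913 (cons (fin 849 6 848)
(mv 978 (cons (fin 979 3 911)
(mv 1103 (cons (fin 1167 5 911)
(mv 975 (cons (mv 914 (cons (fin 974 1 910)
(fin 915 1 911)))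
(cons (mv 974 (cons (fin 973 2 909)
(mv 1042 (cons (fin 1041 0 974)
(fin 1043 0 975)))))
(mv 914 (cons (fin 915 1 911)
(mv 850 (cons (fin 851 2 847)
(mv 786 (cons (fin 722 5 721)
(fin 1041 5 785)))))))))))))))))))))))
(cons (mv 1168 (cons (cons (mv 911 (cons (fin 975 7 911)
(mv 847 (cons (fin 912 7 847)
(mv 1167 (cons (fin 1231 5 975)
(mv 1232 (cons (fin 1041 6 976)
(mv 1233 (cons (fin 1169 4 976)
(fin 1297 4 1040)))))))))))
(cons (mv 911 (cons (fin 975 7 911)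
(mv 912 (cons (fin 847 7 847)
(mv 1167 (cons (fin 1103 5 911)
(fin 1231 5 975)))))))
(mv 911 (cons (fin 975 7 911)
(mv 847 (cons (fin 912 7 847)
(mv 1232 (cons (fin 1041 6 976)
(mv 1233 (cons (fin 1169 4 976)
(fin 1297 4 1040)))))))))))
(cons (mv 1041 (cons (fin 1232 6 976)
(mv 1167 (cons (fin 1231 5 975)
(mv 1103 (cons (fin 912 5 911)
(mv 1042 (cons (fin 1043 1 1039)
(mv 974 (cons (fin 975 0 974)
(mv 1101 (cons (fin 1102 2 1037)
(mv 1169 (cons (fin 1233 4 976)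
(mv 1170 (cons (fin 1171 3 1103)
(mv 1106 (cons (fin 1107 2 1103)
(fin 1234 7 977)))))))))))))))))))
(cons (mv 1041 (cons (fin 1232 6 976)
(mv 1167 (cons (fin 1231 5 975)
(mv 912 (cons (fin 1103 5 911)
(mv 847 (cons (fin 911 7 847)
(mv 848 (cons (fin 783 7 783)
(fin 784 4 784)))))))))))
(mv 911 (cons (fin 975 7 911)
(mv 1167 (cons (fin 1231 5 975)
(mv 1232 (cons (fin 1041 6 976)
(mv 1233 (cons (fin 1169 4 976)
(fin 1297 4 1040)))))))))))))
(mv 913 (cons (fin 1168 6 912)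
(mv 849 (cons (fin 785 5 784)
(fin 912 6 848))))))))
(cons (mv 913 (cons (cons (mv 849 (cons (fin 785 5 784)
(mv 1104 (cons (fin 1041 5 848)
(fin 912 6 848)))))
(mv 1104 (cons (fin 1168 6 912)
(mv 975 (cons (cons (mv 914 (cons (fin 974 2 910)
(mv 915 (cons (fin 912 1 911)
(fin 978 2 911)))))
(mv 978 (cons (cons (mv 910 (cons (fin 911 3 910)
(mv 914 (cons (fin 915 2 911)
(mv 1043 (cons (fin 1042 0 975)
(mv 979 (cons (fin 1044 0 976)
(mv 980 (cons (fin 912 3 912)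
(fin 981 3 913)))))))))))
(mv 914 (cons (fin 915 2 911)
(mv 1043 (cons (fin 1042 0 975)
(mv 979 (cons (fin 1044 0 976)
(mv 980 (cons (fin 912 3 912)
(fin 981 3 913))))))))))
(cons (mv 911 (cons (fin 910 3 910)
(mv 847 (cons (fin 912 7 847)
(fin 783 4 783)))))
(mv 910 (cons (fin 911 3 910)
(mv 914 (cons (fin 915 2 911)
(mv 1043 (cons (fin 1042 0 975)
(mv 979 (cons (fin 1044 0 976)
(mv 980 (cons (fin 981 3 913)
(fin 1041 1 976)))))))))))))))
(cons (mv 974 (cons (mv 973 (cons (fin 912 2 909)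
(fin 1041 0 973)))
(cons (mv 910 (cons (fin 909 3 909)
(mv 911 (cons (fin 978 3 910)
(mv 847 (cons (fin 912 7 847)
(fin 783 4 783)))))))
(mv 1041 (cons (fin 973 0 973)
(fin 1042 0 974))))))
(cons (mv 914 (cons (fin 974 2 910)
(mv 978 (cons (fin 915 2 911)
(mv 910 (cons (fin 911 3 910)
(mv 1043 (cons (fin 1042 0 975)
(mv 979 (cons (fin 1044 0 976)
(mv 980 (cons (fin 981 3 913)
(fin 1041 1 976)))))))))))))
(mv 914 (cons (fin 974 2 910)
(mv 912 (cons (fin 915 1 911)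
(mv 847 (cons (fin 911 7 847)
(mv 848 (cons (fin 783 7 783)
(mv 784 (cons (fin 720 4 720)
(fin 1041 4 784))))))))))))))))))
(cons (mv 785 (cons (fin 849 5 784)
(mv 975 (cons (cons (mv 914 (cons (fin 974 2 910)
(mv 915 (cons (fin 912 1 911)
(fin 978 2 911)))))
(mv 978 (cons (cons (mv 910 (cons (fin 911 3 910)
(mv 914 (cons (fin 915 2 911)
(mv 1043 (cons (fin 1042 0 975)
(mv 979 (cons (fin 1044 0 976)
(mv 980 (cons (fin 912 3 912)
(fin 981 3 913)))))))))))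
(cons (mv 914 (cons (fin 915 2 911)
(mv 1043 (cons (fin 1042 0 975)
(mv 979 (cons (fin 1044 0 976)
(mv 980 (cons (fin 912 3 912)
(fin 981 3 913)))))))))
(mv 911 (cons (fin 910 3 910)
(mv 783 (cons (fin 847 4 783)
(mv 912 (cons (fin 979 3 911)
(mv 914 (cons (fin 915 1 911)
(mv 850 (cons (fin 851 2 847)
(mv 786 (cons (fin 721 7 721)
(fin 722 5 721)))))))))))))))
(cons (mv 910 (cons (fin 911 3 910)
(mv 1043 (cons (fin 1042 0 975)
(mv 979 (cons (fin 1044 0 976)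
(mv 980 (cons (fin 912 3 912)
(fin 1041 1 976)))))))))
(cons (mv 910 (cons (fin 911 3 910)
(mv 914 (cons (fin 915 2 911)
(mv 1043 (cons (fin 1042 0 975)
(mv 979 (cons (fin 1044 0 976)
(mv 980 (cons (fin 981 3 913)
(fin 1041 1 976)))))))))))
(mv 911 (cons (fin 910 3 910)
(mv 847 (cons (fin 783 4 783)
(mv 914 (cons (fin 915 2 911)
(mv 912 (cons (fin 846 3 846)
(mv 850 (cons (fin 851 2 847)
(mv 786 (cons (fin 721 7 721)
(fin 722 5 721))))))))))))))))))
(cons (mv 974 (cons (mv 973 (cons (fin 912 2 909)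
(fin 1041 0 973)))
(mv 910 (cons (fin 909 3 909)
(mv 911 (cons (fin 978 3 910)
(mv 847 (cons (fin 783 4 783)
(mv 1038 (cons (fin 1037 1 973)
(fin 1102 6 846)))))))))))
(cons (mv 974 (cons (fin 914 2 910)
(mv 973 (cons (fin 912 2 909)
(fin 1041 0 973)))))
(mv 914 (cons (fin 974 2 910)
(mv 978 (cons (fin 915 2 911)
(mv 910 (cons (fin 911 3 910)
(mv 1043 (cons (fin 1042 0 975)
(mv 979 (cons (fin 1044 0 976)
(mv 980 (cons (fin 981 3 913)
(fin 1041 1 976)))))))))))))))))))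
(cons (mv 849 (cons (fin 785 5 784)
(mv 1104 (cons (fin 1041 5 848)
(fin 1168 6 912)))))
(mv 849 (cons (fin 785 5 784)
(mv 1104 (cons (fin 912 6 848)
(fin 1168 6 912)))))))))
(mv 913 (cons (cons (mv 849 (cons (fin 785 5 784)
(mv 1104 (cons (fin 1041 5 848)
(fin 912 6 848)))))
(mv 1104 (cons (fin 1168 6 912)
(mv 914 (cons (cons (mv 915 (cons (fin 916 1 912)
(mv 975 (cons (fin 912 1 911)
(fin 974 2 910)))))
(mv 915 (cons (fin 916 1 912)
(mv 912 (cons (mv 847 (cons (fin 848 3 847)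
(fin 911 7 847)))
(cons (mv 851 (cons (fin 852 2 848)
(mv 979 (cons (fin 980 0 912)
(mv 978 (cons (fin 911 3 911)
(mv 787 (cons (fin 723 5 722)
(fin 1042 5 786)))))))))
(mv 848 (cons (fin 847 3 847)
(mv 784 (cons (fin 720 4 720)
(fin 1041 4 784)))))))))))
(cons (mv 975 (cons (fin 974 2 910)
(mv 911 (cons (mv 847 (cons (fin 912 7 847)
(fin 783 4 783)))
(cons (mv 910 (cons (fin 978 3 910)
(mv 909 (cons (fin 908 0 908)
(fin 912 0 909)))))
(mv 783 (cons (fin 847 4 783)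
(mv 978 (cons (fin 910 3 910)
(mv 1043 (cons (fin 1042 0 975)
(mv 979 (cons (fin 1044 0 976)
(mv 980 (cons (fin 981 3 913)
(fin 1041 1 976))))))))))))))))
(mv 915 (cons (fin 916 1 912)
(mv 975 (cons (fin 974 2 910)
(fin 978 2 911)))))))))))
(cons (mv 849 (cons (fin 785 5 784)
(mv 1041 (cons (cons (mv 784 (cons (fin 848 7 784)
(mv 1042 (cons (fin 1106 4 849)
(mv 975 (cons (fin 1043 3 975)
(fin 974 0 974)))))))
(mv 848 (cons (fin 784 7 784)
(mv 914 (cons (cons (mv 846 (cons (fin 847 0 846)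
(mv 915 (cons (fin 916 3 848)
(mv 975 (cons (fin 912 1 911)
(fin 974 2 910)))))))
(mv 847 (cons (fin 846 0 846)
(mv 783 (cons (fin 912 7 783)
(mv 975 (cons (fin 974 2 910)
(fin 911 4 783))))))))
(cons (mv 847 (cons (fin 846 0 846)
(mv 912 (cons (fin 915 3 847)
(fin 783 7 783)))))
(cons (mv 915 (cons (fin 916 3 848)
(mv 975 (cons (fin 912 1 911)
(fin 974 2 910)))))
(mv 846 (cons (fin 847 0 846)
(mv 915 (cons (fin 916 3 848)
(mv 975 (cons (fin 974 2 910)
(fin 978 2 911))))))))))))))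
(cons (mv 1042 (cons (fin 1106 4 849)
(mv 975 (cons (fin 1043 3 975)
(fin 974 0 974)))))
(mv 848 (cons (fin 784 7 784)
(mv 1042 (cons (fin 1106 4 849)
(mv 1043 (cons (fin 1044 3 976)
(mv 979 (cons (fin 980 2 976)
(mv 1107 (cons (fin 1108 0 1040)
(mv 915 (cons (cons (mv 916 (cons (fin 914 3 848)
(fin 978 2 912)))
(mv 1171 (cons (mv 978 (cons (fin 914 7 914)
(fin 1235 7 978)))
(cons (mv 1234 (cons (fin 1170 5 978)
(mv 1235 (cons (fin 1298 5 1042)
(mv 1236 (cons (fin 1172 4 979)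
(fin 1300 4 1043)))))))
(mv 914 (cons (fin 978 7 914)
(mv 847 (cons (fin 912 3 847)
(fin 846 0 846)))))))))
(cons (mv 916 (cons (fin 978 2 912)
(fin 852 6 851)))
(mv 916 (cons (fin 914 3 848)
(fin 852 6 851)))))))))))))))))))))
(cons (mv 849 (cons (fin 785 5 784)
(mv 1104 (cons (fin 1041 5 848)
(fin 1168 6 912)))))
(mv 849 (cons (fin 785 5 784)
(mv 1104 (cons (fin 912 6 848)
(fin 1168 6 912)))))))))))))))
def l75 : Lem := ⟨11781361728633673533533443397406062833968813197368088696213098202092515054870126237445090575199368781731314332188895059436116029279163206249762429370674526186657931638943130497570144079131611440698089315210039093965026117276249703078140228958042332339181772754128421771855461400024448621079244630891963236233510912, 30864764555006054137402873587855291071555732369545560470322482789583832906738799877360033384455520559534304636921555141841840137932811244919129993029251796670456486212866089480245978932746690390990534923039599183796076065025841136307272094201391877954482427108200174212828939293631442417912575650821679053978371596411839157810791244495921797772784979506119582861181019123563647912638599397376,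 30864764555006054137402873587855291071555732369545560470322482789583832906738799877360033384455520559534304636921555141841840137932811244919129993029251796670456486212866089480245978932746690390990534923039599183796076065025841136307272094201391877954482427108200174212828939293631442417912575650821679053978371596411839157810791244495921797772784979506119582861181019123563647912638599397376, 19, 33⟩
theorem l75_valid : l75.Valid :=
  Lem.valid_of_chk t75 t75_valid [976, 1040] c75 l75 (by decide +kernel)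
end Crest.Agent.SnakyAux
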