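import Crest.Agent.S0047_aux.Checker
import Crest.Agent.S0047_aux.L72
import Crest.Agent.S0047_aux.L73
import Crest.Agent.S0047_aux.L74
import Crest.Agent.S0047_aux.L75
set_option autoImplicit false
set_option maxRecDepth 100000
namespace Crest.Agent.SnakyAux
open Cert
def t76 : Tbl := (Tbl.node (Tbl.node (Tbl.leaf l72) (Tbl.leaf l74)) (Tbl.node (Tbl.leaf l73) (Tbl.leaf l75)))
theorem t76_valid : t76.Valid := (Tbl.valid_node (Tbl.valid_node (Tbl.valid_leaf l72_valid) (Tbl.valid_leaf l74_valid)) (Tbl.valid_node (Tbl.valid_leaf l73_valid) (Tbl.valid_leaf l75_valid)))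
def c76 : Cert :=
(mv 976 (cons (cons (cons (cons (mv 1104 (cons (cons (mv 1168 (cons (cons (mv 911 (cons (fin 975 7 911)
(mv 847 (cons (fin 912 7 847)
(mv 913 (cons (fin 977 6 912)
(mv 1231 (cons (fin 1167 5 975)
(mv 1232 (cons (fin 1295 5 1039)
(mv 1233 (cons (fin 1169 4 976)
(fin 1297 4 1040)))))))))))))
(cons (mv 913 (cons (fin 977 6 912)
(mv 849 (cons (fin 912 6 848)
(mv 1231 (cons (fin 1167 5 975)
(mv 1232 (cons (fin 1295 5 1039)
(mv 1233 (cons (fin 1169 4 976)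
(fin 1297 4 1040)))))))))))
(mv 911 (cons (fin 975 7 911)
(mv 847 (cons (fin 912 7 847)
(mv 1231 (cons (fin 1167 5 975)
(mv 1232 (cons (fin 1295 5 1039)
(mv 1233 (cons (fin 1169 4 976)
(fin 1297 4 1040)))))))))))))
(cons (cons (mv 911 (cons (fin 975 7 911)
(mv 847 (cons (fin 912 7 847)
(mv 977 (cons (fin 913 6 912)
(mv 1232 (cons (fin 1041 6 976)
(mv 1233 (cons (fin 1169 4 976)
(fin 1297 4 1040)))))))))))
(mv 911 (cons (fin 975 7 911)
(mv 847 (cons (fin 912 7 847)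
(mv 977 (cons (fin 913 6 912)
(mv 1231 (cons (fin 1167 5 975)
(mv 1232 (cons (fin 1295 5 1039)
(fin 1041 6 976))))))))))))
(cons (mv 911 (cons (fin 975 7 911)
(mv 912 (cons (fin 847 7 847)
(mv 913 (cons (fin 849 6 848)
(fin 977 6 912)))))))
(mv 911 (cons (fin 975 7 911)
(mv 913 (cons (fin 977 6 912)
(mv 1231 (cons (fin 1167 5 975)
(mv 1232 (cons (fin 1295 5 1039)
(mv 1233 (cons (fin 1169 4 976)
(fin 1297 4 1040)))))))))))))))
(cons (mv 912 (cons (cons (mv 847 (cons (fin 911 7 847)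
(mv 848 (cons (fin 783 7 783)
(mv 849 (cons (fin 785 6 784)
(fin 913 6 848)))))))
(mv 847 (cons (fin 911 7 847)
(mv 848 (cons (fin 783 7 783)
(mv 1103 (cons (fin 1039 5 847)
(fin 1167 5 911))))))))
(cons (mv 849 (cons (fin 913 6 848)
(mv 848 (cons (fin 785 6 784)
(mv 1103 (cons (fin 1039 5 847)
(fin 1167 5 911)))))))
(mv 911 (cons (fin 847 7 847)
(mv 913 (cons (fin 849 6 848)
(mv 1103 (cons (fin 1167 5 911)
(mv 910 (cons (cons (mv 977 (cons (fin 909 0 909)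
(fin 978 0 910)))
(mv 845 (cons (fin 846 3 845)
(mv 844 (cons (fin 909 3 844)
(mv 974 (cons (fin 973 1 909)
(mv 914 (cons (fin 975 1 910)
(mv 851 (cons (fin 850 2 847)
(mv 915 (cons (fin 852 2 848)
(mv 979 (cons (fin 978 0 911)
(fin 980 0 912))))))))))))))))
(cons (mv 845 (cons (fin 846 3 845)
(mv 973 (cons (fin 974 1 909)
(mv 978 (cons (fin 977 0 910)
(mv 914 (cons (fin 979 0 911)
(mv 851 (cons (fin 850 2 847)
(mv 915 (cons (fin 975 1 911)
(fin 852 2 848)))))))))))))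
(mv 845 (cons (fin 846 3 845)
(mv 909 (cons (fin 844 3 844)
(fin 977 0 909)))))))))))))))))
(mv 1168 (cons (cons (mv 911 (cons (fin 975 7 911)
(mv 913 (cons (fin 977 6 912)
(mv 1231 (cons (fin 1167 5 975)
(mv 1232 (cons (fin 1295 5 1039)
(mv 1233 (cons (fin 1169 4 976)
(fin 1297 4 1040)))))))))))
(cons (mv 913 (cons (fin 977 6 912)
(mv 1231 (cons (fin 1167 5 975)
(mv 1232 (cons (fin 1295 5 1039)
(mv 1233 (cons (fin 1169 4 976)
(fin 1297 4 1040)))))))))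
(mv 911 (cons (fin 975 7 911)
(mv 1231 (cons (fin 1167 5 975)
(mv 1232 (cons (fin 1295 5 1039)
(mv 1233 (cons (fin 1169 4 976)
(fin 1297 4 1040)))))))))))
(cons (mv 911 (cons (fin 975 7 911)
(mv 977 (cons (fin 913 6 912)
(mv 1232 (cons (fin 1041 6 976)
(mv 1233 (cons (fin 1169 4 976)
(fin 1297 4 1040)))))))))
(cons (mv 911 (cons (fin 975 7 911)
(mv 977 (cons (fin 913 6 912)
(mv 1231 (cons (fin 1167 5 975)
(mv 1232 (cons (fin 1295 5 1039)
(fin 1041 6 976)))))))))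
(mv 911 (cons (fin 975 7 911)
(mv 977 (cons (fin 913 6 912)
(mv 1167 (cons (fin 1231 5 975)
(mv 1169 (cons (fin 1233 4 976)
(mv 1170 (cons (cons (mv 1103 (cons (fin 1171 3 1103)
(mv 1106 (cons (fin 1107 2 1103)
(mv 1234 (cons (fin 1235 0 1167)
(mv 1042 (cons (fin 1041 7 977)
(mv 979 (cons (fin 1043 6 978)
(mv 978 (cons (fin 1039 1 975)
(fin 915 6 914)))))))))))))
(mv 1106 (cons (fin 1107 2 1103)
(mv 1234 (cons (fin 1235 0 1167)
(mv 1042 (cons (fin 1041 7 977)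
(mv 979 (cons (fin 1043 6 978)
(mv 978 (cons (fin 1039 1 975)
(fin 915 6 914))))))))))))
(cons (mv 1171 (cons (fin 1103 3 1103)
(mv 1235 (cons (fin 1234 0 1167)
(fin 1236 0 1168)))))
(mv 1107 (cons (fin 1106 2 1103)
(mv 1171 (cons (fin 1103 3 1103)
(fin 1108 2 1104))))))))))))))))))))))
(cons (cons (mv 1168 (cons (cons (mv 913 (cons (fin 977 6 912)
(mv 849 (cons (fin 912 6 848)
(mv 1231 (cons (fin 1167 5 975)
(mv 1232 (cons (fin 1295 5 1039)
(mv 1233 (cons (fin 1169 4 976)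
(fin 1297 4 1040)))))))))))
(cons (mv 1167 (cons (fin 1231 5 975)
(mv 1103 (cons (fin 912 5 911)
(mv 1233 (cons (fin 1169 4 976)
(mv 1232 (cons (fin 1297 4 1040)
(mv 1039 (cons (fin 975 7 975)
(fin 1296 7 1039)))))))))))
(mv 913 (cons (fin 977 6 912)
(mv 849 (cons (fin 912 6 848)
(mv 1233 (cons (fin 1169 4 976)
(mv 1232 (cons (fin 1297 4 1040)
(mv 1039 (cons (fin 975 7 975)
(mv 1295 (cons (fin 1231 5 1039)
(mv 1296 (cons (fin 1103 7 1039)
(fin 1359 5 1103)))))))))))))))))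
(cons (mv 913 (cons (fin 977 6 912)
(mv 912 (cons (fin 849 6 848)
(mv 1103 (cons (fin 1167 5 911)
(mv 1039 (cons (fin 848 5 847)
(mv 1232 (cons (fin 975 7 975)
(fin 1296 7 1039)))))))))))
(cons (mv 913 (cons (fin 977 6 912)
(mv 912 (cons (fin 849 6 848)
(mv 1167 (cons (fin 1103 5 911)
(fin 1231 5 975)))))))
(mv 913 (cons (fin 977 6 912)
(mv 1231 (cons (fin 1167 5 975)
(mv 1232 (cons (fin 1295 5 1039)
(mv 1233 (cons (fin 1169 4 976)
(fin 1297 4 1040)))))))))))))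
(mv 1168 (cons (cons (mv 911 (cons (fin 975 7 911)
(mv 847 (cons (fin 912 7 847)
(mv 1231 (cons (fin 1167 5 975)
(mv 1232 (cons (fin 1295 5 1039)
(mv 1233 (cons (fin 1169 4 976)
(fin 1297 4 1040)))))))))))
(mv 1167 (cons (fin 1231 5 975)
(mv 1103 (cons (fin 912 5 911)
(mv 1233 (cons (fin 1169 4 976)
(mv 1232 (cons (fin 1297 4 1040)
(mv 1296 (cons (fin 1039 7 1039)
(fin 1360 7 1103))))))))))))
(cons (mv 975 (cons (fin 911 7 911)
(mv 1232 (cons (fin 1039 7 975)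
(mv 1233 (cons (fin 1169 4 976)
(fin 1297 4 1040)))))))
(mv 911 (cons (fin 975 7 911)
(mv 912 (cons (fin 847 7 847)
(mv 1167 (cons (fin 1103 5 911)
(fin 1231 5 975)))))))))))
(cons (mv 1168 (cons (cons (mv 911 (cons (fin 975 7 911)
(mv 847 (cons (fin 912 7 847)
(mv 977 (cons (fin 913 6 912)
(mv 1232 (cons (fin 1041 6 976)
(mv 1233 (cons (fin 1169 4 976)
(fin 1297 4 1040)))))))))))
(mv 977 (cons (fin 913 6 912)
(mv 1232 (cons (fin 1041 6 976)
(mv 1233 (cons (fin 1169 4 976)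
(fin 1297 4 1040))))))))
(cons (mv 975 (cons (fin 911 7 911)
(mv 1232 (cons (fin 1039 7 975)
(mv 1233 (cons (fin 1169 4 976)
(fin 1297 4 1040)))))))
(mv 911 (cons (fin 975 7 911)
(mv 912 (cons (fin 847 7 847)
(mv 913 (cons (fin 849 6 848)
(fin 977 6 912))))))))))
(mv 912 (cons (cons (mv 847 (cons (fin 911 7 847)
(mv 783 (cons (fin 848 7 783)
(mv 913 (cons (fin 849 6 848)
(mv 1103 (cons (fin 1167 5 911)
(mv 1168 (cons (fin 977 6 912)
(mv 1233 (cons (fin 1169 4 976)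
(mv 1232 (cons (fin 1297 4 1040)
(mv 1295 (cons (fin 1231 5 1039)
(mv 1296 (cons (fin 1039 7 1039)
(fin 1359 5 1103)))))))))))))))))))
(cons (mv 847 (cons (fin 911 7 847)
(mv 848 (cons (fin 783 7 783)
(mv 1103 (cons (fin 1039 5 847)
(fin 1167 5 911)))))))
(mv 847 (cons (fin 911 7 847)
(mv 783 (cons (fin 848 7 783)
(mv 913 (cons (fin 849 6 848)
(mv 1168 (cons (fin 977 6 912)
(mv 1231 (cons (fin 1167 5 975)
(mv 1232 (cons (fin 1295 5 1039)
(mv 1233 (cons (fin 1169 4 976)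
(fin 1297 4 1040)))))))))))))))))
(cons (mv 847 (cons (fin 911 7 847)
(mv 848 (cons (fin 783 7 783)
(mv 849 (cons (fin 785 6 784)
(fin 913 6 848)))))))
(cons (mv 849 (cons (fin 913 6 848)
(mv 848 (cons (fin 785 6 784)
(mv 1103 (cons (fin 1039 5 847)
(fin 1167 5 911)))))))
(mv 847 (cons (fin 911 7 847)
(mv 913 (cons (fin 849 6 848)
(mv 1103 (cons (fin 1167 5 911)
(mv 1168 (cons (fin 977 6 912)
(mv 1233 (cons (fin 1169 4 976)
(mv 1232 (cons (fin 1297 4 1040)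
(mv 1295 (cons (fin 1231 5 1039)
(mv 1296 (cons (fin 1039 7 1039)
(fin 1359 5 1103)))))))))))))))))))))))))
(mv 1104 (cons (cons (mv 1168 (cons (cons (mv 911 (cons (fin 975 7 911)
(mv 847 (cons (fin 912 7 847)
(mv 913 (cons (fin 977 6 912)
(mv 1231 (cons (fin 1167 5 975)
(mv 1232 (cons (fin 1295 5 1039)
(mv 1233 (cons (fin 1169 4 976)
(fin 1297 4 1040)))))))))))))
(cons (mv 913 (cons (fin 977 6 912)
(mv 849 (cons (fin 912 6 848)
(mv 1231 (cons (fin 1167 5 975)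
(mv 1232 (cons (fin 1295 5 1039)
(mv 1233 (cons (fin 1169 4 976)
(fin 1297 4 1040)))))))))))
(mv 911 (cons (fin 975 7 911)
(mv 847 (cons (fin 912 7 847)
(mv 1231 (cons (fin 1167 5 975)
(mv 1232 (cons (fin 1295 5 1039)
(mv 1233 (cons (fin 1169 4 976)
(fin 1297 4 1040)))))))))))))
(cons (cons (mv 911 (cons (fin 975 7 911)
(mv 847 (cons (fin 912 7 847)
(mv 977 (cons (fin 913 6 912)
(mv 1232 (cons (fin 1041 6 976)
(mv 1233 (cons (fin 1169 4 976)
(fin 1297 4 1040)))))))))))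
(mv 911 (cons (fin 975 7 911)
(mv 847 (cons (fin 912 7 847)
(mv 977 (cons (fin 913 6 912)
(mv 1231 (cons (fin 1167 5 975)
(mv 1232 (cons (fin 1295 5 1039)
(fin 1041 6 976))))))))))))
(cons (mv 911 (cons (fin 975 7 911)
(mv 912 (cons (fin 847 7 847)
(mv 913 (cons (fin 849 6 848)
(fin 977 6 912)))))))
(mv 911 (cons (fin 975 7 911)
(mv 913 (cons (fin 977 6 912)
(mv 1231 (cons (fin 1167 5 975)
(mv 1232 (cons (fin 1295 5 1039)
(mv 1233 (cons (fin 1169 4 976)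
(fin 1297 4 1040)))))))))))))))
(cons (mv 912 (cons (cons (mv 847 (cons (fin 911 7 847)
(mv 849 (cons (fin 913 6 848)
(mv 848 (cons (fin 785 6 784)
(mv 1103 (cons (fin 1039 5 847)
(fin 1167 5 911)))))))))
(mv 911 (cons (fin 847 7 847)
(mv 913 (cons (fin 849 6 848)
(mv 914 (cons (mv 975 (cons (fin 974 1 910)
(fin 915 1 911)))
(cons (mv 850 (cons (fin 851 2 847)
(mv 978 (cons (fin 979 0 911)
(mv 910 (cons (fin 977 0 910)
(mv 845 (cons (fin 846 3 845)
(mv 909 (cons (fin 844 3 844)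
(mv 973 (cons (fin 972 1 908)
(fin 974 1 909)))))))))))))
(mv 850 (cons (fin 851 2 847)
(mv 915 (cons (fin 975 1 911)
(mv 979 (cons (fin 978 0 911)
(fin 980 0 912)))))))))))))))
(cons (mv 911 (cons (fin 847 7 847)
(mv 1103 (cons (fin 1167 5 911)
(mv 848 (cons (fin 1039 5 847)
(mv 977 (cons (mv 784 (cons (fin 1041 4 784)
(mv 720 (cons (fin 975 5 719)
(fin 913 4 720)))))
(cons (mv 910 (cons (fin 909 0 909)
(mv 978 (cons (fin 975 3 910)
(fin 979 3 911)))))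
(mv 784 (cons (fin 1041 4 784)
(mv 720 (cons (fin 913 4 720)
(mv 721 (cons (fin 657 6 656)
(fin 785 6 720))))))))))))))))
(cons (mv 911 (cons (fin 847 7 847)
(mv 1103 (cons (fin 1167 5 911)
(mv 848 (cons (fin 1039 5 847)
(mv 785 (cons (fin 849 6 784)
(mv 784 (cons (fin 721 6 720)
(mv 975 (cons (fin 720 5 719)
(mv 977 (cons (fin 1041 4 784)
(mv 910 (cons (fin 978 3 910)
(fin 909 0 909)))))))))))))))))
(mv 849 (cons (fin 913 6 848)
(mv 848 (cons (fin 785 6 784)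
(mv 1103 (cons (fin 1039 5 847)
(fin 1167 5 911)))))))))))
(mv 1168 (cons (cons (mv 911 (cons (fin 975 7 911)
(mv 913 (cons (fin 977 6 912)
(mv 1231 (cons (fin 1167 5 975)
(mv 1232 (cons (fin 1295 5 1039)
(mv 1233 (cons (fin 1169 4 976)
(fin 1297 4 1040)))))))))))
(cons (mv 913 (cons (fin 977 6 912)
(mv 1231 (cons (fin 1167 5 975)
(mv 1232 (cons (fin 1295 5 1039)
(mv 1233 (cons (fin 1169 4 976)
(fin 1297 4 1040)))))))))
(mv 911 (cons (fin 975 7 911)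
(mv 1231 (cons (fin 1167 5 975)
(mv 1232 (cons (fin 1295 5 1039)
(mv 1233 (cons (fin 1169 4 976)
(fin 1297 4 1040)))))))))))
(cons (mv 911 (cons (fin 975 7 911)
(mv 977 (cons (fin 913 6 912)
(mv 1232 (cons (fin 1041 6 976)
(mv 1233 (cons (fin 1169 4 976)
(fin 1297 4 1040)))))))))
(cons (mv 911 (cons (fin 975 7 911)
(mv 977 (cons (fin 913 6 912)
(mv 1231 (cons (fin 1167 5 975)
(mv 1232 (cons (fin 1295 5 1039)
(fin 1041 6 976)))))))))
(mv 911 (cons (fin 975 7 911)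
(mv 913 (cons (fin 977 6 912)
(mv 1167 (cons (fin 1231 5 975)
(mv 1169 (cons (fin 1233 4 976)
(mv 1166 (cons (cons (mv 1101 (cons (fin 1102 3 1101)
(mv 1165 (cons (fin 1100 3 1100)
(mv 1229 (cons (fin 1228 1 1164)
(fin 1230 1 1165)))))))
(mv 1229 (cons (fin 1230 1 1165)
(mv 1165 (cons (fin 1228 1 1164)
(mv 1100 (cons (fin 1101 3 1100)
(mv 1164 (cons (fin 1099 3 1099)
(fin 1103 2 1100))))))))))
(cons (mv 1229 (cons (fin 1230 1 1165)
(mv 1165 (cons (fin 1228 1 1164)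
(mv 1103 (cons (fin 1164 2 1100)
(mv 1170 (cons (fin 1102 3 1102)
(fin 1171 3 1103)))))))))
(mv 1102 (cons (fin 1101 3 1101)
(mv 1170 (cons (fin 1103 3 1102)
(mv 1107 (cons (fin 1106 2 1103)
(mv 1171 (cons (fin 1108 2 1104)
(mv 1235 (cons (fin 1234 0 1167)
(fin 1236 0 1168))))))))))))))))))))))))))))
(cons (cons (mv 1168 (cons (cons (mv 911 (cons (fin 975 7 911)
(mv 847 (cons (fin 912 7 847)
(mv 1231 (cons (fin 1167 5 975)
(mv 1232 (cons (fin 1295 5 1039)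
(mv 1233 (cons (fin 1169 4 976)
(fin 1297 4 1040)))))))))))
(mv 1167 (cons (fin 1231 5 975)
(mv 1103 (cons (fin 912 5 911)
(mv 1169 (cons (fin 1233 4 976)
(mv 1102 (cons (fin 1170 3 1102)
(fin 1101 0 1101))))))))))
(cons (mv 975 (cons (fin 911 7 911)
(mv 1232 (cons (fin 1039 7 975)
(mv 1233 (cons (fin 1169 4 976)
(fin 1297 4 1040)))))))
(mv 911 (cons (fin 975 7 911)
(mv 912 (cons (fin 847 7 847)
(mv 1167 (cons (fin 1103 5 911)
(fin 1231 5 975))))))))))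
(mv 1168 (cons (cons (mv 911 (cons (fin 975 7 911)
(mv 847 (cons (fin 912 7 847)
(mv 977 (cons (fin 913 6 912)
(mv 1232 (cons (fin 1041 6 976)
(mv 1233 (cons (fin 1169 4 976)
(fin 1297 4 1040)))))))))))
(mv 977 (cons (fin 913 6 912)
(mv 1232 (cons (fin 1041 6 976)
(mv 1233 (cons (fin 1169 4 976)
(fin 1297 4 1040))))))))
(cons (mv 975 (cons (fin 911 7 911)
(mv 1232 (cons (fin 1039 7 975)
(mv 1233 (cons (fin 1169 4 976)
(fin 1297 4 1040)))))))
(mv 911 (cons (fin 975 7 911)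
(mv 912 (cons (fin 847 7 847)
(mv 913 (cons (fin 849 6 848)
(fin 977 6 912)))))))))))
(cons (mv 1168 (cons (cons (mv 913 (cons (fin 977 6 912)
(mv 849 (cons (fin 912 6 848)
(mv 1231 (cons (fin 1167 5 975)
(mv 1232 (cons (fin 1295 5 1039)
(mv 1233 (cons (fin 1169 4 976)
(fin 1297 4 1040)))))))))))
(mv 1167 (cons (fin 1231 5 975)
(mv 1103 (cons (fin 912 5 911)
(mv 1169 (cons (fin 1233 4 976)
(mv 1102 (cons (fin 1170 3 1102)
(fin 1101 0 1101))))))))))
(cons (mv 913 (cons (fin 977 6 912)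
(mv 849 (cons (fin 912 6 848)
(mv 1233 (cons (fin 1169 4 976)
(mv 1232 (cons (fin 1297 4 1040)
(mv 1039 (cons (fin 975 7 975)
(mv 1295 (cons (fin 1231 5 1039)
(mv 1296 (cons (fin 1103 7 1039)
(fin 1359 5 1103)))))))))))))))
(cons (mv 913 (cons (fin 977 6 912)
(mv 912 (cons (fin 849 6 848)
(mv 1103 (cons (fin 1167 5 911)
(mv 1039 (cons (fin 848 5 847)
(mv 1232 (cons (fin 975 7 975)
(fin 1296 7 1039)))))))))))
(mv 913 (cons (fin 977 6 912)
(mv 1231 (cons (fin 1167 5 975)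
(mv 1232 (cons (fin 1295 5 1039)
(mv 1233 (cons (fin 1169 4 976)
(fin 1297 4 1040)))))))))))))
(mv 1168 (cons (cons (mv 913 (cons (fin 977 6 912)
(mv 849 (cons (fin 912 6 848)
(mv 1231 (cons (fin 1167 5 975)
(mv 1232 (cons (fin 1295 5 1039)
(mv 1233 (cons (fin 1169 4 976)
(fin 1297 4 1040)))))))))))
(mv 1167 (cons (fin 1231 5 975)
(mv 1103 (cons (fin 912 5 911)
(mv 1169 (cons (fin 1233 4 976)
(mv 1102 (cons (fin 1170 3 1102)
(fin 1101 0 1101))))))))))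
(cons (mv 977 (cons (fin 913 6 912)
(mv 1232 (cons (fin 1041 6 976)
(mv 1233 (cons (fin 1169 4 976)
(fin 1297 4 1040)))))))
(mv 913 (cons (fin 977 6 912)
(mv 912 (cons (fin 849 6 848)
(mv 1167 (cons (fin 1103 5 911)
(fin 1231 5 975)))))))))))))))
(cons (mv 1104 (cons (cons (mv 1168 (cons (cons (mv 911 (cons (fin 975 7 911)
(mv 847 (cons (fin 912 7 847)
(mv 913 (cons (fin 977 6 912)
(mv 1231 (cons (fin 1167 5 975)
(mv 1232 (cons (fin 1295 5 1039)
(mv 1233 (cons (fin 1169 4 976)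
(fin 1297 4 1040)))))))))))))
(cons (mv 913 (cons (fin 977 6 912)
(mv 849 (cons (fin 912 6 848)
(mv 1231 (cons (fin 1167 5 975)
(mv 1232 (cons (fin 1295 5 1039)
(mv 1233 (cons (fin 1169 4 976)
(fin 1297 4 1040)))))))))))
(mv 911 (cons (fin 975 7 911)
(mv 847 (cons (fin 912 7 847)
(mv 977 (cons (fin 913 6 912)
(mv 1232 (cons (fin 1041 6 976)
(mv 1233 (cons (fin 1169 4 976)
(fin 1297 4 1040)))))))))))))
(cons (cons (mv 911 (cons (fin 975 7 911)
(mv 847 (cons (fin 912 7 847)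
(mv 1231 (cons (fin 1167 5 975)
(mv 1232 (cons (fin 1295 5 1039)
(mv 1233 (cons (fin 1169 4 976)
(fin 1297 4 1040)))))))))))
(mv 911 (cons (fin 975 7 911)
(mv 847 (cons (fin 912 7 847)
(mv 977 (cons (fin 913 6 912)
(mv 1231 (cons (fin 1167 5 975)
(mv 1232 (cons (fin 1295 5 1039)
(fin 1041 6 976))))))))))))
(cons (mv 911 (cons (fin 975 7 911)
(mv 912 (cons (fin 847 7 847)
(mv 913 (cons (fin 849 6 848)
(fin 977 6 912)))))))
(mv 911 (cons (fin 975 7 911)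
(mv 913 (cons (fin 977 6 912)
(mv 1231 (cons (fin 1167 5 975)
(mv 1232 (cons (fin 1295 5 1039)
(mv 1233 (cons (fin 1169 4 976)
(fin 1297 4 1040)))))))))))))))
(cons (mv 912 (cons (cons (mv 847 (cons (fin 911 7 847)
(mv 848 (cons (fin 783 7 783)
(mv 1103 (cons (fin 1039 5 847)
(fin 1167 5 911)))))))
(mv 911 (cons (fin 847 7 847)
(mv 913 (cons (fin 849 6 848)
(mv 910 (cons (cons (mv 977 (cons (fin 909 0 909)
(fin 978 0 910)))
(mv 845 (cons (fin 846 3 845)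
(mv 844 (cons (fin 909 3 844)
(mv 974 (cons (fin 973 1 909)
(mv 914 (cons (fin 975 1 910)
(mv 851 (cons (fin 850 2 847)
(mv 915 (cons (fin 852 2 848)
(mv 979 (cons (fin 978 0 911)
(fin 980 0 912))))))))))))))))
(cons (mv 845 (cons (fin 846 3 845)
(mv 973 (cons (fin 974 1 909)
(mv 978 (cons (fin 977 0 910)
(mv 914 (cons (fin 979 0 911)
(mv 851 (cons (fin 850 2 847)
(mv 915 (cons (fin 975 1 911)
(fin 852 2 848)))))))))))))
(mv 845 (cons (fin 846 3 845)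
(mv 909 (cons (fin 844 3 844)
(fin 977 0 909)))))))))))))
(cons (mv 1103 (cons (fin 1167 5 911)
(mv 977 (cons (cons (mv 848 (cons (fin 1039 5 847)
(mv 784 (cons (fin 1041 4 784)
(mv 913 (cons (fin 849 6 848)
(fin 720 4 720)))))))
(mv 913 (cons (fin 849 6 848)
(mv 975 (cons (mv 914 (cons (fin 915 1 911)
(fin 974 2 910)))
(cons (mv 914 (cons (fin 915 1 911)
(mv 978 (cons (mv 911 (cons (fin 910 3 910)
(fin 979 3 911)))
(cons (mv 979 (cons (fin 980 3 912)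
(mv 1043 (cons (fin 1042 0 975)
(fin 1044 0 976)))))
(mv 911 (cons (fin 910 3 910)
(mv 850 (cons (fin 851 2 847)
(mv 786 (cons (fin 722 5 721)
(fin 1041 5 785))))))))))))
(mv 974 (cons (fin 973 2 909)
(mv 909 (cons (fin 910 3 909)
(mv 1037 (cons (fin 1038 1 973)
(mv 1042 (cons (fin 1041 0 974)
(mv 978 (cons (fin 1043 0 975)
(mv 979 (cons (fin 911 3 911)
(fin 980 3 912)))))))))))))))))))
(cons (mv 848 (cons (fin 1039 5 847)
(mv 1041 (cons (fin 784 4 784)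
(mv 1042 (cons (fin 1043 1 1039)
(mv 975 (cons (fin 974 0 974)
(mv 1101 (cons (fin 1102 2 1037)
(mv 978 (cons (mv 911 (cons (fin 910 3 910)
(fin 979 3 911)))
(cons (mv 911 (cons (fin 910 3 910)
(mv 914 (cons (fin 915 2 911)
(mv 850 (cons (fin 786 5 785)
(mv 851 (cons (fin 849 1 847)
(fin 787 6 786)))))))))
(mv 915 (cons (fin 914 2 911)
(mv 979 (cons (fin 980 1 976)
(fin 916 2 912))))))))))))))))))
(cons (mv 848 (cons (fin 1039 5 847)
(mv 784 (cons (fin 1041 4 784)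
(mv 719 (cons (fin 783 7 719)
(mv 720 (cons (fin 655 7 655)
(fin 913 4 720)))))))))
(mv 849 (cons (fin 913 6 848)
(mv 1039 (cons (fin 848 5 847)
(mv 978 (cons (fin 979 1 975)
(mv 1038 (cons (fin 975 1 974)
(fin 1037 2 973)))))))))))))))
(mv 913 (cons (fin 849 6 848)
(mv 1103 (cons (fin 1167 5 911)
(mv 848 (cons (fin 1039 5 847)
(mv 783 (cons (fin 847 7 783)
(mv 784 (cons (fin 719 7 719)
(mv 977 (cons (fin 720 4 720)
(fin 1041 4 784))))))))))))))))
(mv 1168 (cons (cons (mv 911 (cons (fin 975 7 911)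
(mv 913 (cons (fin 977 6 912)
(mv 1231 (cons (fin 1167 5 975)
(mv 1232 (cons (fin 1295 5 1039)
(mv 1233 (cons (fin 1169 4 976)
(fin 1297 4 1040)))))))))))
(cons (mv 913 (cons (fin 977 6 912)
(mv 1231 (cons (fin 1167 5 975)
(mv 1232 (cons (fin 1295 5 1039)
(mv 1233 (cons (fin 1169 4 976)
(fin 1297 4 1040)))))))))
(mv 911 (cons (fin 975 7 911)
(mv 1231 (cons (fin 1167 5 975)
(mv 1232 (cons (fin 1295 5 1039)
(mv 1233 (cons (fin 1169 4 976)
(fin 1297 4 1040)))))))))))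
(cons (mv 911 (cons (fin 975 7 911)
(mv 977 (cons (fin 913 6 912)
(mv 1232 (cons (fin 1041 6 976)
(mv 1233 (cons (fin 1169 4 976)
(fin 1297 4 1040)))))))))
(cons (mv 911 (cons (fin 975 7 911)
(mv 977 (cons (fin 913 6 912)
(mv 1231 (cons (fin 1167 5 975)
(mv 1232 (cons (fin 1295 5 1039)
(fin 1041 6 976)))))))))
(mv 911 (cons (fin 975 7 911)
(mv 913 (cons (fin 977 6 912)
(mv 1167 (cons (fin 1231 5 975)
(mv 1169 (cons (fin 1233 4 976)
(mv 1166 (cons (cons (mv 1101 (cons (fin 1102 3 1101)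
(mv 1165 (cons (fin 1100 3 1100)
(mv 1229 (cons (fin 1228 1 1164)
(fin 1230 1 1165)))))))
(mv 1229 (cons (fin 1230 1 1165)
(mv 1165 (cons (fin 1228 1 1164)
(mv 1100 (cons (fin 1101 3 1100)
(mv 1164 (cons (fin 1099 3 1099)
(fin 1103 2 1100))))))))))
(cons (mv 1229 (cons (fin 1230 1 1165)
(mv 1165 (cons (fin 1228 1 1164)
(mv 1103 (cons (fin 1164 2 1100)
(mv 1170 (cons (fin 1102 3 1102)
(fin 1171 3 1103)))))))))
(mv 1102 (cons (fin 1101 3 1101)
(mv 1170 (cons (fin 1103 3 1102)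
(mv 1107 (cons (fin 1106 2 1103)
(mv 1171 (cons (fin 1108 2 1104)
(mv 1235 (cons (fin 1234 0 1167)
(fin 1236 0 1168))))))))))))))))))))))))))))
(cons (cons (mv 1168 (cons (cons (mv 913 (cons (fin 977 6 912)
(mv 849 (cons (fin 912 6 848)
(mv 1231 (cons (fin 1167 5 975)
(mv 1232 (cons (fin 1295 5 1039)
(mv 1233 (cons (fin 1169 4 976)
(fin 1297 4 1040)))))))))))
(mv 913 (cons (fin 977 6 912)
(mv 849 (cons (fin 912 6 848)
(mv 1233 (cons (fin 1169 4 976)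
(mv 1232 (cons (fin 1297 4 1040)
(mv 1039 (cons (fin 975 7 975)
(mv 1295 (cons (fin 1231 5 1039)
(mv 1296 (cons (fin 1103 7 1039)
(fin 1359 5 1103))))))))))))))))
(cons (mv 1167 (cons (fin 1231 5 975)
(mv 1103 (cons (fin 912 5 911)
(mv 1169 (cons (fin 1233 4 976)
(mv 1102 (cons (fin 1170 3 1102)
(fin 1101 0 1101)))))))))
(cons (mv 913 (cons (fin 977 6 912)
(mv 912 (cons (fin 849 6 848)
(mv 1103 (cons (fin 1167 5 911)
(mv 1039 (cons (fin 848 5 847)
(mv 1232 (cons (fin 975 7 975)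
(fin 1296 7 1039)))))))))))
(mv 913 (cons (fin 977 6 912)
(mv 1231 (cons (fin 1167 5 975)
(mv 1232 (cons (fin 1295 5 1039)
(mv 1233 (cons (fin 1169 4 976)
(fin 1297 4 1040)))))))))))))
(mv 1168 (cons (cons (mv 911 (cons (fin 975 7 911)
(mv 847 (cons (fin 912 7 847)
(mv 977 (cons (fin 913 6 912)
(mv 1232 (cons (fin 1041 6 976)
(mv 1233 (cons (fin 1169 4 976)
(fin 1297 4 1040)))))))))))
(mv 977 (cons (fin 913 6 912)
(mv 1232 (cons (fin 1041 6 976)
(mv 1233 (cons (fin 1169 4 976)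
(fin 1297 4 1040))))))))
(cons (mv 975 (cons (fin 911 7 911)
(mv 1232 (cons (fin 1039 7 975)
(mv 1233 (cons (fin 1169 4 976)
(fin 1297 4 1040)))))))
(mv 911 (cons (fin 975 7 911)
(mv 912 (cons (fin 847 7 847)
(mv 913 (cons (fin 849 6 848)
(fin 977 6 912)))))))))))
(cons (mv 1168 (cons (cons (mv 911 (cons (fin 975 7 911)
(mv 847 (cons (fin 912 7 847)
(mv 1231 (cons (fin 1167 5 975)
(mv 1232 (cons (fin 1295 5 1039)
(mv 1233 (cons (fin 1169 4 976)
(fin 1297 4 1040)))))))))))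
(mv 1167 (cons (fin 1231 5 975)
(mv 1103 (cons (fin 912 5 911)
(mv 1169 (cons (fin 1233 4 976)
(mv 1102 (cons (fin 1170 3 1102)
(fin 1101 0 1101))))))))))
(cons (mv 975 (cons (fin 911 7 911)
(mv 1232 (cons (fin 1039 7 975)
(mv 1233 (cons (fin 1169 4 976)
(fin 1297 4 1040)))))))
(mv 911 (cons (fin 975 7 911)
(mv 912 (cons (fin 847 7 847)
(mv 1167 (cons (fin 1103 5 911)
(fin 1231 5 975))))))))))
(mv 1168 (cons (cons (mv 913 (cons (fin 977 6 912)
(mv 849 (cons (fin 912 6 848)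
(mv 1231 (cons (fin 1167 5 975)
(mv 1232 (cons (fin 1295 5 1039)
(mv 1233 (cons (fin 1169 4 976)
(fin 1297 4 1040)))))))))))
(mv 977 (cons (fin 913 6 912)
(mv 1232 (cons (fin 1041 6 976)
(mv 1233 (cons (fin 1169 4 976)
(fin 1297 4 1040))))))))
(cons (mv 1167 (cons (fin 1231 5 975)
(mv 1103 (cons (fin 912 5 911)
(mv 1169 (cons (fin 1233 4 976)
(mv 1102 (cons (fin 1170 3 1102)
(fin 1101 0 1101)))))))))
(mv 913 (cons (fin 977 6 912)
(mv 912 (cons (fin 849 6 848)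
(mv 1167 (cons (fin 1103 5 911)
(fin 1231 5 975))))))))))))))
(cons (mv 1104 (cons (cons (mv 1168 (cons (cons (mv 911 (cons (fin 975 7 911)
(mv 847 (cons (fin 912 7 847)
(mv 913 (cons (fin 977 6 912)
(mv 1231 (cons (fin 1167 5 975)
(mv 1232 (cons (fin 1295 5 1039)
(mv 1233 (cons (fin 1169 4 976)
(fin 1297 4 1040)))))))))))))
(cons (mv 911 (cons (fin 975 7 911)
(mv 847 (cons (fin 912 7 847)
(mv 1231 (cons (fin 1167 5 975)
(mv 1232 (cons (fin 1295 5 1039)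
(mv 1233 (cons (fin 1169 4 976)
(fin 1297 4 1040)))))))))))
(mv 913 (cons (fin 977 6 912)
(mv 849 (cons (fin 912 6 848)
(mv 1231 (cons (fin 1167 5 975)
(mv 1232 (cons (fin 1295 5 1039)
(mv 1233 (cons (fin 1169 4 976)
(fin 1297 4 1040)))))))))))))
(cons (cons (mv 911 (cons (fin 975 7 911)
(mv 847 (cons (fin 912 7 847)
(mv 977 (cons (fin 913 6 912)
(mv 1232 (cons (fin 1041 6 976)
(mv 1233 (cons (fin 1169 4 976)
(fin 1297 4 1040)))))))))))
(mv 911 (cons (fin 975 7 911)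
(mv 847 (cons (fin 912 7 847)
(mv 977 (cons (fin 913 6 912)
(mv 1231 (cons (fin 1167 5 975)
(mv 1232 (cons (fin 1295 5 1039)
(fin 1041 6 976))))))))))))
(cons (mv 911 (cons (fin 975 7 911)
(mv 912 (cons (fin 847 7 847)
(mv 913 (cons (fin 849 6 848)
(fin 977 6 912)))))))
(mv 911 (cons (fin 975 7 911)
(mv 913 (cons (fin 977 6 912)
(mv 1231 (cons (fin 1167 5 975)
(mv 1232 (cons (fin 1295 5 1039)
(mv 1233 (cons (fin 1169 4 976)
(fin 1297 4 1040)))))))))))))))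
(cons (mv 912 (cons (cons (mv 847 (cons (fin 911 7 847)
(mv 848 (cons (fin 783 7 783)
(mv 849 (cons (fin 785 6 784)
(fin 913 6 848)))))))
(mv 849 (cons (fin 913 6 848)
(mv 848 (cons (fin 785 6 784)
(mv 1103 (cons (fin 1039 5 847)
(fin 1167 5 911))))))))
(cons (mv 847 (cons (fin 911 7 847)
(mv 848 (cons (fin 783 7 783)
(mv 1103 (cons (fin 1039 5 847)
(fin 1167 5 911)))))))
(mv 911 (cons (fin 847 7 847)
(mv 913 (cons (fin 849 6 848)
(mv 1103 (cons (fin 1167 5 911)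
(mv 914 (cons (mv 975 (cons (fin 974 1 910)
(fin 915 1 911)))
(mv 850 (cons (fin 851 2 847)
(mv 978 (cons (fin 979 0 911)
(mv 977 (cons (fin 910 0 910)
(mv 786 (cons (fin 722 5 721)
(fin 1041 5 785))))))))))))))))))))
(mv 1168 (cons (cons (mv 911 (cons (fin 975 7 911)
(mv 913 (cons (fin 977 6 912)
(mv 1231 (cons (fin 1167 5 975)
(mv 1232 (cons (fin 1295 5 1039)
(mv 1233 (cons (fin 1169 4 976)
(fin 1297 4 1040)))))))))))
(cons (mv 911 (cons (fin 975 7 911)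
(mv 1231 (cons (fin 1167 5 975)
(mv 1232 (cons (fin 1295 5 1039)
(mv 1233 (cons (fin 1169 4 976)
(fin 1297 4 1040)))))))))
(mv 913 (cons (fin 977 6 912)
(mv 1231 (cons (fin 1167 5 975)
(mv 1232 (cons (fin 1295 5 1039)
(mv 1233 (cons (fin 1169 4 976)
(fin 1297 4 1040)))))))))))
(cons (mv 911 (cons (fin 975 7 911)
(mv 977 (cons (fin 913 6 912)
(mv 1232 (cons (fin 1041 6 976)
(mv 1233 (cons (fin 1169 4 976)
(fin 1297 4 1040)))))))))
(cons (mv 911 (cons (fin 975 7 911)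
(mv 977 (cons (fin 913 6 912)
(mv 1231 (cons (fin 1167 5 975)
(mv 1232 (cons (fin 1295 5 1039)
(fin 1041 6 976)))))))))
(mv 911 (cons (fin 975 7 911)
(mv 913 (cons (fin 977 6 912)
(mv 1167 (cons (fin 1231 5 975)
(mv 1169 (cons (fin 1233 4 976)
(mv 1166 (cons (cons (mv 1101 (cons (fin 1102 3 1101)
(mv 1165 (cons (fin 1100 3 1100)
(mv 1229 (cons (fin 1228 1 1164)
(fin 1230 1 1165)))))))
(mv 1229 (cons (fin 1230 1 1165)
(mv 1165 (cons (fin 1228 1 1164)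
(mv 1100 (cons (fin 1101 3 1100)
(mv 1164 (cons (fin 1099 3 1099)
(fin 1103 2 1100))))))))))
(cons (mv 1229 (cons (fin 1230 1 1165)
(mv 1165 (cons (fin 1228 1 1164)
(mv 1103 (cons (fin 1164 2 1100)
(mv 1170 (cons (fin 1102 3 1102)
(fin 1171 3 1103)))))))))
(mv 1102 (cons (fin 1101 3 1101)
(mv 1170 (cons (fin 1103 3 1102)
(mv 1107 (cons (fin 1106 2 1103)
(mv 1171 (cons (fin 1108 2 1104)
(mv 1235 (cons (fin 1234 0 1167)
(fin 1236 0 1168))))))))))))))))))))))))))))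
(cons (cons (mv 1168 (cons (cons (mv 913 (cons (fin 977 6 912)
(mv 849 (cons (fin 912 6 848)
(mv 1231 (cons (fin 1167 5 975)
(mv 1232 (cons (fin 1295 5 1039)
(mv 1233 (cons (fin 1169 4 976)
(fin 1297 4 1040)))))))))))
(mv 1167 (cons (fin 1231 5 975)
(mv 1103 (cons (fin 912 5 911)
(mv 1169 (cons (fin 1233 4 976)
(mv 1102 (cons (fin 1170 3 1102)
(fin 1101 0 1101))))))))))
(cons (mv 913 (cons (fin 977 6 912)
(mv 849 (cons (fin 912 6 848)
(mv 1233 (cons (fin 1169 4 976)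
(mv 1232 (cons (fin 1297 4 1040)
(mv 1039 (cons (fin 975 7 975)
(mv 1295 (cons (fin 1231 5 1039)
(mv 1296 (cons (fin 1103 7 1039)
(fin 1359 5 1103)))))))))))))))
(cons (mv 913 (cons (fin 977 6 912)
(mv 912 (cons (fin 849 6 848)
(mv 1103 (cons (fin 1167 5 911)
(mv 1039 (cons (fin 848 5 847)
(mv 1232 (cons (fin 975 7 975)
(fin 1296 7 1039)))))))))))
(mv 913 (cons (fin 977 6 912)
(mv 1231 (cons (fin 1167 5 975)
(mv 1232 (cons (fin 1295 5 1039)
(mv 1233 (cons (fin 1169 4 976)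
(fin 1297 4 1040)))))))))))))
(mv 1168 (cons (cons (mv 911 (cons (fin 975 7 911)
(mv 847 (cons (fin 912 7 847)
(mv 1231 (cons (fin 1167 5 975)
(mv 1232 (cons (fin 1295 5 1039)
(mv 1233 (cons (fin 1169 4 976)
(fin 1297 4 1040)))))))))))
(mv 1167 (cons (fin 1231 5 975)
(mv 1103 (cons (fin 912 5 911)
(mv 1169 (cons (fin 1233 4 976)
(mv 1102 (cons (fin 1170 3 1102)
(fin 1101 0 1101))))))))))
(cons (mv 975 (cons (fin 911 7 911)
(mv 1232 (cons (fin 1039 7 975)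
(mv 1233 (cons (fin 1169 4 976)
(fin 1297 4 1040)))))))
(mv 911 (cons (fin 975 7 911)
(mv 912 (cons (fin 847 7 847)
(mv 1167 (cons (fin 1103 5 911)
(fin 1231 5 975)))))))))))
(cons (mv 1168 (cons (cons (mv 911 (cons (fin 975 7 911)
(mv 847 (cons (fin 912 7 847)
(mv 977 (cons (fin 913 6 912)
(mv 1232 (cons (fin 1041 6 976)
(mv 1233 (cons (fin 1169 4 976)
(fin 1297 4 1040)))))))))))
(mv 975 (cons (fin 911 7 911)
(mv 1232 (cons (fin 1039 7 975)
(mv 1233 (cons (fin 1169 4 976)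
(fin 1297 4 1040))))))))
(cons (mv 977 (cons (fin 913 6 912)
(mv 1232 (cons (fin 1041 6 976)
(mv 1233 (cons (fin 1169 4 976)
(fin 1297 4 1040)))))))
(mv 911 (cons (fin 975 7 911)
(mv 912 (cons (fin 847 7 847)
(mv 913 (cons (fin 849 6 848)
(fin 977 6 912))))))))))
(mv 1168 (cons (cons (mv 913 (cons (fin 977 6 912)
(mv 849 (cons (fin 912 6 848)
(mv 1231 (cons (fin 1167 5 975)
(mv 1232 (cons (fin 1295 5 1039)
(mv 1233 (cons (fin 1169 4 976)
(fin 1297 4 1040)))))))))))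
(mv 1167 (cons (fin 1231 5 975)
(mv 912 (cons (fin 1103 5 911)
(mv 847 (cons (fin 911 7 847)
(mv 848 (cons (fin 783 7 783)
(mv 849 (cons (fin 785 6 784)
(fin 913 6 848))))))))))))
(cons (mv 977 (cons (fin 913 6 912)
(mv 1232 (cons (fin 1041 6 976)
(mv 1233 (cons (fin 1169 4 976)
(fin 1297 4 1040)))))))
(mv 1167 (cons (fin 1231 5 975)
(mv 1103 (cons (fin 912 5 911)
(mv 1169 (cons (fin 1233 4 976)
(mv 1102 (cons (fin 1170 3 1102)
(fin 1101 0 1101))))))))))))))))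
(mv 1104 (cons (cons (cons (mv 1168 (cons (cons (mv 911 (cons (fin 975 7 911)
(mv 913 (cons (fin 977 6 912)
(mv 849 (cons (fin 912 6 848)
(mv 1231 (cons (fin 1167 5 975)
(mv 1232 (cons (fin 1295 5 1039)
(mv 1233 (cons (fin 1169 4 976)
(fin 1297 4 1040)))))))))))))
(mv 911 (cons (fin 975 7 911)
(mv 1167 (cons (fin 1231 5 975)
(mv 1103 (cons (fin 912 5 911)
(mv 1169 (cons (fin 1233 4 976)
(mv 1102 (cons (fin 1170 3 1102)
(fin 1101 0 1101))))))))))))
(cons (mv 913 (cons (fin 977 6 912)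
(mv 849 (cons (fin 912 6 848)
(mv 1231 (cons (fin 1167 5 975)
(mv 1232 (cons (fin 1295 5 1039)
(mv 1233 (cons (fin 1169 4 976)
(fin 1297 4 1040)))))))))))
(cons (mv 911 (cons (fin 975 7 911)
(mv 977 (cons (fin 913 6 912)
(mv 1232 (cons (fin 1041 6 976)
(mv 1233 (cons (fin 1169 4 976)
(fin 1297 4 1040)))))))))
(mv 911 (cons (fin 975 7 911)
(mv 913 (cons (fin 977 6 912)
(mv 912 (cons (fin 849 6 848)
(mv 1167 (cons (fin 1103 5 911)
(fin 1231 5 975)))))))))))))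
(mv 912 (cons (cons (mv 849 (cons (fin 913 6 848)
(mv 848 (cons (fin 785 6 784)
(mv 1103 (cons (fin 1039 5 847)
(fin 1167 5 911)))))))
(cons (mv 848 (cons (cons (mv 849 (cons (fin 785 6 784)
(fin 913 6 848)))
(mv 784 (cons (cons (mv 719 (cons (fin 783 7 719)
(mv 720 (cons (fin 655 7 655)
(mv 721 (cons (fin 657 6 656)
(fin 785 6 720)))))))
(mv 721 (cons (fin 785 6 720)
(mv 720 (cons (fin 657 6 656)
(mv 975 (cons (fin 911 5 719)
(fin 1039 5 783))))))))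
(cons (mv 719 (cons (fin 783 7 719)
(mv 720 (cons (fin 655 7 655)
(mv 975 (cons (fin 911 5 719)
(fin 1039 5 783)))))))
(mv 719 (cons (fin 783 7 719)
(mv 721 (cons (fin 785 6 720)
(mv 975 (cons (fin 1039 5 783)
(mv 977 (cons (fin 1041 4 784)
(mv 974 (cons (mv 913 (cons (fin 973 2 909)
(fin 914 2 910)))
(cons (mv 909 (cons (fin 910 3 909)
(mv 973 (cons (fin 908 3 908)
(mv 1037 (cons (fin 1036 1 972)
(fin 1038 1 973)))))))
(mv 909 (cons (fin 910 3 909)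
(mv 914 (cons (fin 913 2 910)
(mv 978 (cons (fin 915 2 911)
(mv 979 (cons (fin 911 3 911)
(mv 1043 (cons (fin 1042 0 975)
(fin 1044 0 976))))))))))))))))))))))))))
(cons (mv 913 (cons (fin 849 6 848)
(mv 784 (cons (mv 977 (cons (fin 720 4 720)
(fin 1041 4 784)))
(cons (mv 719 (cons (fin 783 7 719)
(mv 655 (cons (fin 720 7 655)
(mv 975 (cons (fin 1039 5 783)
(mv 914 (cons (fin 915 1 911)
(mv 974 (cons (fin 911 1 910)
(fin 973 2 909)))))))))))
(mv 719 (cons (fin 783 7 719)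
(mv 975 (cons (fin 1039 5 783)
(mv 914 (cons (fin 915 1 911)
(mv 974 (cons (fin 911 1 910)
(fin 973 2 909))))))))))))))
(mv 785 (cons (fin 849 6 784)
(mv 784 (cons (fin 721 6 720)
(mv 719 (cons (fin 783 7 719)
(mv 655 (cons (fin 720 7 655)
(mv 975 (cons (fin 1039 5 783)
(mv 977 (cons (fin 1041 4 784)
(mv 978 (cons (mv 911 (cons (fin 910 3 910)
(fin 979 3 911)))
(cons (mv 915 (cons (fin 914 2 911)
(mv 979 (cons (fin 916 2 912)
(mv 1043 (cons (fin 1042 0 975)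
(fin 1044 0 976)))))))
(mv 914 (cons (fin 915 2 911)
(mv 1042 (cons (fin 1043 0 975)
(mv 974 (cons (cons (mv 910 (cons (fin 909 3 909)
(fin 911 3 910)))
(mv 1037 (cons (fin 1038 1 973)
(mv 973 (cons (fin 1036 1 972)
(mv 908 (cons (fin 909 3 908)
(mv 972 (cons (fin 907 3 907)
(fin 911 2 908))))))))))
(cons (mv 911 (cons (fin 910 3 910)
(mv 973 (cons (fin 972 2 908)
(mv 1037 (cons (fin 1036 1 972)
(fin 1038 1 973)))))))
(mv 909 (cons (fin 910 3 909)
(mv 973 (cons (fin 908 3 908)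
(mv 1037 (cons (fin 1036 1 972)
(fin 1038 1 973))))))))))))))))))))))))))))))))
(mv 1103 (cons (fin 1167 5 911)
(mv 848 (cons (fin 1039 5 847)
(mv 784 (cons (cons (mv 719 (cons (fin 783 7 719)
(mv 720 (cons (fin 655 7 655)
(mv 721 (cons (fin 657 6 656)
(fin 785 6 720)))))))
(mv 721 (cons (fin 785 6 720)
(mv 720 (cons (fin 657 6 656)
(mv 977 (cons (fin 913 4 720)
(fin 1041 4 784))))))))
(cons (mv 719 (cons (fin 783 7 719)
(mv 720 (cons (fin 655 7 655)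
(mv 977 (cons (fin 913 4 720)
(fin 1041 4 784)))))))
(mv 783 (cons (fin 719 7 719)
(mv 785 (cons (fin 721 6 720)
(mv 786 (cons (cons (mv 722 (cons (fin 723 2 719)
(mv 850 (cons (fin 851 0 783)
(mv 977 (cons (fin 1041 4 784)
(mv 914 (cons (fin 913 5 721)
(mv 979 (cons (fin 915 4 722)
(mv 978 (cons (fin 911 3 911)
(fin 1043 4 786)))))))))))))
(cons (mv 723 (cons (fin 722 2 719)
(mv 787 (cons (fin 724 2 720)
(mv 851 (cons (fin 850 0 783)
(fin 852 0 784)))))))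
(mv 723 (cons (fin 722 2 719)
(mv 787 (cons (fin 724 2 720)
(mv 977 (cons (fin 1041 4 784)
(mv 978 (cons (cons (mv 850 (cons (fin 914 6 722)
(mv 595 (cons (fin 659 5 594)
(mv 911 (cons (fin 979 3 911)
(mv 910 (cons (fin 975 3 910)
(fin 909 0 909)))))))))
(mv 914 (cons (fin 850 6 722)
(mv 915 (cons (fin 975 2 911)
(mv 916 (cons (fin 913 1 912)
(fin 917 1 913))))))))
(cons (mv 911 (cons (fin 979 3 911)
(mv 910 (cons (fin 975 3 910)
(fin 909 0 909)))))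
(mv 850 (cons (fin 914 6 722)
(mv 595 (cons (fin 659 5 594)
(mv 911 (cons (fin 979 3 911)
(mv 910 (cons (fin 909 0 909)
(fin 913 0 910))))))))))))))))))))
(cons (mv 851 (cons (fin 850 0 783)
(mv 787 (cons (fin 852 0 784)
(mv 979 (cons (cons (mv 722 (cons (fin 915 7 722)
(mv 594 (cons (fin 658 4 594)
(mv 977 (cons (fin 1041 4 784)
(mv 978 (cons (fin 911 3 911)
(mv 980 (cons (fin 913 3 912)
(mv 1044 (cons (fin 1043 0 976)
(fin 1045 0 977)))))))))))))
(mv 977 (cons (fin 1041 4 784)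
(mv 978 (cons (fin 911 3 911)
(mv 913 (cons (fin 980 3 912)
(mv 1043 (cons (fin 1044 0 976)
(mv 975 (cons (fin 1042 0 975)
(mv 974 (cons (fin 973 2 909)
(fin 914 2 910))))))))))))))
(cons (mv 915 (cons (fin 722 7 722)
(mv 724 (cons (fin 788 6 723)
(mv 978 (cons (fin 1042 5 786)
(mv 977 (cons (fin 911 3 911)
(fin 916 2 912)))))))))
(cons (mv 915 (cons (fin 722 7 722)
(mv 724 (cons (fin 788 6 723)
(mv 980 (cons (fin 1044 4 787)
(mv 913 (cons (fin 914 0 912)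
(mv 1042 (cons (fin 978 5 786)
(mv 1043 (cons (fin 1041 1 1039)
(fin 1106 5 850)))))))))))))
(mv 915 (cons (fin 722 7 722)
(mv 724 (cons (fin 788 6 723)
(mv 1041 (cons (fin 977 4 784)
(mv 1043 (cons (fin 1042 1 1039)
(mv 1044 (cons (fin 980 4 787)
(fin 1108 4 851)))))))))))))))))))
(cons (mv 787 (cons (cons (mv 723 (cons (fin 722 2 719)
(fin 724 2 720)))
(mv 851 (cons (fin 852 0 784)
(mv 979 (cons (cons (mv 722 (cons (fin 915 7 722)
(mv 594 (cons (fin 658 4 594)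
(mv 977 (cons (fin 1041 4 784)
(mv 978 (cons (fin 911 3 911)
(mv 980 (cons (fin 913 3 912)
(mv 1044 (cons (fin 1043 0 976)
(fin 1045 0 977)))))))))))))
(mv 977 (cons (fin 1041 4 784)
(mv 978 (cons (fin 911 3 911)
(mv 913 (cons (fin 980 3 912)
(mv 1043 (cons (fin 1044 0 976)
(mv 975 (cons (fin 1042 0 975)
(mv 974 (cons (fin 973 2 909)
(fin 914 2 910))))))))))))))
(cons (mv 915 (cons (fin 722 7 722)
(mv 724 (cons (fin 788 6 723)
(mv 978 (cons (fin 1042 5 786)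
(mv 977 (cons (fin 911 3 911)
(fin 916 2 912)))))))))
(cons (mv 915 (cons (fin 722 7 722)
(mv 724 (cons (fin 788 6 723)
(mv 980 (cons (fin 1044 4 787)
(mv 913 (cons (fin 914 0 912)
(mv 1042 (cons (fin 978 5 786)
(mv 1043 (cons (fin 1041 1 1039)
(fin 1106 5 850)))))))))))))
(mv 915 (cons (fin 722 7 722)
(mv 724 (cons (fin 788 6 723)
(mv 1041 (cons (fin 977 4 784)
(mv 1043 (cons (fin 1042 1 1039)
(mv 1044 (cons (fin 980 4 787)
(fin 1108 4 851))))))))))))))))))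
(cons (mv 722 (cons (fin 723 2 719)
(mv 851 (cons (fin 852 0 784)
(mv 594 (cons (fin 658 4 594)
(mv 977 (cons (fin 1041 4 784)
(mv 979 (cons (fin 915 7 722)
(mv 978 (cons (fin 911 3 911)
(mv 980 (cons (fin 913 3 912)
(mv 1044 (cons (fin 1043 0 976)
(fin 1045 0 977)))))))))))))))))
(mv 724 (cons (fin 723 2 720)
(mv 788 (cons (fin 725 2 721)
(mv 852 (cons (fin 851 0 784)
(fin 853 0 785))))))))))
(mv 851 (cons (fin 850 0 783)
(mv 787 (cons (fin 852 0 784)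
(mv 724 (cons (fin 723 2 720)
(mv 788 (cons (fin 725 2 721)
(mv 596 (cons (fin 660 5 595)
(mv 977 (cons (fin 1041 4 784)
(mv 979 (cons (fin 915 6 723)
(mv 978 (cons (fin 911 3 911)
(mv 980 (cons (fin 913 3 912)
(mv 1044 (cons (fin 1043 0 976)
(fin 1045 0 977))))))))))))))))))))))))))))))))))))))
(cons (mv 1103 (cons (fin 1167 5 911)
(mv 1039 (cons (fin 848 5 847)
(mv 1041 (cons (mv 1042 (cons (fin 1102 1 1038)
(fin 1043 1 1039)))
(cons (mv 1101 (cons (fin 1102 2 1037)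
(mv 1038 (cons (mv 977 (cons (fin 1037 2 973)
(fin 978 2 974)))
(cons (mv 974 (cons (fin 973 3 973)
(mv 910 (cons (fin 846 4 846)
(mv 977 (cons (fin 978 2 974)
(mv 909 (cons (fin 975 3 909)
(fin 911 0 909)))))))))
(mv 1037 (cons (fin 1100 1 1036)
(fin 1036 0 1036))))))))
(mv 1042 (cons (fin 1043 1 1039)
(mv 974 (cons (fin 975 3 974)
(mv 978 (cons (fin 979 2 975)
(mv 1038 (cons (fin 973 3 973)
(fin 977 2 974))))))))))))))))
(cons (mv 913 (cons (fin 849 6 848)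
(mv 911 (cons (cons (cons (mv 1103 (cons (fin 1167 5 911)
(mv 910 (cons (cons (mv 977 (cons (fin 909 0 909)
(fin 978 0 910)))
(mv 845 (cons (fin 846 3 845)
(mv 844 (cons (fin 909 3 844)
(mv 974 (cons (fin 973 1 909)
(mv 914 (cons (fin 975 1 910)
(mv 851 (cons (fin 850 2 847)
(mv 915 (cons (fin 852 2 848)
(mv 979 (cons (fin 978 0 911)
(fin 980 0 912))))))))))))))))
(cons (mv 845 (cons (fin 846 3 845)
(mv 973 (cons (fin 974 1 909)
(mv 978 (cons (fin 977 0 910)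
(mv 914 (cons (fin 979 0 911)
(mv 851 (cons (fin 850 2 847)
(mv 915 (cons (fin 975 1 911)
(fin 852 2 848)))))))))))))
(mv 845 (cons (fin 846 3 845)
(mv 909 (cons (fin 844 3 844)
(fin 977 0 909))))))))))
(mv 910 (cons (cons (mv 977 (cons (fin 909 0 909)
(fin 978 0 910)))
(mv 845 (cons (fin 846 3 845)
(mv 844 (cons (fin 909 3 844)
(mv 974 (cons (fin 973 1 909)
(mv 914 (cons (fin 975 1 910)
(mv 851 (cons (fin 850 2 847)
(mv 915 (cons (fin 852 2 848)
(mv 979 (cons (fin 978 0 911)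
(fin 980 0 912))))))))))))))))
(cons (mv 845 (cons (fin 846 3 845)
(mv 973 (cons (fin 974 1 909)
(mv 978 (cons (fin 977 0 910)
(mv 914 (cons (fin 979 0 911)
(mv 851 (cons (fin 850 2 847)
(mv 915 (cons (fin 975 1 911)
(fin 852 2 848)))))))))))))
(mv 845 (cons (fin 846 3 845)
(mv 909 (cons (fin 844 3 844)
(fin 977 0 909)))))))))
(cons (mv 1103 (cons (fin 1167 5 911)
(mv 914 (cons (mv 975 (cons (fin 974 1 910)
(fin 915 1 911)))
(cons (mv 851 (cons (fin 850 2 847)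
(mv 915 (cons (fin 852 2 848)
(mv 979 (cons (fin 978 0 911)
(fin 980 0 912)))))))
(mv 850 (cons (fin 851 2 847)
(mv 975 (cons (fin 974 1 910)
(mv 978 (cons (fin 979 0 911)
(mv 786 (cons (mv 977 (cons (fin 722 5 721)
(fin 1041 5 785)))
(cons (mv 721 (cons (fin 785 7 721)
(mv 722 (cons (fin 657 7 657)
(mv 723 (cons (fin 659 6 658)
(fin 787 6 722)))))))
(mv 721 (cons (fin 785 7 721)
(mv 723 (cons (fin 787 6 722)
(mv 1041 (cons (fin 977 5 785)
(mv 1042 (cons (fin 1043 3 975)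
(mv 1102 (cons (fin 1039 1 1038)
(fin 1101 2 1037)))))))))))))))))))))))))
(mv 1103 (cons (fin 1167 5 911)
(mv 910 (cons (mv 977 (cons (fin 909 0 909)
(fin 978 0 910)))
(cons (mv 845 (cons (fin 846 3 845)
(mv 909 (cons (fin 844 3 844)
(mv 973 (cons (fin 972 1 908)
(fin 974 1 909)))))))
(mv 846 (cons (fin 845 3 845)
(mv 974 (cons (fin 973 1 909)
(mv 1039 (cons (fin 975 7 846)
(fin 1038 4 846))))))))))))))
(cons (cons (mv 1103 (cons (fin 1167 5 911)
(mv 910 (cons (mv 977 (cons (fin 909 0 909)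
(fin 978 0 910)))
(cons (mv 845 (cons (fin 846 3 845)
(mv 909 (cons (fin 844 3 844)
(mv 973 (cons (fin 972 1 908)
(fin 974 1 909)))))))
(mv 845 (cons (fin 846 3 845)
(mv 973 (cons (fin 974 1 909)
(mv 978 (cons (fin 977 0 910)
(mv 914 (cons (fin 979 0 911)
(mv 851 (cons (fin 850 2 847)
(mv 915 (cons (fin 852 2 848)
(mv 723 (cons (fin 787 5 722)
(mv 1042 (cons (fin 1106 6 850)
(mv 1041 (cons (fin 1043 1 1039)
(mv 1102 (cons (fin 1039 1 1038)
(fin 1101 2 1037))))))))))))))))))))))))))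
(mv 1103 (cons (fin 1167 5 911)
(mv 914 (cons (mv 975 (cons (fin 974 1 910)
(fin 915 1 911)))
(cons (mv 851 (cons (fin 850 2 847)
(mv 915 (cons (fin 852 2 848)
(mv 979 (cons (fin 978 0 911)
(fin 980 0 912)))))))
(mv 850 (cons (fin 851 2 847)
(mv 974 (cons (fin 975 1 910)
(mv 910 (cons (fin 973 1 909)
(mv 845 (cons (fin 846 3 845)
(mv 909 (cons (fin 844 3 844)
(mv 717 (cons (fin 781 4 717)
(mv 978 (cons (fin 979 0 911)
(mv 1102 (cons (fin 1038 7 845)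
(mv 1041 (cons (fin 1101 2 1037)
(mv 1042 (cons (fin 1039 1 1038)
(fin 1043 1 1039)))))))))))))))))))))))))))
(cons (mv 1103 (cons (fin 1167 5 911)
(mv 910 (cons (mv 977 (cons (fin 909 0 909)
(fin 978 0 910)))
(cons (mv 845 (cons (fin 846 3 845)
(mv 909 (cons (fin 844 3 844)
(mv 908 (cons (fin 975 0 908)
(mv 972 (cons (fin 971 1 907)
(fin 973 1 908)))))))))
(mv 845 (cons (fin 846 3 845)
(mv 978 (cons (fin 977 0 910)
(mv 914 (cons (fin 979 0 911)
(mv 851 (cons (fin 850 2 847)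
(mv 915 (cons (fin 975 1 911)
(fin 852 2 848))))))))))))))))
(mv 1103 (cons (fin 1167 5 911)
(mv 910 (cons (cons (mv 845 (cons (fin 846 3 845)
(mv 909 (cons (fin 844 3 844)
(fin 977 0 909)))))
(mv 845 (cons (fin 846 3 845)
(mv 974 (cons (fin 973 1 909)
(mv 914 (cons (fin 975 1 910)
(mv 851 (cons (fin 850 2 847)
(mv 915 (cons (fin 852 2 848)
(mv 916 (cons (fin 977 1 912)
(mv 980 (cons (fin 979 0 912)
(fin 981 0 913))))))))))))))))
(cons (mv 909 (cons (fin 977 0 909)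
(mv 973 (cons (fin 972 1 908)
(fin 974 1 909)))))
(mv 845 (cons (fin 846 3 845)
(mv 909 (cons (fin 844 3 844)
(mv 973 (cons (fin 972 1 908)
(fin 974 1 909))))))))))))))))))
(mv 1103 (cons (fin 1167 5 911)
(mv 977 (cons (cons (mv 849 (cons (fin 913 6 848)
(mv 848 (cons (fin 785 6 784)
(mv 1041 (cons (fin 784 4 784)
(mv 1042 (cons (fin 1043 1 1039)
(mv 975 (cons (fin 974 0 974)
(mv 1101 (cons (fin 1102 2 1037)
(mv 978 (cons (mv 911 (cons (fin 910 3 910)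
(fin 979 3 911)))
(cons (mv 915 (cons (fin 914 2 911)
(mv 979 (cons (fin 980 1 976)
(fin 916 2 912)))))
(mv 911 (cons (fin 910 3 910)
(mv 850 (cons (fin 851 1 847)
(mv 914 (cons (fin 915 2 911)
(fin 786 5 785))))))))))))))))))))))
(cons (mv 978 (cons (cons (mv 911 (cons (fin 979 3 911)
(mv 910 (cons (fin 975 3 910)
(fin 909 0 909)))))
(mv 975 (cons (cons (mv 910 (cons (fin 911 3 910)
(mv 914 (cons (fin 915 2 911)
(mv 974 (cons (fin 909 3 909)
(fin 913 2 910)))))))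
(mv 914 (cons (fin 915 2 911)
(mv 974 (cons (fin 913 2 910)
(mv 1041 (cons (fin 973 0 973)
(fin 1042 0 974))))))))
(cons (mv 910 (cons (fin 911 3 910)
(mv 974 (cons (fin 909 3 909)
(mv 973 (cons (fin 913 2 909)
(fin 1041 0 973)))))))
(cons (mv 914 (cons (fin 915 2 911)
(mv 1042 (cons (fin 1043 0 975)
(mv 911 (cons (fin 910 3 910)
(mv 850 (cons (mv 851 (cons (fin 913 2 847)
(fin 787 6 786)))
(cons (mv 786 (cons (fin 1041 5 785)
(mv 721 (cons (fin 785 7 721)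
(mv 722 (cons (fin 657 7 657)
(fin 913 5 721)))))))
(mv 786 (cons (fin 1041 5 785)
(mv 787 (cons (fin 723 6 722)
(fin 851 6 786))))))))))))))
(mv 910 (cons (fin 911 3 910)
(mv 914 (cons (fin 915 2 911)
(mv 974 (cons (fin 909 3 909)
(mv 1041 (cons (fin 973 0 973)
(fin 1042 0 974))))))))))))))
(cons (mv 979 (cons (mv 980 (cons (fin 913 3 912)
(fin 1041 1 976)))
(mv 915 (cons (fin 916 2 912)
(mv 914 (cons (fin 975 2 911)
(mv 1043 (cons (fin 1044 0 976)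
(mv 850 (cons (fin 1107 7 850)
(fin 786 4 786)))))))))))
(mv 911 (cons (fin 979 3 911)
(mv 910 (cons (fin 909 0 909)
(fin 913 0 910))))))))
(mv 978 (cons (cons (mv 911 (cons (fin 979 3 911)
(mv 910 (cons (fin 975 3 910)
(fin 909 0 909)))))
(mv 975 (cons (cons (mv 910 (cons (fin 911 3 910)
(mv 914 (cons (fin 915 2 911)
(mv 974 (cons (fin 909 3 909)
(mv 1041 (cons (fin 973 0 973)
(fin 1042 0 974)))))))))
(cons (mv 910 (cons (fin 911 3 910)
(mv 914 (cons (fin 915 2 911)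
(mv 974 (cons (fin 909 3 909)
(mv 973 (cons (fin 1041 0 973)
(mv 1037 (cons (fin 1036 1 972)
(fin 1038 1 973)))))))))))
(mv 914 (cons (fin 915 2 911)
(mv 1042 (cons (fin 1043 0 975)
(mv 974 (cons (fin 1041 0 974)
(mv 1037 (cons (fin 1038 1 973)
(mv 973 (cons (fin 1036 1 972)
(mv 908 (cons (fin 909 3 908)
(mv 972 (cons (fin 907 3 907)
(fin 911 2 908)))))))))))))))))
(cons (cons (mv 914 (cons (fin 915 2 911)
(mv 1042 (cons (fin 1043 0 975)
(mv 974 (cons (fin 1041 0 974)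
(mv 909 (cons (fin 910 3 909)
(mv 973 (cons (fin 908 3 908)
(mv 1037 (cons (fin 1036 1 972)
(fin 1038 1 973)))))))))))))
(mv 910 (cons (fin 911 3 910)
(mv 974 (cons (fin 909 3 909)
(mv 1041 (cons (fin 973 0 973)
(fin 1042 0 974))))))))
(cons (mv 914 (cons (fin 915 2 911)
(mv 1042 (cons (fin 1043 0 975)
(mv 974 (cons (cons (mv 910 (cons (fin 909 3 909)
(fin 911 3 910)))
(mv 1037 (cons (fin 1038 1 973)
(mv 973 (cons (fin 1036 1 972)
(mv 908 (cons (fin 909 3 908)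
(mv 972 (cons (fin 907 3 907)
(fin 911 2 908))))))))))
(cons (mv 909 (cons (fin 910 3 909)
(mv 973 (cons (fin 908 3 908)
(mv 1037 (cons (fin 1036 1 972)
(fin 1038 1 973)))))))
(mv 911 (cons (fin 910 3 910)
(mv 973 (cons (fin 972 2 908)
(mv 1037 (cons (fin 1036 1 972)
(fin 1038 1 973))))))))))))))
(mv 914 (cons (fin 915 2 911)
(mv 1042 (cons (fin 1043 0 975)
(mv 911 (cons (fin 910 3 910)
(mv 850 (cons (mv 785 (cons (fin 849 7 785)
(mv 786 (cons (fin 721 7 721)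
(fin 1041 5 785)))))
(cons (mv 849 (cons (fin 785 7 785)
(mv 851 (cons (fin 848 1 847)
(fin 787 6 786)))))
(mv 786 (cons (fin 1041 5 785)
(mv 787 (cons (fin 723 6 722)
(fin 851 6 786)))))))))))))))))))
(cons (mv 1043 (cons (mv 1042 (cons (fin 1041 1 1039)
(fin 975 0 975)))
(cons (mv 979 (cons (fin 1044 0 976)
(mv 915 (cons (fin 916 2 912)
(mv 914 (cons (fin 975 2 911)
(mv 850 (cons (fin 1107 7 850)
(fin 786 4 786)))))))))
(mv 979 (cons (fin 1044 0 976)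
(mv 1041 (cons (fin 980 1 976)
(fin 1042 1 1039))))))))
(mv 979 (cons (fin 911 3 911)
(mv 915 (cons (fin 916 2 912)
(mv 980 (cons (fin 1041 1 976)
(mv 1044 (cons (fin 1043 0 976)
(fin 1045 0 977))))))))))))))
(cons (mv 849 (cons (fin 913 6 848)
(mv 785 (cons (fin 848 6 784)
(mv 978 (cons (cons (mv 911 (cons (fin 979 3 911)
(mv 910 (cons (fin 975 3 910)
(fin 909 0 909)))))
(mv 975 (cons (cons (mv 910 (cons (fin 911 3 910)
(mv 909 (cons (fin 974 3 909)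
(mv 914 (cons (fin 915 2 911)
(mv 1042 (cons (fin 1043 0 975)
(fin 850 7 785)))))))))
(mv 914 (cons (fin 915 2 911)
(mv 1042 (cons (fin 1043 0 975)
(fin 850 7 785))))))
(cons (mv 1042 (cons (fin 1043 0 975)
(mv 974 (cons (cons (mv 910 (cons (fin 909 3 909)
(fin 911 3 910)))
(mv 1037 (cons (fin 1038 1 973)
(mv 973 (cons (fin 1036 1 972)
(mv 908 (cons (fin 909 3 908)
(mv 972 (cons (fin 907 3 907)
(fin 911 2 908))))))))))
(cons (mv 911 (cons (fin 910 3 910)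
(mv 973 (cons (fin 972 2 908)
(mv 1037 (cons (fin 1036 1 972)
(fin 1038 1 973)))))))
(mv 909 (cons (fin 910 3 909)
(mv 973 (cons (fin 908 3 908)
(mv 1037 (cons (fin 1036 1 972)
(fin 1038 1 973))))))))))))
(mv 914 (cons (fin 915 2 911)
(mv 974 (cons (cons (mv 910 (cons (fin 909 3 909)
(fin 911 3 910)))
(mv 1037 (cons (fin 1038 1 973)
(mv 973 (cons (fin 1036 1 972)
(mv 908 (cons (fin 909 3 908)
(mv 972 (cons (fin 907 3 907)
(fin 911 2 908))))))))))
(cons (mv 911 (cons (fin 910 3 910)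
(mv 973 (cons (fin 972 2 908)
(mv 1037 (cons (fin 1036 1 972)
(fin 1038 1 973)))))))
(mv 909 (cons (fin 910 3 909)
(mv 973 (cons (fin 908 3 908)
(mv 1037 (cons (fin 1036 1 972)
(fin 1038 1 973))))))))))))))))
(cons (mv 914 (cons (mv 850 (cons (fin 1042 7 785)
(mv 721 (cons (fin 786 7 721)
(fin 657 4 657)))))
(mv 915 (cons (fin 975 2 911)
(mv 916 (cons (fin 917 1 913)
(fin 979 2 912)))))))
(mv 979 (cons (fin 911 3 911)
(mv 916 (cons (fin 915 2 912)
(mv 980 (cons (fin 917 2 913)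
(mv 1044 (cons (fin 1043 0 976)
(fin 1045 0 977))))))))))))))))
(cons (mv 848 (cons (mv 849 (cons (fin 785 6 784)
(fin 913 6 848)))
(cons (mv 784 (cons (fin 1041 4 784)
(mv 719 (cons (fin 783 7 719)
(mv 720 (cons (fin 655 7 655)
(fin 913 4 720)))))))
(mv 784 (cons (fin 1041 4 784)
(mv 785 (cons (fin 721 6 720)
(fin 849 6 784))))))))
(mv 913 (cons (fin 849 6 848)
(mv 975 (cons (mv 914 (cons (fin 915 1 911)
(fin 974 2 910)))
(cons (mv 914 (cons (fin 915 1 911)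
(mv 978 (cons (mv 911 (cons (fin 910 3 910)
(fin 979 3 911)))
(cons (mv 979 (cons (fin 980 3 912)
(mv 1043 (cons (fin 1042 0 975)
(fin 1044 0 976)))))
(mv 911 (cons (fin 910 3 910)
(mv 850 (cons (fin 851 2 847)
(mv 786 (cons (fin 722 5 721)
(fin 1041 5 785))))))))))))
(mv 974 (cons (fin 973 2 909)
(mv 909 (cons (fin 910 3 909)
(mv 1037 (cons (fin 1038 1 973)
(mv 1042 (cons (fin 1041 0 974)
(mv 978 (cons (fin 1043 0 975)
(mv 979 (cons (fin 911 3 911)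
(fin 980 3 912)))))))))))))))))))))))))))))
(cons (mv 1168 (cons (cons (mv 911 (cons (fin 975 7 911)
(mv 913 (cons (fin 977 6 912)
(mv 1231 (cons (fin 1167 5 975)
(mv 1232 (cons (fin 1295 5 1039)
(mv 1233 (cons (fin 1169 4 976)
(fin 1297 4 1040)))))))))))
(cons (mv 911 (cons (fin 975 7 911)
(mv 1231 (cons (fin 1167 5 975)
(mv 1232 (cons (fin 1295 5 1039)
(mv 1233 (cons (fin 1169 4 976)
(fin 1297 4 1040)))))))))
(mv 913 (cons (fin 977 6 912)
(mv 1231 (cons (fin 1167 5 975)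
(mv 1232 (cons (fin 1295 5 1039)
(mv 1233 (cons (fin 1169 4 976)
(fin 1297 4 1040)))))))))))
(cons (mv 911 (cons (fin 975 7 911)
(mv 977 (cons (fin 913 6 912)
(mv 1232 (cons (fin 1041 6 976)
(mv 1233 (cons (fin 1169 4 976)
(fin 1297 4 1040)))))))))
(cons (mv 911 (cons (fin 975 7 911)
(mv 977 (cons (fin 913 6 912)
(mv 1231 (cons (fin 1167 5 975)
(mv 1232 (cons (fin 1295 5 1039)
(fin 1041 6 976)))))))))
(mv 911 (cons (fin 975 7 911)
(mv 913 (cons (fin 977 6 912)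
(mv 1167 (cons (fin 1231 5 975)
(mv 1169 (cons (fin 1233 4 976)
(mv 1166 (cons (cons (mv 1101 (cons (fin 1102 3 1101)
(mv 1165 (cons (fin 1100 3 1100)
(mv 1229 (cons (fin 1228 1 1164)
(fin 1230 1 1165)))))))
(mv 1229 (cons (fin 1230 1 1165)
(mv 1165 (cons (fin 1228 1 1164)
(mv 1100 (cons (fin 1101 3 1100)
(mv 1164 (cons (fin 1099 3 1099)
(fin 1103 2 1100))))))))))
(cons (mv 1229 (cons (fin 1230 1 1165)
(mv 1165 (cons (fin 1228 1 1164)
(mv 1103 (cons (fin 1164 2 1100)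
(mv 1170 (cons (fin 1102 3 1102)
(fin 1171 3 1103)))))))))
(mv 1102 (cons (fin 1101 3 1101)
(mv 1170 (cons (fin 1103 3 1102)
(mv 1107 (cons (fin 1106 2 1103)
(mv 1171 (cons (fin 1108 2 1104)
(mv 1235 (cons (fin 1234 0 1167)
(fin 1236 0 1168))))))))))))))))))))))))))
(mv 1168 (cons (cons (mv 911 (cons (fin 975 7 911)
(mv 1167 (cons (fin 1231 5 975)
(mv 1103 (cons (fin 912 5 911)
(mv 1169 (cons (fin 1233 4 976)
(mv 1102 (cons (fin 1170 3 1102)
(fin 1101 0 1101)))))))))))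
(mv 975 (cons (fin 911 7 911)
(mv 1232 (cons (fin 1039 7 975)
(mv 1233 (cons (fin 1169 4 976)
(fin 1297 4 1040))))))))
(cons (mv 1167 (cons (fin 1231 5 975)
(mv 1103 (cons (fin 912 5 911)
(mv 1169 (cons (fin 1233 4 976)
(mv 1102 (cons (fin 1170 3 1102)
(fin 1101 0 1101)))))))))
(cons (mv 975 (cons (fin 911 7 911)
(mv 1039 (cons (fin 1232 7 975)
(mv 1167 (cons (fin 1231 5 975)
(mv 1103 (cons (fin 912 5 911)
(mv 910 (cons (fin 974 7 910)
(mv 1166 (cons (fin 1230 5 974)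
(mv 1165 (cons (fin 1164 2 1100)
(mv 1101 (cons (fin 1100 3 1100)
(mv 1102 (cons (fin 1169 3 1101)
(fin 1041 2 1037)))))))))))))))))))
(mv 975 (cons (fin 911 7 911)
(mv 1039 (cons (fin 1232 7 975)
(mv 1167 (cons (fin 1231 5 975)
(mv 1103 (cons (fin 912 5 911)
(mv 910 (cons (fin 974 7 910)
(mv 1166 (cons (fin 1230 5 974)
(mv 1165 (cons (fin 1164 2 1100)
(mv 1101 (cons (fin 1100 3 1100)
(mv 1102 (cons (fin 1041 2 1037)
(mv 1036 (cons (fin 1037 3 1036)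
(mv 1229 (cons (fin 1228 1 1164)
(mv 1293 (cons (fin 1038 6 1037)
(fin 1357 6 1101)))))))))))))))))))))))))))))))
(cons (cons (mv 1168 (cons (cons (mv 911 (cons (fin 975 7 911)
(mv 977 (cons (fin 913 6 912)
(mv 1232 (cons (fin 1041 6 976)
(mv 1233 (cons (fin 1169 4 976)
(fin 1297 4 1040)))))))))
(mv 975 (cons (fin 911 7 911)
(mv 1232 (cons (fin 1039 7 975)
(mv 1233 (cons (fin 1169 4 976)
(fin 1297 4 1040))))))))
(cons (mv 977 (cons (fin 913 6 912)
(mv 1232 (cons (fin 1041 6 976)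
(mv 1233 (cons (fin 1169 4 976)
(fin 1297 4 1040)))))))
(cons (mv 913 (cons (fin 977 6 912)
(mv 912 (cons (fin 849 6 848)
(mv 975 (cons (fin 911 7 911)
(mv 914 (cons (fin 915 1 911)
(mv 973 (cons (fin 974 2 909)
(mv 1039 (cons (fin 1232 7 975)
(mv 848 (cons (fin 784 5 783)
(fin 1103 5 847)))))))))))))))
(mv 975 (cons (fin 911 7 911)
(mv 977 (cons (fin 913 6 912)
(mv 1169 (cons (fin 1233 4 976)
(mv 974 (cons (cons (mv 1041 (cons (fin 973 0 973)
(fin 1042 0 974)))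
(mv 909 (cons (fin 910 3 909)
(mv 908 (cons (fin 973 3 908)
(mv 1038 (cons (fin 1037 1 973)
(mv 978 (cons (fin 1039 1 974)
(mv 915 (cons (fin 914 2 911)
(mv 979 (cons (fin 916 2 912)
(mv 1043 (cons (fin 1042 0 975)
(fin 1044 0 976))))))))))))))))
(cons (mv 909 (cons (fin 910 3 909)
(mv 1037 (cons (fin 1038 1 973)
(mv 1042 (cons (fin 1041 0 974)
(mv 978 (cons (fin 1043 0 975)
(mv 915 (cons (fin 914 2 911)
(mv 979 (cons (fin 1039 1 975)
(fin 916 2 912)))))))))))))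
(mv 909 (cons (fin 910 3 909)
(mv 973 (cons (fin 908 3 908)
(fin 1041 0 973))))))))))))))))))
(mv 1168 (cons (cons (mv 911 (cons (fin 975 7 911)
(mv 913 (cons (fin 977 6 912)
(mv 849 (cons (fin 912 6 848)
(mv 1231 (cons (fin 1167 5 975)
(mv 1232 (cons (fin 1295 5 1039)
(mv 1233 (cons (fin 1169 4 976)
(fin 1297 4 1040)))))))))))))
(cons (mv 911 (cons (fin 975 7 911)
(mv 1231 (cons (fin 1167 5 975)
(mv 1232 (cons (fin 1295 5 1039)
(mv 1233 (cons (fin 1169 4 976)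
(fin 1297 4 1040)))))))))
(mv 913 (cons (fin 977 6 912)
(mv 849 (cons (fin 912 6 848)
(mv 1231 (cons (fin 1167 5 975)
(mv 1232 (cons (fin 1295 5 1039)
(mv 1233 (cons (fin 1169 4 976)
(fin 1297 4 1040)))))))))))))
(cons (mv 911 (cons (fin 975 7 911)
(mv 977 (cons (fin 913 6 912)
(mv 1232 (cons (fin 1041 6 976)
(mv 1233 (cons (fin 1169 4 976)
(fin 1297 4 1040)))))))))
(cons (mv 911 (cons (fin 975 7 911)
(mv 977 (cons (fin 913 6 912)
(mv 1231 (cons (fin 1167 5 975)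
(mv 1232 (cons (fin 1295 5 1039)
(fin 1041 6 976)))))))))
(mv 975 (cons (fin 911 7 911)
(mv 977 (cons (fin 913 6 912)
(mv 1167 (cons (fin 1231 5 975)
(mv 1169 (cons (fin 1233 4 976)
(mv 978 (cons (mv 1039 (cons (fin 1038 1 974)
(fin 979 1 975)))
(cons (mv 914 (cons (fin 915 2 911)
(mv 1042 (cons (fin 1043 0 975)
(mv 974 (cons (fin 1041 0 974)
(mv 909 (cons (fin 910 3 909)
(mv 973 (cons (fin 908 3 908)
(mv 1037 (cons (fin 1036 1 972)
(fin 1038 1 973)))))))))))))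
(mv 914 (cons (fin 915 2 911)
(mv 979 (cons (fin 1039 1 975)
(mv 1043 (cons (fin 1042 0 975)
(fin 1044 0 976)))))))))))))))))))))))
(cons (mv 1168 (cons (cons (mv 913 (cons (fin 977 6 912)
(mv 849 (cons (fin 912 6 848)
(mv 1231 (cons (fin 1167 5 975)
(mv 1232 (cons (fin 1295 5 1039)
(mv 1233 (cons (fin 1169 4 976)
(fin 1297 4 1040)))))))))))
(mv 1167 (cons (fin 1231 5 975)
(mv 1103 (cons (fin 912 5 911)
(mv 1169 (cons (fin 1233 4 976)
(mv 1102 (cons (fin 1170 3 1102)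
(fin 1101 0 1101))))))))))
(cons (mv 977 (cons (fin 913 6 912)
(mv 1232 (cons (fin 1041 6 976)
(mv 1233 (cons (fin 1169 4 976)
(fin 1297 4 1040)))))))
(mv 913 (cons (fin 977 6 912)
(mv 912 (cons (fin 849 6 848)
(mv 1167 (cons (fin 1103 5 911)
(fin 1231 5 975))))))))))
(mv 1168 (cons (cons (mv 911 (cons (fin 975 7 911)
(mv 913 (cons (fin 977 6 912)
(mv 849 (cons (fin 912 6 848)
(mv 1231 (cons (fin 1167 5 975)
(mv 1232 (cons (fin 1295 5 1039)
(mv 1233 (cons (fin 1169 4 976)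
(fin 1297 4 1040)))))))))))))
(cons (mv 913 (cons (fin 977 6 912)
(mv 849 (cons (fin 912 6 848)
(mv 975 (cons (fin 911 7 911)
(mv 1232 (cons (fin 1039 7 975)
(mv 1233 (cons (fin 1169 4 976)
(fin 1297 4 1040)))))))))))
(mv 913 (cons (fin 977 6 912)
(mv 849 (cons (fin 912 6 848)
(mv 1231 (cons (fin 1167 5 975)
(mv 1232 (cons (fin 1295 5 1039)
(mv 1233 (cons (fin 1169 4 976)
(fin 1297 4 1040)))))))))))))
(cons (mv 911 (cons (fin 975 7 911)
(mv 913 (cons (fin 977 6 912)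
(mv 912 (cons (fin 849 6 848)
(mv 1167 (cons (fin 1103 5 911)
(fin 1231 5 975)))))))))
(cons (mv 911 (cons (fin 975 7 911)
(mv 1167 (cons (fin 1231 5 975)
(mv 1103 (cons (fin 912 5 911)
(mv 1169 (cons (fin 1233 4 976)
(mv 1102 (cons (fin 1170 3 1102)
(fin 1101 0 1101)))))))))))
(mv 911 (cons (fin 975 7 911)
(mv 913 (cons (fin 977 6 912)
(mv 1231 (cons (fin 1167 5 975)
(mv 1232 (cons (fin 1295 5 1039)
(mv 1233 (cons (fin 1169 4 976)
(fin 1297 4 1040))))))))))))))))))))))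
(cons (cons (mv 1104 (cons (cons (cons (mv 1168 (cons (cons (mv 911 (cons (fin 975 7 911)
(mv 847 (cons (fin 912 7 847)
(mv 913 (cons (fin 977 6 912)
(mv 1231 (cons (fin 1167 5 975)
(mv 1232 (cons (fin 1295 5 1039)
(mv 1233 (cons (fin 1169 4 976)
(fin 1297 4 1040)))))))))))))
(cons (mv 913 (cons (fin 977 6 912)
(mv 849 (cons (fin 912 6 848)
(mv 1231 (cons (fin 1167 5 975)
(mv 1232 (cons (fin 1295 5 1039)
(mv 1233 (cons (fin 1169 4 976)
(fin 1297 4 1040)))))))))))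
(mv 911 (cons (fin 975 7 911)
(mv 847 (cons (fin 912 7 847)
(mv 1231 (cons (fin 1167 5 975)
(mv 1232 (cons (fin 1295 5 1039)
(mv 1233 (cons (fin 1169 4 976)
(fin 1297 4 1040)))))))))))))
(cons (cons (mv 911 (cons (fin 975 7 911)
(mv 847 (cons (fin 912 7 847)
(mv 977 (cons (fin 913 6 912)
(mv 1232 (cons (fin 1041 6 976)
(mv 1233 (cons (fin 1169 4 976)
(fin 1297 4 1040)))))))))))
(mv 911 (cons (fin 975 7 911)
(mv 847 (cons (fin 912 7 847)
(mv 977 (cons (fin 913 6 912)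
(mv 1231 (cons (fin 1167 5 975)
(mv 1232 (cons (fin 1295 5 1039)
(fin 1041 6 976))))))))))))
(cons (mv 911 (cons (fin 975 7 911)
(mv 912 (cons (fin 847 7 847)
(mv 913 (cons (fin 849 6 848)
(fin 977 6 912)))))))
(mv 911 (cons (fin 975 7 911)
(mv 913 (cons (fin 977 6 912)
(mv 1231 (cons (fin 1167 5 975)
(mv 1232 (cons (fin 1295 5 1039)
(mv 1233 (cons (fin 1169 4 976)
(fin 1297 4 1040)))))))))))))))
(mv 911 (cons (cons (mv 847 (cons (fin 912 7 847)
(mv 975 (cons (fin 783 4 783)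
(fin 1039 4 847)))))
(mv 975 (cons (mv 847 (cons (fin 783 4 783)
(fin 1039 4 847)))
(cons (mv 977 (cons (cons (mv 910 (cons (fin 978 3 910)
(mv 909 (cons (fin 974 3 909)
(fin 908 0 908)))))
(mv 974 (cons (mv 1041 (cons (fin 973 0 973)
(fin 1042 0 974)))
(cons (mv 909 (cons (fin 910 3 909)
(mv 913 (cons (fin 914 2 910)
(mv 785 (cons (fin 849 5 784)
(mv 973 (cons (fin 908 3 908)
(mv 1037 (cons (fin 1036 1 972)
(fin 1038 1 973)))))))))))
(mv 909 (cons (fin 910 3 909)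
(mv 913 (cons (fin 914 2 910)
(mv 849 (cons (fin 785 5 784)
(fin 1041 5 848)))))))))))
(cons (mv 974 (cons (mv 1041 (cons (fin 973 0 973)
(fin 1042 0 974)))
(cons (mv 913 (cons (fin 914 2 910)
(mv 785 (cons (fin 849 5 784)
(mv 1037 (cons (fin 1038 1 973)
(mv 973 (cons (fin 1036 1 972)
(mv 908 (cons (fin 909 3 908)
(mv 972 (cons (fin 907 3 907)
(fin 1039 0 972)))))))))))))
(mv 913 (cons (fin 914 2 910)
(mv 849 (cons (fin 785 5 784)
(fin 1041 5 848))))))))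
(mv 978 (cons (fin 910 3 910)
(mv 1039 (cons (fin 1038 1 974)
(fin 979 1 975))))))))
(mv 783 (cons (fin 847 4 783)
(mv 977 (cons (cons (mv 910 (cons (fin 978 3 910)
(mv 909 (cons (fin 974 3 909)
(fin 908 0 908)))))
(mv 974 (cons (mv 1041 (cons (fin 973 0 973)
(fin 1042 0 974)))
(cons (mv 909 (cons (fin 910 3 909)
(mv 913 (cons (fin 914 2 910)
(mv 785 (cons (fin 849 5 784)
(mv 973 (cons (fin 908 3 908)
(mv 1037 (cons (fin 1036 1 972)
(fin 1038 1 973)))))))))))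
(mv 909 (cons (fin 910 3 909)
(mv 913 (cons (fin 914 2 910)
(mv 849 (cons (fin 785 5 784)
(fin 1041 5 848)))))))))))
(cons (mv 913 (cons (mv 849 (cons (fin 785 5 784)
(fin 1041 5 848)))
(mv 914 (cons (fin 974 2 910)
(mv 915 (cons (fin 916 1 912)
(fin 978 2 911)))))))
(mv 978 (cons (fin 910 3 910)
(mv 914 (cons (fin 915 2 911)
(mv 1043 (cons (fin 1042 0 975)
(mv 979 (cons (fin 1044 0 976)
(mv 786 (cons (fin 850 4 786)
(mv 980 (cons (fin 1041 1 976)
(mv 917 (cons (fin 916 2 913)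
(mv 981 (cons (fin 913 3 913)
(fin 918 2 914))))))))))))))))))))))))))
(cons (mv 913 (cons (cons (mv 849 (cons (fin 912 6 848)
(mv 977 (cons (fin 785 5 784)
(fin 1041 5 848)))))
(mv 912 (cons (cons (cons (mv 1103 (cons (fin 1167 5 911)
(mv 910 (cons (cons (mv 977 (cons (fin 909 0 909)
(fin 978 0 910)))
(mv 845 (cons (fin 846 3 845)
(mv 844 (cons (fin 909 3 844)
(mv 974 (cons (fin 973 1 909)
(mv 914 (cons (fin 975 1 910)
(mv 851 (cons (fin 850 2 847)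
(mv 915 (cons (fin 852 2 848)
(mv 979 (cons (fin 978 0 911)
(fin 980 0 912))))))))))))))))
(cons (mv 845 (cons (fin 846 3 845)
(mv 973 (cons (fin 974 1 909)
(mv 978 (cons (fin 977 0 910)
(mv 914 (cons (fin 979 0 911)
(mv 851 (cons (fin 850 2 847)
(mv 915 (cons (fin 975 1 911)
(fin 852 2 848)))))))))))))
(mv 845 (cons (fin 846 3 845)
(mv 909 (cons (fin 844 3 844)
(fin 977 0 909))))))))))
(mv 910 (cons (cons (mv 977 (cons (fin 909 0 909)
(fin 978 0 910)))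
(mv 845 (cons (fin 846 3 845)
(mv 844 (cons (fin 909 3 844)
(mv 974 (cons (fin 973 1 909)
(mv 914 (cons (fin 975 1 910)
(mv 851 (cons (fin 850 2 847)
(mv 915 (cons (fin 852 2 848)
(mv 979 (cons (fin 978 0 911)
(fin 980 0 912))))))))))))))))
(cons (mv 845 (cons (fin 846 3 845)
(mv 973 (cons (fin 974 1 909)
(mv 978 (cons (fin 977 0 910)
(mv 914 (cons (fin 979 0 911)
(mv 851 (cons (fin 850 2 847)
(mv 915 (cons (fin 975 1 911)
(fin 852 2 848)))))))))))))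
(mv 845 (cons (fin 846 3 845)
(mv 909 (cons (fin 844 3 844)
(fin 977 0 909)))))))))
(cons (mv 1103 (cons (fin 1167 5 911)
(mv 914 (cons (mv 975 (cons (fin 974 1 910)
(fin 915 1 911)))
(cons (mv 851 (cons (fin 850 2 847)
(mv 915 (cons (fin 852 2 848)
(mv 979 (cons (fin 978 0 911)
(fin 980 0 912)))))))
(mv 850 (cons (fin 851 2 847)
(mv 975 (cons (fin 974 1 910)
(mv 978 (cons (fin 979 0 911)
(mv 786 (cons (mv 977 (cons (fin 722 5 721)
(fin 1041 5 785)))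
(cons (mv 721 (cons (fin 785 7 721)
(mv 722 (cons (fin 657 7 657)
(mv 723 (cons (fin 659 6 658)
(fin 787 6 722)))))))
(mv 721 (cons (fin 785 7 721)
(mv 723 (cons (fin 787 6 722)
(mv 1041 (cons (fin 977 5 785)
(mv 1042 (cons (fin 1043 3 975)
(mv 1102 (cons (fin 1039 1 1038)
(fin 1101 2 1037)))))))))))))))))))))))))
(mv 1103 (cons (fin 1167 5 911)
(mv 910 (cons (mv 977 (cons (fin 909 0 909)
(fin 978 0 910)))
(cons (mv 845 (cons (fin 846 3 845)
(mv 909 (cons (fin 844 3 844)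
(mv 973 (cons (fin 972 1 908)
(fin 974 1 909)))))))
(mv 846 (cons (fin 845 3 845)
(mv 974 (cons (fin 973 1 909)
(mv 1039 (cons (fin 975 7 846)
(fin 1038 4 846))))))))))))))
(cons (cons (mv 1103 (cons (fin 1167 5 911)
(mv 910 (cons (mv 977 (cons (fin 909 0 909)
(fin 978 0 910)))
(cons (mv 845 (cons (fin 846 3 845)
(mv 909 (cons (fin 844 3 844)
(mv 973 (cons (fin 972 1 908)
(fin 974 1 909)))))))
(mv 845 (cons (fin 846 3 845)
(mv 973 (cons (fin 974 1 909)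
(mv 978 (cons (fin 977 0 910)
(mv 914 (cons (fin 979 0 911)
(mv 851 (cons (fin 850 2 847)
(mv 915 (cons (fin 852 2 848)
(mv 723 (cons (fin 787 5 722)
(mv 1042 (cons (fin 1106 6 850)
(mv 1041 (cons (fin 1043 1 1039)
(mv 1102 (cons (fin 1039 1 1038)
(fin 1101 2 1037))))))))))))))))))))))))))
(mv 1103 (cons (fin 1167 5 911)
(mv 914 (cons (mv 975 (cons (fin 974 1 910)
(fin 915 1 911)))
(cons (mv 851 (cons (fin 850 2 847)
(mv 915 (cons (fin 852 2 848)
(mv 979 (cons (fin 978 0 911)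
(fin 980 0 912)))))))
(mv 850 (cons (fin 851 2 847)
(mv 974 (cons (fin 975 1 910)
(mv 910 (cons (fin 973 1 909)
(mv 845 (cons (fin 846 3 845)
(mv 909 (cons (fin 844 3 844)
(mv 717 (cons (fin 781 4 717)
(mv 978 (cons (fin 979 0 911)
(mv 1102 (cons (fin 1038 7 845)
(mv 1041 (cons (fin 1101 2 1037)
(mv 1042 (cons (fin 1039 1 1038)
(fin 1043 1 1039)))))))))))))))))))))))))))
(cons (mv 1103 (cons (fin 1167 5 911)
(mv 910 (cons (mv 977 (cons (fin 909 0 909)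
(fin 978 0 910)))
(cons (mv 845 (cons (fin 846 3 845)
(mv 909 (cons (fin 844 3 844)
(mv 908 (cons (fin 975 0 908)
(mv 972 (cons (fin 971 1 907)
(fin 973 1 908)))))))))
(mv 845 (cons (fin 846 3 845)
(mv 978 (cons (fin 977 0 910)
(mv 914 (cons (fin 979 0 911)
(mv 851 (cons (fin 850 2 847)
(mv 915 (cons (fin 975 1 911)
(fin 852 2 848))))))))))))))))
(mv 1103 (cons (fin 1167 5 911)
(mv 910 (cons (cons (mv 845 (cons (fin 846 3 845)
(mv 909 (cons (fin 844 3 844)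
(fin 977 0 909)))))
(mv 845 (cons (fin 846 3 845)
(mv 974 (cons (fin 973 1 909)
(mv 914 (cons (fin 975 1 910)
(mv 851 (cons (fin 850 2 847)
(mv 915 (cons (fin 852 2 848)
(mv 916 (cons (fin 977 1 912)
(mv 980 (cons (fin 979 0 912)
(fin 981 0 913))))))))))))))))
(cons (mv 909 (cons (fin 977 0 909)
(mv 973 (cons (fin 972 1 908)
(fin 974 1 909)))))
(mv 845 (cons (fin 846 3 845)
(mv 909 (cons (fin 844 3 844)
(mv 973 (cons (fin 972 1 908)
(fin 974 1 909)))))))))))))))))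
(cons (mv 977 (cons (mv 849 (cons (fin 785 5 784)
(fin 1041 5 848)))
(cons (mv 975 (cons (mv 910 (cons (fin 978 3 910)
(mv 909 (cons (fin 974 3 909)
(fin 908 0 908)))))
(cons (mv 978 (cons (fin 910 3 910)
(mv 1039 (cons (fin 1038 1 974)
(fin 979 1 975)))))
(mv 974 (cons (fin 914 2 910)
(mv 1041 (cons (fin 973 0 973)
(fin 1042 0 974))))))))
(mv 785 (cons (fin 849 5 784)
(mv 975 (cons (cons (mv 910 (cons (fin 978 3 910)
(mv 909 (cons (fin 974 3 909)
(fin 908 0 908)))))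
(mv 974 (cons (fin 914 2 910)
(mv 909 (cons (fin 910 3 909)
(mv 973 (cons (fin 908 3 908)
(mv 1037 (cons (fin 1036 1 972)
(fin 1038 1 973))))))))))
(cons (mv 978 (cons (fin 910 3 910)
(mv 1039 (cons (fin 1038 1 974)
(fin 979 1 975)))))
(mv 914 (cons (fin 974 2 910)
(mv 915 (cons (fin 916 1 912)
(fin 978 2 911)))))))))))))
(cons (mv 912 (cons (fin 849 6 848)
(mv 1103 (cons (fin 1167 5 911)
(mv 914 (cons (mv 975 (cons (fin 974 1 910)
(fin 915 1 911)))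
(cons (mv 851 (cons (fin 850 2 847)
(mv 915 (cons (fin 852 2 848)
(mv 979 (cons (fin 978 0 911)
(fin 980 0 912)))))))
(mv 850 (cons (fin 851 2 847)
(mv 974 (cons (fin 975 1 910)
(mv 910 (cons (fin 973 1 909)
(mv 845 (cons (fin 846 3 845)
(mv 909 (cons (fin 844 3 844)
(mv 717 (cons (fin 781 4 717)
(mv 978 (cons (fin 979 0 911)
(mv 1102 (cons (fin 1038 7 845)
(mv 1041 (cons (fin 1101 2 1037)
(mv 1042 (cons (fin 1039 1 1038)
(fin 1043 1 1039))))))))))))))))))))))))))))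
(mv 849 (cons (fin 912 6 848)
(mv 785 (cons (fin 977 5 784)
(mv 721 (cons (cons (mv 656 (cons (fin 720 7 656)
(mv 657 (cons (fin 592 7 592)
(mv 658 (cons (fin 594 6 593)
(fin 722 6 657)))))))
(mv 656 (cons (fin 720 7 656)
(mv 657 (cons (fin 592 7 592)
(mv 914 (cons (fin 850 4 657)
(fin 978 4 721))))))))
(cons (mv 658 (cons (fin 722 6 657)
(mv 657 (cons (fin 594 6 593)
(mv 914 (cons (fin 850 4 657)
(fin 978 4 721)))))))
(mv 720 (cons (fin 656 7 656)
(mv 722 (cons (fin 658 6 657)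
(mv 914 (cons (fin 978 4 721)
(mv 723 (cons (mv 784 (cons (fin 783 1 719)
(fin 724 1 720)))
(mv 659 (cons (fin 660 2 656)
(mv 786 (cons (fin 850 6 658)
(mv 719 (cons (fin 718 0 718)
(fin 787 0 719))))))))))))))))))))))))))
(cons (mv 912 (cons (fin 847 7 847)
(mv 913 (cons (fin 849 6 848)
(mv 1103 (cons (fin 1167 5 911)
(mv 910 (cons (mv 977 (cons (fin 909 0 909)
(fin 978 0 910)))
(cons (mv 845 (cons (fin 846 3 845)
(mv 909 (cons (fin 844 3 844)
(mv 973 (cons (fin 972 1 908)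
(fin 974 1 909)))))))
(mv 845 (cons (fin 846 3 845)
(mv 973 (cons (fin 974 1 909)
(mv 978 (cons (fin 977 0 910)
(mv 914 (cons (fin 979 0 911)
(mv 851 (cons (fin 850 2 847)
(mv 915 (cons (fin 852 2 848)
(mv 723 (cons (fin 787 5 722)
(mv 1042 (cons (fin 1106 6 850)
(mv 1041 (cons (fin 1043 1 1039)
(mv 1102 (cons (fin 1039 1 1038)
(fin 1101 2 1037))))))))))))))))))))))))))))))
(mv 912 (cons (fin 847 7 847)
(mv 913 (cons (fin 849 6 848)
(mv 1103 (cons (fin 1167 5 911)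
(mv 914 (cons (mv 975 (cons (fin 974 1 910)
(fin 915 1 911)))
(cons (mv 850 (cons (fin 851 2 847)
(mv 978 (cons (fin 979 0 911)
(mv 910 (cons (fin 977 0 910)
(mv 845 (cons (fin 846 3 845)
(mv 909 (cons (fin 844 3 844)
(mv 973 (cons (fin 972 1 908)
(fin 974 1 909)))))))))))))
(mv 850 (cons (fin 851 2 847)
(mv 915 (cons (fin 975 1 911)
(mv 979 (cons (fin 978 0 911)
(fin 980 0 912)))))))))))))))))))))
(cons (mv 1168 (cons (cons (mv 911 (cons (fin 975 7 911)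
(mv 913 (cons (fin 977 6 912)
(mv 1231 (cons (fin 1167 5 975)
(mv 1232 (cons (fin 1295 5 1039)
(mv 1233 (cons (fin 1169 4 976)
(fin 1297 4 1040)))))))))))
(cons (mv 913 (cons (fin 977 6 912)
(mv 1231 (cons (fin 1167 5 975)
(mv 1232 (cons (fin 1295 5 1039)
(mv 1233 (cons (fin 1169 4 976)
(fin 1297 4 1040)))))))))
(mv 911 (cons (fin 975 7 911)
(mv 1231 (cons (fin 1167 5 975)
(mv 1232 (cons (fin 1295 5 1039)
(mv 1233 (cons (fin 1169 4 976)
(fin 1297 4 1040)))))))))))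
(cons (mv 911 (cons (fin 975 7 911)
(mv 977 (cons (fin 913 6 912)
(mv 1232 (cons (fin 1041 6 976)
(mv 1233 (cons (fin 1169 4 976)
(fin 1297 4 1040)))))))))
(cons (mv 911 (cons (fin 975 7 911)
(mv 977 (cons (fin 913 6 912)
(mv 1231 (cons (fin 1167 5 975)
(mv 1232 (cons (fin 1295 5 1039)
(fin 1041 6 976)))))))))
(mv 911 (cons (fin 975 7 911)
(mv 913 (cons (fin 977 6 912)
(mv 1167 (cons (fin 1231 5 975)
(mv 1169 (cons (fin 1233 4 976)
(mv 1166 (cons (cons (mv 1101 (cons (fin 1102 3 1101)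
(mv 1165 (cons (fin 1100 3 1100)
(mv 1229 (cons (fin 1228 1 1164)
(fin 1230 1 1165)))))))
(mv 1229 (cons (fin 1230 1 1165)
(mv 1165 (cons (fin 1228 1 1164)
(mv 1100 (cons (fin 1101 3 1100)
(mv 1164 (cons (fin 1099 3 1099)
(fin 1103 2 1100))))))))))
(cons (mv 1229 (cons (fin 1230 1 1165)
(mv 1165 (cons (fin 1228 1 1164)
(mv 1103 (cons (fin 1164 2 1100)
(mv 1170 (cons (fin 1102 3 1102)
(fin 1171 3 1103)))))))))
(mv 1102 (cons (fin 1101 3 1101)
(mv 1170 (cons (fin 1103 3 1102)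
(mv 1107 (cons (fin 1106 2 1103)
(mv 1171 (cons (fin 1108 2 1104)
(mv 1235 (cons (fin 1234 0 1167)
(fin 1236 0 1168))))))))))))))))))))))))))
(mv 1168 (cons (cons (mv 913 (cons (fin 977 6 912)
(mv 849 (cons (fin 912 6 848)
(mv 1231 (cons (fin 1167 5 975)
(mv 1232 (cons (fin 1295 5 1039)
(mv 1233 (cons (fin 1169 4 976)
(fin 1297 4 1040)))))))))))
(cons (mv 1167 (cons (fin 1231 5 975)
(mv 1103 (cons (fin 912 5 911)
(mv 1169 (cons (fin 1233 4 976)
(mv 1102 (cons (fin 1170 3 1102)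
(fin 1101 0 1101)))))))))
(mv 913 (cons (fin 977 6 912)
(mv 849 (cons (fin 912 6 848)
(mv 1233 (cons (fin 1169 4 976)
(mv 1232 (cons (fin 1297 4 1040)
(mv 1039 (cons (fin 975 7 975)
(mv 1295 (cons (fin 1231 5 1039)
(mv 1296 (cons (fin 1103 7 1039)
(fin 1359 5 1103)))))))))))))))))
(cons (mv 913 (cons (fin 977 6 912)
(mv 912 (cons (fin 849 6 848)
(mv 1103 (cons (fin 1167 5 911)
(mv 1233 (cons (fin 1169 4 976)
(mv 1232 (cons (fin 1297 4 1040)
(mv 1039 (cons (fin 975 7 975)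
(fin 1296 7 1039)))))))))))))
(cons (mv 913 (cons (fin 977 6 912)
(mv 912 (cons (fin 849 6 848)
(mv 1167 (cons (fin 1103 5 911)
(fin 1231 5 975)))))))
(mv 913 (cons (fin 977 6 912)
(mv 1231 (cons (fin 1167 5 975)
(mv 1232 (cons (fin 1295 5 1039)
(mv 1233 (cons (fin 1169 4 976)
(fin 1297 4 1040)))))))))))))))
(cons (cons (mv 1168 (cons (cons (mv 911 (cons (fin 975 7 911)
(mv 847 (cons (fin 912 7 847)
(mv 1231 (cons (fin 1167 5 975)
(mv 1232 (cons (fin 1295 5 1039)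
(mv 1233 (cons (fin 1169 4 976)
(fin 1297 4 1040)))))))))))
(cons (mv 1167 (cons (fin 1231 5 975)
(mv 1103 (cons (fin 912 5 911)
(mv 1169 (cons (fin 1233 4 976)
(mv 1102 (cons (fin 1170 3 1102)
(fin 1101 0 1101)))))))))
(mv 911 (cons (fin 975 7 911)
(mv 847 (cons (fin 912 7 847)
(mv 1233 (cons (fin 1169 4 976)
(mv 1232 (cons (fin 1297 4 1040)
(mv 1295 (cons (fin 1231 5 1039)
(mv 1296 (cons (fin 1359 5 1103)
(mv 1039 (cons (fin 1103 7 1039)
(mv 1234 (cons (fin 1235 1 1231)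
(mv 1293 (cons (fin 1294 2 1229)
(mv 1038 (cons (cons (mv 977 (cons (fin 1037 2 973)
(fin 1041 6 976)))
(mv 974 (cons (mv 910 (cons (fin 1102 6 846)
(mv 783 (cons (fin 719 5 718)
(fin 846 6 782)))))
(mv 973 (cons (fin 1041 3 973)
(mv 972 (cons (fin 1037 3 972)
(fin 971 0 971))))))))
(cons (mv 1037 (cons (fin 977 2 973)
(mv 972 (cons (fin 973 3 972)
(mv 1036 (cons (fin 971 3 971)
(mv 1100 (cons (fin 1099 1 1035)
(fin 1101 1 1036)))))))))
(mv 1041 (cons (fin 977 6 976)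
(mv 974 (cons (fin 973 3 973)
(mv 1102 (cons (fin 1101 1 1037)
(fin 910 6 846))))))))))))))))))))))))))))))
(cons (mv 911 (cons (fin 975 7 911)
(mv 912 (cons (fin 847 7 847)
(mv 1103 (cons (fin 1167 5 911)
(mv 1233 (cons (fin 1169 4 976)
(mv 1232 (cons (fin 1297 4 1040)
(mv 1039 (cons (fin 1296 7 1039)
(mv 1041 (cons (fin 977 6 976)
(mv 1042 (cons (fin 1102 1 1038)
(fin 1043 1 1039)))))))))))))))))
(cons (mv 911 (cons (fin 975 7 911)
(mv 912 (cons (fin 847 7 847)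
(mv 1167 (cons (fin 1103 5 911)
(fin 1231 5 975)))))))
(mv 911 (cons (fin 975 7 911)
(mv 1231 (cons (fin 1167 5 975)
(mv 1232 (cons (fin 1295 5 1039)
(mv 1233 (cons (fin 1169 4 976)
(fin 1297 4 1040)))))))))))))
(mv 1168 (cons (cons (mv 911 (cons (fin 975 7 911)
(mv 847 (cons (fin 912 7 847)
(mv 977 (cons (fin 913 6 912)
(mv 1232 (cons (fin 1041 6 976)
(mv 1233 (cons (fin 1169 4 976)
(fin 1297 4 1040)))))))))))
(mv 977 (cons (fin 913 6 912)
(mv 1041 (cons (fin 1232 6 976)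
(mv 1169 (cons (fin 1233 4 976)
(mv 978 (cons (mv 979 (cons (fin 1039 1 975)
(fin 980 1 976)))
(cons (mv 1039 (cons (fin 1038 2 974)
(mv 1042 (cons (mv 1043 (cons (fin 1044 3 976)
(fin 1103 1 1039)))
(cons (mv 1043 (cons (fin 1044 3 976)
(mv 1107 (cons (fin 1106 0 1039)
(fin 1108 0 1040)))))
(mv 1103 (cons (fin 1102 1 1038)
(mv 1106 (cons (fin 1107 0 1039)
(mv 1170 (cons (fin 1171 3 1103)
(fin 1234 7 977))))))))))))
(mv 979 (cons (fin 980 1 976)
(mv 911 (cons (fin 912 3 911)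
(mv 915 (cons (fin 916 2 912)
(mv 1043 (cons (fin 1044 0 976)
(mv 1042 (cons (fin 1103 1 1039)
(mv 851 (cons (fin 787 5 786)
(fin 1106 5 850)))))))))))))))))))))))
(cons (mv 975 (cons (fin 911 7 911)
(mv 1232 (cons (fin 1039 7 975)
(mv 1233 (cons (fin 1169 4 976)
(fin 1297 4 1040)))))))
(cons (mv 913 (cons (fin 977 6 912)
(mv 849 (cons (fin 912 6 848)
(mv 1233 (cons (fin 1169 4 976)
(mv 1232 (cons (fin 1297 4 1040)
(mv 1039 (cons (fin 975 7 975)
(mv 1295 (cons (fin 1231 5 1039)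
(mv 1296 (cons (fin 1103 7 1039)
(fin 1359 5 1103)))))))))))))))
(mv 911 (cons (fin 975 7 911)
(mv 912 (cons (fin 847 7 847)
(mv 913 (cons (fin 849 6 848)
(fin 977 6 912))))))))))))
(cons (mv 1168 (cons (cons (mv 913 (cons (fin 977 6 912)
(mv 849 (cons (fin 912 6 848)
(mv 1231 (cons (fin 1167 5 975)
(mv 1232 (cons (fin 1295 5 1039)
(mv 1233 (cons (fin 1169 4 976)
(fin 1297 4 1040)))))))))))
(mv 1167 (cons (fin 1231 5 975)
(mv 1103 (cons (fin 912 5 911)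
(mv 1169 (cons (fin 1233 4 976)
(mv 1102 (cons (fin 1170 3 1102)
(fin 1101 0 1101))))))))))
(cons (mv 977 (cons (fin 913 6 912)
(mv 1041 (cons (fin 1232 6 976)
(mv 1169 (cons (fin 1233 4 976)
(mv 978 (cons (mv 979 (cons (fin 1039 1 975)
(fin 980 1 976)))
(cons (mv 1039 (cons (fin 1038 2 974)
(mv 1042 (cons (mv 1043 (cons (fin 1044 3 976)
(fin 1103 1 1039)))
(cons (mv 1043 (cons (fin 1044 3 976)
(mv 1107 (cons (fin 1106 0 1039)
(fin 1108 0 1040)))))
(mv 1103 (cons (fin 1102 1 1038)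
(mv 1106 (cons (fin 1107 0 1039)
(mv 1170 (cons (fin 1171 3 1103)
(fin 1234 7 977))))))))))))
(mv 979 (cons (fin 980 1 976)
(mv 911 (cons (fin 912 3 911)
(mv 915 (cons (fin 916 2 912)
(mv 1043 (cons (fin 1044 0 976)
(mv 1042 (cons (fin 1103 1 1039)
(mv 851 (cons (fin 787 5 786)
(fin 1106 5 850))))))))))))))))))))))
(cons (mv 913 (cons (fin 977 6 912)
(mv 912 (cons (fin 849 6 848)
(mv 1167 (cons (fin 1103 5 911)
(fin 1231 5 975)))))))
(mv 913 (cons (fin 977 6 912)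
(mv 1231 (cons (fin 1167 5 975)
(mv 1232 (cons (fin 1295 5 1039)
(mv 1233 (cons (fin 1169 4 976)
(fin 1297 4 1040)))))))))))))
(mv 1168 (cons (cons (mv 911 (cons (fin 975 7 911)
(mv 847 (cons (fin 912 7 847)
(mv 1231 (cons (fin 1167 5 975)
(mv 1232 (cons (fin 1295 5 1039)
(mv 1233 (cons (fin 1169 4 976)
(fin 1297 4 1040)))))))))))
(mv 1167 (cons (fin 1231 5 975)
(mv 1103 (cons (fin 912 5 911)
(mv 1169 (cons (fin 1233 4 976)
(mv 1102 (cons (fin 1170 3 1102)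
(fin 1101 0 1101))))))))))
(cons (mv 975 (cons (fin 911 7 911)
(mv 1232 (cons (fin 1039 7 975)
(mv 1233 (cons (fin 1169 4 976)
(fin 1297 4 1040)))))))
(mv 911 (cons (fin 975 7 911)
(mv 912 (cons (fin 847 7 847)
(mv 1167 (cons (fin 1103 5 911)
(fin 1231 5 975))))))))))))))
(cons (mv 1104 (cons (cons (cons (mv 1168 (cons (cons (mv 911 (cons (fin 975 7 911)
(mv 847 (cons (fin 912 7 847)
(mv 913 (cons (fin 977 6 912)
(mv 1231 (cons (fin 1167 5 975)
(mv 1232 (cons (fin 1295 5 1039)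
(mv 1233 (cons (fin 1169 4 976)
(fin 1297 4 1040)))))))))))))
(cons (mv 913 (cons (fin 977 6 912)
(mv 1167 (cons (fin 1231 5 975)
(mv 1103 (cons (fin 912 5 911)
(mv 1169 (cons (fin 1233 4 976)
(mv 1102 (cons (fin 1170 3 1102)
(fin 1101 0 1101)))))))))))
(mv 911 (cons (fin 975 7 911)
(mv 847 (cons (fin 912 7 847)
(mv 977 (cons (fin 913 6 912)
(mv 1232 (cons (fin 1041 6 976)
(mv 1233 (cons (fin 1169 4 976)
(fin 1297 4 1040)))))))))))))
(cons (mv 911 (cons (fin 975 7 911)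
(mv 847 (cons (fin 912 7 847)
(mv 1231 (cons (fin 1167 5 975)
(mv 1232 (cons (fin 1295 5 1039)
(mv 1233 (cons (fin 1169 4 976)
(fin 1297 4 1040)))))))))))
(cons (mv 911 (cons (fin 975 7 911)
(mv 847 (cons (fin 912 7 847)
(mv 977 (cons (fin 913 6 912)
(mv 1231 (cons (fin 1167 5 975)
(mv 1232 (cons (fin 1295 5 1039)
(fin 1041 6 976)))))))))))
(mv 911 (cons (fin 975 7 911)
(mv 913 (cons (fin 977 6 912)
(mv 1231 (cons (fin 1167 5 975)
(mv 1232 (cons (fin 1295 5 1039)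
(mv 1233 (cons (fin 1169 4 976)
(fin 1297 4 1040)))))))))))))))
(mv 912 (cons (cons (mv 847 (cons (fin 911 7 847)
(mv 848 (cons (fin 783 7 783)
(mv 1103 (cons (fin 1039 5 847)
(fin 1167 5 911)))))))
(cons (mv 848 (cons (cons (mv 847 (cons (fin 783 7 783)
(fin 911 7 847)))
(mv 784 (cons (cons (mv 719 (cons (fin 783 7 719)
(mv 720 (cons (fin 655 7 655)
(mv 721 (cons (fin 657 6 656)
(fin 785 6 720)))))))
(mv 721 (cons (fin 785 6 720)
(mv 720 (cons (fin 657 6 656)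
(mv 975 (cons (fin 911 5 719)
(fin 1039 5 783))))))))
(cons (mv 719 (cons (fin 783 7 719)
(mv 720 (cons (fin 655 7 655)
(mv 975 (cons (fin 911 5 719)
(fin 1039 5 783)))))))
(mv 719 (cons (fin 783 7 719)
(mv 721 (cons (fin 785 6 720)
(mv 975 (cons (fin 1039 5 783)
(mv 977 (cons (fin 1041 4 784)
(mv 974 (cons (mv 913 (cons (fin 973 2 909)
(fin 914 2 910)))
(cons (mv 909 (cons (fin 910 3 909)
(mv 973 (cons (fin 908 3 908)
(mv 1037 (cons (fin 1036 1 972)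
(fin 1038 1 973)))))))
(mv 909 (cons (fin 910 3 909)
(mv 914 (cons (fin 913 2 910)
(mv 978 (cons (fin 915 2 911)
(mv 979 (cons (fin 911 3 911)
(mv 1043 (cons (fin 1042 0 975)
(fin 1044 0 976))))))))))))))))))))))))))
(cons (mv 911 (cons (fin 847 7 847)
(mv 784 (cons (mv 975 (cons (fin 720 5 719)
(fin 1039 5 783)))
(cons (mv 721 (cons (fin 785 6 720)
(mv 657 (cons (fin 720 6 656)
(mv 977 (cons (fin 1041 4 784)
(mv 910 (cons (fin 909 0 909)
(mv 978 (cons (fin 979 3 911)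
(fin 913 0 910)))))))))))
(mv 721 (cons (fin 785 6 720)
(mv 975 (cons (fin 1039 5 783)
(mv 977 (cons (fin 1041 4 784)
(mv 910 (cons (fin 978 3 910)
(fin 909 0 909))))))))))))))
(mv 783 (cons (fin 847 7 783)
(mv 784 (cons (fin 719 7 719)
(mv 721 (cons (fin 785 6 720)
(mv 720 (cons (fin 657 6 656)
(mv 977 (cons (fin 913 4 720)
(fin 1041 4 784))))))))))))))
(mv 1103 (cons (fin 1167 5 911)
(mv 848 (cons (fin 1039 5 847)
(mv 784 (cons (cons (mv 719 (cons (fin 783 7 719)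
(mv 720 (cons (fin 655 7 655)
(mv 721 (cons (fin 657 6 656)
(fin 785 6 720)))))))
(mv 721 (cons (fin 785 6 720)
(mv 720 (cons (fin 657 6 656)
(mv 977 (cons (fin 913 4 720)
(fin 1041 4 784))))))))
(cons (mv 719 (cons (fin 783 7 719)
(mv 720 (cons (fin 655 7 655)
(mv 977 (cons (fin 913 4 720)
(fin 1041 4 784)))))))
(mv 783 (cons (fin 719 7 719)
(mv 785 (cons (fin 721 6 720)
(mv 786 (cons (cons (mv 722 (cons (fin 723 2 719)
(mv 850 (cons (fin 851 0 783)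
(mv 977 (cons (fin 1041 4 784)
(mv 914 (cons (fin 913 5 721)
(mv 979 (cons (fin 915 4 722)
(mv 978 (cons (fin 911 3 911)
(fin 1043 4 786)))))))))))))
(cons (mv 723 (cons (fin 722 2 719)
(mv 787 (cons (fin 724 2 720)
(mv 851 (cons (fin 850 0 783)
(fin 852 0 784)))))))
(mv 723 (cons (fin 722 2 719)
(mv 787 (cons (fin 724 2 720)
(mv 977 (cons (fin 1041 4 784)
(mv 978 (cons (cons (mv 850 (cons (fin 914 6 722)
(mv 595 (cons (fin 659 5 594)
(mv 911 (cons (fin 979 3 911)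
(mv 910 (cons (fin 975 3 910)
(fin 909 0 909)))))))))
(mv 914 (cons (fin 850 6 722)
(mv 915 (cons (fin 975 2 911)
(mv 916 (cons (fin 913 1 912)
(fin 917 1 913))))))))
(cons (mv 911 (cons (fin 979 3 911)
(mv 910 (cons (fin 975 3 910)
(fin 909 0 909)))))
(mv 850 (cons (fin 914 6 722)
(mv 595 (cons (fin 659 5 594)
(mv 911 (cons (fin 979 3 911)
(mv 910 (cons (fin 909 0 909)
(fin 913 0 910))))))))))))))))))))
(cons (mv 851 (cons (fin 850 0 783)
(mv 787 (cons (fin 852 0 784)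
(mv 979 (cons (cons (mv 722 (cons (fin 915 7 722)
(mv 594 (cons (fin 658 4 594)
(mv 977 (cons (fin 1041 4 784)
(mv 978 (cons (fin 911 3 911)
(mv 980 (cons (fin 913 3 912)
(mv 1044 (cons (fin 1043 0 976)
(fin 1045 0 977)))))))))))))
(mv 977 (cons (fin 1041 4 784)
(mv 978 (cons (fin 911 3 911)
(mv 913 (cons (fin 980 3 912)
(mv 1043 (cons (fin 1044 0 976)
(mv 975 (cons (fin 1042 0 975)
(mv 974 (cons (fin 973 2 909)
(fin 914 2 910))))))))))))))
(cons (mv 915 (cons (fin 722 7 722)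
(mv 724 (cons (fin 788 6 723)
(mv 978 (cons (fin 1042 5 786)
(mv 977 (cons (fin 911 3 911)
(fin 916 2 912)))))))))
(cons (mv 915 (cons (fin 722 7 722)
(mv 724 (cons (fin 788 6 723)
(mv 980 (cons (fin 1044 4 787)
(mv 913 (cons (fin 914 0 912)
(mv 1042 (cons (fin 978 5 786)
(mv 1043 (cons (fin 1041 1 1039)
(fin 1106 5 850)))))))))))))
(mv 915 (cons (fin 722 7 722)
(mv 724 (cons (fin 788 6 723)
(mv 1041 (cons (fin 977 4 784)
(mv 1043 (cons (fin 1042 1 1039)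
(mv 1044 (cons (fin 980 4 787)
(fin 1108 4 851)))))))))))))))))))
(cons (mv 787 (cons (cons (mv 723 (cons (fin 722 2 719)
(fin 724 2 720)))
(mv 851 (cons (fin 852 0 784)
(mv 979 (cons (cons (mv 722 (cons (fin 915 7 722)
(mv 594 (cons (fin 658 4 594)
(mv 977 (cons (fin 1041 4 784)
(mv 978 (cons (fin 911 3 911)
(mv 980 (cons (fin 913 3 912)
(mv 1044 (cons (fin 1043 0 976)
(fin 1045 0 977)))))))))))))
(mv 977 (cons (fin 1041 4 784)
(mv 978 (cons (fin 911 3 911)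
(mv 913 (cons (fin 980 3 912)
(mv 1043 (cons (fin 1044 0 976)
(mv 975 (cons (fin 1042 0 975)
(mv 974 (cons (fin 973 2 909)
(fin 914 2 910))))))))))))))
(cons (mv 915 (cons (fin 722 7 722)
(mv 724 (cons (fin 788 6 723)
(mv 978 (cons (fin 1042 5 786)
(mv 977 (cons (fin 911 3 911)
(fin 916 2 912)))))))))
(cons (mv 915 (cons (fin 722 7 722)
(mv 724 (cons (fin 788 6 723)
(mv 980 (cons (fin 1044 4 787)
(mv 913 (cons (fin 914 0 912)
(mv 1042 (cons (fin 978 5 786)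
(mv 1043 (cons (fin 1041 1 1039)
(fin 1106 5 850)))))))))))))
(mv 915 (cons (fin 722 7 722)
(mv 724 (cons (fin 788 6 723)
(mv 1041 (cons (fin 977 4 784)
(mv 1043 (cons (fin 1042 1 1039)
(mv 1044 (cons (fin 980 4 787)
(fin 1108 4 851))))))))))))))))))
(cons (mv 722 (cons (fin 723 2 719)
(mv 851 (cons (fin 852 0 784)
(mv 594 (cons (fin 658 4 594)
(mv 977 (cons (fin 1041 4 784)
(mv 979 (cons (fin 915 7 722)
(mv 978 (cons (fin 911 3 911)
(mv 980 (cons (fin 913 3 912)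
(mv 1044 (cons (fin 1043 0 976)
(fin 1045 0 977)))))))))))))))))
(mv 724 (cons (fin 723 2 720)
(mv 788 (cons (fin 725 2 721)
(mv 852 (cons (fin 851 0 784)
(fin 853 0 785))))))))))
(mv 851 (cons (fin 850 0 783)
(mv 787 (cons (fin 852 0 784)
(mv 724 (cons (fin 723 2 720)
(mv 788 (cons (fin 725 2 721)
(mv 596 (cons (fin 660 5 595)
(mv 977 (cons (fin 1041 4 784)
(mv 979 (cons (fin 915 6 723)
(mv 978 (cons (fin 911 3 911)
(mv 980 (cons (fin 913 3 912)
(mv 1044 (cons (fin 1043 0 976)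
(fin 1045 0 977))))))))))))))))))))))))))))))))))))))
(cons (mv 1103 (cons (fin 1167 5 911)
(mv 848 (cons (fin 1039 5 847)
(mv 783 (cons (fin 847 7 783)
(mv 784 (cons (fin 719 7 719)
(mv 721 (cons (fin 785 6 720)
(mv 720 (cons (fin 657 6 656)
(mv 977 (cons (fin 913 4 720)
(fin 1041 4 784)))))))))))))))
(cons (mv 911 (cons (fin 847 7 847)
(mv 913 (cons (cons (cons (mv 1103 (cons (fin 1167 5 911)
(mv 910 (cons (cons (mv 977 (cons (fin 909 0 909)
(fin 978 0 910)))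
(mv 845 (cons (fin 846 3 845)
(mv 844 (cons (fin 909 3 844)
(mv 974 (cons (fin 973 1 909)
(mv 914 (cons (fin 975 1 910)
(mv 851 (cons (fin 850 2 847)
(mv 915 (cons (fin 852 2 848)
(mv 979 (cons (fin 978 0 911)
(fin 980 0 912))))))))))))))))
(cons (mv 845 (cons (fin 846 3 845)
(mv 973 (cons (fin 974 1 909)
(mv 978 (cons (fin 977 0 910)
(mv 914 (cons (fin 979 0 911)
(mv 851 (cons (fin 850 2 847)
(mv 915 (cons (fin 975 1 911)
(fin 852 2 848)))))))))))))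
(mv 845 (cons (fin 846 3 845)
(mv 909 (cons (fin 844 3 844)
(fin 977 0 909))))))))))
(mv 910 (cons (cons (mv 977 (cons (fin 909 0 909)
(fin 978 0 910)))
(mv 845 (cons (fin 846 3 845)
(mv 844 (cons (fin 909 3 844)
(mv 974 (cons (fin 973 1 909)
(mv 914 (cons (fin 975 1 910)
(mv 851 (cons (fin 850 2 847)
(mv 915 (cons (fin 852 2 848)
(mv 979 (cons (fin 978 0 911)
(fin 980 0 912))))))))))))))))
(cons (mv 845 (cons (fin 846 3 845)
(mv 973 (cons (fin 974 1 909)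
(mv 978 (cons (fin 977 0 910)
(mv 914 (cons (fin 979 0 911)
(mv 851 (cons (fin 850 2 847)
(mv 915 (cons (fin 975 1 911)
(fin 852 2 848)))))))))))))
(mv 845 (cons (fin 846 3 845)
(mv 909 (cons (fin 844 3 844)
(fin 977 0 909)))))))))
(cons (mv 1103 (cons (fin 1167 5 911)
(mv 914 (cons (mv 975 (cons (fin 974 1 910)
(fin 915 1 911)))
(cons (mv 851 (cons (fin 850 2 847)
(mv 915 (cons (fin 852 2 848)
(mv 979 (cons (fin 978 0 911)
(fin 980 0 912)))))))
(mv 850 (cons (fin 851 2 847)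
(mv 975 (cons (fin 974 1 910)
(mv 978 (cons (fin 979 0 911)
(mv 786 (cons (mv 977 (cons (fin 722 5 721)
(fin 1041 5 785)))
(cons (mv 721 (cons (fin 785 7 721)
(mv 722 (cons (fin 657 7 657)
(mv 723 (cons (fin 659 6 658)
(fin 787 6 722)))))))
(mv 721 (cons (fin 785 7 721)
(mv 723 (cons (fin 787 6 722)
(mv 1041 (cons (fin 977 5 785)
(mv 1042 (cons (fin 1043 3 975)
(mv 1102 (cons (fin 1039 1 1038)
(fin 1101 2 1037)))))))))))))))))))))))))
(mv 1103 (cons (fin 1167 5 911)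
(mv 910 (cons (mv 977 (cons (fin 909 0 909)
(fin 978 0 910)))
(cons (mv 845 (cons (fin 846 3 845)
(mv 909 (cons (fin 844 3 844)
(mv 973 (cons (fin 972 1 908)
(fin 974 1 909)))))))
(mv 846 (cons (fin 845 3 845)
(mv 974 (cons (fin 973 1 909)
(mv 1039 (cons (fin 975 7 846)
(fin 1038 4 846))))))))))))))
(cons (cons (mv 1103 (cons (fin 1167 5 911)
(mv 910 (cons (mv 977 (cons (fin 909 0 909)
(fin 978 0 910)))
(cons (mv 845 (cons (fin 846 3 845)
(mv 909 (cons (fin 844 3 844)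
(mv 973 (cons (fin 972 1 908)
(fin 974 1 909)))))))
(mv 845 (cons (fin 846 3 845)
(mv 973 (cons (fin 974 1 909)
(mv 978 (cons (fin 977 0 910)
(mv 914 (cons (fin 979 0 911)
(mv 851 (cons (fin 850 2 847)
(mv 915 (cons (fin 852 2 848)
(mv 723 (cons (fin 787 5 722)
(mv 1042 (cons (fin 1106 6 850)
(mv 1041 (cons (fin 1043 1 1039)
(mv 1102 (cons (fin 1039 1 1038)
(fin 1101 2 1037))))))))))))))))))))))))))
(mv 1103 (cons (fin 1167 5 911)
(mv 914 (cons (mv 975 (cons (fin 974 1 910)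
(fin 915 1 911)))
(cons (mv 851 (cons (fin 850 2 847)
(mv 915 (cons (fin 852 2 848)
(mv 979 (cons (fin 978 0 911)
(fin 980 0 912)))))))
(mv 850 (cons (fin 851 2 847)
(mv 974 (cons (fin 975 1 910)
(mv 910 (cons (fin 973 1 909)
(mv 845 (cons (fin 846 3 845)
(mv 909 (cons (fin 844 3 844)
(mv 717 (cons (fin 781 4 717)
(mv 978 (cons (fin 979 0 911)
(mv 1102 (cons (fin 1038 7 845)
(mv 1041 (cons (fin 1101 2 1037)
(mv 1042 (cons (fin 1039 1 1038)
(fin 1043 1 1039)))))))))))))))))))))))))))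
(cons (mv 1103 (cons (fin 1167 5 911)
(mv 910 (cons (mv 977 (cons (fin 909 0 909)
(fin 978 0 910)))
(cons (mv 845 (cons (fin 846 3 845)
(mv 909 (cons (fin 844 3 844)
(mv 908 (cons (fin 975 0 908)
(mv 972 (cons (fin 971 1 907)
(fin 973 1 908)))))))))
(mv 845 (cons (fin 846 3 845)
(mv 978 (cons (fin 977 0 910)
(mv 914 (cons (fin 979 0 911)
(mv 851 (cons (fin 850 2 847)
(mv 915 (cons (fin 975 1 911)
(fin 852 2 848))))))))))))))))
(mv 1103 (cons (fin 1167 5 911)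
(mv 910 (cons (cons (mv 845 (cons (fin 846 3 845)
(mv 909 (cons (fin 844 3 844)
(fin 977 0 909)))))
(mv 845 (cons (fin 846 3 845)
(mv 974 (cons (fin 973 1 909)
(mv 914 (cons (fin 975 1 910)
(mv 851 (cons (fin 850 2 847)
(mv 915 (cons (fin 852 2 848)
(mv 916 (cons (fin 977 1 912)
(mv 980 (cons (fin 979 0 912)
(fin 981 0 913))))))))))))))))
(cons (mv 909 (cons (fin 977 0 909)
(mv 973 (cons (fin 972 1 908)
(fin 974 1 909)))))
(mv 845 (cons (fin 846 3 845)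
(mv 909 (cons (fin 844 3 844)
(mv 973 (cons (fin 972 1 908)
(fin 974 1 909))))))))))))))))))
(mv 1103 (cons (fin 1167 5 911)
(mv 848 (cons (cons (mv 847 (cons (fin 783 7 783)
(fin 911 7 847)))
(mv 784 (cons (cons (mv 719 (cons (fin 783 7 719)
(mv 720 (cons (fin 655 7 655)
(mv 721 (cons (fin 657 6 656)
(fin 785 6 720)))))))
(mv 721 (cons (fin 785 6 720)
(mv 720 (cons (fin 657 6 656)
(mv 977 (cons (fin 913 4 720)
(fin 1041 4 784))))))))
(cons (mv 719 (cons (fin 783 7 719)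
(mv 720 (cons (fin 655 7 655)
(mv 977 (cons (fin 913 4 720)
(fin 1041 4 784)))))))
(mv 783 (cons (fin 719 7 719)
(mv 785 (cons (fin 721 6 720)
(mv 786 (cons (cons (mv 722 (cons (fin 723 2 719)
(mv 850 (cons (fin 851 0 783)
(mv 977 (cons (fin 1041 4 784)
(mv 914 (cons (fin 913 5 721)
(mv 979 (cons (fin 915 4 722)
(mv 978 (cons (fin 911 3 911)
(fin 1043 4 786)))))))))))))
(cons (mv 723 (cons (fin 722 2 719)
(mv 787 (cons (fin 724 2 720)
(mv 851 (cons (fin 850 0 783)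
(fin 852 0 784)))))))
(mv 723 (cons (fin 722 2 719)
(mv 787 (cons (fin 724 2 720)
(mv 977 (cons (fin 1041 4 784)
(mv 978 (cons (cons (mv 850 (cons (fin 914 6 722)
(mv 595 (cons (fin 659 5 594)
(mv 911 (cons (fin 979 3 911)
(mv 910 (cons (fin 975 3 910)
(fin 909 0 909)))))))))
(mv 914 (cons (fin 850 6 722)
(mv 915 (cons (fin 975 2 911)
(mv 916 (cons (fin 913 1 912)
(fin 917 1 913))))))))
(cons (mv 911 (cons (fin 979 3 911)
(mv 910 (cons (fin 975 3 910)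
(fin 909 0 909)))))
(mv 850 (cons (fin 914 6 722)
(mv 595 (cons (fin 659 5 594)
(mv 911 (cons (fin 979 3 911)
(mv 910 (cons (fin 909 0 909)
(fin 913 0 910))))))))))))))))))))
(cons (mv 851 (cons (fin 850 0 783)
(mv 787 (cons (fin 852 0 784)
(mv 979 (cons (cons (mv 722 (cons (fin 915 7 722)
(mv 594 (cons (fin 658 4 594)
(mv 977 (cons (fin 1041 4 784)
(mv 978 (cons (fin 911 3 911)
(mv 980 (cons (fin 913 3 912)
(mv 1044 (cons (fin 1043 0 976)
(fin 1045 0 977)))))))))))))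
(mv 977 (cons (fin 1041 4 784)
(mv 978 (cons (fin 911 3 911)
(mv 913 (cons (fin 980 3 912)
(mv 1043 (cons (fin 1044 0 976)
(mv 975 (cons (fin 1042 0 975)
(mv 974 (cons (fin 973 2 909)
(fin 914 2 910))))))))))))))
(cons (mv 915 (cons (fin 722 7 722)
(mv 724 (cons (fin 788 6 723)
(mv 978 (cons (fin 1042 5 786)
(mv 977 (cons (fin 911 3 911)
(fin 916 2 912)))))))))
(cons (mv 915 (cons (fin 722 7 722)
(mv 724 (cons (fin 788 6 723)
(mv 980 (cons (fin 1044 4 787)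
(mv 913 (cons (fin 914 0 912)
(mv 1042 (cons (fin 978 5 786)
(mv 1043 (cons (fin 1041 1 1039)
(fin 1106 5 850)))))))))))))
(mv 915 (cons (fin 722 7 722)
(mv 724 (cons (fin 788 6 723)
(mv 1041 (cons (fin 977 4 784)
(mv 1043 (cons (fin 1042 1 1039)
(mv 1044 (cons (fin 980 4 787)
(fin 1108 4 851)))))))))))))))))))
(cons (mv 787 (cons (cons (mv 723 (cons (fin 722 2 719)
(fin 724 2 720)))
(mv 851 (cons (fin 852 0 784)
(mv 979 (cons (cons (mv 722 (cons (fin 915 7 722)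
(mv 594 (cons (fin 658 4 594)
(mv 977 (cons (fin 1041 4 784)
(mv 978 (cons (fin 911 3 911)
(mv 980 (cons (fin 913 3 912)
(mv 1044 (cons (fin 1043 0 976)
(fin 1045 0 977)))))))))))))
(mv 977 (cons (fin 1041 4 784)
(mv 978 (cons (fin 911 3 911)
(mv 913 (cons (fin 980 3 912)
(mv 1043 (cons (fin 1044 0 976)
(mv 975 (cons (fin 1042 0 975)
(mv 974 (cons (fin 973 2 909)
(fin 914 2 910))))))))))))))
(cons (mv 915 (cons (fin 722 7 722)
(mv 724 (cons (fin 788 6 723)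
(mv 978 (cons (fin 1042 5 786)
(mv 977 (cons (fin 911 3 911)
(fin 916 2 912)))))))))
(cons (mv 915 (cons (fin 722 7 722)
(mv 724 (cons (fin 788 6 723)
(mv 980 (cons (fin 1044 4 787)
(mv 913 (cons (fin 914 0 912)
(mv 1042 (cons (fin 978 5 786)
(mv 1043 (cons (fin 1041 1 1039)
(fin 1106 5 850)))))))))))))
(mv 915 (cons (fin 722 7 722)
(mv 724 (cons (fin 788 6 723)
(mv 1041 (cons (fin 977 4 784)
(mv 1043 (cons (fin 1042 1 1039)
(mv 1044 (cons (fin 980 4 787)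
(fin 1108 4 851))))))))))))))))))
(cons (mv 722 (cons (fin 723 2 719)
(mv 851 (cons (fin 852 0 784)
(mv 594 (cons (fin 658 4 594)
(mv 977 (cons (fin 1041 4 784)
(mv 979 (cons (fin 915 7 722)
(mv 978 (cons (fin 911 3 911)
(mv 980 (cons (fin 913 3 912)
(mv 1044 (cons (fin 1043 0 976)
(fin 1045 0 977)))))))))))))))))
(mv 724 (cons (fin 723 2 720)
(mv 788 (cons (fin 725 2 721)
(mv 852 (cons (fin 851 0 784)
(fin 853 0 785))))))))))
(mv 851 (cons (fin 850 0 783)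
(mv 787 (cons (fin 852 0 784)
(mv 724 (cons (fin 723 2 720)
(mv 788 (cons (fin 725 2 721)
(mv 596 (cons (fin 660 5 595)
(mv 977 (cons (fin 1041 4 784)
(mv 979 (cons (fin 915 6 723)
(mv 978 (cons (fin 911 3 911)
(mv 980 (cons (fin 913 3 912)
(mv 1044 (cons (fin 1043 0 976)
(fin 1045 0 977)))))))))))))))))))))))))))))))))
(cons (mv 911 (cons (fin 847 7 847)
(mv 977 (cons (mv 784 (cons (fin 1041 4 784)
(mv 720 (cons (fin 975 5 719)
(fin 913 4 720)))))
(cons (mv 910 (cons (fin 909 0 909)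
(mv 978 (cons (fin 975 3 910)
(fin 979 3 911)))))
(mv 784 (cons (fin 1041 4 784)
(mv 720 (cons (fin 913 4 720)
(mv 721 (cons (fin 657 6 656)
(fin 785 6 720))))))))))))
(mv 783 (cons (fin 847 7 783)
(mv 784 (cons (fin 719 7 719)
(mv 721 (cons (fin 785 6 720)
(mv 720 (cons (fin 657 6 656)
(mv 977 (cons (fin 913 4 720)
(fin 1041 4 784)))))))))))))))))))))
(cons (mv 1168 (cons (cons (mv 911 (cons (fin 975 7 911)
(mv 913 (cons (fin 977 6 912)
(mv 1231 (cons (fin 1167 5 975)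
(mv 1232 (cons (fin 1295 5 1039)
(mv 1233 (cons (fin 1169 4 976)
(fin 1297 4 1040)))))))))))
(cons (mv 913 (cons (fin 977 6 912)
(mv 1231 (cons (fin 1167 5 975)
(mv 1232 (cons (fin 1295 5 1039)
(mv 1233 (cons (fin 1169 4 976)
(fin 1297 4 1040)))))))))
(mv 911 (cons (fin 975 7 911)
(mv 977 (cons (fin 913 6 912)
(mv 1232 (cons (fin 1041 6 976)
(mv 1233 (cons (fin 1169 4 976)
(fin 1297 4 1040)))))))))))
(cons (mv 911 (cons (fin 975 7 911)
(mv 1231 (cons (fin 1167 5 975)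
(mv 1232 (cons (fin 1295 5 1039)
(mv 1233 (cons (fin 1169 4 976)
(fin 1297 4 1040)))))))))
(cons (mv 911 (cons (fin 975 7 911)
(mv 977 (cons (fin 913 6 912)
(mv 1231 (cons (fin 1167 5 975)
(mv 1232 (cons (fin 1295 5 1039)
(fin 1041 6 976)))))))))
(mv 911 (cons (fin 975 7 911)
(mv 913 (cons (fin 977 6 912)
(mv 1167 (cons (fin 1231 5 975)
(mv 1169 (cons (fin 1233 4 976)
(mv 1170 (cons (mv 1103 (cons (fin 1102 3 1102)
(fin 1171 3 1103)))
(cons (mv 1107 (cons (fin 1106 2 1103)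
(mv 1171 (cons (fin 1108 2 1104)
(mv 1235 (cons (fin 1234 0 1167)
(fin 1236 0 1168)))))))
(mv 1106 (cons (fin 1107 2 1103)
(mv 1234 (cons (fin 1235 0 1167)
(mv 1166 (cons (cons (mv 1102 (cons (fin 1101 3 1101)
(fin 1103 3 1102)))
(mv 1229 (cons (fin 1230 1 1165)
(mv 1165 (cons (fin 1228 1 1164)
(mv 1100 (cons (fin 1101 3 1100)
(mv 1164 (cons (fin 1099 3 1099)
(fin 1103 2 1100))))))))))
(cons (mv 1101 (cons (fin 1102 3 1101)
(mv 1165 (cons (fin 1100 3 1100)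
(mv 1229 (cons (fin 1228 1 1164)
(fin 1230 1 1165)))))))
(mv 1103 (cons (fin 1102 3 1102)
(mv 1165 (cons (fin 1164 2 1100)
(mv 1229 (cons (fin 1228 1 1164)
(fin 1230 1 1165)))))))))))))))))))))))))))))
(mv 1168 (cons (cons (mv 913 (cons (fin 977 6 912)
(mv 1167 (cons (fin 1231 5 975)
(mv 1103 (cons (fin 912 5 911)
(mv 1169 (cons (fin 1233 4 976)
(mv 1102 (cons (fin 1170 3 1102)
(fin 1101 0 1101)))))))))))
(cons (mv 913 (cons (fin 977 6 912)
(mv 1233 (cons (fin 1169 4 976)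
(mv 1232 (cons (fin 1297 4 1040)
(mv 1039 (cons (fin 975 7 975)
(mv 1295 (cons (fin 1231 5 1039)
(mv 1296 (cons (fin 1103 7 1039)
(fin 1359 5 1103)))))))))))))
(mv 913 (cons (fin 977 6 912)
(mv 1233 (cons (fin 1169 4 976)
(mv 1232 (cons (fin 1297 4 1040)
(mv 1039 (cons (fin 975 7 975)
(mv 1103 (cons (fin 1296 7 1039)
(mv 912 (cons (fin 848 5 847)
(fin 1167 5 911)))))))))))))))
(cons (mv 1167 (cons (fin 1231 5 975)
(mv 1103 (cons (fin 912 5 911)
(mv 1169 (cons (fin 1233 4 976)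
(mv 1102 (cons (fin 1170 3 1102)
(fin 1101 0 1101)))))))))
(cons (mv 977 (cons (fin 913 6 912)
(mv 1041 (cons (fin 1232 6 976)
(mv 1167 (cons (fin 1231 5 975)
(mv 1103 (cons (fin 912 5 911)
(mv 1042 (cons (fin 1043 1 1039)
(mv 1102 (cons (fin 1039 1 1038)
(fin 1101 2 1037)))))))))))))
(mv 913 (cons (fin 977 6 912)
(mv 1231 (cons (fin 1167 5 975)
(mv 1232 (cons (fin 1295 5 1039)
(mv 1233 (cons (fin 1169 4 976)
(fin 1297 4 1040)))))))))))))))
(cons (cons (mv 1168 (cons (cons (mv 911 (cons (fin 975 7 911)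
(mv 847 (cons (fin 912 7 847)
(mv 977 (cons (fin 913 6 912)
(mv 1232 (cons (fin 1041 6 976)
(mv 1233 (cons (fin 1169 4 976)
(fin 1297 4 1040)))))))))))
(mv 977 (cons (fin 913 6 912)
(mv 1232 (cons (fin 1041 6 976)
(mv 1233 (cons (fin 1169 4 976)
(fin 1297 4 1040))))))))
(cons (mv 975 (cons (fin 911 7 911)
(mv 1232 (cons (fin 1039 7 975)
(mv 1233 (cons (fin 1169 4 976)
(fin 1297 4 1040)))))))
(cons (mv 911 (cons (fin 975 7 911)
(mv 912 (cons (fin 847 7 847)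
(mv 977 (cons (fin 913 6 912)
(mv 909 (cons (fin 910 0 909)
(mv 978 (cons (fin 979 3 911)
(mv 1041 (cons (fin 1232 6 976)
(mv 848 (cons (fin 784 4 784)
(mv 1039 (cons (fin 1038 2 974)
(fin 1103 5 847)))))))))))))))))
(mv 911 (cons (fin 975 7 911)
(mv 912 (cons (fin 847 7 847)
(mv 977 (cons (fin 913 6 912)
(mv 909 (cons (fin 910 0 909)
(mv 978 (cons (fin 979 3 911)
(mv 1169 (cons (fin 1233 4 976)
(mv 1039 (cons (mv 1038 (cons (fin 1037 2 973)
(fin 1041 2 974)))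
(cons (mv 848 (cons (fin 1103 5 847)
(mv 784 (cons (fin 1041 4 784)
(mv 719 (cons (fin 783 7 719)
(mv 720 (cons (fin 655 7 655)
(mv 721 (cons (fin 657 6 656)
(fin 785 6 720)))))))))))
(mv 1037 (cons (fin 1038 2 973)
(mv 1103 (cons (fin 848 5 847)
(mv 1101 (cons (fin 1102 0 1101)
(mv 973 (cons (cons (mv 844 (cons (fin 908 7 844)
(mv 845 (cons (fin 780 7 780)
(mv 1100 (cons (fin 1036 5 844)
(fin 1164 5 908)))))))
(mv 1100 (cons (fin 1164 5 908)
(mv 845 (cons (fin 1036 5 844)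
(mv 780 (cons (fin 844 7 780)
(mv 781 (cons (fin 716 7 716)
(mv 782 (cons (fin 718 6 717)
(fin 846 6 781))))))))))))
(cons (mv 908 (cons (fin 844 7 844)
(mv 1165 (cons (fin 972 7 908)
(mv 1228 (cons (fin 1164 5 972)
(mv 1229 (cons (fin 1292 5 1036)
(mv 1230 (cons (fin 1166 4 973)
(fin 1294 4 1037)))))))))))
(cons (mv 1164 (cons (fin 1100 5 908)
(mv 1165 (cons (fin 1228 5 972)
(mv 972 (cons (fin 908 7 908)
(mv 1229 (cons (fin 1036 7 972)
(mv 1230 (cons (fin 1166 4 973)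
(fin 1294 4 1037)))))))))))
(mv 844 (cons (fin 908 7 844)
(mv 845 (cons (fin 780 7 780)
(mv 782 (cons (fin 846 6 781)
(mv 781 (cons (fin 718 6 717)
(mv 1036 (cons (fin 972 5 780)
(fin 1100 5 844))))))))))))))))))))))))))))))))))))))))
(mv 1168 (cons (cons (mv 913 (cons (fin 977 6 912)
(mv 1167 (cons (fin 1231 5 975)
(mv 1103 (cons (fin 912 5 911)
(mv 1169 (cons (fin 1233 4 976)
(mv 1102 (cons (fin 1170 3 1102)
(fin 1101 0 1101)))))))))))
(mv 977 (cons (fin 913 6 912)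
(mv 1232 (cons (fin 1041 6 976)
(mv 1233 (cons (fin 1169 4 976)
(fin 1297 4 1040))))))))
(cons (mv 1167 (cons (fin 1231 5 975)
(mv 1103 (cons (fin 912 5 911)
(mv 1169 (cons (fin 1233 4 976)
(mv 1102 (cons (fin 1170 3 1102)
(fin 1101 0 1101)))))))))
(mv 977 (cons (fin 913 6 912)
(mv 1041 (cons (fin 1232 6 976)
(mv 1167 (cons (fin 1231 5 975)
(mv 912 (cons (fin 1103 5 911)
(mv 847 (cons (fin 911 7 847)
(mv 848 (cons (fin 783 7 783)
(fin 784 4 784)))))))))))))))))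
(cons (mv 1168 (cons (cons (mv 911 (cons (fin 975 7 911)
(mv 847 (cons (fin 912 7 847)
(mv 913 (cons (fin 977 6 912)
(mv 1231 (cons (fin 1167 5 975)
(mv 1232 (cons (fin 1295 5 1039)
(mv 1233 (cons (fin 1169 4 976)
(fin 1297 4 1040)))))))))))))
(cons (mv 913 (cons (fin 977 6 912)
(mv 1231 (cons (fin 1167 5 975)
(mv 1232 (cons (fin 1295 5 1039)
(mv 1233 (cons (fin 1169 4 976)
(fin 1297 4 1040)))))))))
(mv 911 (cons (fin 975 7 911)
(mv 847 (cons (fin 912 7 847)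
(mv 1231 (cons (fin 1167 5 975)
(mv 1232 (cons (fin 1295 5 1039)
(mv 1233 (cons (fin 1169 4 976)
(fin 1297 4 1040)))))))))))))
(cons (mv 911 (cons (fin 975 7 911)
(mv 847 (cons (fin 912 7 847)
(mv 977 (cons (fin 913 6 912)
(mv 1232 (cons (fin 1041 6 976)
(mv 1233 (cons (fin 1169 4 976)
(fin 1297 4 1040)))))))))))
(cons (mv 911 (cons (fin 975 7 911)
(mv 847 (cons (fin 912 7 847)
(mv 977 (cons (fin 913 6 912)
(mv 1231 (cons (fin 1167 5 975)
(mv 1232 (cons (fin 1295 5 1039)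
(fin 1041 6 976)))))))))))
(mv 975 (cons (fin 911 7 911)
(mv 977 (cons (fin 913 6 912)
(mv 1167 (cons (fin 1231 5 975)
(mv 1169 (cons (fin 1233 4 976)
(mv 974 (cons (cons (mv 1041 (cons (fin 973 0 973)
(fin 1042 0 974)))
(mv 909 (cons (fin 910 3 909)
(mv 908 (cons (fin 973 3 908)
(mv 1038 (cons (fin 1037 1 973)
(mv 978 (cons (fin 1039 1 974)
(mv 915 (cons (fin 914 2 911)
(mv 979 (cons (fin 916 2 912)
(mv 1043 (cons (fin 1042 0 975)
(fin 1044 0 976))))))))))))))))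
(cons (mv 909 (cons (fin 910 3 909)
(mv 1037 (cons (fin 1038 1 973)
(mv 1042 (cons (fin 1041 0 974)
(mv 978 (cons (fin 1043 0 975)
(mv 915 (cons (fin 914 2 911)
(mv 979 (cons (fin 1039 1 975)
(fin 916 2 912)))))))))))))
(mv 909 (cons (fin 910 3 909)
(mv 973 (cons (fin 908 3 908)
(fin 1041 0 973))))))))))))))))))))
(mv 1168 (cons (cons (mv 911 (cons (fin 975 7 911)
(mv 847 (cons (fin 912 7 847)
(mv 1231 (cons (fin 1167 5 975)
(mv 1232 (cons (fin 1295 5 1039)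
(mv 1233 (cons (fin 1169 4 976)
(fin 1297 4 1040)))))))))))
(mv 1167 (cons (fin 1231 5 975)
(mv 1103 (cons (fin 912 5 911)
(mv 1169 (cons (fin 1233 4 976)
(mv 1102 (cons (fin 1170 3 1102)
(fin 1101 0 1101))))))))))
(cons (mv 975 (cons (fin 911 7 911)
(mv 1232 (cons (fin 1039 7 975)
(mv 1233 (cons (fin 1169 4 976)
(fin 1297 4 1040)))))))
(mv 911 (cons (fin 975 7 911)
(mv 912 (cons (fin 847 7 847)
(mv 1167 (cons (fin 1103 5 911)
(fin 1231 5 975))))))))))))))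
(mv 1104 (cons (cons (mv 1168 (cons (cons (mv 911 (cons (fin 975 7 911)
(mv 847 (cons (fin 912 7 847)
(mv 913 (cons (fin 977 6 912)
(mv 1231 (cons (fin 1167 5 975)
(mv 1232 (cons (fin 1295 5 1039)
(mv 1233 (cons (fin 1169 4 976)
(fin 1297 4 1040)))))))))))))
(cons (mv 913 (cons (fin 977 6 912)
(mv 849 (cons (fin 912 6 848)
(mv 1231 (cons (fin 1167 5 975)
(mv 1232 (cons (fin 1295 5 1039)
(mv 1233 (cons (fin 1169 4 976)
(fin 1297 4 1040)))))))))))
(mv 911 (cons (fin 975 7 911)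
(mv 847 (cons (fin 912 7 847)
(mv 1231 (cons (fin 1167 5 975)
(mv 1232 (cons (fin 1295 5 1039)
(mv 1233 (cons (fin 1169 4 976)
(fin 1297 4 1040)))))))))))))
(cons (cons (mv 911 (cons (fin 975 7 911)
(mv 847 (cons (fin 912 7 847)
(mv 977 (cons (fin 913 6 912)
(mv 1232 (cons (fin 1041 6 976)
(mv 1233 (cons (fin 1169 4 976)
(fin 1297 4 1040)))))))))))
(mv 911 (cons (fin 975 7 911)
(mv 847 (cons (fin 912 7 847)
(mv 977 (cons (fin 913 6 912)
(mv 1231 (cons (fin 1167 5 975)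
(mv 1232 (cons (fin 1295 5 1039)
(fin 1041 6 976))))))))))))
(cons (mv 911 (cons (fin 975 7 911)
(mv 912 (cons (fin 847 7 847)
(mv 913 (cons (fin 849 6 848)
(fin 977 6 912)))))))
(mv 911 (cons (fin 975 7 911)
(mv 913 (cons (fin 977 6 912)
(mv 1231 (cons (fin 1167 5 975)
(mv 1232 (cons (fin 1295 5 1039)
(mv 1233 (cons (fin 1169 4 976)
(fin 1297 4 1040)))))))))))))))
(cons (mv 912 (cons (cons (mv 847 (cons (fin 911 7 847)
(mv 848 (cons (fin 783 7 783)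
(mv 849 (cons (fin 785 6 784)
(fin 913 6 848)))))))
(mv 847 (cons (fin 911 7 847)
(mv 848 (cons (fin 783 7 783)
(mv 1103 (cons (fin 1039 5 847)
(fin 1167 5 911))))))))
(cons (mv 849 (cons (fin 913 6 848)
(mv 848 (cons (fin 785 6 784)
(mv 1103 (cons (fin 1039 5 847)
(fin 1167 5 911)))))))
(mv 911 (cons (fin 847 7 847)
(mv 913 (cons (fin 849 6 848)
(mv 1103 (cons (fin 1167 5 911)
(mv 910 (cons (mv 977 (cons (fin 909 0 909)
(fin 978 0 910)))
(cons (mv 845 (cons (fin 846 3 845)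
(mv 909 (cons (fin 844 3 844)
(mv 973 (cons (fin 972 1 908)
(fin 974 1 909)))))))
(mv 846 (cons (fin 845 3 845)
(mv 974 (cons (fin 973 1 909)
(mv 1039 (cons (fin 975 7 846)
(fin 1038 4 846)))))))))))))))))))
(mv 1168 (cons (cons (mv 911 (cons (fin 975 7 911)
(mv 913 (cons (fin 977 6 912)
(mv 1231 (cons (fin 1167 5 975)
(mv 1232 (cons (fin 1295 5 1039)
(mv 1233 (cons (fin 1169 4 976)
(fin 1297 4 1040)))))))))))
(cons (mv 913 (cons (fin 977 6 912)
(mv 1231 (cons (fin 1167 5 975)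
(mv 1232 (cons (fin 1295 5 1039)
(mv 1233 (cons (fin 1169 4 976)
(fin 1297 4 1040)))))))))
(mv 911 (cons (fin 975 7 911)
(mv 1231 (cons (fin 1167 5 975)
(mv 1232 (cons (fin 1295 5 1039)
(mv 1233 (cons (fin 1169 4 976)
(fin 1297 4 1040)))))))))))
(cons (mv 911 (cons (fin 975 7 911)
(mv 977 (cons (fin 913 6 912)
(mv 1232 (cons (fin 1041 6 976)
(mv 1233 (cons (fin 1169 4 976)
(fin 1297 4 1040)))))))))
(cons (mv 911 (cons (fin 975 7 911)
(mv 977 (cons (fin 913 6 912)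
(mv 1231 (cons (fin 1167 5 975)
(mv 1232 (cons (fin 1295 5 1039)
(fin 1041 6 976)))))))))
(mv 911 (cons (fin 975 7 911)
(mv 913 (cons (fin 977 6 912)
(mv 1167 (cons (fin 1231 5 975)
(mv 1169 (cons (fin 1233 4 976)
(mv 1166 (cons (cons (mv 1101 (cons (fin 1102 3 1101)
(mv 1165 (cons (fin 1100 3 1100)
(mv 1229 (cons (fin 1228 1 1164)
(fin 1230 1 1165)))))))
(mv 1229 (cons (fin 1230 1 1165)
(mv 1165 (cons (fin 1228 1 1164)
(mv 1100 (cons (fin 1101 3 1100)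
(mv 1164 (cons (fin 1099 3 1099)
(fin 1103 2 1100))))))))))
(cons (mv 1229 (cons (fin 1230 1 1165)
(mv 1165 (cons (fin 1228 1 1164)
(mv 1103 (cons (fin 1164 2 1100)
(mv 1170 (cons (fin 1102 3 1102)
(fin 1171 3 1103)))))))))
(mv 1102 (cons (fin 1101 3 1101)
(mv 1170 (cons (fin 1103 3 1102)
(mv 1107 (cons (fin 1106 2 1103)
(mv 1171 (cons (fin 1108 2 1104)
(mv 1235 (cons (fin 1234 0 1167)
(fin 1236 0 1168))))))))))))))))))))))))))))
(cons (cons (mv 1168 (cons (cons (mv 913 (cons (fin 977 6 912)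
(mv 849 (cons (fin 912 6 848)
(mv 1231 (cons (fin 1167 5 975)
(mv 1232 (cons (fin 1295 5 1039)
(mv 1233 (cons (fin 1169 4 976)
(fin 1297 4 1040)))))))))))
(mv 1167 (cons (fin 1231 5 975)
(mv 1103 (cons (fin 912 5 911)
(mv 1169 (cons (fin 1233 4 976)
(mv 1102 (cons (fin 1170 3 1102)
(fin 1101 0 1101))))))))))
(cons (mv 913 (cons (fin 977 6 912)
(mv 849 (cons (fin 912 6 848)
(mv 1233 (cons (fin 1169 4 976)
(mv 1232 (cons (fin 1297 4 1040)
(mv 1039 (cons (fin 975 7 975)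
(mv 1295 (cons (fin 1231 5 1039)
(mv 1296 (cons (fin 1103 7 1039)
(fin 1359 5 1103)))))))))))))))
(cons (mv 913 (cons (fin 977 6 912)
(mv 912 (cons (fin 849 6 848)
(mv 1103 (cons (fin 1167 5 911)
(mv 1039 (cons (fin 848 5 847)
(mv 1232 (cons (fin 975 7 975)
(fin 1296 7 1039)))))))))))
(mv 913 (cons (fin 977 6 912)
(mv 1231 (cons (fin 1167 5 975)
(mv 1232 (cons (fin 1295 5 1039)
(mv 1233 (cons (fin 1169 4 976)
(fin 1297 4 1040)))))))))))))
(mv 1168 (cons (cons (mv 911 (cons (fin 975 7 911)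
(mv 847 (cons (fin 912 7 847)
(mv 977 (cons (fin 913 6 912)
(mv 1232 (cons (fin 1041 6 976)
(mv 1233 (cons (fin 1169 4 976)
(fin 1297 4 1040)))))))))))
(mv 977 (cons (fin 913 6 912)
(mv 1232 (cons (fin 1041 6 976)
(mv 1233 (cons (fin 1169 4 976)
(fin 1297 4 1040))))))))
(cons (mv 975 (cons (fin 911 7 911)
(mv 1232 (cons (fin 1039 7 975)
(mv 1233 (cons (fin 1169 4 976)
(fin 1297 4 1040)))))))
(mv 911 (cons (fin 975 7 911)
(mv 912 (cons (fin 847 7 847)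
(mv 913 (cons (fin 849 6 848)
(fin 977 6 912)))))))))))
(cons (mv 1168 (cons (cons (mv 911 (cons (fin 975 7 911)
(mv 847 (cons (fin 912 7 847)
(mv 1231 (cons (fin 1167 5 975)
(mv 1232 (cons (fin 1295 5 1039)
(mv 1233 (cons (fin 1169 4 976)
(fin 1297 4 1040)))))))))))
(mv 1167 (cons (fin 1231 5 975)
(mv 1103 (cons (fin 912 5 911)
(mv 1169 (cons (fin 1233 4 976)
(mv 1102 (cons (fin 1170 3 1102)
(fin 1101 0 1101))))))))))
(cons (mv 975 (cons (fin 911 7 911)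
(mv 1232 (cons (fin 1039 7 975)
(mv 1233 (cons (fin 1169 4 976)
(fin 1297 4 1040)))))))
(mv 911 (cons (fin 975 7 911)
(mv 912 (cons (fin 847 7 847)
(mv 1167 (cons (fin 1103 5 911)
(fin 1231 5 975))))))))))
(mv 1168 (cons (cons (mv 913 (cons (fin 977 6 912)
(mv 849 (cons (fin 912 6 848)
(mv 1231 (cons (fin 1167 5 975)
(mv 1232 (cons (fin 1295 5 1039)
(mv 1233 (cons (fin 1169 4 976)
(fin 1297 4 1040)))))))))))
(mv 1167 (cons (fin 1231 5 975)
(mv 912 (cons (fin 1103 5 911)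
(mv 847 (cons (fin 911 7 847)
(mv 848 (cons (fin 783 7 783)
(mv 849 (cons (fin 785 6 784)
(fin 913 6 848))))))))))))
(cons (mv 977 (cons (fin 913 6 912)
(mv 1232 (cons (fin 1041 6 976)
(mv 1233 (cons (fin 1169 4 976)
(fin 1297 4 1040)))))))
(mv 1167 (cons (fin 1231 5 975)
(mv 1103 (cons (fin 912 5 911)
(mv 1169 (cons (fin 1233 4 976)
(mv 1102 (cons (fin 1170 3 1102)
(fin 1101 0 1101))))))))))))))))))
(cons (mv 1104 (cons (cons (mv 1168 (cons (cons (mv 911 (cons (fin 975 7 911)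
(mv 847 (cons (fin 912 7 847)
(mv 913 (cons (fin 977 6 912)
(mv 1231 (cons (fin 1167 5 975)
(mv 1232 (cons (fin 1295 5 1039)
(mv 1233 (cons (fin 1169 4 976)
(fin 1297 4 1040)))))))))))))
(cons (mv 913 (cons (fin 977 6 912)
(mv 849 (cons (fin 912 6 848)
(mv 1231 (cons (fin 1167 5 975)
(mv 1232 (cons (fin 1295 5 1039)
(mv 1233 (cons (fin 1169 4 976)
(fin 1297 4 1040)))))))))))
(mv 911 (cons (fin 975 7 911)
(mv 847 (cons (fin 912 7 847)
(mv 1231 (cons (fin 1167 5 975)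
(mv 1232 (cons (fin 1295 5 1039)
(mv 1233 (cons (fin 1169 4 976)
(fin 1297 4 1040)))))))))))))
(cons (cons (mv 911 (cons (fin 975 7 911)
(mv 847 (cons (fin 912 7 847)
(mv 977 (cons (fin 913 6 912)
(mv 1232 (cons (fin 1041 6 976)
(mv 1233 (cons (fin 1169 4 976)
(fin 1297 4 1040)))))))))))
(mv 911 (cons (fin 975 7 911)
(mv 847 (cons (fin 912 7 847)
(mv 977 (cons (fin 913 6 912)
(mv 1231 (cons (fin 1167 5 975)
(mv 1232 (cons (fin 1295 5 1039)
(fin 1041 6 976))))))))))))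
(cons (mv 911 (cons (fin 975 7 911)
(mv 912 (cons (fin 847 7 847)
(mv 913 (cons (fin 849 6 848)
(fin 977 6 912)))))))
(mv 911 (cons (fin 975 7 911)
(mv 913 (cons (fin 977 6 912)
(mv 1231 (cons (fin 1167 5 975)
(mv 1232 (cons (fin 1295 5 1039)
(mv 1233 (cons (fin 1169 4 976)
(fin 1297 4 1040)))))))))))))))
(cons (mv 912 (cons (cons (mv 847 (cons (fin 911 7 847)
(mv 848 (cons (fin 783 7 783)
(mv 849 (cons (fin 785 6 784)
(fin 913 6 848)))))))
(mv 849 (cons (fin 913 6 848)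
(mv 848 (cons (fin 785 6 784)
(mv 1103 (cons (fin 1039 5 847)
(fin 1167 5 911))))))))
(cons (mv 847 (cons (fin 911 7 847)
(mv 848 (cons (fin 783 7 783)
(mv 1103 (cons (fin 1039 5 847)
(fin 1167 5 911)))))))
(mv 911 (cons (fin 847 7 847)
(mv 913 (cons (fin 849 6 848)
(mv 1103 (cons (fin 1167 5 911)
(mv 914 (cons (mv 975 (cons (fin 974 1 910)
(fin 915 1 911)))
(cons (mv 851 (cons (fin 850 2 847)
(mv 915 (cons (fin 852 2 848)
(mv 979 (cons (fin 978 0 911)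
(fin 980 0 912)))))))
(mv 850 (cons (fin 851 2 847)
(mv 975 (cons (fin 974 1 910)
(mv 978 (cons (fin 979 0 911)
(mv 786 (cons (mv 977 (cons (fin 722 5 721)
(fin 1041 5 785)))
(cons (mv 721 (cons (fin 785 7 721)
(mv 722 (cons (fin 657 7 657)
(mv 723 (cons (fin 659 6 658)
(fin 787 6 722)))))))
(mv 721 (cons (fin 785 7 721)
(mv 723 (cons (fin 787 6 722)
(mv 1041 (cons (fin 977 5 785)
(mv 1042 (cons (fin 1043 3 975)
(mv 1102 (cons (fin 1039 1 1038)
(fin 1101 2 1037))))))))))))))))))))))))))))))))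
(mv 1168 (cons (cons (mv 911 (cons (fin 975 7 911)
(mv 913 (cons (fin 977 6 912)
(mv 1231 (cons (fin 1167 5 975)
(mv 1232 (cons (fin 1295 5 1039)
(mv 1233 (cons (fin 1169 4 976)
(fin 1297 4 1040)))))))))))
(cons (mv 913 (cons (fin 977 6 912)
(mv 1231 (cons (fin 1167 5 975)
(mv 1232 (cons (fin 1295 5 1039)
(mv 1233 (cons (fin 1169 4 976)
(fin 1297 4 1040)))))))))
(mv 911 (cons (fin 975 7 911)
(mv 1231 (cons (fin 1167 5 975)
(mv 1232 (cons (fin 1295 5 1039)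
(mv 1233 (cons (fin 1169 4 976)
(fin 1297 4 1040)))))))))))
(cons (mv 911 (cons (fin 975 7 911)
(mv 977 (cons (fin 913 6 912)
(mv 1232 (cons (fin 1041 6 976)
(mv 1233 (cons (fin 1169 4 976)
(fin 1297 4 1040)))))))))
(cons (mv 911 (cons (fin 975 7 911)
(mv 977 (cons (fin 913 6 912)
(mv 1231 (cons (fin 1167 5 975)
(mv 1232 (cons (fin 1295 5 1039)
(fin 1041 6 976)))))))))
(mv 911 (cons (fin 975 7 911)
(mv 913 (cons (fin 977 6 912)
(mv 1167 (cons (fin 1231 5 975)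
(mv 1169 (cons (fin 1233 4 976)
(mv 1166 (cons (cons (mv 1101 (cons (fin 1102 3 1101)
(mv 1165 (cons (fin 1100 3 1100)
(mv 1229 (cons (fin 1228 1 1164)
(fin 1230 1 1165)))))))
(mv 1229 (cons (fin 1230 1 1165)
(mv 1165 (cons (fin 1228 1 1164)
(mv 1100 (cons (fin 1101 3 1100)
(mv 1164 (cons (fin 1099 3 1099)
(fin 1103 2 1100))))))))))
(cons (mv 1229 (cons (fin 1230 1 1165)
(mv 1165 (cons (fin 1228 1 1164)
(mv 1103 (cons (fin 1164 2 1100)
(mv 1170 (cons (fin 1102 3 1102)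
(fin 1171 3 1103)))))))))
(mv 1102 (cons (fin 1101 3 1101)
(mv 1170 (cons (fin 1103 3 1102)
(mv 1107 (cons (fin 1106 2 1103)
(mv 1171 (cons (fin 1108 2 1104)
(mv 1235 (cons (fin 1234 0 1167)
(fin 1236 0 1168))))))))))))))))))))))))))))
(cons (cons (mv 1168 (cons (cons (mv 911 (cons (fin 975 7 911)
(mv 847 (cons (fin 912 7 847)
(mv 1231 (cons (fin 1167 5 975)
(mv 1232 (cons (fin 1295 5 1039)
(mv 1233 (cons (fin 1169 4 976)
(fin 1297 4 1040)))))))))))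
(mv 1167 (cons (fin 1231 5 975)
(mv 1103 (cons (fin 912 5 911)
(mv 1169 (cons (fin 1233 4 976)
(mv 1102 (cons (fin 1170 3 1102)
(fin 1101 0 1101))))))))))
(cons (mv 975 (cons (fin 911 7 911)
(mv 1232 (cons (fin 1039 7 975)
(mv 1233 (cons (fin 1169 4 976)
(fin 1297 4 1040)))))))
(mv 911 (cons (fin 975 7 911)
(mv 912 (cons (fin 847 7 847)
(mv 1167 (cons (fin 1103 5 911)
(fin 1231 5 975))))))))))
(mv 1168 (cons (cons (mv 911 (cons (fin 975 7 911)
(mv 847 (cons (fin 912 7 847)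
(mv 977 (cons (fin 913 6 912)
(mv 1232 (cons (fin 1041 6 976)
(mv 1233 (cons (fin 1169 4 976)
(fin 1297 4 1040)))))))))))
(mv 977 (cons (fin 913 6 912)
(mv 1232 (cons (fin 1041 6 976)
(mv 1233 (cons (fin 1169 4 976)
(fin 1297 4 1040))))))))
(cons (mv 975 (cons (fin 911 7 911)
(mv 1232 (cons (fin 1039 7 975)
(mv 1233 (cons (fin 1169 4 976)
(fin 1297 4 1040)))))))
(mv 911 (cons (fin 975 7 911)
(mv 912 (cons (fin 847 7 847)
(mv 913 (cons (fin 849 6 848)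
(fin 977 6 912)))))))))))
(cons (mv 1168 (cons (cons (mv 913 (cons (fin 977 6 912)
(mv 849 (cons (fin 912 6 848)
(mv 1231 (cons (fin 1167 5 975)
(mv 1232 (cons (fin 1295 5 1039)
(mv 1233 (cons (fin 1169 4 976)
(fin 1297 4 1040)))))))))))
(mv 1167 (cons (fin 1231 5 975)
(mv 1103 (cons (fin 912 5 911)
(mv 1169 (cons (fin 1233 4 976)
(mv 1102 (cons (fin 1170 3 1102)
(fin 1101 0 1101))))))))))
(cons (mv 913 (cons (fin 977 6 912)
(mv 849 (cons (fin 912 6 848)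
(mv 1233 (cons (fin 1169 4 976)
(mv 1232 (cons (fin 1297 4 1040)
(mv 1039 (cons (fin 975 7 975)
(mv 1295 (cons (fin 1231 5 1039)
(mv 1296 (cons (fin 1103 7 1039)
(fin 1359 5 1103)))))))))))))))
(cons (mv 913 (cons (fin 977 6 912)
(mv 912 (cons (fin 849 6 848)
(mv 1103 (cons (fin 1167 5 911)
(mv 1039 (cons (fin 848 5 847)
(mv 1232 (cons (fin 975 7 975)
(fin 1296 7 1039)))))))))))
(mv 913 (cons (fin 977 6 912)
(mv 1231 (cons (fin 1167 5 975)
(mv 1232 (cons (fin 1295 5 1039)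
(mv 1233 (cons (fin 1169 4 976)
(fin 1297 4 1040)))))))))))))
(mv 1168 (cons (cons (mv 913 (cons (fin 977 6 912)
(mv 849 (cons (fin 912 6 848)
(mv 1231 (cons (fin 1167 5 975)
(mv 1232 (cons (fin 1295 5 1039)
(mv 1233 (cons (fin 1169 4 976)
(fin 1297 4 1040)))))))))))
(mv 1167 (cons (fin 1231 5 975)
(mv 912 (cons (fin 1103 5 911)
(mv 847 (cons (fin 911 7 847)
(mv 848 (cons (fin 783 7 783)
(mv 849 (cons (fin 785 6 784)
(fin 913 6 848))))))))))))
(cons (mv 977 (cons (fin 913 6 912)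
(mv 1232 (cons (fin 1041 6 976)
(mv 1233 (cons (fin 1169 4 976)
(fin 1297 4 1040)))))))
(mv 1167 (cons (fin 1231 5 975)
(mv 1103 (cons (fin 912 5 911)
(mv 1169 (cons (fin 1233 4 976)
(mv 1102 (cons (fin 1170 3 1102)
(fin 1101 0 1101))))))))))))))))
(cons (ref 2 0)
(ref 1 0)))))
(cons (cons (cons (mv 1039 (cons (cons (cons (mv 1103 (cons (cons (mv 912 (cons (fin 848 5 847)
(mv 1167 (cons (fin 1104 5 911)
(fin 975 6 911)))))
(mv 912 (cons (fin 848 5 847)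
(mv 1104 (cons (cons (mv 911 (cons (fin 847 7 847)
(mv 975 (cons (fin 1168 7 911)
(mv 846 (cons (fin 910 7 846)
(mv 1102 (cons (fin 1166 5 910)
(mv 1041 (cons (fin 1042 1 1038)
(fin 1101 2 1037)))))))))))
(cons (mv 1041 (cons (mv 1042 (cons (fin 1102 1 1038)
(fin 1043 1 1039)))
(cons (mv 1102 (cons (fin 1101 2 1037)
(mv 1038 (cons (mv 977 (cons (fin 1037 2 973)
(fin 978 2 974)))
(cons (mv 974 (cons (fin 973 3 973)
(mv 910 (cons (fin 846 4 846)
(mv 909 (cons (fin 845 7 845)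
(mv 977 (cons (fin 975 3 909)
(fin 978 2 974)))))))))
(mv 973 (cons (fin 974 3 973)
(mv 1037 (cons (fin 972 3 972)
(fin 1036 0 1036))))))))))
(mv 1042 (cons (fin 1043 1 1039)
(mv 974 (cons (fin 975 3 974)
(mv 978 (cons (fin 979 2 975)
(mv 1038 (cons (fin 973 3 973)
(fin 977 2 974))))))))))))
(mv 911 (cons (fin 847 7 847)
(mv 1041 (cons (mv 1042 (cons (fin 1102 1 1038)
(fin 1043 1 1039)))
(cons (mv 1042 (cons (fin 1043 1 1039)
(mv 978 (cons (fin 979 2 975)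
(mv 977 (cons (fin 1038 2 974)
(mv 909 (cons (fin 910 0 909)
(mv 1106 (cons (fin 1107 0 1039)
(mv 1168 (cons (fin 1232 6 976)
(mv 1169 (cons (fin 1233 4 976)
(mv 1170 (cons (fin 1171 3 1103)
(fin 1234 7 977)))))))))))))))))
(mv 1101 (cons (fin 1102 2 1037)
(mv 1038 (cons (mv 977 (cons (fin 1037 2 973)
(fin 978 2 974)))
(cons (mv 974 (cons (fin 973 3 973)
(mv 910 (cons (fin 846 4 846)
(mv 977 (cons (fin 978 2 974)
(fin 909 0 909)))))))
(mv 1037 (cons (fin 1100 1 1036)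
(fin 1036 0 1036)))))))))))))))
(cons (mv 911 (cons (fin 847 7 847)
(mv 975 (cons (fin 1168 7 911)
(mv 846 (cons (fin 910 7 846)
(mv 1102 (cons (fin 1166 5 910)
(mv 1101 (cons (fin 1100 2 1036)
(mv 1037 (cons (fin 1036 3 1036)
(mv 1038 (cons (fin 977 2 973)
(mv 972 (cons (fin 973 3 972)
(mv 1165 (cons (fin 1164 1 1100)
(mv 1229 (cons (fin 974 6 973)
(fin 1293 6 1037)))))))))))))))))))))
(cons (mv 911 (cons (fin 847 7 847)
(mv 975 (cons (fin 1168 7 911)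
(mv 910 (cons (fin 846 7 846)
(mv 909 (cons (fin 908 0 908)
(fin 977 0 909)))))))))
(mv 911 (cons (fin 847 7 847)
(mv 975 (cons (fin 1168 7 911)
(mv 1102 (cons (fin 1166 5 910)
(mv 1041 (cons (fin 1042 1 1038)
(fin 1101 2 1037))))))))))))))))
(cons (mv 1167 (cons (fin 1231 6 975)
(mv 975 (cons (mv 910 (cons (fin 974 7 910)
(mv 911 (cons (fin 846 7 846)
(mv 847 (cons (fin 783 4 783)
(fin 1104 4 847)))))))
(cons (mv 1166 (cons (fin 1230 5 974)
(mv 911 (cons (fin 1102 5 910)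
(mv 847 (cons (fin 783 4 783)
(fin 1104 4 847)))))))
(mv 974 (cons (fin 910 7 910)
(mv 973 (cons (fin 972 0 972)
(fin 1041 0 973))))))))))
(cons (mv 912 (cons (fin 848 5 847)
(mv 1167 (cons (fin 1104 5 911)
(fin 1231 6 975)))))
(mv 912 (cons (fin 848 5 847)
(mv 1167 (cons (fin 975 6 911)
(fin 1231 6 975)))))))))
(cons (mv 1038 (cons (cons (mv 977 (cons (fin 1037 2 973)
(mv 978 (cons (fin 975 1 974)
(fin 979 1 975)))))
(mv 1041 (cons (cons (mv 973 (cons (fin 974 3 973)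
(mv 978 (cons (fin 977 2 974)
(mv 1042 (cons (fin 979 2 975)
(mv 1043 (cons (fin 975 3 975)
(mv 1107 (cons (fin 1106 0 1039)
(fin 1108 0 1040)))))))))))
(mv 974 (cons (fin 973 3 973)
(mv 975 (cons (fin 1042 3 974)
(mv 1102 (cons (fin 1101 1 1037)
(mv 911 (cons (fin 847 5 846)
(fin 1166 6 910))))))))))
(cons (mv 978 (cons (fin 977 2 974)
(mv 1042 (cons (fin 979 2 975)
(mv 1043 (cons (fin 975 3 975)
(mv 1107 (cons (fin 1106 0 1039)
(fin 1108 0 1040)))))))))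
(cons (mv 973 (cons (fin 974 3 973)
(mv 1101 (cons (fin 1102 1 1037)
(mv 1042 (cons (cons (mv 978 (cons (fin 977 2 974)
(fin 979 2 975)))
(mv 1107 (cons (fin 1106 0 1039)
(mv 1043 (cons (fin 1108 0 1040)
(mv 980 (cons (fin 979 2 976)
(mv 1044 (cons (fin 977 3 976)
(fin 981 2 977))))))))))
(cons (mv 979 (cons (fin 978 2 975)
(mv 1043 (cons (fin 980 2 976)
(mv 1107 (cons (fin 1106 0 1039)
(fin 1108 0 1040)))))))
(mv 977 (cons (fin 978 2 974)
(mv 1043 (cons (fin 1044 3 976)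
(mv 1107 (cons (fin 1106 0 1039)
(fin 1108 0 1040))))))))))))))
(mv 974 (cons (fin 973 3 973)
(mv 977 (cons (fin 978 2 974)
(mv 1102 (cons (fin 1101 1 1037)
(mv 1166 (cons (mv 975 (cons (fin 911 6 910)
(fin 1230 6 974)))
(cons (mv 1229 (cons (fin 1165 5 973)
(mv 1230 (cons (fin 1293 5 1037)
(mv 1231 (cons (fin 1167 4 974)
(fin 1295 4 1038)))))))
(mv 911 (cons (fin 975 6 910)
(mv 847 (cons (fin 910 6 846)
(mv 912 (cons (fin 1104 7 847)
(mv 783 (cons (fin 848 7 783)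
(fin 719 4 719)))))))))))))))))))))))
(cons (mv 1037 (cons (mv 972 (cons (fin 973 3 972)
(mv 1036 (cons (fin 971 3 971)
(fin 975 2 972)))))
(cons (mv 973 (cons (fin 972 3 972)
(mv 974 (cons (fin 1041 3 973)
(mv 1101 (cons (fin 1100 1 1036)
(mv 910 (cons (fin 846 5 845)
(fin 1165 6 909)))))))))
(mv 975 (cons (fin 1036 2 972)
(mv 1101 (cons (fin 1100 1 1036)
(mv 1041 (cons (fin 1102 1 1037)
(mv 1042 (cons (fin 974 3 974)
(fin 1043 3 975))))))))))))
(mv 977 (cons (fin 1037 2 973)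
(mv 978 (cons (fin 979 1 975)
(fin 1041 2 974))))))))
(mv 912 (cons (cons (mv 848 (cons (fin 1103 5 847)
(mv 783 (cons (fin 847 7 783)
(mv 784 (cons (fin 719 7 719)
(fin 975 5 783)))))))
(mv 848 (cons (mv 783 (cons (fin 847 7 783)
(mv 784 (cons (fin 719 7 719)
(fin 975 5 783)))))
(cons (mv 847 (cons (fin 783 7 783)
(mv 849 (cons (fin 785 6 784)
(mv 911 (cons (fin 1104 7 847)
(mv 850 (cons (fin 910 1 846)
(fin 851 1 847)))))))))
(mv 784 (cons (fin 975 5 783)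
(mv 785 (cons (fin 721 6 720)
(fin 849 6 784)))))))))
(cons (mv 1104 (cons (cons (mv 847 (cons (fin 911 7 847)
(mv 1167 (cons (fin 1103 5 911)
(mv 1168 (cons (fin 1231 5 975)
(mv 1232 (cons (fin 975 7 975)
(mv 1233 (cons (fin 1169 4 976)
(fin 1297 4 1040)))))))))))
(cons (mv 911 (cons (fin 847 7 847)
(mv 1168 (cons (fin 975 7 911)
(mv 1233 (cons (fin 1169 4 976)
(mv 1232 (cons (fin 1297 4 1040)
(mv 1295 (cons (fin 1231 5 1039)
(mv 1296 (cons (fin 1103 7 1039)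
(fin 1359 5 1103)))))))))))))
(mv 911 (cons (fin 847 7 847)
(mv 1168 (cons (fin 975 7 911)
(mv 1231 (cons (fin 1167 5 975)
(mv 1232 (cons (fin 1295 5 1039)
(mv 1233 (cons (fin 1169 4 976)
(fin 1297 4 1040)))))))))))))
(cons (mv 1167 (cons (fin 1103 5 911)
(mv 1168 (cons (fin 1231 5 975)
(mv 1232 (cons (fin 975 7 975)
(mv 1233 (cons (fin 1169 4 976)
(fin 1297 4 1040)))))))))
(cons (mv 847 (cons (fin 911 7 847)
(mv 1168 (cons (cons (mv 1167 (cons (fin 1103 5 911)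
(fin 1231 5 975)))
(mv 1233 (cons (fin 1169 4 976)
(mv 1232 (cons (fin 1297 4 1040)
(mv 1295 (cons (fin 1231 5 1039)
(mv 1296 (cons (fin 1103 7 1039)
(fin 1359 5 1103))))))))))
(cons (mv 1231 (cons (fin 1167 5 975)
(mv 1232 (cons (fin 1295 5 1039)
(mv 1233 (cons (fin 1169 4 976)
(fin 1297 4 1040)))))))
(mv 1103 (cons (fin 1167 5 911)
(mv 1232 (cons (fin 1296 7 1039)
(mv 1233 (cons (fin 1169 4 976)
(fin 1297 4 1040))))))))))))
(mv 911 (cons (fin 847 7 847)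
(mv 1103 (cons (fin 1167 5 911)
(mv 1102 (cons (mv 1041 (cons (fin 1042 1 1038)
(fin 1101 2 1037)))
(cons (mv 975 (cons (fin 1166 5 910)
(mv 910 (cons (fin 846 7 846)
(mv 909 (cons (fin 908 0 908)
(mv 844 (cons (fin 845 3 844)
(mv 973 (cons (fin 972 1 908)
(mv 1041 (cons (fin 1042 1 1038)
(fin 974 0 973)))))))))))))
(mv 975 (cons (fin 1166 5 910)
(mv 910 (cons (fin 846 7 846)
(mv 908 (cons (fin 909 0 908)
(mv 1101 (cons (fin 1100 2 1036)
(mv 1037 (cons (fin 1036 3 1036)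
(mv 1165 (cons (fin 1164 1 1100)
(mv 973 (cons (fin 972 7 908)
(fin 974 6 909))))))))))))))))))))))))))
(cons (mv 848 (cons (fin 1103 5 847)
(mv 783 (cons (fin 847 7 783)
(mv 784 (cons (fin 719 7 719)
(mv 785 (cons (fin 721 6 720)
(fin 849 6 784)))))))))
(mv 848 (cons (fin 1103 5 847)
(mv 784 (cons (fin 975 5 783)
(mv 785 (cons (fin 721 6 720)
(fin 849 6 784)))))))))))))
(cons (mv 977 (cons (cons (mv 978 (cons (fin 979 1 975)
(mv 1038 (cons (fin 975 1 974)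
(fin 1037 2 973)))))
(mv 1038 (cons (fin 1037 2 973)
(mv 1041 (cons (cons (mv 973 (cons (fin 974 3 973)
(mv 1102 (cons (fin 1101 1 1037)
(mv 1042 (cons (fin 1103 1 1038)
(mv 1043 (cons (fin 975 3 975)
(fin 1044 3 976)))))))))
(cons (mv 1102 (cons (fin 1101 1 1037)
(mv 1042 (cons (fin 1103 1 1038)
(mv 1043 (cons (fin 975 3 975)
(fin 1044 3 976)))))))
(mv 974 (cons (fin 973 3 973)
(mv 975 (cons (fin 1042 3 974)
(mv 910 (cons (fin 909 3 909)
(mv 846 (cons (fin 782 4 782)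
(fin 1103 4 846)))))))))))
(cons (mv 974 (cons (fin 973 3 973)
(mv 1102 (cons (fin 1101 1 1037)
(mv 910 (cons (mv 909 (cons (fin 975 3 909)
(fin 845 7 845)))
(mv 1103 (cons (fin 846 4 846)
(fin 1167 4 910)))))))))
(cons (mv 973 (cons (fin 974 3 973)
(mv 1102 (cons (fin 1101 1 1037)
(mv 1042 (cons (fin 1103 1 1038)
(mv 1043 (cons (fin 1044 3 976)
(mv 1107 (cons (fin 1106 0 1039)
(fin 1108 0 1040)))))))))))
(mv 974 (cons (fin 973 3 973)
(mv 975 (cons (fin 1042 3 974)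
(mv 909 (cons (fin 910 3 909)
(mv 1102 (cons (fin 1101 1 1037)
(mv 911 (cons (fin 847 5 846)
(fin 1166 6 910))))))))))))))))))
(cons (mv 978 (cons (fin 979 1 975)
(mv 975 (cons (cons (mv 910 (cons (fin 911 3 910)
(mv 914 (cons (fin 915 2 911)
(mv 974 (cons (fin 909 3 909)
(mv 973 (cons (fin 972 0 972)
(fin 1041 0 973)))))))))
(mv 914 (cons (fin 915 2 911)
(mv 1042 (cons (fin 1043 0 975)
(mv 974 (cons (fin 1041 3 974)
(mv 909 (cons (fin 910 3 909)
(mv 973 (cons (fin 908 3 908)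
(fin 972 0 972))))))))))))
(cons (mv 914 (cons (fin 915 2 911)
(mv 1042 (cons (fin 1043 0 975)
(mv 1041 (cons (fin 974 3 974)
(mv 786 (cons (fin 850 5 785)
(mv 1103 (cons (fin 1102 1 1038)
(mv 1106 (cons (fin 1107 0 1039)
(mv 1167 (cons (fin 1231 6 975)
(mv 1166 (cons (fin 1230 5 974)
(mv 1168 (cons (fin 1232 4 975)
(mv 1104 (cons (fin 911 7 911)
(mv 1164 (cons (fin 1165 2 1100)
(mv 1169 (cons (fin 1233 4 976)
(mv 1170 (cons (fin 1171 3 1103)
(fin 1234 7 977)))))))))))))))))))))))))))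
(cons (mv 910 (cons (fin 911 3 910)
(mv 974 (cons (fin 909 3 909)
(mv 973 (cons (fin 972 0 972)
(fin 1041 0 973)))))))
(mv 911 (cons (fin 910 3 910)
(mv 847 (cons (fin 783 4 783)
(fin 1104 4 847)))))))))))
(mv 978 (cons (fin 979 1 975)
(mv 1038 (cons (fin 1037 2 973)
(fin 1041 2 974))))))))
(cons (mv 977 (cons (cons (mv 978 (cons (fin 979 1 975)
(mv 1038 (cons (fin 975 1 974)
(fin 1037 2 973)))))
(mv 1038 (cons (fin 1037 2 973)
(mv 1041 (cons (cons (mv 973 (cons (fin 974 3 973)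
(mv 1102 (cons (fin 1101 1 1037)
(mv 1042 (cons (fin 1103 1 1038)
(mv 1043 (cons (fin 975 3 975)
(fin 1044 3 976)))))))))
(cons (mv 1102 (cons (fin 1101 1 1037)
(mv 1042 (cons (fin 1103 1 1038)
(mv 1043 (cons (fin 975 3 975)
(fin 1044 3 976)))))))
(mv 974 (cons (fin 973 3 973)
(mv 975 (cons (fin 1042 3 974)
(mv 910 (cons (fin 909 3 909)
(mv 846 (cons (fin 782 4 782)
(fin 1103 4 846)))))))))))
(cons (mv 974 (cons (fin 973 3 973)
(mv 1101 (cons (fin 1102 1 1037)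
(mv 910 (cons (cons (mv 846 (cons (fin 1103 4 846)
(mv 975 (cons (fin 909 3 909)
(fin 782 4 782)))))
(mv 909 (cons (fin 975 3 909)
(mv 912 (cons (fin 911 0 909)
(mv 848 (cons (fin 1103 5 847)
(fin 784 4 784))))))))
(cons (mv 846 (cons (fin 1103 4 846)
(mv 781 (cons (fin 845 7 781)
(mv 782 (cons (fin 717 7 717)
(mv 783 (cons (fin 719 6 718)
(fin 847 6 782)))))))))
(mv 909 (cons (fin 975 3 909)
(mv 912 (cons (fin 911 0 909)
(mv 848 (cons (fin 784 4 784)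
(mv 847 (cons (fin 783 7 783)
(mv 849 (cons (fin 846 1 845)
(fin 785 6 784))))))))))))))))))
(cons (mv 973 (cons (fin 974 3 973)
(mv 1102 (cons (fin 1101 1 1037)
(mv 1042 (cons (fin 1103 1 1038)
(mv 1043 (cons (fin 1044 3 976)
(mv 1107 (cons (fin 1106 0 1039)
(fin 1108 0 1040)))))))))))
(mv 974 (cons (fin 973 3 973)
(mv 975 (cons (fin 1042 3 974)
(mv 909 (cons (fin 910 3 909)
(mv 1102 (cons (fin 1101 1 1037)
(mv 911 (cons (fin 847 5 846)
(fin 1166 6 910))))))))))))))))))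
(cons (mv 978 (cons (fin 979 1 975)
(mv 975 (cons (cons (mv 910 (cons (fin 911 3 910)
(mv 914 (cons (fin 915 2 911)
(mv 974 (cons (fin 909 3 909)
(mv 973 (cons (fin 972 0 972)
(fin 1041 0 973)))))))))
(mv 914 (cons (fin 915 2 911)
(mv 1042 (cons (fin 1043 0 975)
(mv 974 (cons (fin 1041 3 974)
(mv 909 (cons (fin 910 3 909)
(mv 973 (cons (fin 908 3 908)
(fin 972 0 972))))))))))))
(cons (mv 914 (cons (fin 915 2 911)
(mv 1042 (cons (fin 1043 0 975)
(mv 1041 (cons (fin 974 3 974)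
(mv 850 (cons (fin 786 5 785)
(mv 849 (cons (fin 785 7 785)
(mv 851 (cons (fin 787 6 786)
(mv 1103 (cons (fin 1102 1 1038)
(mv 848 (cons (fin 912 5 847)
(mv 783 (cons (fin 784 3 783)
(mv 847 (cons (fin 782 3 782)
(fin 911 4 783)))))))))))))))))))))
(cons (mv 910 (cons (fin 911 3 910)
(mv 974 (cons (fin 909 3 909)
(mv 973 (cons (fin 972 0 972)
(fin 1041 0 973)))))))
(mv 911 (cons (fin 910 3 910)
(mv 847 (cons (fin 783 4 783)
(fin 1104 4 847)))))))))))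
(mv 978 (cons (fin 979 1 975)
(mv 1038 (cons (fin 1037 2 973)
(fin 1041 2 974))))))))
(mv 912 (cons (cons (mv 848 (cons (fin 1103 5 847)
(mv 783 (cons (fin 847 7 783)
(mv 784 (cons (fin 719 7 719)
(fin 975 5 783)))))))
(mv 1104 (cons (cons (mv 847 (cons (fin 911 7 847)
(mv 1167 (cons (fin 1103 5 911)
(mv 1168 (cons (fin 1231 5 975)
(mv 1232 (cons (fin 975 7 975)
(mv 1233 (cons (fin 1169 4 976)
(fin 1297 4 1040)))))))))))
(cons (mv 911 (cons (fin 847 7 847)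
(mv 1168 (cons (fin 975 7 911)
(mv 1233 (cons (fin 1169 4 976)
(mv 1232 (cons (fin 1297 4 1040)
(mv 977 (cons (fin 1041 6 976)
(mv 909 (cons (fin 910 0 909)
(mv 978 (cons (fin 979 3 911)
(mv 1295 (cons (fin 1231 5 1039)
(mv 1296 (cons (fin 1103 7 1039)
(fin 1359 5 1103)))))))))))))))))))
(mv 911 (cons (fin 847 7 847)
(mv 1168 (cons (fin 975 7 911)
(mv 1231 (cons (fin 1167 5 975)
(mv 1232 (cons (fin 1295 5 1039)
(mv 1233 (cons (fin 1169 4 976)
(fin 1297 4 1040)))))))))))))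
(cons (mv 1167 (cons (fin 1103 5 911)
(mv 1168 (cons (fin 1231 5 975)
(mv 1232 (cons (fin 975 7 975)
(mv 1233 (cons (fin 1169 4 976)
(fin 1297 4 1040)))))))))
(cons (mv 847 (cons (fin 911 7 847)
(mv 1168 (cons (cons (mv 1167 (cons (fin 1103 5 911)
(fin 1231 5 975)))
(mv 1233 (cons (fin 1169 4 976)
(mv 1232 (cons (fin 1297 4 1040)
(mv 977 (cons (fin 1041 6 976)
(mv 978 (cons (fin 979 1 975)
(mv 1295 (cons (fin 1231 5 1039)
(mv 1296 (cons (fin 1103 7 1039)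
(fin 1359 5 1103))))))))))))))
(cons (mv 1231 (cons (fin 1167 5 975)
(mv 1232 (cons (fin 1295 5 1039)
(mv 1233 (cons (fin 1169 4 976)
(fin 1297 4 1040)))))))
(mv 1103 (cons (fin 1167 5 911)
(mv 1169 (cons (fin 1233 4 976)
(mv 1102 (cons (fin 1101 0 1101)
(mv 1041 (cons (fin 1042 1 1038)
(mv 1232 (cons (fin 1296 7 1039)
(fin 977 6 976))))))))))))))))
(mv 911 (cons (fin 847 7 847)
(mv 1103 (cons (fin 1167 5 911)
(mv 1102 (cons (mv 1041 (cons (fin 1042 1 1038)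
(fin 1101 2 1037)))
(mv 975 (cons (fin 1166 5 910)
(mv 910 (cons (fin 846 7 846)
(mv 909 (cons (fin 908 0 908)
(fin 977 0 909))))))))))))))))))
(cons (mv 848 (cons (mv 783 (cons (fin 847 7 783)
(mv 784 (cons (fin 719 7 719)
(fin 975 5 783)))))
(cons (mv 847 (cons (fin 783 7 783)
(mv 849 (cons (fin 785 6 784)
(mv 911 (cons (fin 1104 7 847)
(mv 850 (cons (fin 910 1 846)
(fin 851 1 847)))))))))
(mv 784 (cons (fin 975 5 783)
(mv 785 (cons (fin 721 6 720)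
(fin 849 6 784))))))))
(cons (mv 848 (cons (fin 1103 5 847)
(mv 783 (cons (fin 847 7 783)
(mv 784 (cons (fin 719 7 719)
(mv 785 (cons (fin 721 6 720)
(fin 849 6 784)))))))))
(mv 848 (cons (fin 1103 5 847)
(mv 784 (cons (fin 975 5 783)
(mv 785 (cons (fin 721 6 720)
(fin 849 6 784))))))))))))))
(cons (cons (mv 1103 (cons (cons (mv 912 (cons (fin 848 5 847)
(mv 1167 (cons (fin 1104 5 911)
(fin 1231 6 975)))))
(mv 912 (cons (fin 848 5 847)
(mv 1102 (cons (cons (mv 1041 (cons (fin 1042 1 1038)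
(mv 1101 (cons (fin 1038 1 1037)
(fin 1100 2 1036)))))
(mv 1041 (cons (fin 1042 1 1038)
(mv 1038 (cons (mv 977 (cons (fin 1037 2 973)
(fin 978 2 974)))
(cons (mv 973 (cons (fin 974 3 973)
(mv 1037 (cons (fin 972 3 972)
(mv 1036 (cons (fin 1035 0 1035)
(fin 1104 0 1036)))))))
(mv 974 (cons (fin 973 3 973)
(mv 910 (cons (fin 846 4 846)
(mv 909 (cons (fin 845 7 845)
(mv 911 (cons (fin 977 0 909)
(fin 847 6 846)))))))))))))))
(cons (mv 1101 (cons (fin 1100 2 1036)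
(mv 1104 (cons (cons (mv 847 (cons (fin 911 7 847)
(mv 1036 (cons (fin 1037 3 1036)
(mv 1165 (cons (fin 1164 1 1100)
(mv 1168 (cons (fin 1169 0 1101)
(mv 1232 (cons (fin 1296 7 1039)
(mv 1231 (cons (fin 1295 5 1039)
(mv 1233 (cons (fin 1297 4 1040)
(mv 1230 (cons (fin 1166 3 1165)
(mv 1293 (cons (fin 1294 1 1229)
(mv 1229 (cons (fin 1292 1 1228)
(fin 1038 6 1037)))))))))))))))))))))
(cons (mv 847 (cons (fin 911 7 847)
(mv 1165 (cons (fin 1164 1 1100)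
(mv 1168 (cons (fin 1169 0 1101)
(mv 1232 (cons (fin 1296 7 1039)
(mv 1231 (cons (fin 1295 5 1039)
(mv 1233 (cons (fin 1297 4 1040)
(mv 1230 (cons (fin 1166 3 1165)
(mv 1293 (cons (fin 1294 1 1229)
(mv 1229 (cons (fin 1292 1 1228)
(fin 1038 6 1037)))))))))))))))))))
(mv 847 (cons (fin 911 7 847)
(mv 1037 (cons (fin 1036 3 1036)
(mv 1038 (cons (fin 977 2 973)
(mv 972 (cons (fin 973 3 972)
(mv 1165 (cons (fin 1164 1 1100)
(mv 974 (cons (fin 910 5 909)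
(fin 1229 6 973)))))))))))))))
(cons (mv 847 (cons (fin 911 7 847)
(mv 1037 (cons (fin 1036 3 1036)
(mv 1038 (cons (fin 977 2 973)
(mv 973 (cons (fin 972 3 972)
(mv 909 (cons (fin 845 4 845)
(fin 1166 4 909)))))))))))
(cons (mv 1036 (cons (fin 1037 3 1036)
(mv 1165 (cons (fin 1164 1 1100)
(mv 1168 (cons (fin 1169 0 1101)
(mv 1232 (cons (fin 1296 7 1039)
(mv 1231 (cons (fin 1295 5 1039)
(mv 1233 (cons (fin 1297 4 1040)
(mv 1230 (cons (fin 1166 3 1165)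
(mv 1293 (cons (fin 1294 1 1229)
(mv 1229 (cons (fin 1292 1 1228)
(fin 1038 6 1037)))))))))))))))))))
(mv 847 (cons (fin 911 7 847)
(mv 1037 (cons (fin 1036 3 1036)
(mv 1165 (cons (fin 1164 1 1100)
(mv 1168 (cons (fin 1169 0 1101)
(mv 1232 (cons (fin 1296 7 1039)
(mv 1231 (cons (fin 1295 5 1039)
(mv 1233 (cons (fin 1297 4 1040)
(mv 1230 (cons (fin 1166 3 1165)
(mv 1294 (cons (fin 1293 1 1229)
(fin 1229 4 1037)))))))))))))))))))))))))
(mv 1041 (cons (fin 1042 1 1038)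
(mv 1101 (cons (fin 1100 2 1036)
(fin 1104 2 1037)))))))))))
(cons (mv 1167 (cons (fin 1231 6 975)
(mv 1102 (cons (cons (mv 1041 (cons (fin 1042 1 1038)
(mv 1101 (cons (fin 1038 1 1037)
(fin 1100 2 1036)))))
(mv 1041 (cons (fin 1042 1 1038)
(mv 1038 (cons (mv 974 (cons (fin 973 3 973)
(fin 910 4 910)))
(mv 977 (cons (fin 1037 2 973)
(fin 978 2 974))))))))
(cons (mv 1101 (cons (fin 1100 2 1036)
(mv 1104 (cons (cons (mv 1036 (cons (fin 1037 3 1036)
(mv 1165 (cons (fin 1164 1 1100)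
(mv 1168 (cons (fin 1169 0 1101)
(mv 1232 (cons (fin 1296 7 1039)
(mv 1233 (cons (fin 1166 0 1165)
(fin 1297 4 1040)))))))))))
(mv 1037 (cons (fin 1036 3 1036)
(mv 1038 (cons (fin 977 2 973)
(mv 910 (cons (fin 974 4 910)
(mv 972 (cons (fin 973 3 972)
(mv 1165 (cons (fin 1164 1 1100)
(mv 1229 (cons (fin 1293 6 1037)
(mv 1228 (cons (fin 1292 5 1036)
(mv 1230 (cons (fin 1294 4 1037)
(mv 1227 (cons (fin 1166 2 1163)
(mv 1162 (cons (fin 1163 3 1162)
(mv 1226 (cons (fin 1161 3 1161)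
(mv 1290 (cons (fin 1289 1 1225)
(fin 1291 1 1226))))))))))))))))))))))))))
(cons (mv 1165 (cons (fin 1164 1 1100)
(mv 1168 (cons (fin 1169 0 1101)
(mv 1232 (cons (fin 1296 7 1039)
(mv 1233 (cons (fin 1166 0 1165)
(fin 1297 4 1040)))))))))
(mv 1037 (cons (fin 1036 3 1036)
(mv 1038 (cons (fin 977 2 973)
(mv 910 (cons (fin 974 4 910)
(mv 973 (cons (fin 972 3 972)
(mv 909 (cons (fin 846 6 845)
(fin 845 4 845))))))))))))))))
(mv 1041 (cons (fin 1042 1 1038)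
(mv 1101 (cons (fin 1100 2 1036)
(fin 1104 2 1037))))))))))
(cons (mv 912 (cons (fin 848 5 847)
(mv 1167 (cons (fin 1104 5 911)
(mv 1038 (cons (cons (mv 977 (cons (fin 1037 2 973)
(mv 978 (cons (fin 979 1 975)
(fin 1041 2 974)))))
(mv 1041 (cons (mv 1102 (cons (fin 1101 1 1037)
(fin 1042 1 1038)))
(cons (mv 973 (cons (fin 974 3 973)
(mv 1042 (cons (cons (mv 978 (cons (fin 977 2 974)
(fin 979 2 975)))
(mv 1107 (cons (fin 1106 0 1039)
(mv 1043 (cons (fin 1108 0 1040)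
(mv 980 (cons (fin 979 2 976)
(mv 1044 (cons (fin 977 3 976)
(fin 981 2 977))))))))))
(cons (mv 979 (cons (fin 978 2 975)
(mv 1043 (cons (fin 980 2 976)
(mv 1107 (cons (fin 1106 0 1039)
(fin 1108 0 1040)))))))
(mv 977 (cons (fin 978 2 974)
(mv 1043 (cons (fin 1044 3 976)
(mv 1107 (cons (fin 1106 0 1039)
(fin 1108 0 1040))))))))))))
(mv 974 (cons (fin 973 3 973)
(mv 910 (cons (fin 846 4 846)
(fin 1102 4 910)))))))))
(cons (mv 1102 (cons (mv 1041 (cons (fin 1101 1 1037)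
(fin 1042 1 1038)))
(cons (mv 974 (cons (fin 910 4 910)
(mv 1041 (cons (fin 973 3 973)
(fin 1042 1 1038)))))
(mv 910 (cons (fin 974 4 910)
(mv 1037 (cons (mv 972 (cons (fin 973 3 972)
(mv 1036 (cons (fin 971 3 971)
(fin 1035 0 1035)))))
(cons (mv 1036 (cons (fin 1035 0 1035)
(mv 1100 (cons (fin 1099 1 1035)
(fin 1101 1 1036)))))
(mv 973 (cons (fin 972 3 972)
(mv 909 (cons (fin 845 4 845)
(mv 1101 (cons (fin 1100 1 1036)
(fin 846 6 845)))))))))))))))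
(mv 1037 (cons (fin 977 2 973)
(mv 972 (cons (fin 973 3 972)
(mv 1036 (cons (fin 971 3 971)
(mv 1100 (cons (fin 1099 1 1035)
(fin 1101 1 1036))))))))))))))))
(mv 912 (cons (fin 848 5 847)
(mv 1167 (cons (fin 1231 6 975)
(mv 1038 (cons (cons (mv 977 (cons (fin 1037 2 973)
(mv 978 (cons (fin 979 1 975)
(fin 1041 2 974)))))
(mv 1041 (cons (mv 1102 (cons (fin 1101 1 1037)
(fin 1042 1 1038)))
(cons (mv 973 (cons (fin 974 3 973)
(mv 1042 (cons (cons (mv 978 (cons (fin 977 2 974)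
(fin 979 2 975)))
(mv 1107 (cons (fin 1106 0 1039)
(mv 1043 (cons (fin 1108 0 1040)
(mv 980 (cons (fin 979 2 976)
(mv 1044 (cons (fin 977 3 976)
(fin 981 2 977))))))))))
(cons (mv 979 (cons (fin 978 2 975)
(mv 1043 (cons (fin 980 2 976)
(mv 1107 (cons (fin 1106 0 1039)
(fin 1108 0 1040)))))))
(mv 977 (cons (fin 978 2 974)
(mv 1043 (cons (fin 1044 3 976)
(mv 1107 (cons (fin 1106 0 1039)
(fin 1108 0 1040))))))))))))
(mv 974 (cons (fin 973 3 973)
(mv 910 (cons (fin 846 4 846)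
(fin 1102 4 910)))))))))
(cons (mv 1102 (cons (mv 1041 (cons (fin 1101 1 1037)
(fin 1042 1 1038)))
(cons (mv 974 (cons (fin 910 4 910)
(mv 1041 (cons (fin 973 3 973)
(fin 1042 1 1038)))))
(mv 910 (cons (fin 974 4 910)
(mv 1037 (cons (mv 972 (cons (fin 973 3 972)
(mv 1036 (cons (fin 971 3 971)
(fin 1035 0 1035)))))
(cons (mv 1036 (cons (fin 1035 0 1035)
(mv 1100 (cons (fin 1099 1 1035)
(fin 1101 1 1036)))))
(mv 973 (cons (fin 972 3 972)
(mv 909 (cons (fin 845 4 845)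
(mv 1101 (cons (fin 1100 1 1036)
(fin 846 6 845)))))))))))))))
(mv 1037 (cons (fin 977 2 973)
(mv 972 (cons (fin 973 3 972)
(mv 1036 (cons (fin 971 3 971)
(mv 1100 (cons (fin 1099 1 1035)
(fin 1101 1 1036))))))))))))))))))))
(cons (mv 912 (cons (cons (mv 848 (cons (fin 1103 5 847)
(mv 783 (cons (fin 847 7 783)
(mv 784 (cons (fin 719 7 719)
(fin 975 5 783)))))))
(mv 1104 (cons (cons (mv 847 (cons (fin 911 7 847)
(mv 1167 (cons (fin 1103 5 911)
(mv 1168 (cons (fin 1231 5 975)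
(mv 1232 (cons (fin 975 7 975)
(mv 1233 (cons (fin 1169 4 976)
(fin 1297 4 1040)))))))))))
(cons (mv 911 (cons (fin 847 7 847)
(mv 1168 (cons (fin 975 7 911)
(mv 1233 (cons (fin 1169 4 976)
(mv 1232 (cons (fin 1297 4 1040)
(mv 1295 (cons (fin 1231 5 1039)
(mv 1296 (cons (fin 1103 7 1039)
(fin 1359 5 1103)))))))))))))
(mv 911 (cons (fin 847 7 847)
(mv 1168 (cons (fin 975 7 911)
(mv 1231 (cons (fin 1167 5 975)
(mv 1232 (cons (fin 1295 5 1039)
(mv 1233 (cons (fin 1169 4 976)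
(fin 1297 4 1040)))))))))))))
(cons (mv 1167 (cons (fin 1103 5 911)
(mv 1168 (cons (fin 1231 5 975)
(mv 1232 (cons (fin 975 7 975)
(mv 1233 (cons (fin 1169 4 976)
(fin 1297 4 1040)))))))))
(cons (mv 847 (cons (fin 911 7 847)
(mv 1168 (cons (cons (mv 1167 (cons (fin 1103 5 911)
(fin 1231 5 975)))
(mv 1233 (cons (fin 1169 4 976)
(mv 1232 (cons (fin 1297 4 1040)
(mv 1295 (cons (fin 1231 5 1039)
(mv 1296 (cons (fin 1103 7 1039)
(fin 1359 5 1103))))))))))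
(cons (mv 1231 (cons (fin 1167 5 975)
(mv 1232 (cons (fin 1295 5 1039)
(mv 1233 (cons (fin 1169 4 976)
(fin 1297 4 1040)))))))
(mv 1103 (cons (fin 1167 5 911)
(mv 1232 (cons (fin 1296 7 1039)
(mv 1233 (cons (fin 1169 4 976)
(fin 1297 4 1040))))))))))))
(mv 911 (cons (fin 847 7 847)
(mv 1103 (cons (fin 1167 5 911)
(mv 975 (cons (cons (mv 846 (cons (fin 910 7 846)
(mv 1102 (cons (fin 1166 5 910)
(mv 1101 (cons (fin 1100 2 1036)
(mv 1037 (cons (fin 1036 3 1036)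
(mv 1038 (cons (fin 977 2 973)
(mv 972 (cons (fin 973 3 972)
(mv 1165 (cons (fin 1164 1 1100)
(mv 1229 (cons (fin 974 6 973)
(fin 1293 6 1037)))))))))))))))))
(mv 1102 (cons (fin 1166 5 910)
(mv 1101 (cons (fin 1100 2 1036)
(mv 1037 (cons (fin 1036 3 1036)
(mv 1038 (cons (fin 977 2 973)
(mv 972 (cons (fin 973 3 972)
(mv 1165 (cons (fin 1164 1 1100)
(mv 1229 (cons (fin 974 6 973)
(fin 1293 6 1037))))))))))))))))
(cons (mv 910 (cons (fin 846 7 846)
(mv 909 (cons (fin 908 0 908)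
(fin 977 0 909)))))
(mv 910 (cons (fin 846 7 846)
(mv 908 (cons (fin 909 0 908)
(mv 1102 (cons (fin 1166 5 910)
(mv 1101 (cons (fin 1100 2 1036)
(mv 1037 (cons (fin 1036 3 1036)
(mv 1165 (cons (fin 1164 1 1100)
(mv 973 (cons (fin 972 7 908)
(fin 974 6 909)))))))))))))))))))))))))))
(cons (mv 848 (cons (mv 783 (cons (fin 847 7 783)
(mv 784 (cons (fin 719 7 719)
(fin 975 5 783)))))
(cons (mv 847 (cons (fin 783 7 783)
(mv 849 (cons (fin 785 6 784)
(mv 911 (cons (fin 1104 7 847)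
(mv 850 (cons (fin 910 1 846)
(fin 851 1 847)))))))))
(mv 784 (cons (fin 975 5 783)
(mv 785 (cons (fin 721 6 720)
(fin 849 6 784))))))))
(cons (mv 848 (cons (fin 1103 5 847)
(mv 783 (cons (fin 847 7 783)
(mv 784 (cons (fin 719 7 719)
(mv 785 (cons (fin 721 6 720)
(fin 849 6 784)))))))))
(mv 848 (cons (fin 1103 5 847)
(mv 784 (cons (fin 975 5 783)
(mv 785 (cons (fin 721 6 720)
(fin 849 6 784)))))))))))
(mv 1103 (cons (cons (mv 912 (cons (fin 848 5 847)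
(mv 1167 (cons (fin 975 6 911)
(fin 1231 6 975)))))
(mv 848 (cons (fin 912 5 847)
(mv 977 (cons (cons (mv 978 (cons (fin 979 1 975)
(mv 1038 (cons (fin 975 1 974)
(fin 1037 2 973)))))
(mv 978 (cons (fin 979 1 975)
(mv 975 (cons (cons (mv 910 (cons (fin 911 3 910)
(mv 909 (cons (fin 974 3 909)
(mv 914 (cons (fin 915 2 911)
(mv 1042 (cons (fin 1043 0 975)
(mv 1041 (cons (fin 1102 1 1038)
(mv 850 (cons (fin 786 5 785)
(mv 849 (cons (fin 785 7 785)
(mv 847 (cons (fin 846 1 845)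
(mv 783 (cons (fin 782 3 782)
(mv 851 (cons (fin 784 3 783)
(fin 787 6 786)))))))))))))))))))))
(mv 910 (cons (fin 911 3 910)
(mv 914 (cons (fin 915 2 911)
(mv 974 (cons (fin 909 3 909)
(mv 973 (cons (fin 972 0 972)
(fin 1041 0 973))))))))))
(cons (mv 914 (cons (fin 915 2 911)
(mv 1042 (cons (fin 1043 0 975)
(mv 1041 (cons (fin 974 3 974)
(fin 1102 1 1038)))))))
(cons (mv 910 (cons (fin 911 3 910)
(mv 974 (cons (fin 909 3 909)
(mv 973 (cons (fin 972 0 972)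
(fin 1041 0 973)))))))
(mv 911 (cons (fin 910 3 910)
(mv 847 (cons (fin 784 6 783)
(fin 783 4 783))))))))))))
(cons (mv 1038 (cons (fin 1037 2 973)
(mv 1041 (cons (mv 1102 (cons (fin 1101 1 1037)
(fin 1042 1 1038)))
(cons (mv 974 (cons (fin 973 3 973)
(mv 846 (cons (fin 910 4 846)
(mv 1042 (cons (fin 975 3 974)
(mv 1043 (cons (fin 1044 3 976)
(mv 1107 (cons (fin 1106 0 1039)
(fin 1108 0 1040)))))))))))
(mv 974 (cons (fin 973 3 973)
(mv 910 (cons (fin 846 4 846)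
(mv 909 (cons (fin 975 3 909)
(mv 1102 (cons (fin 1101 1 1037)
(fin 845 7 845))))))))))))))
(mv 978 (cons (fin 979 1 975)
(mv 1038 (cons (fin 1037 2 973)
(fin 1041 2 974)))))))))))
(cons (mv 1167 (cons (fin 1231 6 975)
(mv 975 (cons (cons (mv 910 (cons (fin 974 7 910)
(mv 911 (cons (fin 846 7 846)
(mv 1166 (cons (fin 1102 5 910)
(fin 1230 5 974)))))))
(mv 1166 (cons (fin 1230 5 974)
(mv 911 (cons (fin 1102 5 910)
(mv 846 (cons (fin 910 7 846)
(mv 847 (cons (fin 782 7 782)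
(fin 783 4 783))))))))))
(cons (mv 1166 (cons (fin 1230 5 974)
(mv 1102 (cons (fin 911 5 910)
(mv 1041 (cons (fin 1042 1 1038)
(mv 1101 (cons (fin 1038 1 1037)
(fin 1100 2 1036)))))))))
(cons (mv 910 (cons (fin 974 7 910)
(mv 911 (cons (fin 846 7 846)
(mv 847 (cons (fin 783 4 783)
(mv 784 (cons (fin 848 6 783)
(mv 908 (cons (fin 909 0 908)
(mv 977 (cons (fin 978 3 910)
(mv 1038 (cons (fin 1037 2 973)
(fin 1102 5 846)))))))))))))))
(mv 974 (cons (fin 910 7 910)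
(mv 973 (cons (fin 972 0 972)
(fin 1041 0 973)))))))))))
(cons (mv 1167 (cons (fin 1231 6 975)
(mv 912 (cons (fin 975 6 911)
(mv 1038 (cons (cons (mv 977 (cons (fin 1037 2 973)
(mv 978 (cons (fin 979 1 975)
(fin 1041 2 974)))))
(mv 1041 (cons (mv 1102 (cons (fin 1101 1 1037)
(fin 1042 1 1038)))
(cons (mv 973 (cons (fin 974 3 973)
(mv 1042 (cons (cons (mv 978 (cons (fin 977 2 974)
(fin 979 2 975)))
(mv 1107 (cons (fin 1106 0 1039)
(mv 1043 (cons (fin 1108 0 1040)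
(mv 980 (cons (fin 979 2 976)
(mv 1044 (cons (fin 977 3 976)
(fin 981 2 977))))))))))
(cons (mv 979 (cons (fin 978 2 975)
(mv 1043 (cons (fin 980 2 976)
(mv 1107 (cons (fin 1106 0 1039)
(fin 1108 0 1040)))))))
(mv 977 (cons (fin 978 2 974)
(mv 1043 (cons (fin 1044 3 976)
(mv 1107 (cons (fin 1106 0 1039)
(fin 1108 0 1040))))))))))))
(mv 974 (cons (fin 973 3 973)
(mv 910 (cons (fin 846 4 846)
(fin 1102 4 910)))))))))
(cons (mv 1102 (cons (mv 1041 (cons (fin 1101 1 1037)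
(fin 1042 1 1038)))
(cons (mv 974 (cons (fin 910 4 910)
(mv 1041 (cons (fin 973 3 973)
(fin 1042 1 1038)))))
(mv 910 (cons (fin 974 4 910)
(mv 1037 (cons (mv 972 (cons (fin 973 3 972)
(mv 1036 (cons (fin 971 3 971)
(fin 1035 0 1035)))))
(cons (mv 1036 (cons (fin 1035 0 1035)
(mv 1100 (cons (fin 1099 1 1035)
(fin 1101 1 1036)))))
(mv 973 (cons (fin 972 3 972)
(mv 909 (cons (fin 845 4 845)
(mv 1101 (cons (fin 1100 1 1036)
(fin 846 6 845)))))))))))))))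
(mv 1037 (cons (fin 977 2 973)
(mv 972 (cons (fin 973 3 972)
(mv 1036 (cons (fin 971 3 971)
(mv 1100 (cons (fin 1099 1 1035)
(fin 1101 1 1036))))))))))))))))
(mv 912 (cons (fin 848 5 847)
(mv 1167 (cons (fin 1231 6 975)
(mv 1038 (cons (cons (mv 977 (cons (fin 1037 2 973)
(mv 978 (cons (fin 979 1 975)
(fin 1041 2 974)))))
(mv 1041 (cons (mv 1102 (cons (fin 1101 1 1037)
(fin 1042 1 1038)))
(cons (mv 973 (cons (fin 974 3 973)
(mv 1042 (cons (cons (mv 978 (cons (fin 977 2 974)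
(fin 979 2 975)))
(mv 1107 (cons (fin 1106 0 1039)
(mv 1043 (cons (fin 1108 0 1040)
(mv 980 (cons (fin 979 2 976)
(mv 1044 (cons (fin 977 3 976)
(fin 981 2 977))))))))))
(cons (mv 979 (cons (fin 978 2 975)
(mv 1043 (cons (fin 980 2 976)
(mv 1107 (cons (fin 1106 0 1039)
(fin 1108 0 1040)))))))
(mv 977 (cons (fin 978 2 974)
(mv 1043 (cons (fin 1044 3 976)
(mv 1107 (cons (fin 1106 0 1039)
(fin 1108 0 1040))))))))))))
(mv 974 (cons (fin 973 3 973)
(mv 910 (cons (fin 846 4 846)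
(fin 1102 4 910)))))))))
(cons (mv 1102 (cons (mv 1041 (cons (fin 1101 1 1037)
(fin 1042 1 1038)))
(cons (mv 974 (cons (fin 910 4 910)
(mv 1041 (cons (fin 973 3 973)
(fin 1042 1 1038)))))
(mv 910 (cons (fin 974 4 910)
(mv 1037 (cons (mv 972 (cons (fin 973 3 972)
(mv 1036 (cons (fin 971 3 971)
(fin 1035 0 1035)))))
(cons (mv 1036 (cons (fin 1035 0 1035)
(mv 1100 (cons (fin 1099 1 1035)
(fin 1101 1 1036)))))
(mv 973 (cons (fin 972 3 972)
(mv 909 (cons (fin 845 4 845)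
(mv 1101 (cons (fin 1100 1 1036)
(fin 846 6 845)))))))))))))))
(mv 1037 (cons (fin 977 2 973)
(mv 972 (cons (fin 973 3 972)
(mv 1036 (cons (fin 971 3 971)
(mv 1100 (cons (fin 1099 1 1035)
(fin 1101 1 1036))))))))))))))))))))))
(cons (mv 1103 (cons (cons (mv 912 (cons (fin 848 5 847)
(mv 1167 (cons (fin 1104 5 911)
(fin 975 6 911)))))
(mv 848 (cons (fin 912 5 847)
(mv 1102 (cons (cons (mv 1041 (cons (fin 1042 1 1038)
(mv 1101 (cons (fin 1038 1 1037)
(fin 1100 2 1036)))))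
(mv 1101 (cons (fin 1100 2 1036)
(mv 1104 (cons (cons (mv 1036 (cons (fin 1037 3 1036)
(mv 1164 (cons (fin 1165 1 1100)
(mv 1168 (cons (fin 1169 0 1101)
(mv 1232 (cons (fin 975 7 975)
(fin 1296 7 1039)))))))))
(mv 1037 (cons (fin 1036 3 1036)
(mv 977 (cons (fin 1038 2 973)
(mv 978 (cons (fin 979 1 975)
(mv 1165 (cons (fin 1164 1 1100)
(mv 973 (cons (mv 1166 (cons (fin 909 4 909)
(fin 1230 4 973)))
(cons (mv 908 (cons (fin 972 7 908)
(mv 909 (cons (fin 844 7 844)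
(mv 910 (cons (fin 846 6 845)
(fin 974 6 909)))))))
(mv 972 (cons (fin 908 7 908)
(mv 974 (cons (fin 975 0 972)
(fin 910 6 909)))))))))))))))))
(cons (mv 1164 (cons (fin 1165 1 1100)
(mv 1168 (cons (fin 1169 0 1101)
(mv 1232 (cons (fin 975 7 975)
(fin 1296 7 1039)))))))
(cons (mv 1036 (cons (fin 1037 3 1036)
(mv 1168 (cons (fin 1169 0 1101)
(mv 1232 (cons (fin 975 7 975)
(fin 1296 7 1039)))))))
(mv 1036 (cons (fin 1037 3 1036)
(mv 1165 (cons (fin 1164 1 1100)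
(mv 1168 (cons (fin 1169 0 1101)
(mv 1232 (cons (fin 1296 7 1039)
(mv 1231 (cons (fin 1295 5 1039)
(mv 1233 (cons (fin 1297 4 1040)
(mv 1230 (cons (fin 1166 3 1165)
(mv 1293 (cons (fin 1294 1 1229)
(mv 1229 (cons (fin 1292 1 1228)
(fin 1038 6 1037))))))))))))))))))))))))))
(cons (mv 1041 (cons (fin 1042 1 1038)
(mv 1038 (cons (mv 977 (cons (fin 1037 2 973)
(fin 978 2 974)))
(cons (mv 973 (cons (fin 974 3 973)
(mv 1037 (cons (fin 972 3 972)
(mv 1036 (cons (fin 975 2 972)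
(fin 1035 0 1035)))))))
(mv 974 (cons (fin 973 3 973)
(mv 910 (cons (fin 846 4 846)
(mv 909 (cons (fin 845 7 845)
(mv 977 (cons (fin 975 3 909)
(fin 978 2 974))))))))))))))
(mv 1041 (cons (fin 1042 1 1038)
(mv 1101 (cons (fin 1100 2 1036)
(fin 1104 2 1037)))))))))))
(cons (mv 1167 (cons (fin 1231 6 975)
(mv 975 (cons (mv 974 (cons (fin 910 7 910)
(mv 973 (cons (fin 972 0 972)
(fin 1041 0 973)))))
(cons (mv 1166 (cons (fin 1230 5 974)
(mv 1168 (cons (fin 1232 4 975)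
(mv 1102 (cons (mv 1101 (cons (fin 1169 3 1101)
(fin 1100 2 1036)))
(cons (mv 1041 (cons (fin 1042 1 1038)
(mv 1169 (cons (fin 1170 3 1102)
(mv 1233 (cons (fin 1234 0 1166)
(fin 1104 4 976)))))))
(mv 1041 (cons (fin 1042 1 1038)
(mv 1101 (cons (fin 1038 1 1037)
(fin 1100 2 1036))))))))))))
(mv 974 (cons (fin 910 7 910)
(mv 973 (cons (fin 972 0 972)
(mv 908 (cons (fin 909 3 908)
(mv 1037 (cons (fin 1036 1 972)
(mv 1038 (cons (fin 977 1 973)
(mv 1101 (cons (fin 1100 1 1036)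
(mv 1165 (cons (fin 1229 6 973)
(mv 1164 (cons (fin 1228 5 972)
(mv 1104 (cons (fin 1102 1 1100)
(fin 1166 2 1100))))))))))))))))))))))))
(cons (mv 912 (cons (fin 848 5 847)
(mv 1167 (cons (fin 1104 5 911)
(fin 1231 6 975)))))
(mv 912 (cons (fin 848 5 847)
(mv 1167 (cons (fin 975 6 911)
(fin 1231 6 975)))))))))
(cons (mv 977 (cons (cons (mv 978 (cons (fin 979 1 975)
(mv 1038 (cons (fin 975 1 974)
(fin 1037 2 973)))))
(mv 1038 (cons (fin 1037 2 973)
(mv 974 (cons (mv 973 (cons (fin 1041 3 973)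
(mv 972 (cons (fin 971 0 971)
(fin 975 0 972)))))
(cons (mv 1103 (cons (cons (mv 846 (cons (fin 910 4 846)
(mv 912 (cons (fin 848 5 847)
(mv 1167 (cons (fin 1231 7 974)
(fin 1104 5 911)))))))
(mv 910 (cons (fin 846 4 846)
(mv 909 (cons (fin 975 3 909)
(mv 912 (cons (fin 911 0 909)
(fin 848 5 847))))))))
(cons (mv 910 (cons (fin 846 4 846)
(mv 975 (cons (fin 909 3 909)
(fin 1167 7 910)))))
(mv 912 (cons (fin 848 5 847)
(mv 1167 (cons (fin 1231 7 974)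
(fin 1104 5 911))))))))
(mv 1041 (cons (fin 973 3 973)
(mv 912 (cons (mv 848 (cons (fin 1103 5 847)
(fin 784 4 784)))
(cons (mv 910 (cons (cons (mv 846 (cons (fin 1103 4 846)
(mv 781 (cons (fin 845 7 781)
(mv 717 (cons (fin 782 7 717)
(mv 847 (cons (fin 783 6 782)
(mv 911 (cons (fin 909 0 909)
(fin 1104 7 847)))))))))))
(mv 911 (cons (fin 909 0 909)
(mv 847 (cons (fin 1104 7 847)
(mv 783 (cons (fin 719 5 718)
(fin 846 6 782))))))))
(cons (mv 911 (cons (fin 909 0 909)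
(mv 1104 (cons (fin 847 7 847)
(mv 1103 (cons (fin 1167 5 911)
(mv 1042 (cons (fin 1043 1 1039)
(mv 1106 (cons (fin 1107 0 1039)
(mv 1168 (cons (fin 1232 6 976)
(mv 1169 (cons (fin 1233 4 976)
(mv 1170 (cons (fin 1171 3 1103)
(fin 1234 7 977)))))))))))))))))
(cons (mv 846 (cons (fin 1103 4 846)
(mv 781 (cons (fin 845 7 781)
(mv 782 (cons (fin 717 7 717)
(mv 783 (cons (fin 719 6 718)
(fin 847 6 782)))))))))
(mv 909 (cons (fin 911 0 909)
(mv 1103 (cons (fin 846 4 846)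
(mv 1167 (cons (fin 1231 7 974)
(fin 1104 5 911)))))))))))
(mv 848 (cons (fin 784 4 784)
(mv 847 (cons (fin 783 7 783)
(mv 849 (cons (fin 785 6 784)
(mv 911 (cons (fin 1104 7 847)
(mv 850 (cons (fin 910 1 846)
(fin 851 1 847))))))))))))))))))))))
(cons (mv 978 (cons (fin 979 1 975)
(mv 975 (cons (cons (mv 910 (cons (fin 911 3 910)
(mv 914 (cons (fin 915 2 911)
(mv 974 (cons (fin 909 3 909)
(mv 973 (cons (fin 972 0 972)
(fin 1041 0 973)))))))))
(mv 914 (cons (fin 915 2 911)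
(mv 1042 (cons (fin 1043 0 975)
(mv 974 (cons (fin 1041 3 974)
(mv 909 (cons (fin 910 3 909)
(mv 973 (cons (fin 908 3 908)
(fin 972 0 972))))))))))))
(cons (mv 914 (cons (fin 915 2 911)
(mv 1042 (cons (fin 1043 0 975)
(mv 1041 (cons (fin 974 3 974)
(mv 786 (cons (fin 850 5 785)
(mv 1106 (cons (fin 1107 0 1039)
(mv 1170 (cons (fin 1234 7 977)
(mv 1169 (cons (fin 1233 5 977)
(mv 1171 (cons (fin 1235 4 978)
(mv 1168 (cons (mv 1104 (cons (fin 1103 3 1103)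
(fin 911 7 911)))
(cons (mv 1231 (cons (fin 1232 1 1167)
(mv 1167 (cons (fin 1230 1 1166)
(fin 1103 6 975)))))
(mv 1104 (cons (fin 911 7 911)
(fin 1232 7 975))))))))))))))))))))))
(cons (mv 910 (cons (fin 911 3 910)
(mv 974 (cons (fin 909 3 909)
(mv 973 (cons (fin 972 0 972)
(fin 1041 0 973)))))))
(mv 911 (cons (fin 910 3 910)
(mv 847 (cons (fin 783 4 783)
(fin 1104 4 847)))))))))))
(mv 978 (cons (fin 979 1 975)
(mv 1038 (cons (fin 1037 2 973)
(fin 1041 2 974))))))))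
(mv 1038 (cons (cons (mv 977 (cons (fin 1037 2 973)
(mv 978 (cons (fin 975 1 974)
(fin 979 1 975)))))
(mv 1041 (cons (cons (mv 973 (cons (fin 974 3 973)
(mv 977 (cons (fin 978 2 974)
(mv 1102 (cons (fin 1101 1 1037)
(mv 1042 (cons (fin 1103 1 1038)
(mv 1043 (cons (fin 975 3 975)
(fin 1044 3 976)))))))))))
(cons (mv 973 (cons (fin 974 3 973)
(mv 1102 (cons (fin 1101 1 1037)
(mv 1042 (cons (fin 1103 1 1038)
(mv 1043 (cons (fin 975 3 975)
(mv 1107 (cons (fin 1106 0 1039)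
(fin 1108 0 1040)))))))))))
(mv 977 (cons (fin 978 2 974)
(mv 1102 (cons (fin 1101 1 1037)
(mv 1042 (cons (fin 1103 1 1038)
(mv 1043 (cons (fin 975 3 975)
(fin 1044 3 976)))))))))))
(cons (mv 973 (cons (fin 974 3 973)
(mv 978 (cons (fin 977 2 974)
(mv 1042 (cons (fin 979 2 975)
(mv 1043 (cons (fin 975 3 975)
(mv 1107 (cons (fin 1106 0 1039)
(fin 1108 0 1040)))))))))))
(cons (mv 974 (cons (fin 973 3 973)
(mv 977 (cons (fin 978 2 974)
(mv 1102 (cons (fin 1101 1 1037)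
(mv 1166 (cons (mv 975 (cons (fin 911 6 910)
(fin 1230 6 974)))
(cons (mv 1167 (cons (fin 1231 4 974)
(mv 1229 (cons (fin 1165 5 973)
(mv 1230 (cons (fin 1293 5 1037)
(mv 1103 (cons (fin 1294 6 1038)
(mv 912 (cons (fin 848 5 847)
(fin 1104 5 911)))))))))))
(mv 975 (cons (fin 911 6 910)
(mv 1165 (cons (fin 1229 5 973)
(mv 1167 (cons (fin 1231 4 974)
(mv 1103 (cons (fin 912 6 911)
(mv 1164 (cons (fin 1163 2 1099)
(fin 1104 2 1100))))))))))))))))))))
(mv 973 (cons (fin 974 3 973)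
(mv 977 (cons (fin 978 2 974)
(mv 1102 (cons (fin 1101 1 1037)
(mv 1042 (cons (fin 1103 1 1038)
(mv 1043 (cons (fin 1044 3 976)
(mv 1107 (cons (fin 1106 0 1039)
(fin 1108 0 1040))))))))))))))))))
(cons (mv 1037 (cons (cons (mv 972 (cons (fin 973 3 972)
(mv 1036 (cons (fin 971 3 971)
(fin 975 2 972)))))
(mv 973 (cons (fin 972 3 972)
(mv 974 (cons (fin 1041 3 973)
(mv 1101 (cons (fin 1100 1 1036)
(mv 1165 (cons (fin 1229 6 973)
(mv 1164 (cons (fin 1228 5 972)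
(mv 1166 (cons (fin 1230 4 973)
(mv 909 (cons (fin 1102 7 909)
(mv 908 (cons (fin 975 3 908)
(fin 844 7 844))))))))))))))))))
(cons (mv 975 (cons (fin 1036 2 972)
(mv 1101 (cons (fin 1100 1 1036)
(mv 1041 (cons (fin 1102 1 1037)
(mv 1042 (cons (fin 974 3 974)
(fin 1043 3 975)))))))))
(mv 972 (cons (fin 973 3 972)
(mv 1036 (cons (fin 971 3 971)
(mv 1100 (cons (fin 1099 1 1035)
(fin 1101 1 1036))))))))))
(mv 977 (cons (fin 1037 2 973)
(mv 978 (cons (fin 979 1 975)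
(fin 1041 2 974)))))))))))))
(mv 1104 (cons (cons (mv 1168 (cons (cons (mv 911 (cons (fin 975 7 911)
(mv 847 (cons (fin 912 7 847)
(mv 913 (cons (fin 977 6 912)
(mv 1231 (cons (fin 1167 5 975)
(mv 1232 (cons (fin 1295 5 1039)
(mv 1233 (cons (fin 1169 4 976)
(fin 1297 4 1040)))))))))))))
(cons (mv 911 (cons (fin 975 7 911)
(mv 847 (cons (fin 912 7 847)
(mv 1231 (cons (fin 1167 5 975)
(mv 1232 (cons (fin 1295 5 1039)
(mv 1233 (cons (fin 1169 4 976)
(fin 1297 4 1040)))))))))))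
(mv 913 (cons (fin 977 6 912)
(mv 849 (cons (fin 912 6 848)
(mv 1231 (cons (fin 1167 5 975)
(mv 1232 (cons (fin 1295 5 1039)
(mv 1233 (cons (fin 1169 4 976)
(fin 1297 4 1040)))))))))))))
(cons (cons (mv 911 (cons (fin 975 7 911)
(mv 847 (cons (fin 912 7 847)
(mv 977 (cons (fin 913 6 912)
(mv 1232 (cons (fin 1041 6 976)
(mv 1233 (cons (fin 1169 4 976)
(fin 1297 4 1040)))))))))))
(mv 911 (cons (fin 975 7 911)
(mv 847 (cons (fin 912 7 847)
(mv 977 (cons (fin 913 6 912)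
(mv 1231 (cons (fin 1167 5 975)
(mv 1232 (cons (fin 1295 5 1039)
(fin 1041 6 976))))))))))))
(cons (mv 911 (cons (fin 975 7 911)
(mv 912 (cons (fin 847 7 847)
(mv 913 (cons (fin 849 6 848)
(fin 977 6 912)))))))
(mv 911 (cons (fin 975 7 911)
(mv 913 (cons (fin 977 6 912)
(mv 1231 (cons (fin 1167 5 975)
(mv 1232 (cons (fin 1295 5 1039)
(mv 1233 (cons (fin 1169 4 976)
(fin 1297 4 1040)))))))))))))))
(cons (mv 912 (cons (cons (mv 847 (cons (fin 911 7 847)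
(mv 848 (cons (fin 783 7 783)
(mv 849 (cons (fin 785 6 784)
(fin 913 6 848)))))))
(mv 847 (cons (fin 911 7 847)
(mv 848 (cons (fin 783 7 783)
(mv 1103 (cons (fin 1039 5 847)
(fin 1167 5 911))))))))
(cons (mv 849 (cons (fin 913 6 848)
(mv 848 (cons (fin 785 6 784)
(mv 1103 (cons (fin 1039 5 847)
(fin 1167 5 911)))))))
(mv 911 (cons (fin 847 7 847)
(mv 913 (cons (fin 849 6 848)
(mv 1103 (cons (fin 1167 5 911)
(mv 910 (cons (mv 977 (cons (fin 909 0 909)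
(fin 978 0 910)))
(cons (mv 845 (cons (fin 846 3 845)
(mv 909 (cons (fin 844 3 844)
(mv 908 (cons (fin 975 0 908)
(mv 972 (cons (fin 971 1 907)
(fin 973 1 908)))))))))
(mv 845 (cons (fin 846 3 845)
(mv 978 (cons (fin 977 0 910)
(mv 914 (cons (fin 979 0 911)
(mv 851 (cons (fin 850 2 847)
(mv 915 (cons (fin 975 1 911)
(fin 852 2 848)))))))))))))))))))))))
(mv 1168 (cons (cons (mv 911 (cons (fin 975 7 911)
(mv 913 (cons (fin 977 6 912)
(mv 1231 (cons (fin 1167 5 975)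
(mv 1232 (cons (fin 1295 5 1039)
(mv 1233 (cons (fin 1169 4 976)
(fin 1297 4 1040)))))))))))
(cons (mv 911 (cons (fin 975 7 911)
(mv 1231 (cons (fin 1167 5 975)
(mv 1232 (cons (fin 1295 5 1039)
(mv 1233 (cons (fin 1169 4 976)
(fin 1297 4 1040)))))))))
(mv 913 (cons (fin 977 6 912)
(mv 1231 (cons (fin 1167 5 975)
(mv 1232 (cons (fin 1295 5 1039)
(mv 1233 (cons (fin 1169 4 976)
(fin 1297 4 1040)))))))))))
(cons (mv 911 (cons (fin 975 7 911)
(mv 977 (cons (fin 913 6 912)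
(mv 1232 (cons (fin 1041 6 976)
(mv 1233 (cons (fin 1169 4 976)
(fin 1297 4 1040)))))))))
(cons (mv 911 (cons (fin 975 7 911)
(mv 977 (cons (fin 913 6 912)
(mv 1231 (cons (fin 1167 5 975)
(mv 1232 (cons (fin 1295 5 1039)
(fin 1041 6 976)))))))))
(mv 913 (cons (fin 977 6 912)
(mv 975 (cons (fin 911 7 911)
(mv 1167 (cons (fin 1231 5 975)
(mv 1169 (cons (fin 1233 4 976)
(mv 1170 (cons (mv 1103 (cons (fin 1102 3 1102)
(fin 1171 3 1103)))
(cons (mv 1107 (cons (fin 1106 2 1103)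
(mv 1171 (cons (fin 1108 2 1104)
(mv 1235 (cons (fin 1234 0 1167)
(fin 1236 0 1168)))))))
(mv 1106 (cons (fin 1107 2 1103)
(mv 1234 (cons (fin 1235 0 1167)
(mv 1166 (cons (cons (mv 1102 (cons (fin 1101 3 1101)
(fin 1103 3 1102)))
(mv 1229 (cons (fin 1230 1 1165)
(mv 1165 (cons (fin 1228 1 1164)
(mv 1100 (cons (fin 1101 3 1100)
(mv 1164 (cons (fin 1099 3 1099)
(fin 1103 2 1100))))))))))
(cons (mv 1101 (cons (fin 1102 3 1101)
(mv 1165 (cons (fin 1100 3 1100)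
(mv 1229 (cons (fin 1228 1 1164)
(fin 1230 1 1165)))))))
(mv 1103 (cons (fin 1102 3 1102)
(mv 1230 (cons (fin 1229 1 1165)
(fin 1039 5 974)))))))))))))))))))))))))))))
(cons (cons (mv 1168 (cons (cons (mv 913 (cons (fin 977 6 912)
(mv 849 (cons (fin 912 6 848)
(mv 1231 (cons (fin 1167 5 975)
(mv 1232 (cons (fin 1295 5 1039)
(mv 1233 (cons (fin 1169 4 976)
(fin 1297 4 1040)))))))))))
(mv 1167 (cons (fin 1231 5 975)
(mv 1103 (cons (fin 912 5 911)
(mv 1169 (cons (fin 1233 4 976)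
(mv 1102 (cons (fin 1170 3 1102)
(fin 1101 0 1101))))))))))
(cons (mv 913 (cons (fin 977 6 912)
(mv 849 (cons (fin 912 6 848)
(mv 1233 (cons (fin 1169 4 976)
(mv 1232 (cons (fin 1297 4 1040)
(mv 1039 (cons (fin 975 7 975)
(mv 1295 (cons (fin 1231 5 1039)
(mv 1296 (cons (fin 1103 7 1039)
(fin 1359 5 1103)))))))))))))))
(cons (mv 913 (cons (fin 977 6 912)
(mv 912 (cons (fin 849 6 848)
(mv 1103 (cons (fin 1167 5 911)
(mv 1039 (cons (fin 848 5 847)
(mv 1232 (cons (fin 975 7 975)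
(fin 1296 7 1039)))))))))))
(mv 913 (cons (fin 977 6 912)
(mv 1231 (cons (fin 1167 5 975)
(mv 1232 (cons (fin 1295 5 1039)
(mv 1233 (cons (fin 1169 4 976)
(fin 1297 4 1040)))))))))))))
(mv 1168 (cons (cons (mv 911 (cons (fin 975 7 911)
(mv 847 (cons (fin 912 7 847)
(mv 1231 (cons (fin 1167 5 975)
(mv 1232 (cons (fin 1295 5 1039)
(mv 1233 (cons (fin 1169 4 976)
(fin 1297 4 1040)))))))))))
(mv 1167 (cons (fin 1231 5 975)
(mv 1103 (cons (fin 912 5 911)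
(mv 1169 (cons (fin 1233 4 976)
(mv 1102 (cons (fin 1170 3 1102)
(fin 1101 0 1101))))))))))
(cons (mv 975 (cons (fin 911 7 911)
(mv 1232 (cons (fin 1039 7 975)
(mv 1233 (cons (fin 1169 4 976)
(fin 1297 4 1040)))))))
(mv 911 (cons (fin 975 7 911)
(mv 912 (cons (fin 847 7 847)
(mv 1167 (cons (fin 1103 5 911)
(fin 1231 5 975)))))))))))
(cons (mv 1168 (cons (cons (mv 911 (cons (fin 975 7 911)
(mv 847 (cons (fin 912 7 847)
(mv 977 (cons (fin 913 6 912)
(mv 1232 (cons (fin 1041 6 976)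
(mv 1233 (cons (fin 1169 4 976)
(fin 1297 4 1040)))))))))))
(mv 975 (cons (fin 911 7 911)
(mv 1232 (cons (fin 1039 7 975)
(mv 1233 (cons (fin 1169 4 976)
(fin 1297 4 1040))))))))
(cons (mv 977 (cons (fin 913 6 912)
(mv 1232 (cons (fin 1041 6 976)
(mv 1233 (cons (fin 1169 4 976)
(fin 1297 4 1040)))))))
(mv 911 (cons (fin 975 7 911)
(mv 912 (cons (fin 847 7 847)
(mv 913 (cons (fin 849 6 848)
(fin 977 6 912))))))))))
(mv 1168 (cons (cons (mv 913 (cons (fin 977 6 912)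
(mv 849 (cons (fin 912 6 848)
(mv 1231 (cons (fin 1167 5 975)
(mv 1232 (cons (fin 1295 5 1039)
(mv 1233 (cons (fin 1169 4 976)
(fin 1297 4 1040)))))))))))
(mv 1167 (cons (fin 1231 5 975)
(mv 912 (cons (fin 1103 5 911)
(mv 847 (cons (fin 911 7 847)
(mv 848 (cons (fin 783 7 783)
(mv 849 (cons (fin 785 6 784)
(fin 913 6 848))))))))))))
(cons (mv 977 (cons (fin 913 6 912)
(mv 1232 (cons (fin 1041 6 976)
(mv 1233 (cons (fin 1169 4 976)
(fin 1297 4 1040)))))))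
(mv 1167 (cons (fin 1231 5 975)
(mv 1103 (cons (fin 912 5 911)
(mv 1169 (cons (fin 1233 4 976)
(mv 1102 (cons (fin 1170 3 1102)
(fin 1101 0 1101)))))))))))))))))
(cons (mv 912 (cons (cons (cons (mv 848 (cons (cons (mv 783 (cons (fin 847 7 783)
(mv 719 (cons (fin 784 7 719)
(mv 849 (cons (fin 785 6 784)
(mv 1103 (cons (fin 1039 5 847)
(mv 1104 (cons (fin 1167 5 911)
(fin 913 6 848)))))))))))
(cons (mv 783 (cons (fin 847 7 783)
(mv 784 (cons (fin 719 7 719)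
(mv 721 (cons (fin 785 6 720)
(mv 720 (cons (fin 657 6 656)
(mv 977 (cons (fin 913 4 720)
(fin 1041 4 784)))))))))))
(mv 785 (cons (fin 849 6 784)
(mv 784 (cons (fin 721 6 720)
(mv 719 (cons (fin 783 7 719)
(mv 720 (cons (fin 655 7 655)
(mv 977 (cons (fin 913 4 720)
(fin 1041 4 784)))))))))))))
(cons (cons (mv 783 (cons (fin 847 7 783)
(mv 784 (cons (fin 719 7 719)
(mv 977 (cons (fin 1041 4 784)
(mv 913 (cons (fin 720 4 720)
(mv 1104 (cons (fin 849 6 848)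
(fin 1168 6 912)))))))))))
(mv 785 (cons (fin 849 6 784)
(mv 784 (cons (fin 721 6 720)
(mv 977 (cons (fin 1041 4 784)
(mv 913 (cons (fin 720 4 720)
(mv 1039 (cons (fin 1103 5 847)
(mv 978 (cons (fin 979 1 975)
(mv 911 (cons (fin 910 0 910)
(mv 1104 (cons (fin 847 7 847)
(fin 1168 6 912))))))))))))))))))
(cons (mv 783 (cons (fin 847 7 783)
(mv 849 (cons (fin 785 6 784)
(mv 1103 (cons (fin 1039 5 847)
(mv 1104 (cons (fin 1167 5 911)
(fin 913 6 848)))))))))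
(mv 783 (cons (fin 847 7 783)
(mv 784 (cons (fin 719 7 719)
(mv 785 (cons (fin 721 6 720)
(fin 849 6 784)))))))))))
(mv 913 (cons (cons (mv 849 (cons (fin 1104 6 848)
(mv 785 (cons (fin 721 5 720)
(fin 977 5 784)))))
(mv 914 (cons (cons (cons (mv 911 (cons (cons (mv 846 (cons (fin 847 3 846)
(mv 845 (cons (fin 910 3 845)
(mv 850 (cons (fin 851 2 847)
(mv 979 (cons (fin 978 0 911)
(mv 915 (cons (fin 980 0 912)
(mv 722 (cons (fin 786 4 722)
(mv 916 (cons (fin 977 1 912)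
(mv 853 (cons (fin 852 2 849)
(mv 917 (cons (fin 849 3 849)
(fin 854 2 850)))))))))))))))))))
(cons (mv 846 (cons (fin 847 3 846)
(mv 845 (cons (fin 910 3 845)
(mv 851 (cons (fin 850 2 847)
(mv 915 (cons (fin 852 2 848)
(mv 916 (cons (fin 977 1 912)
(mv 980 (cons (fin 979 0 912)
(fin 981 0 913)))))))))))))
(mv 846 (cons (fin 847 3 846)
(mv 850 (cons (fin 851 2 847)
(mv 910 (cons (fin 845 3 845)
(fin 849 2 846)))))))))
(cons (cons (mv 846 (cons (fin 847 3 846)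
(mv 845 (cons (fin 910 3 845)
(mv 979 (cons (fin 978 0 911)
(mv 915 (cons (fin 980 0 912)
(mv 852 (cons (fin 851 2 848)
(mv 916 (cons (fin 977 1 912)
(fin 853 2 849)))))))))))))
(mv 846 (cons (fin 847 3 846)
(mv 910 (cons (fin 845 3 845)
(mv 977 (cons (fin 909 0 909)
(fin 978 0 910))))))))
(cons (mv 850 (cons (fin 851 2 847)
(mv 849 (cons (fin 910 2 846)
(mv 785 (cons (fin 721 5 720)
(fin 977 5 784)))))))
(mv 846 (cons (fin 847 3 846)
(mv 850 (cons (fin 851 2 847)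
(mv 979 (cons (fin 978 0 911)
(mv 915 (cons (fin 980 0 912)
(mv 722 (cons (fin 786 4 722)
(mv 916 (cons (fin 977 1 912)
(mv 853 (cons (fin 852 2 849)
(mv 917 (cons (fin 849 3 849)
(fin 854 2 850)))))))))))))))))))))
(mv 915 (cons (cons (mv 851 (cons (fin 852 2 848)
(mv 916 (cons (fin 977 1 912)
(mv 980 (cons (fin 979 0 912)
(fin 981 0 913)))))))
(mv 851 (cons (fin 852 2 848)
(mv 979 (cons (fin 980 0 912)
(mv 978 (cons (mv 787 (cons (fin 723 5 722)
(fin 1042 5 786)))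
(cons (mv 723 (cons (fin 787 5 722)
(mv 977 (cons (fin 1039 1 975)
(mv 785 (cons (fin 849 5 784)
(mv 1043 (cons (fin 1044 0 976)
(mv 850 (cons (fin 786 7 786)
(fin 1107 7 850)))))))))))
(mv 977 (cons (fin 1039 1 975)
(mv 785 (cons (fin 849 5 784)
(mv 1042 (cons (fin 1106 6 850)
(mv 1043 (cons (fin 1044 0 976)
(mv 850 (cons (fin 786 7 786)
(fin 1107 7 850)))))))))))))))))))
(cons (mv 852 (cons (fin 851 2 848)
(mv 916 (cons (fin 853 2 849)
(mv 980 (cons (fin 979 0 912)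
(fin 981 0 913)))))))
(cons (mv 852 (cons (fin 851 2 848)
(mv 916 (cons (fin 977 1 912)
(fin 853 2 849)))))
(mv 916 (cons (fin 977 1 912)
(mv 980 (cons (fin 979 0 912)
(fin 981 0 913))))))))))
(cons (mv 911 (cons (cons (mv 846 (cons (fin 847 3 846)
(mv 850 (cons (fin 851 2 847)
(mv 910 (cons (fin 845 3 845)
(fin 849 2 846)))))))
(mv 846 (cons (fin 847 3 846)
(mv 910 (cons (fin 845 3 845)
(mv 977 (cons (fin 909 0 909)
(fin 978 0 910))))))))
(cons (mv 850 (cons (fin 851 2 847)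
(mv 849 (cons (fin 910 2 846)
(mv 785 (cons (fin 721 5 720)
(fin 977 5 784)))))))
(mv 846 (cons (fin 847 3 846)
(mv 850 (cons (fin 851 2 847)
(mv 978 (cons (fin 979 0 911)
(mv 785 (cons (mv 721 (cons (fin 786 7 721)
(fin 849 5 720)))
(cons (mv 786 (cons (fin 721 7 721)
(mv 977 (cons (fin 722 5 721)
(fin 1041 5 785)))))
(mv 849 (cons (fin 1042 7 785)
(fin 977 5 784)))))))))))))))
(mv 979 (cons (cons (mv 911 (cons (fin 978 0 911)
(mv 846 (cons (fin 847 3 846)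
(mv 845 (cons (fin 910 3 845)
(mv 851 (cons (fin 850 2 847)
(mv 915 (cons (fin 852 2 848)
(fin 980 0 912)))))))))))
(mv 915 (cons (fin 980 0 912)
(mv 851 (cons (fin 852 2 848)
(mv 1043 (cons (cons (mv 850 (cons (fin 786 7 786)
(fin 1107 7 850)))
(mv 1042 (cons (fin 1106 5 850)
(mv 787 (cons (fin 978 5 786)
(mv 722 (cons (fin 786 7 722)
(mv 658 (cons (fin 723 7 658)
(mv 724 (cons (fin 788 6 723)
(mv 1108 (cons (fin 1044 4 851)
(mv 1107 (cons (fin 1041 0 1040)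
(fin 1172 4 915))))))))))))))))
(cons (mv 786 (cons (fin 850 7 786)
(mv 787 (cons (fin 722 7 722)
(mv 978 (cons (fin 723 5 722)
(fin 1042 5 786)))))))
(mv 850 (cons (fin 1107 7 850)
(mv 1042 (cons (fin 1106 5 850)
(mv 787 (cons (fin 978 5 786)
(mv 723 (cons (fin 659 5 658)
(mv 724 (cons (fin 660 6 659)
(fin 788 6 723)))))))))))))))))))
(cons (mv 911 (cons (fin 978 0 911)
(mv 846 (cons (fin 847 3 846)
(mv 850 (cons (fin 851 2 847)
(mv 910 (cons (fin 845 3 845)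
(fin 849 2 846)))))))))
(cons (mv 915 (cons (fin 980 0 912)
(mv 851 (cons (fin 852 2 848)
(mv 850 (cons (fin 911 2 847)
(mv 786 (cons (fin 1043 7 786)
(fin 722 4 722)))))))))
(mv 978 (cons (fin 911 0 911)
(mv 980 (cons (fin 981 3 913)
(fin 915 0 912)))))))))))
(cons (cons (mv 911 (cons (cons (mv 846 (cons (fin 847 3 846)
(mv 845 (cons (fin 910 3 845)
(mv 851 (cons (fin 850 2 847)
(mv 915 (cons (fin 852 2 848)
(mv 979 (cons (fin 978 0 911)
(fin 980 0 912)))))))))))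
(cons (mv 846 (cons (fin 847 3 846)
(mv 845 (cons (fin 910 3 845)
(mv 851 (cons (fin 850 2 847)
(mv 915 (cons (fin 852 2 848)
(mv 916 (cons (fin 977 1 912)
(mv 980 (cons (fin 979 0 912)
(fin 981 0 913)))))))))))))
(mv 846 (cons (fin 847 3 846)
(mv 850 (cons (fin 851 2 847)
(mv 910 (cons (fin 845 3 845)
(mv 977 (cons (fin 909 0 909)
(fin 978 0 910)))))))))))
(cons (cons (mv 846 (cons (fin 847 3 846)
(mv 910 (cons (fin 845 3 845)
(mv 977 (cons (fin 909 0 909)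
(fin 978 0 910)))))))
(mv 850 (cons (fin 851 2 847)
(mv 978 (cons (fin 979 0 911)
(mv 910 (cons (fin 977 0 910)
(mv 845 (cons (fin 846 3 845)
(mv 909 (cons (fin 844 3 844)
(mv 973 (cons (fin 972 1 908)
(fin 974 1 909))))))))))))))
(cons (mv 850 (cons (fin 851 2 847)
(mv 978 (cons (fin 979 0 911)
(mv 977 (cons (fin 910 0 910)
(mv 786 (cons (fin 722 5 721)
(fin 1041 5 785)))))))))
(mv 846 (cons (fin 847 3 846)
(mv 851 (cons (fin 850 2 847)
(mv 915 (cons (fin 852 2 848)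
(mv 979 (cons (fin 978 0 911)
(fin 980 0 912)))))))))))))
(mv 911 (cons (cons (mv 846 (cons (fin 847 3 846)
(mv 850 (cons (fin 851 2 847)
(mv 910 (cons (fin 845 3 845)
(fin 849 2 846)))))))
(mv 846 (cons (fin 847 3 846)
(mv 910 (cons (fin 845 3 845)
(mv 977 (cons (fin 909 0 909)
(fin 978 0 910))))))))
(cons (mv 850 (cons (fin 851 2 847)
(mv 849 (cons (fin 910 2 846)
(mv 785 (cons (fin 721 5 720)
(fin 977 5 784)))))))
(mv 846 (cons (fin 847 3 846)
(mv 915 (cons (mv 851 (cons (fin 850 2 847)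
(fin 852 2 848)))
(cons (mv 916 (cons (fin 977 1 912)
(mv 853 (cons (fin 852 2 849)
(mv 917 (cons (fin 854 2 850)
(mv 981 (cons (fin 980 0 913)
(fin 982 0 914)))))))))
(mv 850 (cons (fin 851 2 847)
(mv 916 (cons (fin 977 1 912)
(mv 917 (cons (fin 849 3 849)
(mv 981 (cons (fin 980 0 913)
(fin 982 0 914))))))))))))))))))
(cons (mv 849 (cons (mv 785 (cons (fin 721 5 720)
(fin 977 5 784)))
(cons (mv 911 (cons (cons (mv 846 (cons (fin 847 3 846)
(mv 910 (cons (fin 845 3 845)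
(fin 850 2 846)))))
(mv 846 (cons (fin 847 3 846)
(mv 979 (cons (fin 978 0 911)
(mv 915 (cons (fin 980 0 912)
(mv 916 (cons (fin 977 1 912)
(mv 853 (cons (fin 852 2 849)
(mv 917 (cons (fin 850 3 849)
(fin 854 2 850))))))))))))))
(cons (mv 850 (cons (fin 910 2 846)
(mv 979 (cons (fin 978 0 911)
(mv 915 (cons (fin 980 0 912)
(mv 916 (cons (fin 917 3 849)
(fin 977 1 912)))))))))
(mv 846 (cons (fin 847 3 846)
(mv 910 (cons (fin 845 3 845)
(mv 977 (cons (fin 909 0 909)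
(fin 978 0 910))))))))))
(mv 785 (cons (fin 721 5 720)
(mv 978 (cons (mv 1042 (cons (fin 850 7 785)
(fin 1106 7 849)))
(cons (mv 911 (cons (fin 979 0 911)
(mv 846 (cons (fin 847 3 846)
(mv 910 (cons (fin 845 3 845)
(fin 850 2 846)))))))
(mv 979 (cons (fin 911 0 911)
(mv 980 (cons (fin 981 3 913)
(fin 915 0 912)))))))))))))
(cons (mv 915 (cons (mv 851 (cons (fin 852 2 848)
(mv 850 (cons (fin 911 2 847)
(mv 916 (cons (fin 977 1 912)
(mv 917 (cons (fin 849 3 849)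
(fin 918 3 850)))))))))
(cons (mv 851 (cons (fin 852 2 848)
(mv 850 (cons (fin 911 2 847)
(mv 979 (cons (fin 980 0 912)
(mv 786 (cons (fin 1043 7 786)
(fin 722 4 722)))))))))
(mv 916 (cons (fin 977 1 912)
(mv 980 (cons (fin 979 0 912)
(fin 981 0 913))))))))
(mv 915 (cons (cons (mv 851 (cons (fin 852 2 848)
(mv 916 (cons (fin 977 1 912)
(mv 980 (cons (fin 979 0 912)
(fin 981 0 913)))))))
(mv 851 (cons (fin 852 2 848)
(mv 979 (cons (fin 980 0 912)
(mv 911 (cons (fin 978 0 911)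
(mv 846 (cons (fin 847 3 846)
(mv 910 (cons (fin 845 3 845)
(mv 909 (cons (fin 977 0 909)
(mv 973 (cons (fin 972 1 908)
(fin 974 1 909))))))))))))))))
(cons (mv 851 (cons (fin 852 2 848)
(mv 979 (cons (fin 980 0 912)
(mv 978 (cons (fin 911 0 911)
(mv 787 (cons (fin 723 5 722)
(fin 1042 5 786)))))))))
(cons (mv 852 (cons (fin 851 2 848)
(mv 916 (cons (fin 977 1 912)
(fin 853 2 849)))))
(mv 916 (cons (fin 977 1 912)
(mv 980 (cons (fin 979 0 912)
(fin 981 0 913)))))))))))))))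
(cons (mv 911 (cons (cons (mv 847 (cons (fin 1104 7 847)
(mv 719 (cons (fin 783 4 719)
(mv 846 (cons (fin 914 3 846)
(mv 845 (cons (fin 910 3 845)
(fin 844 0 844)))))))))
(mv 910 (cons (mv 977 (cons (fin 909 0 909)
(fin 978 0 910)))
(cons (mv 845 (cons (fin 846 3 845)
(mv 909 (cons (fin 844 3 844)
(mv 973 (cons (fin 972 1 908)
(fin 974 1 909)))))))
(mv 846 (cons (fin 845 3 845)
(mv 847 (cons (fin 914 3 846)
(mv 719 (cons (fin 783 4 719)
(mv 974 (cons (fin 973 1 909)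
(mv 977 (cons (fin 978 0 910)
(mv 1038 (cons (fin 1102 6 846)
(mv 1037 (cons (fin 1039 2 973)
(fin 1101 5 845)))))))))))))))))))
(cons (mv 910 (cons (mv 977 (cons (fin 909 0 909)
(fin 978 0 910)))
(cons (mv 845 (cons (fin 846 3 845)
(mv 909 (cons (fin 844 3 844)
(mv 973 (cons (fin 972 1 908)
(fin 974 1 909)))))))
(mv 846 (cons (fin 845 3 845)
(mv 974 (cons (fin 973 1 909)
(mv 977 (cons (fin 978 0 910)
(mv 1104 (cons (fin 1168 6 912)
(mv 1103 (cons (fin 1167 5 911)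
(mv 1038 (cons (fin 1039 4 846)
(mv 1101 (cons (fin 1037 5 845)
(mv 1102 (cons (fin 1041 2 1037)
(fin 1165 5 909))))))))))))))))))))
(cons (mv 847 (cons (fin 1104 7 847)
(mv 719 (cons (fin 783 4 719)
(mv 914 (cons (fin 846 3 846)
(mv 851 (cons (fin 850 2 847)
(mv 915 (cons (fin 852 2 848)
(mv 979 (cons (fin 978 0 911)
(fin 980 0 912)))))))))))))
(mv 1104 (cons (fin 847 7 847)
(mv 977 (cons (fin 1168 6 912)
(mv 910 (cons (fin 909 0 909)
(fin 978 0 910)))))))))))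
(mv 914 (cons (cons (cons (mv 1104 (cons (fin 849 6 848)
(mv 911 (cons (fin 847 7 847)
(mv 850 (cons (fin 851 2 847)
(mv 979 (cons (fin 978 0 911)
(mv 915 (cons (fin 980 0 912)
(mv 722 (cons (fin 786 4 722)
(mv 1107 (cons (fin 1043 7 850)
(mv 1167 (cons (fin 1103 5 911)
(mv 1168 (cons (fin 1231 5 975)
(mv 1169 (cons (fin 1233 4 976)
(mv 1170 (cons (fin 1106 2 1103)
(mv 1171 (cons (fin 1108 2 1104)
(mv 1235 (cons (fin 1234 0 1167)
(fin 1236 0 1168)))))))))))))))))))))))))))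
(mv 979 (cons (cons (mv 911 (cons (fin 978 0 911)
(mv 846 (cons (fin 847 3 846)
(mv 845 (cons (fin 910 3 845)
(mv 851 (cons (fin 850 2 847)
(mv 915 (cons (fin 852 2 848)
(fin 980 0 912)))))))))))
(mv 915 (cons (fin 980 0 912)
(mv 851 (cons (fin 852 2 848)
(mv 1043 (cons (cons (mv 850 (cons (fin 786 7 786)
(fin 1107 7 850)))
(mv 1042 (cons (fin 1106 5 850)
(mv 787 (cons (fin 978 5 786)
(mv 722 (cons (fin 786 7 722)
(mv 658 (cons (fin 723 7 658)
(mv 724 (cons (fin 788 6 723)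
(mv 1108 (cons (fin 1044 4 851)
(mv 1107 (cons (fin 1041 0 1040)
(fin 1172 4 915))))))))))))))))
(cons (mv 786 (cons (fin 850 7 786)
(mv 787 (cons (fin 722 7 722)
(mv 978 (cons (fin 723 5 722)
(fin 1042 5 786)))))))
(mv 850 (cons (fin 1107 7 850)
(mv 1042 (cons (fin 1106 5 850)
(mv 787 (cons (fin 978 5 786)
(mv 723 (cons (fin 659 5 658)
(mv 724 (cons (fin 660 6 659)
(fin 788 6 723)))))))))))))))))))
(cons (mv 911 (cons (fin 978 0 911)
(mv 846 (cons (fin 847 3 846)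
(mv 850 (cons (fin 851 2 847)
(mv 910 (cons (fin 845 3 845)
(fin 849 2 846)))))))))
(cons (mv 915 (cons (fin 980 0 912)
(mv 851 (cons (fin 852 2 848)
(mv 850 (cons (fin 911 2 847)
(mv 786 (cons (fin 1043 7 786)
(fin 722 4 722)))))))))
(mv 978 (cons (fin 911 0 911)
(mv 980 (cons (fin 981 3 913)
(fin 915 0 912))))))))))
(cons (mv 911 (cons (mv 847 (cons (fin 846 3 846)
(fin 1104 7 847)))
(mv 851 (cons (fin 850 2 847)
(mv 915 (cons (fin 852 2 848)
(mv 979 (cons (fin 978 0 911)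
(fin 980 0 912)))))))))
(mv 849 (cons (fin 1104 6 848)
(mv 785 (cons (fin 721 5 720)
(mv 915 (cons (cons (mv 852 (cons (fin 851 2 848)
(mv 916 (cons (fin 853 2 849)
(mv 980 (cons (fin 979 0 912)
(fin 981 0 913)))))))
(mv 916 (cons (mv 980 (cons (fin 979 0 912)
(fin 981 0 913)))
(cons (mv 917 (cons (fin 850 3 849)
(mv 854 (cons (fin 853 2 850)
(mv 918 (cons (fin 855 2 851)
(mv 982 (cons (fin 981 0 914)
(fin 983 0 915)))))))))
(mv 850 (cons (fin 917 3 849)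
(mv 978 (cons (fin 1042 7 785)
(mv 979 (cons (fin 980 0 912)
(mv 786 (cons (fin 722 4 722)
(fin 1043 4 786)))))))))))))
(cons (mv 852 (cons (fin 851 2 848)
(mv 916 (cons (fin 853 2 849)
(mv 850 (cons (fin 917 3 849)
(mv 978 (cons (fin 1042 7 785)
(mv 786 (cons (mv 722 (cons (fin 658 5 657)
(fin 979 4 722)))
(cons (mv 722 (cons (fin 658 5 657)
(mv 723 (cons (fin 659 6 658)
(fin 787 6 722)))))
(mv 787 (cons (fin 723 6 722)
(mv 788 (cons (fin 789 1 785)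
(mv 724 (cons (fin 725 2 721)
(fin 979 5 723))))))))))))))))))
(cons (mv 852 (cons (fin 851 2 848)
(mv 916 (cons (fin 853 2 849)
(mv 917 (cons (fin 850 3 849)
(mv 981 (cons (fin 980 0 913)
(fin 982 0 914)))))))))
(mv 851 (cons (fin 852 2 848)
(mv 979 (cons (fin 980 0 912)
(mv 978 (cons (mv 787 (cons (fin 723 5 722)
(fin 1042 5 786)))
(cons (mv 787 (cons (fin 723 5 722)
(mv 724 (cons (fin 788 6 723)
(mv 786 (cons (fin 722 7 722)
(mv 1043 (cons (fin 850 7 786)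
(mv 1107 (cons (fin 1171 7 914)
(mv 1108 (cons (fin 1044 4 851)
(fin 1172 4 915)))))))))))))
(mv 1042 (cons (fin 850 7 785)
(fin 1106 7 849))))))))))))))))))))
(cons (cons (mv 849 (cons (fin 1104 6 848)
(mv 785 (cons (fin 721 5 720)
(mv 978 (cons (mv 1042 (cons (fin 850 7 785)
(fin 1106 7 849)))
(cons (mv 911 (cons (fin 979 0 911)
(mv 850 (cons (fin 910 2 846)
(fin 851 2 847)))))
(mv 979 (cons (fin 911 0 911)
(mv 980 (cons (fin 981 3 913)
(mv 1042 (cons (fin 1106 7 849)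
(mv 1041 (cons (fin 1039 2 975)
(fin 1043 2 976))))))))))))))))
(mv 849 (cons (fin 1104 6 848)
(mv 785 (cons (fin 721 5 720)
(mv 978 (cons (mv 1042 (cons (fin 850 7 785)
(fin 1106 7 849)))
(cons (mv 911 (cons (fin 979 0 911)
(mv 846 (cons (fin 847 3 846)
(mv 910 (cons (fin 845 3 845)
(fin 850 2 846)))))))
(mv 979 (cons (fin 911 0 911)
(mv 980 (cons (fin 981 3 913)
(fin 915 0 912)))))))))))))
(cons (mv 911 (cons (mv 847 (cons (fin 846 3 846)
(fin 1104 7 847)))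
(cons (mv 846 (cons (fin 847 3 846)
(mv 850 (cons (fin 851 2 847)
(mv 910 (cons (fin 845 3 845)
(fin 849 2 846)))))))
(mv 849 (cons (fin 1104 6 848)
(mv 850 (cons (fin 910 2 846)
(fin 851 2 847))))))))
(mv 1104 (cons (fin 849 6 848)
(mv 911 (cons (fin 847 7 847)
(mv 979 (cons (fin 978 0 911)
(mv 915 (cons (fin 980 0 912)
(mv 852 (cons (fin 851 2 848)
(mv 916 (cons (fin 853 2 849)
(mv 724 (cons (fin 788 5 723)
(mv 1107 (cons (fin 1043 6 851)
(mv 1167 (cons (fin 1103 5 911)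
(mv 1168 (cons (fin 1231 5 975)
(mv 1169 (cons (fin 1233 4 976)
(mv 1170 (cons (fin 1106 2 1103)
(mv 1171 (cons (fin 1108 2 1104)
(mv 1235 (cons (fin 1234 0 1167)
(fin 1236 0 1168)))))))))))))))))))))))))))))))))))))
(cons (mv 848 (cons (cons (mv 783 (cons (fin 847 7 783)
(mv 784 (cons (fin 719 7 719)
(mv 785 (cons (fin 721 6 720)
(fin 849 6 784)))))))
(cons (mv 847 (cons (fin 783 7 783)
(mv 1039 (cons (fin 1103 5 847)
(mv 977 (cons (mv 784 (cons (fin 1041 4 784)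
(mv 720 (cons (fin 913 4 720)
(mv 655 (cons (fin 719 7 655)
(mv 656 (cons (fin 591 7 591)
(fin 911 5 655)))))))))
(cons (mv 978 (cons (fin 979 1 975)
(mv 1037 (cons (fin 1038 2 973)
(mv 913 (cons (cons (mv 720 (cons (fin 784 4 720)
(mv 845 (cons (fin 846 0 845)
(mv 911 (cons (fin 910 0 910)
(mv 914 (cons (fin 915 3 847)
(mv 850 (cons (fin 851 2 847)
(mv 786 (cons (fin 722 5 721)
(mv 787 (cons (fin 849 2 783)
(fin 723 6 722)))))))))))))))
(cons (mv 720 (cons (fin 784 4 720)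
(mv 846 (cons (fin 845 0 845)
(mv 910 (cons (fin 911 0 910)
(mv 909 (cons (fin 849 1 845)
(mv 907 (cons (fin 908 2 843)
(mv 973 (cons (fin 1101 6 845)
(mv 782 (cons (fin 718 5 717)
(fin 974 5 781)))))))))))))))
(mv 720 (cons (fin 784 4 720)
(mv 846 (cons (fin 845 0 845)
(mv 914 (cons (fin 915 3 847)
(fin 849 0 846)))))))))
(cons (mv 720 (cons (fin 784 4 720)
(mv 911 (cons (fin 910 0 910)
(mv 914 (cons (fin 915 3 847)
(mv 850 (cons (fin 851 2 847)
(mv 786 (cons (fin 722 5 721)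
(mv 787 (cons (fin 849 2 783)
(fin 723 6 722)))))))))))))
(cons (mv 845 (cons (fin 846 0 845)
(mv 911 (cons (fin 910 0 910)
(mv 914 (cons (fin 915 3 847)
(mv 850 (cons (fin 851 2 847)
(mv 786 (cons (fin 722 5 721)
(mv 787 (cons (fin 849 2 783)
(fin 723 6 722)))))))))))))
(mv 720 (cons (fin 784 4 720)
(mv 846 (cons (fin 845 0 845)
(mv 911 (cons (fin 914 3 846)
(fin 910 0 910)))))))))))))))
(mv 978 (cons (fin 979 1 975)
(mv 1038 (cons (fin 1037 2 973)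
(fin 1041 2 974))))))))))))
(mv 785 (cons (fin 849 6 784)
(mv 784 (cons (fin 721 6 720)
(mv 977 (cons (fin 1041 4 784)
(mv 913 (cons (fin 720 4 720)
(mv 1039 (cons (fin 1103 5 847)
(mv 978 (cons (fin 979 1 975)
(mv 911 (cons (fin 910 0 910)
(mv 1037 (cons (fin 1038 2 973)
(mv 914 (cons (mv 847 (cons (fin 846 3 846)
(fin 915 3 847)))
(cons (mv 851 (cons (fin 850 2 847)
(mv 915 (cons (fin 916 1 912)
(fin 852 2 848)))))
(mv 847 (cons (fin 846 3 846)
(mv 786 (cons (fin 787 1 783)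
(mv 850 (cons (fin 851 2 847)
(fin 722 5 721))))))))))))))))))))))))))))
(cons (mv 783 (cons (fin 847 7 783)
(mv 784 (cons (fin 719 7 719)
(mv 721 (cons (fin 785 6 720)
(mv 720 (cons (fin 657 6 656)
(mv 977 (cons (fin 913 4 720)
(fin 1041 4 784)))))))))))
(cons (mv 785 (cons (fin 849 6 784)
(mv 784 (cons (fin 721 6 720)
(mv 719 (cons (fin 783 7 719)
(mv 720 (cons (fin 655 7 655)
(mv 977 (cons (fin 913 4 720)
(fin 1041 4 784)))))))))))
(mv 785 (cons (fin 849 6 784)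
(mv 847 (cons (fin 783 7 783)
(mv 1039 (cons (fin 1103 5 847)
(mv 1038 (cons (cons (mv 977 (cons (fin 1037 2 973)
(mv 978 (cons (fin 979 1 975)
(fin 1041 2 974)))))
(mv 1041 (cons (cons (mv 973 (cons (fin 974 3 973)
(mv 978 (cons (fin 977 2 974)
(mv 1042 (cons (fin 979 2 975)
(mv 1101 (cons (fin 1102 1 1037)
(mv 1107 (cons (fin 1106 0 1039)
(mv 1043 (cons (fin 1108 0 1040)
(mv 914 (cons (fin 850 4 850)
(mv 913 (cons (fin 915 3 847)
(mv 846 (cons (fin 911 3 846)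
(fin 845 0 845)))))))))))))))))))
(mv 974 (cons (fin 973 3 973)
(mv 1102 (cons (fin 1101 1 1037)
(mv 910 (cons (fin 911 6 846)
(mv 845 (cons (fin 909 7 845)
(mv 846 (cons (fin 913 0 845)
(fin 781 7 781))))))))))))
(cons (mv 973 (cons (fin 974 3 973)
(mv 978 (cons (fin 977 2 974)
(mv 1042 (cons (fin 979 2 975)
(mv 1107 (cons (fin 1106 0 1039)
(mv 1043 (cons (fin 1108 0 1040)
(mv 914 (cons (fin 850 4 850)
(mv 913 (cons (fin 915 3 847)
(mv 846 (cons (fin 911 3 846)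
(fin 845 0 845)))))))))))))))))
(cons (mv 978 (cons (fin 977 2 974)
(mv 1042 (cons (fin 979 2 975)
(mv 1101 (cons (fin 1102 1 1037)
(mv 1107 (cons (fin 1106 0 1039)
(mv 1043 (cons (fin 1108 0 1040)
(mv 914 (cons (fin 850 4 850)
(mv 913 (cons (fin 915 3 847)
(mv 846 (cons (fin 911 3 846)
(fin 845 0 845)))))))))))))))))
(mv 973 (cons (fin 974 3 973)
(mv 1101 (cons (fin 1102 1 1037)
(mv 1042 (cons (cons (mv 978 (cons (fin 977 2 974)
(fin 979 2 975)))
(mv 1107 (cons (fin 1106 0 1039)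
(mv 1043 (cons (fin 1108 0 1040)
(mv 980 (cons (fin 979 2 976)
(mv 1044 (cons (fin 977 3 976)
(fin 981 2 977))))))))))
(cons (mv 979 (cons (fin 978 2 975)
(mv 1043 (cons (fin 980 2 976)
(mv 1107 (cons (fin 1106 0 1039)
(fin 1108 0 1040)))))))
(mv 977 (cons (fin 978 2 974)
(mv 1043 (cons (fin 1044 3 976)
(mv 1107 (cons (fin 1106 0 1039)
(fin 1108 0 1040)))))))))))))))))))
(cons (mv 973 (cons (cons (mv 972 (cons (fin 1037 3 972)
(mv 974 (cons (fin 1041 3 973)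
(fin 971 0 971)))))
(mv 974 (cons (fin 1041 3 973)
(mv 971 (cons (fin 972 0 971)
(mv 845 (cons (cons (mv 781 (cons (fin 909 4 781)
(mv 846 (cons (fin 780 3 780)
(fin 913 0 845)))))
(mv 909 (cons (fin 781 4 781)
(mv 1102 (cons (fin 910 7 845)
(fin 1166 7 909))))))
(cons (mv 846 (cons (fin 913 0 845)
(mv 781 (cons (fin 780 3 780)
(fin 910 7 781)))))
(mv 846 (cons (fin 913 0 845)
(mv 844 (cons (fin 911 0 844)
(mv 908 (cons (fin 907 1 843)
(fin 909 1 844)))))))))))))))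
(cons (mv 1037 (cons (fin 972 3 972)
(mv 1100 (cons (fin 1101 1 1036)
(mv 1036 (cons (fin 1099 1 1035)
(mv 845 (cons (fin 909 5 844)
(mv 846 (cons (fin 913 0 845)
(mv 780 (cons (fin 781 3 780)
(mv 844 (cons (fin 779 3 779)
(fin 911 0 844)))))))))))))))
(mv 974 (cons (fin 1041 3 973)
(mv 1102 (cons (mv 909 (cons (fin 1166 7 909)
(mv 845 (cons (fin 910 7 845)
(fin 781 4 781)))))
(cons (mv 909 (cons (fin 1166 7 909)
(mv 845 (cons (fin 781 4 781)
(fin 1037 4 845)))))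
(mv 910 (cons (fin 911 6 846)
(mv 1101 (cons (fin 1165 5 909)
(mv 1037 (cons (fin 1100 1 1036)
(fin 846 5 845)))))))))))))))
(mv 1037 (cons (fin 977 2 973)
(mv 972 (cons (fin 973 3 972)
(mv 1036 (cons (fin 971 3 971)
(mv 1100 (cons (fin 1099 1 1035)
(fin 1101 1 1036))))))))))))))))))))))
(cons (mv 848 (cons (cons (mv 783 (cons (fin 847 7 783)
(mv 784 (cons (fin 719 7 719)
(mv 721 (cons (fin 785 6 720)
(mv 720 (cons (fin 657 6 656)
(mv 977 (cons (fin 913 4 720)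
(fin 1041 4 784)))))))))))
(mv 1103 (cons (fin 1039 5 847)
(mv 1104 (cons (fin 1167 5 911)
(mv 784 (cons (cons (mv 719 (cons (fin 783 7 719)
(mv 720 (cons (fin 655 7 655)
(mv 721 (cons (fin 657 6 656)
(fin 785 6 720)))))))
(mv 721 (cons (fin 785 6 720)
(mv 720 (cons (fin 657 6 656)
(mv 977 (cons (fin 913 4 720)
(fin 1041 4 784))))))))
(cons (mv 719 (cons (fin 783 7 719)
(mv 720 (cons (fin 655 7 655)
(mv 977 (cons (fin 913 4 720)
(fin 1041 4 784)))))))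
(mv 783 (cons (fin 719 7 719)
(mv 785 (cons (fin 721 6 720)
(mv 977 (cons (fin 1041 4 784)
(mv 786 (cons (cons (mv 722 (cons (fin 723 2 719)
(mv 850 (cons (fin 851 0 783)
(mv 913 (cons (fin 914 5 721)
(fin 1168 6 912)))))))
(cons (mv 722 (cons (fin 723 2 719)
(mv 850 (cons (fin 851 0 783)
(mv 914 (cons (fin 913 5 721)
(mv 979 (cons (fin 915 4 722)
(mv 978 (cons (fin 911 3 911)
(fin 1043 4 786)))))))))))
(mv 722 (cons (fin 723 2 719)
(mv 979 (cons (cons (mv 911 (cons (fin 978 3 911)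
(mv 909 (cons (fin 910 0 909)
(mv 913 (cons (fin 1168 6 912)
(mv 914 (cons (fin 850 5 721)
(mv 915 (cons (fin 916 1 912)
(fin 980 0 912)))))))))))
(mv 913 (cons (fin 1168 6 912)
(mv 914 (cons (fin 850 5 721)
(mv 915 (cons (fin 916 1 912)
(fin 980 0 912))))))))
(cons (mv 978 (cons (fin 911 3 911)
(mv 916 (cons (fin 915 2 912)
(mv 980 (cons (fin 917 2 913)
(mv 1044 (cons (fin 1043 0 976)
(fin 1045 0 977)))))))))
(cons (mv 913 (cons (fin 1168 6 912)
(mv 978 (cons (fin 911 3 911)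
(fin 980 3 912)))))
(mv 978 (cons (fin 911 3 911)
(mv 915 (cons (fin 916 2 912)
(mv 914 (cons (fin 850 4 722)
(mv 1043 (cons (fin 1044 0 976)
(mv 1168 (cons (fin 913 6 912)
(mv 1169 (cons (fin 1233 4 976)
(mv 1171 (cons (fin 1170 3 1103)
(fin 1107 7 914)))))))))))))))))))))))
(cons (cons (mv 850 (cons (fin 851 0 783)
(mv 913 (cons (fin 1168 6 912)
(mv 914 (cons (fin 722 5 721)
(mv 915 (cons (fin 916 1 912)
(mv 979 (cons (fin 980 0 912)
(mv 978 (cons (fin 911 3 911)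
(fin 1043 4 786)))))))))))))
(mv 723 (cons (fin 722 2 719)
(mv 787 (cons (fin 724 2 720)
(mv 851 (cons (fin 850 0 783)
(fin 852 0 784))))))))
(cons (mv 851 (cons (fin 850 0 783)
(mv 787 (cons (fin 852 0 784)
(mv 724 (cons (fin 723 2 720)
(mv 788 (cons (fin 725 2 721)
(mv 596 (cons (fin 660 5 595)
(mv 913 (cons (fin 1168 6 912)
(mv 979 (cons (fin 915 6 723)
(mv 978 (cons (fin 911 3 911)
(fin 980 3 912)))))))))))))))))
(mv 723 (cons (fin 722 2 719)
(mv 787 (cons (fin 724 2 720)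
(mv 851 (cons (fin 852 0 784)
(mv 913 (cons (fin 1168 6 912)
(mv 915 (cons (cons (mv 914 (cons (fin 916 1 912)
(fin 978 5 722)))
(mv 980 (cons (fin 916 4 723)
(mv 979 (cons (fin 978 3 912)
(fin 1044 4 787))))))
(cons (mv 978 (cons (fin 914 5 722)
(mv 911 (cons (fin 979 3 911)
(fin 910 0 910)))))
(mv 916 (cons (fin 914 1 912)
(fin 980 4 723))))))))))))))))))))))))))))))))
(cons (mv 1103 (cons (fin 1039 5 847)
(mv 1104 (cons (fin 1167 5 911)
(mv 847 (cons (fin 911 7 847)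
(mv 977 (cons (cons (mv 784 (cons (fin 1041 4 784)
(mv 913 (cons (fin 1168 6 912)
(fin 720 4 720)))))
(mv 1041 (cons (fin 784 4 784)
(mv 1043 (cons (fin 1042 1 1039)
(mv 1168 (cons (fin 1232 6 976)
(mv 1169 (cons (fin 1233 4 976)
(mv 1171 (cons (fin 1170 3 1103)
(mv 979 (cons (cons (mv 978 (cons (fin 980 1 976)
(fin 1044 0 976)))
(mv 1107 (cons (cons (mv 916 (cons (fin 980 6 915)
(mv 915 (cons (fin 852 6 851)
(mv 1172 (cons (fin 1108 4 915)
(fin 1236 4 979)))))))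
(mv 980 (cons (fin 916 6 915)
(mv 1235 (cons (fin 1044 6 979)
(mv 1298 (cons (fin 1234 5 1042)
(mv 1299 (cons (fin 1362 5 1106)
(mv 1300 (cons (fin 1236 4 1043)
(fin 1364 4 1107))))))))))))
(cons (mv 1172 (cons (fin 1236 4 979)
(mv 915 (cons (fin 1108 4 915)
(mv 850 (cons (fin 914 7 850)
(mv 851 (cons (fin 786 7 786)
(mv 852 (cons (fin 788 6 787)
(fin 916 6 851)))))))))))
(cons (mv 916 (cons (fin 980 6 915)
(mv 915 (cons (fin 852 6 851)
(mv 850 (cons (fin 914 7 850)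
(mv 851 (cons (fin 786 7 786)
(mv 1108 (cons (fin 1044 4 851)
(fin 1172 4 915)))))))))))
(mv 1236 (cons (fin 1172 4 979)
(mv 1235 (cons (fin 1300 4 1043)
(mv 1044 (cons (fin 980 6 979)
(mv 1298 (cons (fin 1234 5 1042)
(mv 1299 (cons (fin 1362 5 1106)
(fin 1108 6 1043))))))))))))))))
(cons (mv 978 (cons (fin 1044 0 976)
(mv 915 (cons (fin 916 2 912)
(mv 1101 (cons (fin 1102 2 1037)
(mv 1107 (cons (fin 914 7 914)
(mv 1172 (cons (fin 1108 4 915)
(fin 1236 4 979)))))))))))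
(mv 978 (cons (fin 980 1 976)
(mv 915 (cons (fin 916 2 912)
(mv 1101 (cons (fin 1102 2 1037)
(mv 1107 (cons (fin 914 7 914)
(mv 1172 (cons (fin 1108 4 915)
(fin 1236 4 979)))))))))))))))))))))))))
(cons (mv 913 (cons (fin 1168 6 912)
(mv 784 (cons (fin 720 4 720)
(mv 785 (cons (fin 721 6 720)
(mv 787 (cons (fin 786 1 783)
(mv 915 (cons (fin 914 3 847)
(mv 979 (cons (cons (mv 978 (cons (fin 980 3 912)
(fin 916 2 912)))
(mv 851 (cons (cons (mv 724 (cons (fin 788 6 723)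
(mv 723 (cons (fin 660 6 659)
(mv 980 (cons (fin 916 4 723)
(fin 1044 4 787)))))))
(mv 980 (cons (fin 1044 4 787)
(mv 723 (cons (fin 916 4 723)
(mv 658 (cons (fin 722 7 658)
(mv 659 (cons (fin 594 7 594)
(mv 660 (cons (fin 596 6 595)
(fin 724 6 659))))))))))))
(cons (mv 788 (cons (fin 724 6 723)
(mv 1043 (cons (fin 852 6 787)
(mv 1106 (cons (fin 1042 5 850)
(mv 1107 (cons (fin 1170 5 914)
(mv 1108 (cons (fin 1044 4 851)
(fin 1172 4 915)))))))))))
(cons (mv 1044 (cons (fin 980 4 787)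
(mv 1043 (cons (fin 1108 4 851)
(mv 852 (cons (fin 788 6 787)
(mv 1106 (cons (fin 1042 5 850)
(mv 1107 (cons (fin 1170 5 914)
(fin 916 6 851)))))))))))
(mv 724 (cons (fin 788 6 723)
(mv 723 (cons (fin 660 6 659)
(mv 658 (cons (fin 722 7 658)
(mv 659 (cons (fin 594 7 594)
(mv 916 (cons (fin 852 4 659)
(fin 980 4 723))))))))))))))))
(cons (mv 845 (cons (fin 846 2 781)
(mv 978 (cons (fin 916 2 912)
(mv 851 (cons (fin 1042 5 786)
(mv 788 (cons (fin 724 6 723)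
(mv 1043 (cons (fin 1044 0 976)
(fin 852 6 787)))))))))))
(mv 845 (cons (fin 846 2 781)
(mv 978 (cons (fin 980 3 912)
(mv 851 (cons (fin 1042 5 786)
(mv 788 (cons (fin 724 6 723)
(mv 1043 (cons (fin 1044 0 976)
(fin 852 6 787))))))))))))))))))))))))
(cons (mv 1168 (cons (fin 913 6 912)
(mv 1232 (cons (fin 1041 6 976)
(mv 1233 (cons (fin 1169 4 976)
(fin 1297 4 1040)))))))
(mv 784 (cons (fin 1041 4 784)
(mv 720 (cons (fin 913 4 720)
(mv 721 (cons (fin 657 6 656)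
(fin 785 6 720)))))))))))))))))
(mv 847 (cons (fin 783 7 783)
(mv 1103 (cons (fin 1039 5 847)
(mv 1104 (cons (fin 911 7 847)
(fin 1167 5 911))))))))))
(mv 1104 (cons (cons (mv 849 (cons (fin 913 6 848)
(mv 848 (cons (fin 785 6 784)
(mv 1103 (cons (fin 1039 5 847)
(fin 1167 5 911)))))))
(mv 913 (cons (fin 849 6 848)
(mv 1168 (cons (fin 977 6 912)
(mv 1231 (cons (fin 1167 5 975)
(mv 1232 (cons (fin 1295 5 1039)
(mv 1233 (cons (fin 1169 4 976)
(fin 1297 4 1040))))))))))))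
(cons (mv 1103 (cons (fin 1167 5 911)
(mv 1039 (cons (fin 848 5 847)
(mv 1041 (cons (mv 1042 (cons (fin 1102 1 1038)
(fin 1043 1 1039)))
(cons (mv 1042 (cons (fin 1043 1 1039)
(mv 978 (cons (fin 979 2 975)
(mv 977 (cons (fin 1038 2 974)
(mv 1106 (cons (fin 1107 0 1039)
(mv 1168 (cons (fin 1232 6 976)
(mv 1169 (cons (fin 1233 4 976)
(mv 1170 (cons (fin 1171 3 1103)
(fin 1234 7 977)))))))))))))))
(mv 1102 (cons (fin 1101 2 1037)
(mv 1038 (cons (mv 977 (cons (fin 1037 2 973)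
(fin 978 2 974)))
(cons (mv 974 (cons (fin 973 3 973)
(mv 910 (cons (fin 846 4 846)
(mv 909 (cons (fin 845 7 845)
(mv 977 (cons (fin 978 2 974)
(fin 911 0 909)))))))))
(mv 973 (cons (fin 974 3 973)
(mv 1037 (cons (fin 972 3 972)
(fin 1036 0 1036)))))))))))))))))
(mv 913 (cons (fin 849 6 848)
(mv 977 (cons (fin 1168 6 912)
(mv 848 (cons (mv 784 (cons (fin 720 4 720)
(fin 1041 4 784)))
(cons (mv 1039 (cons (fin 1103 5 847)
(mv 978 (cons (fin 979 1 975)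
(mv 1038 (cons (fin 1037 2 973)
(fin 1041 2 974)))))))
(mv 784 (cons (fin 720 4 720)
(mv 783 (cons (fin 719 7 719)
(mv 785 (cons (fin 721 6 720)
(mv 1039 (cons (fin 1103 5 847)
(mv 979 (cons (fin 978 1 975)
(mv 1037 (cons (fin 1038 2 973)
(mv 786 (cons (cons (mv 722 (cons (fin 723 2 719)
(mv 850 (cons (fin 851 0 783)
(fin 914 5 721)))))
(mv 722 (cons (fin 723 2 719)
(mv 914 (cons (fin 850 5 721)
(mv 915 (cons (fin 916 1 912)
(fin 980 0 912))))))))
(cons (mv 787 (cons (mv 723 (cons (fin 722 2 719)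
(fin 724 2 720)))
(cons (mv 851 (cons (fin 852 0 784)
(mv 915 (cons (fin 722 7 722)
(mv 914 (cons (fin 916 1 912)
(fin 980 0 912)))))))
(mv 724 (cons (fin 723 2 720)
(mv 788 (cons (fin 725 2 721)
(mv 851 (cons (fin 852 0 784)
(fin 915 6 723))))))))))
(cons (mv 851 (cons (fin 850 0 783)
(mv 787 (cons (fin 852 0 784)
(mv 724 (cons (fin 723 2 720)
(mv 788 (cons (fin 725 2 721)
(fin 915 6 723)))))))))
(mv 850 (cons (fin 851 0 783)
(mv 914 (cons (fin 722 5 721)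
(mv 915 (cons (fin 916 1 912)
(fin 980 0 912))))))))))))))))))))))))))))))))))))
(cons (cons (mv 848 (cons (cons (mv 783 (cons (fin 847 7 783)
(mv 784 (cons (fin 719 7 719)
(mv 785 (cons (fin 721 6 720)
(fin 849 6 784)))))))
(cons (mv 783 (cons (fin 847 7 783)
(mv 784 (cons (fin 719 7 719)
(mv 721 (cons (fin 785 6 720)
(mv 720 (cons (fin 657 6 656)
(mv 977 (cons (fin 913 4 720)
(fin 1041 4 784)))))))))))
(mv 785 (cons (fin 849 6 784)
(mv 784 (cons (fin 721 6 720)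
(mv 719 (cons (fin 783 7 719)
(mv 720 (cons (fin 655 7 655)
(mv 977 (cons (fin 913 4 720)
(fin 1041 4 784)))))))))))))
(cons (mv 783 (cons (fin 847 7 783)
(mv 784 (cons (fin 719 7 719)
(mv 977 (cons (fin 1041 4 784)
(mv 913 (cons (fin 720 4 720)
(mv 1104 (cons (fin 849 6 848)
(fin 1168 6 912)))))))))))
(cons (mv 785 (cons (fin 849 6 784)
(mv 784 (cons (fin 721 6 720)
(mv 977 (cons (fin 1041 4 784)
(mv 913 (cons (fin 720 4 720)
(mv 1104 (cons (fin 1168 6 912)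
(mv 911 (cons (fin 847 7 847)
(mv 910 (cons (fin 909 0 909)
(fin 978 0 910)))))))))))))))
(mv 847 (cons (fin 783 7 783)
(mv 849 (cons (fin 785 6 784)
(mv 1104 (cons (fin 911 7 847)
(fin 913 6 848)))))))))))
(cons (mv 848 (cons (cons (mv 783 (cons (fin 847 7 783)
(mv 784 (cons (fin 719 7 719)
(mv 785 (cons (fin 721 6 720)
(fin 849 6 784)))))))
(cons (mv 979 (cons (cons (cons (mv 785 (cons (fin 849 6 784)
(mv 784 (cons (fin 721 6 720)
(mv 719 (cons (fin 783 7 719)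
(mv 655 (cons (fin 720 7 655)
(mv 977 (cons (fin 1041 4 784)
(mv 978 (cons (fin 911 3 911)
(fin 1039 1 975)))))))))))))
(mv 785 (cons (fin 849 6 784)
(mv 784 (cons (fin 721 6 720)
(mv 719 (cons (fin 783 7 719)
(mv 655 (cons (fin 720 7 655)
(mv 977 (cons (fin 1041 4 784)
(mv 978 (cons (fin 911 3 911)
(mv 916 (cons (fin 915 2 912)
(mv 980 (cons (fin 917 2 913)
(mv 1044 (cons (fin 1043 0 976)
(fin 1045 0 977))))))))))))))))))))
(cons (mv 1103 (cons (fin 1039 5 847)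
(mv 1104 (cons (fin 1167 5 911)
(mv 977 (cons (cons (mv 784 (cons (fin 1041 4 784)
(mv 719 (cons (fin 783 7 719)
(mv 655 (cons (fin 720 7 655)
(mv 978 (cons (fin 911 3 911)
(mv 916 (cons (fin 915 2 912)
(mv 980 (cons (fin 917 2 913)
(mv 1044 (cons (fin 1043 0 976)
(fin 1045 0 977)))))))))))))))
(cons (mv 978 (cons (fin 911 3 911)
(mv 916 (cons (fin 915 2 912)
(mv 980 (cons (fin 917 2 913)
(mv 1044 (cons (fin 1043 0 976)
(fin 1045 0 977)))))))))
(mv 1041 (cons (fin 784 4 784)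
(mv 1043 (cons (fin 1042 1 1039)
(mv 1101 (cons (fin 1102 2 1037)
(mv 1168 (cons (fin 1232 6 976)
(mv 1169 (cons (fin 1233 4 976)
(mv 1171 (cons (fin 1170 3 1103)
(mv 1107 (cons (cons (mv 916 (cons (fin 980 6 915)
(mv 915 (cons (fin 852 6 851)
(mv 1172 (cons (fin 1108 4 915)
(fin 1236 4 979)))))))
(mv 916 (cons (fin 980 6 915)
(mv 915 (cons (fin 852 6 851)
(mv 850 (cons (fin 914 7 850)
(mv 851 (cons (fin 849 0 848)
(fin 786 7 786))))))))))
(cons (mv 1172 (cons (fin 1236 4 979)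
(mv 915 (cons (fin 1108 4 915)
(mv 850 (cons (fin 914 7 850)
(mv 851 (cons (fin 786 7 786)
(mv 849 (cons (fin 911 1 847)
(fin 916 0 848)))))))))))
(mv 1236 (cons (fin 1172 4 979)
(mv 1235 (cons (fin 1300 4 1043)
(mv 1044 (cons (fin 980 6 979)
(mv 1298 (cons (fin 1234 5 1042)
(mv 1299 (cons (fin 1362 5 1106)
(fin 1108 6 1043))))))))))))))))))))))))))))
(cons (mv 1041 (cons (fin 784 4 784)
(mv 978 (cons (fin 980 1 976)
(mv 1043 (cons (fin 1042 1 1039)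
(fin 1044 0 976)))))))
(cons (mv 978 (cons (fin 911 3 911)
(mv 1041 (cons (fin 980 1 976)
(fin 784 4 784)))))
(mv 978 (cons (fin 911 3 911)
(mv 915 (cons (fin 916 2 912)
(mv 1041 (cons (fin 784 4 784)
(mv 1043 (cons (fin 1042 1 1039)
(fin 1044 0 976)))))))))))))))))
(mv 1039 (cons (fin 1103 5 847)
(mv 977 (cons (fin 978 1 975)
(mv 784 (cons (fin 1041 4 784)
(mv 719 (cons (fin 783 7 719)
(mv 720 (cons (fin 655 7 655)
(mv 721 (cons (fin 657 6 656)
(fin 785 6 720)))))))))))))))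
(cons (cons (mv 1039 (cons (fin 1103 5 847)
(mv 1042 (cons (cons (mv 785 (cons (fin 849 6 784)
(mv 721 (cons (fin 784 6 720)
(mv 1041 (cons (fin 978 2 975)
(mv 1043 (cons (fin 980 2 976)
(mv 1107 (cons (fin 1106 0 1039)
(fin 1108 0 1040)))))))))))
(cons (mv 851 (cons (cons (mv 785 (cons (fin 849 6 784)
(mv 784 (cons (fin 721 6 720)
(mv 719 (cons (fin 783 7 719)
(mv 720 (cons (fin 655 7 655)
(mv 717 (cons (fin 718 0 717)
(mv 787 (cons (fin 786 3 719)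
(mv 915 (cons (fin 978 5 786)
(mv 724 (cons (fin 788 6 723)
(mv 660 (cons (fin 723 6 659)
(mv 1043 (cons (fin 1106 5 850)
(mv 1044 (cons (fin 980 4 787)
(fin 1108 4 851)))))))))))))))))))))))
(mv 915 (cons (cons (mv 787 (cons (fin 978 5 786)
(mv 722 (cons (fin 786 7 722)
(mv 658 (cons (fin 723 7 658)
(mv 724 (cons (fin 788 6 723)
(mv 1043 (cons (fin 1106 5 850)
(mv 1044 (cons (fin 980 4 787)
(fin 1108 4 851)))))))))))))
(mv 787 (cons (fin 978 5 786)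
(mv 722 (cons (fin 786 7 722)
(mv 723 (cons (fin 658 7 658)
(mv 724 (cons (fin 660 6 659)
(fin 788 6 723))))))))))
(cons (mv 1043 (cons (fin 1106 5 850)
(mv 786 (cons (fin 850 7 786)
(mv 852 (cons (fin 788 6 787)
(mv 1107 (cons (fin 916 6 851)
(mv 1108 (cons (fin 1044 4 851)
(fin 1172 4 915)))))))))))
(cons (mv 787 (cons (fin 978 5 786)
(mv 724 (cons (fin 788 6 723)
(mv 660 (cons (fin 723 6 659)
(mv 1043 (cons (fin 1106 5 850)
(mv 1044 (cons (fin 980 4 787)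
(fin 1108 4 851)))))))))))
(mv 787 (cons (fin 978 5 786)
(mv 722 (cons (fin 786 7 722)
(mv 658 (cons (fin 723 7 658)
(mv 1043 (cons (fin 1106 5 850)
(mv 1044 (cons (fin 980 4 787)
(fin 1108 4 851))))))))))))))))
(cons (mv 785 (cons (fin 849 6 784)
(mv 784 (cons (fin 721 6 720)
(mv 783 (cons (fin 719 7 719)
(mv 786 (cons (fin 850 0 783)
(mv 723 (cons (fin 722 2 719)
(mv 787 (cons (fin 724 2 720)
(fin 852 0 784)))))))))))))
(cons (mv 849 (cons (fin 785 6 784)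
(mv 850 (cons (fin 911 1 847)
(mv 783 (cons (fin 784 3 783)
(mv 915 (cons (fin 916 0 848)
(mv 1043 (cons (fin 786 7 786)
(fin 1106 5 850)))))))))))
(mv 785 (cons (fin 849 6 784)
(mv 784 (cons (fin 721 6 720)
(mv 783 (cons (fin 719 7 719)
(mv 915 (cons (cons (mv 787 (cons (fin 978 5 786)
(mv 724 (cons (fin 788 6 723)
(mv 660 (cons (fin 723 6 659)
(mv 1043 (cons (fin 1106 5 850)
(mv 1044 (cons (fin 980 4 787)
(fin 1108 4 851)))))))))))
(cons (mv 787 (cons (fin 978 5 786)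
(mv 724 (cons (fin 788 6 723)
(mv 723 (cons (fin 660 6 659)
(mv 980 (cons (fin 916 4 723)
(fin 1044 4 787)))))))))
(mv 1043 (cons (fin 1106 5 850)
(mv 852 (cons (fin 788 6 787)
(mv 1044 (cons (fin 1108 4 851)
(mv 1107 (cons (fin 916 6 851)
(mv 914 (cons (fin 850 7 850)
(mv 1171 (cons (fin 978 7 914)
(mv 1234 (cons (fin 1170 5 978)
(mv 1235 (cons (fin 1298 5 1042)
(fin 980 6 979)))))))))))))))))))
(cons (cons (mv 1043 (cons (fin 1106 5 850)
(mv 788 (cons (fin 852 6 787)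
(mv 787 (cons (fin 724 6 723)
(mv 1044 (cons (fin 980 4 787)
(fin 1108 4 851)))))))))
(mv 787 (cons (fin 978 5 786)
(mv 724 (cons (fin 788 6 723)
(mv 723 (cons (fin 660 6 659)
(mv 658 (cons (fin 722 7 658)
(mv 659 (cons (fin 594 7 594)
(mv 916 (cons (fin 852 4 659)
(fin 980 4 723))))))))))))))
(cons (mv 787 (cons (fin 978 5 786)
(mv 980 (cons (fin 1044 4 787)
(mv 723 (cons (fin 916 4 723)
(mv 658 (cons (fin 722 7 658)
(mv 659 (cons (fin 594 7 594)
(mv 660 (cons (fin 596 6 595)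
(fin 724 6 659)))))))))))))
(mv 787 (cons (fin 978 5 786)
(mv 788 (cons (fin 724 6 723)
(mv 1043 (cons (fin 1106 5 850)
(fin 852 6 787)))))))))))))))))))))
(mv 1041 (cons (fin 978 2 975)
(mv 1043 (cons (fin 980 2 976)
(mv 1107 (cons (fin 1106 0 1039)
(fin 1108 0 1040)))))))))
(cons (mv 1043 (cons (cons (mv 785 (cons (fin 849 6 784)
(mv 721 (cons (fin 784 6 720)
(mv 1041 (cons (fin 980 2 976)
(mv 1107 (cons (fin 1106 0 1039)
(fin 1108 0 1040)))))))))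
(cons (mv 785 (cons (fin 849 6 784)
(mv 784 (cons (fin 721 6 720)
(mv 783 (cons (fin 719 7 719)
(mv 851 (cons (cons (mv 786 (cons (fin 850 0 783)
(mv 722 (cons (fin 723 2 719)
(mv 787 (cons (fin 852 0 784)
(fin 915 7 722)))))))
(mv 786 (cons (fin 850 0 783)
(mv 723 (cons (fin 722 2 719)
(mv 787 (cons (fin 724 2 720)
(fin 852 0 784))))))))
(cons (mv 915 (cons (fin 1106 5 850)
(mv 788 (cons (fin 852 6 787)
(mv 787 (cons (fin 724 6 723)
(mv 1044 (cons (fin 980 4 787)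
(fin 1108 4 851)))))))))
(cons (mv 786 (cons (fin 850 0 783)
(mv 722 (cons (fin 723 2 719)
(mv 915 (cons (fin 787 7 722)
(fin 1106 5 850)))))))
(mv 786 (cons (fin 850 0 783)
(mv 722 (cons (fin 723 2 719)
(mv 915 (cons (fin 1106 5 850)
(mv 852 (cons (fin 788 6 787)
(mv 1107 (cons (fin 916 6 851)
(mv 1108 (cons (fin 1044 4 851)
(fin 1172 4 915)))))))))))))))))))))))
(mv 785 (cons (fin 849 6 784)
(mv 784 (cons (fin 721 6 720)
(mv 783 (cons (fin 719 7 719)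
(mv 851 (cons (cons (mv 786 (cons (fin 850 0 783)
(mv 722 (cons (fin 723 2 719)
(mv 787 (cons (fin 852 0 784)
(fin 915 7 722)))))))
(mv 786 (cons (fin 850 0 783)
(mv 723 (cons (fin 722 2 719)
(mv 787 (cons (fin 724 2 720)
(fin 852 0 784))))))))
(cons (mv 915 (cons (fin 1106 5 850)
(mv 788 (cons (fin 852 6 787)
(mv 724 (cons (fin 787 6 723)
(mv 1108 (cons (fin 1044 4 851)
(mv 1107 (cons (fin 1041 0 1040)
(fin 1172 4 915)))))))))))
(cons (mv 786 (cons (fin 850 0 783)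
(mv 722 (cons (fin 723 2 719)
(mv 915 (cons (fin 787 7 722)
(fin 1106 5 850)))))))
(mv 786 (cons (fin 850 0 783)
(mv 722 (cons (fin 723 2 719)
(mv 915 (cons (fin 1106 5 850)
(mv 788 (cons (fin 852 6 787)
(mv 1108 (cons (fin 1044 4 851)
(mv 1107 (cons (fin 1041 0 1040)
(fin 1172 4 915)))))))))))))))))))))))))
(cons (mv 1041 (cons (fin 980 2 976)
(mv 1107 (cons (fin 1106 0 1039)
(fin 1108 0 1040)))))
(cons (mv 785 (cons (fin 849 6 784)
(mv 784 (cons (fin 721 6 720)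
(mv 783 (cons (fin 719 7 719)
(mv 1041 (cons (fin 980 2 976)
(mv 1108 (cons (fin 1107 0 1040)
(mv 1044 (cons (fin 1109 0 1041)
(mv 851 (cons (fin 915 4 851)
(mv 786 (cons (fin 850 0 783)
(mv 723 (cons (fin 722 2 719)
(mv 787 (cons (fin 724 2 720)
(fin 852 0 784)))))))))))))))))))))
(mv 1041 (cons (fin 980 2 976)
(mv 851 (cons (cons (mv 785 (cons (fin 849 6 784)
(mv 721 (cons (fin 784 6 720)
(mv 915 (cons (fin 1106 5 850)
(mv 786 (cons (fin 850 7 786)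
(mv 787 (cons (fin 722 7 722)
(mv 788 (cons (fin 720 3 720)
(fin 724 6 723)))))))))))))
(mv 785 (cons (fin 849 6 784)
(mv 784 (cons (fin 721 6 720)
(mv 783 (cons (fin 719 7 719)
(mv 786 (cons (fin 850 0 783)
(mv 723 (cons (fin 722 2 719)
(mv 787 (cons (fin 724 2 720)
(fin 852 0 784))))))))))))))
(cons (mv 915 (cons (fin 1106 5 850)
(mv 786 (cons (fin 850 7 786)
(mv 787 (cons (fin 722 7 722)
(mv 788 (cons (fin 724 6 723)
(fin 852 6 787)))))))))
(cons (mv 785 (cons (fin 849 6 784)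
(mv 721 (cons (fin 784 6 720)
(mv 915 (cons (fin 1106 5 850)
(mv 788 (cons (fin 852 6 787)
(mv 787 (cons (fin 724 6 723)
(mv 786 (cons (fin 720 3 720)
(fin 722 7 722)))))))))))))
(mv 849 (cons (fin 785 6 784)
(mv 850 (cons (fin 911 1 847)
(mv 915 (cons (fin 916 0 848)
(fin 1106 5 850)))))))))))))))))
(cons (mv 849 (cons (fin 785 6 784)
(mv 978 (cons (fin 1041 2 975)
(mv 851 (cons (cons (mv 787 (cons (fin 915 5 786)
(mv 850 (cons (fin 911 1 847)
(fin 788 2 784)))))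
(mv 915 (cons (fin 787 5 786)
(mv 1106 (cons (fin 914 6 850)
(fin 1170 6 914))))))
(cons (mv 850 (cons (fin 911 1 847)
(mv 787 (cons (fin 788 2 784)
(fin 914 6 786)))))
(mv 850 (cons (fin 911 1 847)
(mv 783 (cons (fin 784 3 783)
(mv 915 (cons (fin 916 0 848)
(mv 1106 (cons (fin 914 6 850)
(fin 1170 6 914))))))))))))))))
(mv 785 (cons (fin 849 6 784)
(mv 784 (cons (fin 721 6 720)
(mv 783 (cons (fin 719 7 719)
(mv 1041 (cons (fin 978 2 975)
(mv 1043 (cons (fin 980 2 976)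
(mv 1108 (cons (fin 1107 0 1040)
(mv 1044 (cons (fin 1109 0 1041)
(mv 851 (cons (fin 915 4 851)
(mv 786 (cons (fin 850 0 783)
(mv 723 (cons (fin 722 2 719)
(mv 787 (cons (fin 724 2 720)
(fin 852 0 784)))))))))))))))))))))))))))))
(mv 849 (cons (fin 785 6 784)
(mv 1039 (cons (fin 1103 5 847)
(mv 978 (cons (fin 977 1 975)
(mv 1042 (cons (fin 1041 2 975)
(mv 851 (cons (cons (mv 787 (cons (fin 915 5 786)
(mv 850 (cons (fin 911 1 847)
(fin 788 2 784)))))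
(mv 850 (cons (fin 911 1 847)
(mv 787 (cons (fin 788 2 784)
(fin 914 6 786))))))
(cons (mv 915 (cons (fin 787 5 786)
(mv 1106 (cons (fin 1043 5 850)
(fin 914 6 850)))))
(mv 850 (cons (fin 911 1 847)
(mv 915 (cons (fin 916 0 848)
(mv 1043 (cons (fin 786 7 786)
(fin 1106 5 850)))))))))))))))))))
(cons (mv 1103 (cons (fin 1039 5 847)
(mv 1104 (cons (fin 1167 5 911)
(mv 1041 (cons (cons (mv 784 (cons (fin 977 4 784)
(mv 785 (cons (fin 721 6 720)
(fin 849 6 784)))))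
(mv 849 (cons (fin 785 6 784)
(mv 1043 (cons (fin 1042 1 1039)
(mv 1101 (cons (fin 1102 2 1037)
(mv 851 (cons (cons (mv 850 (cons (fin 911 1 847)
(mv 915 (cons (fin 916 0 848)
(fin 786 7 786)))))
(mv 915 (cons (cons (mv 788 (cons (fin 852 6 787)
(mv 787 (cons (fin 724 6 723)
(mv 1044 (cons (fin 980 4 787)
(fin 1108 4 851)))))))
(mv 1044 (cons (fin 1108 4 851)
(mv 787 (cons (fin 980 4 787)
(mv 722 (cons (fin 786 7 722)
(mv 723 (cons (fin 658 7 658)
(mv 724 (cons (fin 660 6 659)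
(fin 788 6 723))))))))))))
(cons (mv 852 (cons (fin 788 6 787)
(mv 1107 (cons (fin 916 6 851)
(mv 1170 (cons (fin 1106 5 914)
(mv 1171 (cons (fin 1234 5 978)
(mv 1172 (cons (fin 1108 4 915)
(fin 1236 4 979)))))))))))
(cons (mv 1108 (cons (fin 1044 4 851)
(mv 1107 (cons (fin 1172 4 915)
(mv 916 (cons (fin 852 6 851)
(mv 1170 (cons (fin 1106 5 914)
(mv 1171 (cons (fin 1234 5 978)
(fin 980 6 915)))))))))))
(mv 788 (cons (fin 852 6 787)
(mv 787 (cons (fin 724 6 723)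
(mv 722 (cons (fin 786 7 722)
(mv 723 (cons (fin 658 7 658)
(mv 980 (cons (fin 916 4 723)
(fin 1044 4 787))))))))))))))))
(cons (mv 850 (cons (fin 911 1 847)
(mv 788 (cons (fin 787 2 784)
(mv 852 (cons (fin 789 2 785)
(mv 916 (cons (fin 917 0 849)
(fin 980 5 787)))))))))
(mv 850 (cons (fin 911 1 847)
(mv 787 (cons (fin 788 2 784)
(mv 915 (cons (fin 786 7 786)
(mv 1044 (cons (fin 980 4 787)
(fin 1108 4 851)))))))))))))))))))
(cons (mv 977 (cons (fin 784 4 784)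
(mv 1043 (cons (fin 1042 1 1039)
(mv 1101 (cons (fin 1102 2 1037)
(mv 1168 (cons (fin 1232 6 976)
(mv 1169 (cons (fin 1233 4 976)
(mv 1171 (cons (fin 1170 3 1103)
(mv 1107 (cons (cons (mv 916 (cons (fin 980 6 915)
(mv 915 (cons (fin 852 6 851)
(mv 1172 (cons (fin 1108 4 915)
(fin 1236 4 979)))))))
(mv 916 (cons (fin 980 6 915)
(mv 915 (cons (fin 852 6 851)
(mv 850 (cons (fin 914 7 850)
(mv 851 (cons (fin 849 0 848)
(fin 786 7 786))))))))))
(cons (mv 1172 (cons (fin 1236 4 979)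
(mv 915 (cons (fin 1108 4 915)
(mv 850 (cons (fin 914 7 850)
(mv 851 (cons (fin 786 7 786)
(mv 849 (cons (fin 911 1 847)
(fin 916 0 848)))))))))))
(mv 1236 (cons (fin 1172 4 979)
(mv 1235 (cons (fin 1300 4 1043)
(mv 1044 (cons (fin 980 6 979)
(mv 1298 (cons (fin 1234 5 1042)
(mv 1299 (cons (fin 1362 5 1106)
(fin 1108 6 1043))))))))))))))))))))))))))
(mv 784 (cons (fin 977 4 784)
(mv 719 (cons (fin 783 7 719)
(mv 720 (cons (fin 655 7 655)
(mv 721 (cons (fin 657 6 656)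
(fin 785 6 720))))))))))))))))
(mv 849 (cons (fin 785 6 784)
(mv 1039 (cons (fin 1103 5 847)
(mv 978 (cons (fin 977 1 975)
(mv 851 (cons (cons (mv 850 (cons (fin 911 1 847)
(mv 783 (cons (fin 784 3 783)
(mv 787 (cons (fin 788 2 784)
(mv 915 (cons (fin 916 0 848)
(fin 1042 5 786)))))))))
(mv 915 (cons (cons (mv 787 (cons (fin 1042 5 786)
(mv 722 (cons (fin 786 7 722)
(mv 723 (cons (fin 658 7 658)
(fin 914 5 722)))))))
(mv 1043 (cons (cons (mv 788 (cons (fin 852 6 787)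
(mv 1042 (cons (fin 1106 5 850)
(mv 1108 (cons (fin 1044 4 851)
(mv 1107 (cons (fin 1172 4 915)
(mv 1171 (cons (fin 914 7 914)
(fin 1235 7 978)))))))))))
(cons (mv 788 (cons (fin 852 6 787)
(mv 1108 (cons (fin 1044 4 851)
(mv 1107 (cons (fin 1172 4 915)
(mv 1171 (cons (fin 914 7 914)
(mv 916 (cons (fin 980 6 915)
(mv 917 (cons (fin 918 1 914)
(mv 1234 (cons (fin 1170 5 978)
(mv 1235 (cons (fin 1042 7 978)
(fin 1298 5 1042)))))))))))))))))
(mv 788 (cons (fin 852 6 787)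
(mv 1108 (cons (fin 1044 4 851)
(mv 1107 (cons (fin 1172 4 915)
(mv 1170 (cons (fin 1106 5 914)
(mv 1171 (cons (fin 914 7 914)
(fin 1234 5 978)))))))))))))
(cons (cons (mv 1042 (cons (fin 1106 5 850)
(mv 1108 (cons (fin 1044 4 851)
(mv 1107 (cons (fin 1172 4 915)
(mv 1171 (cons (fin 914 7 914)
(fin 1235 7 978)))))))))
(mv 788 (cons (fin 852 6 787)
(mv 1106 (cons (fin 1042 5 850)
(mv 1107 (cons (fin 1170 5 914)
(mv 1171 (cons (fin 914 7 914)
(mv 1172 (cons (fin 1108 4 915)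
(fin 1236 4 979))))))))))))
(cons (mv 788 (cons (fin 852 6 787)
(mv 1106 (cons (fin 1042 5 850)
(mv 1107 (cons (fin 1170 5 914)
(mv 1171 (cons (fin 914 7 914)
(mv 980 (cons (fin 916 6 915)
(mv 1235 (cons (fin 1044 6 979)
(mv 1236 (cons (fin 1172 4 979)
(fin 1300 4 1043)))))))))))))))
(mv 852 (cons (fin 788 6 787)
(mv 1042 (cons (fin 1106 5 850)
(mv 1044 (cons (fin 1108 4 851)
(mv 1045 (cons (fin 1046 3 978)
(mv 981 (cons (fin 982 2 978)
(mv 1109 (cons (fin 1110 0 1042)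
(mv 916 (cons (fin 917 7 852)
(fin 980 4 852))))))))))))))))))))
(cons (mv 787 (cons (mv 722 (cons (fin 786 7 722)
(mv 723 (cons (fin 658 7 658)
(fin 914 5 722)))))
(cons (mv 722 (cons (fin 786 7 722)
(mv 788 (cons (fin 724 6 723)
(mv 1043 (cons (fin 852 6 787)
(mv 1044 (cons (fin 980 4 787)
(fin 1108 4 851)))))))))
(mv 723 (cons (fin 914 5 722)
(mv 724 (cons (fin 660 6 659)
(fin 788 6 723))))))))
(mv 787 (cons (fin 1042 5 786)
(mv 722 (cons (fin 786 7 722)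
(mv 658 (cons (fin 723 7 658)
(mv 788 (cons (fin 724 6 723)
(mv 1043 (cons (fin 852 6 787)
(mv 1044 (cons (fin 980 4 787)
(fin 1108 4 851)))))))))))))))))
(cons (mv 850 (cons (fin 911 1 847)
(mv 783 (cons (fin 784 3 783)
(mv 787 (cons (fin 788 2 784)
(mv 914 (cons (fin 1042 6 786)
(mv 723 (cons (fin 659 5 658)
(fin 786 6 722)))))))))))
(mv 850 (cons (fin 911 1 847)
(mv 783 (cons (fin 784 3 783)
(mv 915 (cons (fin 916 0 848)
(mv 786 (cons (fin 1043 7 786)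
(mv 722 (cons (fin 658 4 658)
(fin 914 4 722))))))))))))))))))))))))
(mv 911 (cons (cons (cons (mv 785 (cons (fin 849 6 784)
(mv 721 (cons (fin 784 6 720)
(mv 1103 (cons (fin 1039 5 847)
(mv 1104 (cons (fin 847 7 847)
(fin 1167 5 911)))))))))
(mv 847 (cons (fin 1104 7 847)
(mv 1039 (cons (fin 1103 5 847)
(mv 977 (cons (mv 784 (cons (fin 1041 4 784)
(mv 720 (cons (fin 656 5 655)
(mv 721 (cons (fin 657 6 656)
(fin 785 6 720)))))))
(cons (mv 909 (cons (fin 910 0 909)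
(mv 978 (cons (fin 979 3 911)
(mv 1038 (cons (fin 1037 2 973)
(fin 1041 2 974)))))))
(mv 909 (cons (fin 910 0 909)
(mv 978 (cons (fin 979 3 911)
(mv 1037 (cons (fin 1038 2 973)
(mv 845 (cons (cons (mv 846 (cons (fin 908 1 844)
(fin 844 0 844)))
(mv 973 (cons (cons (mv 780 (cons (fin 844 7 780)
(mv 781 (cons (fin 716 7 716)
(mv 1036 (cons (fin 972 5 780)
(fin 1100 5 844)))))))
(mv 780 (cons (fin 844 7 780)
(mv 781 (cons (fin 716 7 716)
(mv 718 (cons (fin 782 6 717)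
(mv 717 (cons (fin 654 6 653)
(mv 720 (cons (fin 719 1 716)
(mv 784 (cons (fin 656 5 655)
(mv 721 (cons (fin 657 6 656)
(fin 785 6 720))))))))))))))))
(cons (mv 1036 (cons (fin 1100 5 844)
(mv 781 (cons (fin 972 5 780)
(mv 716 (cons (fin 780 7 716)
(mv 717 (cons (fin 652 7 652)
(mv 718 (cons (fin 654 6 653)
(fin 782 6 717)))))))))))
(mv 1100 (cons (fin 1036 5 844)
(mv 1101 (cons (fin 1164 5 908)
(mv 908 (cons (fin 844 7 844)
(mv 1165 (cons (fin 972 7 908)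
(mv 1166 (cons (fin 1102 4 909)
(fin 1230 4 973)))))))))))))))
(cons (mv 846 (cons (fin 908 1 844)
(mv 781 (cons (fin 780 3 780)
(mv 782 (cons (fin 973 6 781)
(mv 718 (cons (fin 654 5 653)
(mv 784 (cons (fin 785 2 781)
(mv 720 (cons (fin 656 5 655)
(mv 719 (cons (fin 721 1 717)
(fin 655 7 655)))))))))))))))
(mv 846 (cons (fin 844 0 844)
(mv 781 (cons (fin 780 3 780)
(mv 782 (cons (fin 973 6 781)
(mv 718 (cons (fin 654 5 653)
(mv 784 (cons (fin 785 2 781)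
(mv 720 (cons (fin 656 5 655)
(mv 719 (cons (fin 721 1 717)
(fin 655 7 655))))))))))))))))))))))))))))))))
(cons (mv 785 (cons (fin 849 6 784)
(mv 784 (cons (fin 721 6 720)
(mv 1039 (cons (fin 1103 5 847)
(mv 910 (cons (mv 977 (cons (fin 909 0 909)
(fin 1041 4 784)))
(cons (mv 909 (cons (cons (mv 844 (cons (fin 845 3 844)
(mv 908 (cons (fin 843 3 843)
(fin 847 2 844)))))
(mv 844 (cons (fin 845 3 844)
(mv 908 (cons (fin 843 3 843)
(mv 972 (cons (fin 971 1 907)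
(fin 973 1 908))))))))
(cons (mv 845 (cons (fin 844 3 844)
(mv 846 (cons (fin 847 2 781)
(mv 973 (cons (fin 972 1 908)
(mv 782 (cons (fin 718 5 717)
(fin 1037 6 781)))))))))
(mv 908 (cons (fin 847 2 844)
(mv 972 (cons (fin 971 1 907)
(fin 973 1 908))))))))
(mv 1038 (cons (cons (mv 977 (cons (fin 1037 2 973)
(fin 1041 4 784)))
(mv 974 (cons (cons (mv 847 (cons (fin 1102 6 846)
(mv 656 (cons (fin 720 5 655)
(mv 786 (cons (fin 787 1 783)
(mv 845 (cons (fin 846 2 781)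
(mv 973 (cons (fin 1041 3 973)
(mv 972 (cons (fin 1037 3 972)
(fin 971 2 907)))))))))))))
(mv 1102 (cons (fin 847 6 846)
(mv 1101 (cons (fin 1041 1 1037)
(fin 1165 5 909))))))
(cons (mv 973 (cons (fin 1041 3 973)
(mv 972 (cons (fin 1037 3 972)
(fin 971 2 907)))))
(mv 847 (cons (fin 1102 6 846)
(mv 656 (cons (fin 720 5 655)
(mv 786 (cons (fin 787 1 783)
(mv 846 (cons (fin 845 2 781)
(mv 1037 (cons (fin 1101 5 845)
(mv 973 (cons (fin 972 3 972)
(fin 782 5 781)))))))))))))))))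
(cons (mv 1037 (cons (fin 977 2 973)
(mv 972 (cons (fin 973 3 972)
(mv 971 (cons (fin 1036 3 971)
(mv 1101 (cons (fin 1100 1 1036)
(mv 974 (cons (fin 846 5 845)
(mv 1102 (cons (fin 1165 5 909)
(fin 847 6 846)))))))))))))
(mv 1041 (cons (fin 977 4 784)
(mv 974 (cons (fin 973 3 973)
(mv 1102 (cons (fin 1101 1 1037)
(fin 847 6 846)))))))))))))))))))
(mv 847 (cons (fin 1104 7 847)
(mv 1039 (cons (fin 1103 5 847)
(mv 977 (cons (cons (mv 909 (cons (fin 910 0 909)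
(mv 978 (cons (fin 979 3 911)
(mv 1038 (cons (fin 1037 2 973)
(fin 1041 2 974)))))))
(mv 910 (cons (fin 909 0 909)
(mv 849 (cons (fin 850 1 846)
(mv 1038 (cons (fin 1037 2 973)
(mv 974 (cons (fin 1102 6 846)
(mv 1041 (cons (fin 973 3 973)
(fin 784 4 784))))))))))))
(cons (mv 978 (cons (fin 979 3 911)
(mv 1038 (cons (fin 1037 2 973)
(fin 1041 2 974)))))
(cons (mv 909 (cons (fin 910 0 909)
(mv 978 (cons (fin 979 3 911)
(mv 1037 (cons (fin 1038 2 973)
(mv 845 (cons (cons (mv 846 (cons (fin 908 1 844)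
(fin 844 0 844)))
(mv 973 (cons (cons (mv 780 (cons (fin 844 7 780)
(mv 781 (cons (fin 716 7 716)
(mv 1036 (cons (fin 972 5 780)
(fin 1100 5 844)))))))
(mv 844 (cons (fin 780 7 780)
(mv 1101 (cons (fin 908 7 844)
(mv 1164 (cons (fin 1100 5 908)
(mv 1165 (cons (fin 1228 5 972)
(mv 1166 (cons (fin 1102 4 909)
(fin 1230 4 973))))))))))))
(cons (mv 1036 (cons (fin 1100 5 844)
(mv 781 (cons (fin 972 5 780)
(mv 716 (cons (fin 780 7 716)
(mv 717 (cons (fin 652 7 652)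
(mv 718 (cons (fin 654 6 653)
(fin 782 6 717)))))))))))
(cons (mv 1100 (cons (fin 1036 5 844)
(mv 1101 (cons (fin 1164 5 908)
(mv 908 (cons (fin 844 7 844)
(mv 1165 (cons (fin 972 7 908)
(mv 1166 (cons (fin 1102 4 909)
(fin 1230 4 973)))))))))))
(mv 780 (cons (fin 844 7 780)
(mv 781 (cons (fin 716 7 716)
(mv 718 (cons (fin 782 6 717)
(mv 717 (cons (fin 654 6 653)
(mv 972 (cons (fin 908 5 716)
(fin 1036 5 780))))))))))))))))
(cons (mv 846 (cons (fin 908 1 844)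
(mv 781 (cons (fin 780 3 780)
(mv 782 (cons (fin 849 3 781)
(fin 973 6 781)))))))
(mv 846 (cons (fin 844 0 844)
(mv 781 (cons (fin 780 3 780)
(mv 782 (cons (fin 849 3 781)
(fin 973 6 781))))))))))))))))
(mv 784 (cons (fin 1041 4 784)
(mv 720 (cons (fin 656 5 655)
(mv 719 (cons (fin 655 7 655)
(mv 721 (cons (fin 657 6 656)
(mv 909 (cons (fin 910 0 909)
(mv 978 (cons (fin 979 3 911)
(mv 718 (cons (cons (mv 653 (cons (fin 654 3 653)
(mv 717 (cons (fin 652 3 652)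
(mv 781 (cons (fin 780 1 716)
(fin 782 1 717)))))))
(mv 654 (cons (fin 653 3 653)
(mv 846 (cons (fin 782 4 654)
(mv 845 (cons (fin 908 1 844)
(fin 844 0 844))))))))
(cons (mv 717 (cons (mv 653 (cons (fin 652 3 652)
(fin 654 3 653)))
(cons (mv 781 (cons (fin 780 1 716)
(mv 845 (cons (fin 654 6 653)
(mv 846 (cons (fin 908 1 844)
(fin 844 0 844)))))))
(mv 652 (cons (fin 653 3 652)
(mv 716 (cons (fin 651 3 651)
(mv 780 (cons (fin 779 1 715)
(fin 781 1 716))))))))))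
(cons (mv 781 (cons (fin 782 1 717)
(mv 717 (cons (fin 780 1 716)
(mv 652 (cons (fin 653 3 652)
(mv 716 (cons (fin 651 3 651)
(fin 845 7 652)))))))))
(mv 781 (cons (fin 782 1 717)
(mv 717 (cons (fin 780 1 716)
(mv 845 (cons (fin 654 6 653)
(mv 846 (cons (fin 908 1 844)
(fin 844 0 844)))))))))))))))))))))))))))))))))))
(cons (cons (mv 785 (cons (fin 849 6 784)
(mv 784 (cons (fin 721 6 720)
(mv 847 (cons (fin 1104 7 847)
(mv 720 (cons (fin 656 5 655)
(mv 719 (cons (fin 655 7 655)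
(mv 717 (cons (fin 718 0 717)
(mv 786 (cons (fin 787 3 719)
(mv 845 (cons (fin 846 2 781)
(mv 977 (cons (fin 1041 4 784)
(mv 909 (cons (fin 910 0 909)
(mv 978 (cons (fin 979 3 911)
(mv 781 (cons (cons (mv 652 (cons (fin 716 7 652)
(mv 653 (cons (fin 588 7 588)
(mv 908 (cons (fin 844 5 652)
(fin 972 5 716)))))))
(mv 653 (cons (mv 908 (cons (fin 844 5 652)
(fin 972 5 716)))
(mv 589 (cons (mv 588 (cons (fin 524 7 524)
(fin 652 7 588)))
(mv 590 (cons (fin 526 6 525)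
(fin 654 6 589))))))))
(cons (mv 973 (cons (mv 716 (cons (fin 652 7 652)
(fin 780 7 716)))
(mv 1038 (cons (fin 974 4 781)
(mv 1037 (cons (fin 1039 2 973)
(fin 1102 4 845)))))))
(mv 973 (cons (mv 972 (cons (fin 908 5 716)
(fin 1036 5 780)))
(mv 1038 (cons (fin 974 4 781)
(mv 1037 (cons (fin 1039 2 973)
(fin 1102 4 845))))))))))))))))))))))))))))))))
(mv 979 (cons (cons (mv 785 (cons (fin 849 6 784)
(mv 784 (cons (fin 721 6 720)
(mv 977 (cons (fin 978 3 911)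
(fin 1041 4 784)))))))
(mv 849 (cons (fin 785 6 784)
(mv 851 (cons (fin 850 1 847)
(mv 909 (cons (fin 910 2 845)
(mv 1039 (cons (fin 1103 5 847)
(mv 1042 (cons (cons (mv 978 (cons (fin 1041 2 975)
(mv 915 (cons (fin 787 5 786)
(mv 1106 (cons (fin 1043 5 850)
(fin 914 6 850)))))))
(cons (mv 915 (cons (cons (mv 787 (cons (fin 978 5 786)
(mv 722 (cons (fin 786 7 722)
(mv 658 (cons (fin 723 7 658)
(mv 724 (cons (fin 788 6 723)
(mv 1043 (cons (fin 1106 5 850)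
(mv 1044 (cons (fin 980 4 787)
(fin 1108 4 851)))))))))))))
(mv 1043 (cons (fin 1106 5 850)
(mv 852 (cons (fin 788 6 787)
(mv 1107 (cons (fin 916 6 851)
(mv 1108 (cons (fin 1044 4 851)
(fin 1172 4 915))))))))))
(cons (mv 787 (cons (fin 978 5 786)
(mv 722 (cons (fin 786 7 722)
(mv 723 (cons (fin 658 7 658)
(mv 724 (cons (fin 660 6 659)
(fin 788 6 723)))))))))
(mv 787 (cons (fin 978 5 786)
(mv 722 (cons (fin 786 7 722)
(mv 658 (cons (fin 723 7 658)
(mv 1043 (cons (fin 1106 5 850)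
(mv 1044 (cons (fin 980 4 787)
(fin 1108 4 851))))))))))))))
(mv 1043 (cons (cons (mv 915 (cons (fin 1106 5 850)
(mv 788 (cons (fin 852 6 787)
(mv 724 (cons (fin 787 6 723)
(mv 1041 (cons (fin 980 2 976)
(mv 1108 (cons (fin 1107 0 1040)
(fin 1044 4 851)))))))))))
(cons (mv 1041 (cons (fin 980 2 976)
(mv 1107 (cons (fin 1106 0 1039)
(fin 1108 0 1040)))))
(mv 915 (cons (fin 1106 5 850)
(mv 788 (cons (fin 852 6 787)
(mv 787 (cons (fin 724 6 723)
(mv 1044 (cons (fin 980 4 787)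
(fin 1108 4 851)))))))))))
(cons (mv 1041 (cons (fin 980 2 976)
(mv 1108 (cons (fin 1107 0 1040)
(mv 1044 (cons (fin 1109 0 1041)
(fin 915 4 851)))))))
(cons (mv 915 (cons (fin 1106 5 850)
(mv 788 (cons (fin 852 6 787)
(mv 724 (cons (fin 787 6 723)
(mv 1108 (cons (fin 1044 4 851)
(mv 1107 (cons (fin 1041 0 1040)
(fin 1172 4 915)))))))))))
(mv 915 (cons (fin 1106 5 850)
(mv 788 (cons (fin 852 6 787)
(mv 787 (cons (fin 724 6 723)
(mv 980 (cons (fin 1041 2 976)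
(fin 1044 4 787)))))))))))))))
(cons (mv 1041 (cons (fin 978 2 975)
(mv 1043 (cons (fin 980 2 976)
(mv 1107 (cons (fin 1106 0 1039)
(fin 1108 0 1040)))))))
(cons (mv 978 (cons (fin 1041 2 975)
(mv 915 (cons (fin 787 5 786)
(mv 1106 (cons (fin 914 6 850)
(fin 1170 6 914)))))))
(mv 1041 (cons (fin 978 2 975)
(mv 1043 (cons (fin 980 2 976)
(mv 1108 (cons (fin 1107 0 1040)
(mv 1044 (cons (fin 1109 0 1041)
(fin 915 4 851))))))))))))))))))))))
(cons (mv 977 (cons (fin 978 3 911)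
(mv 909 (cons (fin 910 0 909)
(mv 1041 (cons (fin 784 4 784)
(mv 1103 (cons (fin 1039 5 847)
(mv 1104 (cons (fin 1167 5 911)
(mv 1043 (cons (fin 1042 1 1039)
(mv 1168 (cons (fin 1232 6 976)
(mv 1169 (cons (fin 1233 4 976)
(mv 1171 (cons (fin 1170 3 1103)
(mv 1107 (cons (cons (mv 916 (cons (fin 980 6 915)
(mv 915 (cons (fin 852 6 851)
(mv 1172 (cons (fin 1108 4 915)
(fin 1236 4 979)))))))
(mv 980 (cons (fin 916 6 915)
(mv 1235 (cons (fin 1044 6 979)
(mv 1299 (cons (mv 1298 (cons (fin 1234 5 1042)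
(fin 1362 5 1106)))
(mv 1300 (cons (fin 1236 4 1043)
(fin 1364 4 1107))))))))))
(cons (mv 1172 (cons (fin 1236 4 979)
(mv 915 (cons (fin 1108 4 915)
(mv 851 (cons (mv 850 (cons (fin 786 7 786)
(fin 914 7 850)))
(mv 852 (cons (fin 788 6 787)
(fin 916 6 851)))))))))
(cons (mv 916 (cons (fin 980 6 915)
(mv 915 (cons (fin 852 6 851)
(mv 851 (cons (mv 850 (cons (fin 786 7 786)
(fin 914 7 850)))
(mv 1108 (cons (fin 1044 4 851)
(fin 1172 4 915)))))))))
(mv 1236 (cons (fin 1172 4 979)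
(mv 1235 (cons (fin 1300 4 1043)
(mv 1299 (cons (mv 1044 (cons (fin 980 6 979)
(fin 1108 6 1043)))
(mv 1298 (cons (fin 1234 5 1042)
(fin 1362 5 1106)))))))))))))))))))))))))))))))
(cons (mv 1103 (cons (fin 1039 5 847)
(mv 1104 (cons (fin 1167 5 911)
(mv 1041 (cons (mv 784 (cons (fin 977 4 784)
(mv 785 (cons (fin 721 6 720)
(fin 849 6 784)))))
(cons (mv 1043 (cons (fin 1042 1 1039)
(mv 977 (cons (fin 784 4 784)
(mv 1168 (cons (fin 1232 6 976)
(mv 1169 (cons (fin 1233 4 976)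
(mv 1171 (cons (fin 1170 3 1103)
(mv 1107 (cons (cons (mv 909 (cons (fin 910 0 909)
(mv 916 (cons (fin 980 6 915)
(mv 915 (cons (fin 852 6 851)
(mv 1172 (cons (fin 1108 4 915)
(fin 1236 4 979)))))))))
(mv 980 (cons (fin 916 6 915)
(mv 1235 (cons (fin 1044 6 979)
(mv 1298 (cons (fin 1234 5 1042)
(mv 1299 (cons (fin 1362 5 1106)
(mv 1300 (cons (fin 1236 4 1043)
(fin 1364 4 1107))))))))))))
(cons (mv 1172 (cons (fin 1236 4 979)
(mv 915 (cons (fin 1108 4 915)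
(mv 850 (cons (fin 914 7 850)
(mv 851 (cons (fin 786 7 786)
(mv 852 (cons (fin 788 6 787)
(fin 916 6 851)))))))))))
(cons (mv 916 (cons (fin 980 6 915)
(mv 915 (cons (fin 852 6 851)
(mv 850 (cons (fin 914 7 850)
(mv 851 (cons (fin 786 7 786)
(mv 1108 (cons (fin 1044 4 851)
(fin 1172 4 915)))))))))))
(mv 1236 (cons (fin 1172 4 979)
(mv 1235 (cons (fin 1300 4 1043)
(mv 1044 (cons (fin 980 6 979)
(mv 1298 (cons (fin 1234 5 1042)
(mv 1299 (cons (fin 1362 5 1106)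
(fin 1108 6 1043)))))))))))))))))))))))))
(mv 849 (cons (fin 785 6 784)
(mv 851 (cons (fin 850 1 847)
(mv 909 (cons (fin 910 2 845)
(mv 1043 (cons (fin 1042 1 1039)
(mv 1101 (cons (fin 1102 2 1037)
(mv 915 (cons (cons (mv 788 (cons (fin 852 6 787)
(mv 787 (cons (fin 724 6 723)
(mv 1044 (cons (fin 980 4 787)
(fin 1108 4 851)))))))
(mv 1044 (cons (fin 1108 4 851)
(mv 787 (cons (fin 980 4 787)
(mv 722 (cons (fin 786 7 722)
(mv 723 (cons (fin 658 7 658)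
(mv 724 (cons (fin 660 6 659)
(fin 788 6 723))))))))))))
(cons (mv 852 (cons (fin 788 6 787)
(mv 1107 (cons (fin 916 6 851)
(mv 1170 (cons (fin 1106 5 914)
(mv 1171 (cons (fin 1234 5 978)
(mv 1172 (cons (fin 1108 4 915)
(fin 1236 4 979)))))))))))
(cons (mv 1108 (cons (fin 1044 4 851)
(mv 1107 (cons (fin 1172 4 915)
(mv 916 (cons (fin 852 6 851)
(mv 1170 (cons (fin 1106 5 914)
(mv 1171 (cons (fin 1234 5 978)
(fin 980 6 915)))))))))))
(mv 788 (cons (fin 852 6 787)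
(mv 787 (cons (fin 724 6 723)
(mv 722 (cons (fin 786 7 722)
(mv 723 (cons (fin 658 7 658)
(mv 980 (cons (fin 916 4 723)
(fin 1044 4 787))))))))))))))))))))))))))))))))
(mv 849 (cons (fin 785 6 784)
(mv 851 (cons (fin 850 1 847)
(mv 909 (cons (fin 910 2 845)
(mv 978 (cons (fin 977 3 911)
(mv 1039 (cons (fin 1103 5 847)
(mv 915 (cons (cons (mv 787 (cons (fin 1042 5 786)
(mv 722 (cons (fin 786 7 722)
(mv 723 (cons (fin 658 7 658)
(fin 914 5 722)))))))
(mv 1043 (cons (cons (mv 788 (cons (fin 852 6 787)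
(mv 1042 (cons (fin 1106 5 850)
(mv 1108 (cons (fin 1044 4 851)
(mv 1107 (cons (fin 1172 4 915)
(mv 1171 (cons (fin 914 7 914)
(fin 1235 7 978)))))))))))
(cons (mv 788 (cons (fin 852 6 787)
(mv 1108 (cons (fin 1044 4 851)
(mv 1107 (cons (fin 1172 4 915)
(mv 1171 (cons (fin 914 7 914)
(mv 916 (cons (fin 980 6 915)
(mv 1234 (cons (fin 1170 5 978)
(mv 1235 (cons (fin 1042 7 978)
(fin 1298 5 1042)))))))))))))))
(mv 788 (cons (fin 852 6 787)
(mv 1108 (cons (fin 1044 4 851)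
(mv 1107 (cons (fin 1172 4 915)
(mv 1170 (cons (fin 1106 5 914)
(mv 1171 (cons (fin 914 7 914)
(fin 1234 5 978)))))))))))))
(cons (cons (mv 1042 (cons (fin 1106 5 850)
(mv 1108 (cons (fin 1044 4 851)
(mv 1107 (cons (fin 1172 4 915)
(mv 1171 (cons (fin 914 7 914)
(fin 1235 7 978)))))))))
(mv 788 (cons (fin 852 6 787)
(mv 1106 (cons (fin 1042 5 850)
(mv 1107 (cons (fin 1170 5 914)
(mv 1171 (cons (fin 914 7 914)
(mv 1172 (cons (fin 1108 4 915)
(fin 1236 4 979))))))))))))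
(cons (mv 788 (cons (fin 852 6 787)
(mv 1106 (cons (fin 1042 5 850)
(mv 1107 (cons (fin 1170 5 914)
(mv 1171 (cons (fin 914 7 914)
(mv 980 (cons (fin 916 6 915)
(mv 1235 (cons (fin 1044 6 979)
(mv 1236 (cons (fin 1172 4 979)
(fin 1300 4 1043)))))))))))))))
(mv 852 (cons (fin 788 6 787)
(mv 1042 (cons (fin 1106 5 850)
(mv 1044 (cons (fin 1108 4 851)
(mv 1045 (cons (fin 1046 3 978)
(mv 981 (cons (fin 982 2 978)
(mv 1109 (cons (fin 1110 0 1042)
(mv 916 (cons (fin 917 7 852)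
(fin 980 4 852))))))))))))))))))))
(cons (mv 787 (cons (mv 722 (cons (fin 786 7 722)
(mv 723 (cons (fin 658 7 658)
(fin 914 5 722)))))
(cons (mv 722 (cons (fin 786 7 722)
(mv 788 (cons (fin 724 6 723)
(mv 1043 (cons (fin 852 6 787)
(mv 1044 (cons (fin 980 4 787)
(fin 1108 4 851)))))))))
(mv 723 (cons (fin 914 5 722)
(mv 724 (cons (fin 660 6 659)
(fin 788 6 723))))))))
(mv 787 (cons (fin 1042 5 786)
(mv 722 (cons (fin 786 7 722)
(mv 658 (cons (fin 723 7 658)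
(mv 788 (cons (fin 724 6 723)
(mv 1043 (cons (fin 852 6 787)
(mv 1044 (cons (fin 980 4 787)
(fin 1108 4 851)))))))))))))))))))))))))))))))
(cons (mv 785 (cons (fin 849 6 784)
(mv 784 (cons (fin 721 6 720)
(mv 847 (cons (fin 1104 7 847)
(mv 720 (cons (fin 656 5 655)
(mv 719 (cons (fin 655 7 655)
(mv 717 (cons (fin 718 0 717)
(mv 786 (cons (fin 787 3 719)
(mv 845 (cons (fin 846 2 781)
(mv 977 (cons (fin 1041 4 784)
(mv 909 (cons (fin 910 0 909)
(mv 781 (cons (cons (mv 652 (cons (fin 716 7 652)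
(mv 653 (cons (fin 588 7 588)
(mv 908 (cons (fin 844 5 652)
(fin 972 5 716)))))))
(mv 908 (cons (fin 972 5 716)
(mv 653 (cons (fin 844 5 652)
(mv 589 (cons (mv 588 (cons (fin 524 7 524)
(fin 652 7 588)))
(mv 590 (cons (fin 526 6 525)
(fin 654 6 589))))))))))
(cons (mv 716 (cons (fin 652 7 652)
(mv 973 (cons (fin 780 7 716)
(mv 1037 (cons (mv 1036 (cons (fin 972 5 780)
(fin 1100 5 844)))
(mv 1038 (cons (fin 974 4 781)
(fin 1102 4 845)))))))))
(cons (mv 972 (cons (fin 908 5 716)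
(mv 973 (cons (fin 1036 5 780)
(mv 1037 (cons (mv 780 (cons (fin 716 7 716)
(fin 844 7 780)))
(mv 1038 (cons (fin 974 4 781)
(fin 1102 4 845)))))))))
(mv 652 (cons (fin 716 7 652)
(mv 653 (cons (fin 588 7 588)
(mv 589 (cons (mv 590 (cons (fin 526 6 525)
(fin 654 6 589)))
(mv 844 (cons (fin 780 5 588)
(fin 908 5 652)))))))))))))))))))))))))))))))))
(mv 785 (cons (fin 849 6 784)
(mv 1103 (cons (fin 1039 5 847)
(mv 1104 (cons (fin 847 7 847)
(fin 1167 5 911)))))))))))))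
(cons (mv 847 (cons (fin 783 7 783)
(mv 911 (cons (fin 1104 7 847)
(mv 1039 (cons (fin 1103 5 847)
(mv 977 (cons (cons (mv 909 (cons (fin 910 0 909)
(mv 978 (cons (fin 979 3 911)
(mv 1038 (cons (fin 1037 2 973)
(fin 1041 2 974)))))))
(mv 910 (cons (fin 909 0 909)
(mv 849 (cons (fin 850 1 846)
(mv 1038 (cons (fin 1037 2 973)
(mv 974 (cons (fin 1102 6 846)
(mv 1041 (cons (fin 973 3 973)
(fin 784 4 784))))))))))))
(cons (mv 978 (cons (fin 979 3 911)
(mv 1038 (cons (fin 1037 2 973)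
(fin 1041 2 974)))))
(cons (mv 909 (cons (fin 910 0 909)
(mv 978 (cons (fin 979 3 911)
(mv 1037 (cons (fin 1038 2 973)
(mv 845 (cons (cons (mv 846 (cons (fin 908 1 844)
(fin 844 0 844)))
(mv 973 (cons (cons (mv 780 (cons (fin 844 7 780)
(mv 781 (cons (fin 716 7 716)
(mv 1036 (cons (fin 972 5 780)
(fin 1100 5 844)))))))
(mv 844 (cons (fin 780 7 780)
(mv 1101 (cons (fin 908 7 844)
(mv 1164 (cons (fin 1100 5 908)
(mv 1165 (cons (fin 1228 5 972)
(mv 1166 (cons (fin 1102 4 909)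
(fin 1230 4 973))))))))))))
(cons (mv 1036 (cons (fin 1100 5 844)
(mv 781 (cons (fin 972 5 780)
(mv 716 (cons (fin 780 7 716)
(mv 717 (cons (fin 652 7 652)
(mv 718 (cons (fin 654 6 653)
(fin 782 6 717)))))))))))
(cons (mv 1100 (cons (fin 1036 5 844)
(mv 1101 (cons (fin 1164 5 908)
(mv 908 (cons (fin 844 7 844)
(mv 1165 (cons (fin 972 7 908)
(mv 1166 (cons (fin 1102 4 909)
(fin 1230 4 973)))))))))))
(mv 780 (cons (fin 844 7 780)
(mv 781 (cons (fin 716 7 716)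
(mv 718 (cons (fin 782 6 717)
(mv 717 (cons (fin 654 6 653)
(mv 972 (cons (fin 908 5 716)
(fin 1036 5 780))))))))))))))))
(cons (mv 846 (cons (fin 908 1 844)
(mv 781 (cons (fin 780 3 780)
(mv 782 (cons (fin 849 3 781)
(fin 973 6 781)))))))
(mv 846 (cons (fin 844 0 844)
(mv 781 (cons (fin 780 3 780)
(mv 782 (cons (fin 849 3 781)
(fin 973 6 781))))))))))))))))
(mv 784 (cons (fin 1041 4 784)
(mv 720 (cons (fin 656 5 655)
(mv 719 (cons (fin 655 7 655)
(mv 721 (cons (fin 657 6 656)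
(mv 909 (cons (fin 910 0 909)
(mv 978 (cons (fin 979 3 911)
(mv 718 (cons (cons (mv 653 (cons (fin 654 3 653)
(mv 717 (cons (fin 652 3 652)
(mv 781 (cons (fin 780 1 716)
(fin 782 1 717)))))))
(mv 654 (cons (fin 653 3 653)
(mv 846 (cons (fin 782 4 654)
(mv 845 (cons (fin 908 1 844)
(fin 844 0 844))))))))
(cons (mv 717 (cons (mv 653 (cons (fin 652 3 652)
(fin 654 3 653)))
(cons (mv 781 (cons (fin 780 1 716)
(mv 845 (cons (fin 654 6 653)
(mv 846 (cons (fin 908 1 844)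
(fin 844 0 844)))))))
(mv 652 (cons (fin 653 3 652)
(mv 716 (cons (fin 651 3 651)
(mv 780 (cons (fin 779 1 715)
(fin 781 1 716))))))))))
(cons (mv 781 (cons (fin 782 1 717)
(mv 717 (cons (fin 780 1 716)
(mv 652 (cons (fin 653 3 652)
(mv 716 (cons (fin 651 3 651)
(fin 845 7 652)))))))))
(mv 781 (cons (fin 782 1 717)
(mv 717 (cons (fin 780 1 716)
(mv 845 (cons (fin 654 6 653)
(mv 846 (cons (fin 908 1 844)
(fin 844 0 844)))))))))))))))))))))))))))))))))))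
(cons (mv 847 (cons (fin 783 7 783)
(mv 911 (cons (fin 1104 7 847)
(mv 1039 (cons (fin 1103 5 847)
(mv 977 (cons (mv 784 (cons (fin 1041 4 784)
(mv 720 (cons (fin 656 5 655)
(mv 721 (cons (fin 657 6 656)
(fin 785 6 720)))))))
(cons (mv 909 (cons (fin 910 0 909)
(mv 978 (cons (fin 979 3 911)
(mv 1038 (cons (fin 1037 2 973)
(fin 1041 2 974)))))))
(mv 909 (cons (fin 910 0 909)
(mv 978 (cons (fin 979 3 911)
(mv 1037 (cons (fin 1038 2 973)
(mv 845 (cons (cons (mv 846 (cons (fin 908 1 844)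
(fin 844 0 844)))
(mv 973 (cons (cons (mv 780 (cons (fin 844 7 780)
(mv 781 (cons (fin 716 7 716)
(mv 1036 (cons (fin 972 5 780)
(fin 1100 5 844)))))))
(mv 780 (cons (fin 844 7 780)
(mv 781 (cons (fin 716 7 716)
(mv 718 (cons (fin 782 6 717)
(mv 717 (cons (fin 654 6 653)
(mv 720 (cons (fin 719 1 716)
(mv 784 (cons (fin 656 5 655)
(mv 721 (cons (fin 657 6 656)
(fin 785 6 720))))))))))))))))
(cons (mv 1036 (cons (fin 1100 5 844)
(mv 781 (cons (fin 972 5 780)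
(mv 716 (cons (fin 780 7 716)
(mv 717 (cons (fin 652 7 652)
(mv 718 (cons (fin 654 6 653)
(fin 782 6 717)))))))))))
(mv 1100 (cons (fin 1036 5 844)
(mv 1101 (cons (fin 1164 5 908)
(mv 908 (cons (fin 844 7 844)
(mv 1165 (cons (fin 972 7 908)
(mv 1166 (cons (fin 1102 4 909)
(fin 1230 4 973)))))))))))))))
(cons (mv 846 (cons (fin 908 1 844)
(mv 781 (cons (fin 780 3 780)
(mv 782 (cons (fin 973 6 781)
(mv 718 (cons (fin 654 5 653)
(mv 784 (cons (fin 785 2 781)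
(mv 720 (cons (fin 656 5 655)
(mv 719 (cons (fin 721 1 717)
(fin 655 7 655)))))))))))))))
(mv 846 (cons (fin 844 0 844)
(mv 781 (cons (fin 780 3 780)
(mv 782 (cons (fin 973 6 781)
(mv 718 (cons (fin 654 5 653)
(mv 784 (cons (fin 785 2 781)
(mv 720 (cons (fin 656 5 655)
(mv 719 (cons (fin 721 1 717)
(fin 655 7 655)))))))))))))))))))))))))))))))))
(mv 785 (cons (fin 849 6 784)
(mv 847 (cons (fin 783 7 783)
(mv 1103 (cons (fin 1039 5 847)
(mv 1104 (cons (fin 911 7 847)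
(fin 1167 5 911)))))))))))))
(mv 848 (cons (cons (mv 783 (cons (fin 847 7 783)
(mv 719 (cons (fin 784 7 719)
(mv 849 (cons (fin 785 6 784)
(mv 1103 (cons (fin 1039 5 847)
(mv 1104 (cons (fin 1167 5 911)
(fin 913 6 848)))))))))))
(cons (mv 783 (cons (fin 847 7 783)
(mv 784 (cons (fin 719 7 719)
(mv 721 (cons (fin 785 6 720)
(mv 720 (cons (fin 657 6 656)
(mv 977 (cons (fin 913 4 720)
(fin 1041 4 784)))))))))))
(mv 783 (cons (fin 847 7 783)
(mv 784 (cons (fin 719 7 719)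
(mv 977 (cons (fin 1041 4 784)
(mv 913 (cons (fin 720 4 720)
(mv 1104 (cons (fin 849 6 848)
(fin 1168 6 912)))))))))))))
(cons (mv 785 (cons (fin 849 6 784)
(mv 784 (cons (fin 721 6 720)
(mv 977 (cons (fin 1041 4 784)
(mv 913 (cons (fin 720 4 720)
(mv 1103 (cons (fin 1039 5 847)
(mv 1104 (cons (fin 1167 5 911)
(fin 1168 6 912)))))))))))))
(cons (mv 783 (cons (fin 847 7 783)
(mv 849 (cons (fin 785 6 784)
(mv 1103 (cons (fin 1039 5 847)
(mv 1104 (cons (fin 1167 5 911)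
(fin 913 6 848)))))))))
(mv 783 (cons (fin 847 7 783)
(mv 784 (cons (fin 719 7 719)
(mv 785 (cons (fin 721 6 720)
(fin 849 6 784)))))))))))))
(cons (mv 1104 (cons (cons (mv 847 (cons (fin 911 7 847)
(mv 783 (cons (fin 848 7 783)
(mv 913 (cons (fin 849 6 848)
(mv 1103 (cons (fin 1167 5 911)
(mv 1168 (cons (fin 977 6 912)
(mv 1233 (cons (fin 1169 4 976)
(mv 1232 (cons (fin 1297 4 1040)
(mv 1295 (cons (fin 1231 5 1039)
(mv 1296 (cons (fin 1039 7 1039)
(fin 1359 5 1103)))))))))))))))))))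
(cons (mv 847 (cons (fin 911 7 847)
(mv 783 (cons (fin 848 7 783)
(mv 913 (cons (fin 849 6 848)
(mv 1168 (cons (fin 977 6 912)
(mv 1231 (cons (fin 1167 5 975)
(mv 1232 (cons (fin 1295 5 1039)
(mv 1233 (cons (fin 1169 4 976)
(fin 1297 4 1040)))))))))))))))
(mv 847 (cons (fin 911 7 847)
(mv 848 (cons (fin 783 7 783)
(mv 913 (cons (fin 849 6 848)
(mv 845 (cons (fin 846 0 845)
(mv 914 (cons (fin 915 3 847)
(mv 977 (cons (fin 1168 6 912)
(mv 784 (cons (fin 720 4 720)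
(fin 1041 4 784)))))))))))))))))
(cons (mv 847 (cons (fin 911 7 847)
(mv 848 (cons (fin 783 7 783)
(mv 1103 (cons (fin 1039 5 847)
(fin 1167 5 911)))))))
(cons (mv 913 (cons (fin 849 6 848)
(mv 977 (cons (fin 1168 6 912)
(mv 1103 (cons (fin 1167 5 911)
(mv 848 (cons (fin 1039 5 847)
(mv 784 (cons (fin 720 4 720)
(fin 1041 4 784)))))))))))
(mv 847 (cons (fin 911 7 847)
(mv 913 (cons (fin 849 6 848)
(mv 1103 (cons (fin 1167 5 911)
(mv 1168 (cons (fin 977 6 912)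
(mv 1233 (cons (fin 1169 4 976)
(mv 1232 (cons (fin 1297 4 1040)
(mv 1295 (cons (fin 1231 5 1039)
(mv 1296 (cons (fin 1039 7 1039)
(fin 1359 5 1103)))))))))))))))))))))
(cons (mv 1104 (cons (cons (mv 847 (cons (fin 911 7 847)
(mv 849 (cons (fin 913 6 848)
(mv 848 (cons (fin 785 6 784)
(mv 1103 (cons (fin 1039 5 847)
(fin 1167 5 911)))))))))
(mv 847 (cons (fin 911 7 847)
(mv 913 (cons (fin 849 6 848)
(mv 1168 (cons (fin 977 6 912)
(mv 1231 (cons (fin 1167 5 975)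
(mv 1232 (cons (fin 1295 5 1039)
(mv 1233 (cons (fin 1169 4 976)
(fin 1297 4 1040))))))))))))))
(cons (mv 911 (cons (fin 847 7 847)
(mv 1103 (cons (fin 1167 5 911)
(mv 1039 (cons (fin 848 5 847)
(mv 1041 (cons (mv 1042 (cons (fin 1102 1 1038)
(fin 1043 1 1039)))
(cons (mv 1042 (cons (fin 1043 1 1039)
(mv 978 (cons (fin 979 2 975)
(mv 977 (cons (fin 1038 2 974)
(mv 909 (cons (fin 910 0 909)
(mv 1106 (cons (fin 1107 0 1039)
(mv 1168 (cons (fin 1232 6 976)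
(mv 1169 (cons (fin 1233 4 976)
(mv 1170 (cons (fin 1171 3 1103)
(fin 1234 7 977)))))))))))))))))
(mv 1101 (cons (fin 1102 2 1037)
(mv 1038 (cons (mv 977 (cons (fin 1037 2 973)
(fin 978 2 974)))
(cons (mv 974 (cons (fin 973 3 973)
(mv 910 (cons (fin 846 4 846)
(mv 977 (cons (fin 978 2 974)
(fin 909 0 909)))))))
(mv 1037 (cons (fin 1100 1 1036)
(fin 1036 0 1036)))))))))))))))))
(cons (mv 911 (cons (fin 847 7 847)
(mv 913 (cons (fin 849 6 848)
(mv 977 (cons (fin 1168 6 912)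
(mv 910 (cons (fin 909 0 909)
(fin 978 0 910)))))))))
(mv 849 (cons (fin 913 6 848)
(mv 848 (cons (fin 785 6 784)
(mv 1103 (cons (fin 1039 5 847)
(fin 1167 5 911)))))))))))
(mv 848 (cons (cons (mv 783 (cons (fin 847 7 783)
(mv 719 (cons (fin 784 7 719)
(mv 849 (cons (fin 785 6 784)
(mv 1103 (cons (fin 1039 5 847)
(mv 1104 (cons (fin 1167 5 911)
(fin 913 6 848)))))))))))
(mv 849 (cons (fin 785 6 784)
(mv 1103 (cons (fin 1039 5 847)
(mv 1104 (cons (fin 1167 5 911)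
(fin 913 6 848))))))))
(cons (mv 847 (cons (fin 783 7 783)
(mv 1103 (cons (fin 1039 5 847)
(mv 1104 (cons (fin 911 7 847)
(fin 1167 5 911)))))))
(mv 783 (cons (fin 847 7 783)
(mv 784 (cons (fin 719 7 719)
(mv 785 (cons (fin 721 6 720)
(fin 849 6 784)))))))))))))))
(cons (mv 912 (cons (cons (cons (mv 848 (cons (cons (mv 783 (cons (fin 847 7 783)
(mv 719 (cons (fin 784 7 719)
(mv 849 (cons (fin 785 6 784)
(mv 1103 (cons (fin 1039 5 847)
(mv 1104 (cons (fin 1167 5 911)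
(fin 913 6 848)))))))))))
(mv 785 (cons (fin 849 6 784)
(mv 784 (cons (fin 721 6 720)
(mv 1039 (cons (fin 975 5 783)
(fin 1103 5 847))))))))
(cons (mv 783 (cons (fin 847 7 783)
(mv 784 (cons (fin 719 7 719)
(mv 1039 (cons (fin 975 5 783)
(fin 1103 5 847)))))))
(cons (mv 783 (cons (fin 847 7 783)
(mv 784 (cons (fin 719 7 719)
(mv 785 (cons (fin 721 6 720)
(fin 849 6 784)))))))
(mv 783 (cons (fin 847 7 783)
(mv 849 (cons (fin 785 6 784)
(mv 1103 (cons (fin 1039 5 847)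
(mv 1104 (cons (fin 1167 5 911)
(fin 913 6 848)))))))))))))
(mv 913 (cons (cons (mv 1104 (cons (fin 849 6 848)
(mv 911 (cons (fin 847 7 847)
(mv 975 (cons (fin 1168 7 911)
(mv 914 (cons (fin 974 1 910)
(fin 915 1 911)))))))))
(mv 914 (cons (cons (mv 915 (cons (fin 975 1 911)
(mv 851 (cons (fin 852 2 848)
(mv 850 (cons (fin 911 2 847)
(mv 979 (cons (fin 980 0 912)
(mv 786 (cons (fin 1043 7 786)
(fin 722 4 722)))))))))))
(mv 979 (cons (cons (mv 911 (cons (fin 978 0 911)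
(mv 846 (cons (fin 847 3 846)
(mv 845 (cons (fin 910 3 845)
(mv 851 (cons (fin 850 2 847)
(mv 915 (cons (fin 852 2 848)
(fin 980 0 912)))))))))))
(mv 915 (cons (fin 980 0 912)
(mv 851 (cons (fin 852 2 848)
(mv 1043 (cons (cons (mv 850 (cons (fin 786 7 786)
(fin 1107 7 850)))
(mv 1042 (cons (fin 1106 5 850)
(mv 787 (cons (fin 978 5 786)
(mv 722 (cons (fin 786 7 722)
(mv 658 (cons (fin 723 7 658)
(mv 724 (cons (fin 788 6 723)
(mv 1108 (cons (fin 1044 4 851)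
(mv 1107 (cons (fin 1041 0 1040)
(fin 1172 4 915))))))))))))))))
(cons (mv 786 (cons (fin 850 7 786)
(mv 787 (cons (fin 722 7 722)
(mv 978 (cons (fin 723 5 722)
(fin 1042 5 786)))))))
(mv 850 (cons (fin 1107 7 850)
(mv 1042 (cons (fin 1106 5 850)
(mv 787 (cons (fin 978 5 786)
(mv 723 (cons (fin 659 5 658)
(mv 724 (cons (fin 660 6 659)
(fin 788 6 723)))))))))))))))))))
(cons (mv 911 (cons (fin 978 0 911)
(mv 846 (cons (fin 847 3 846)
(mv 850 (cons (fin 851 2 847)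
(mv 910 (cons (fin 845 3 845)
(fin 849 2 846)))))))))
(cons (mv 915 (cons (fin 980 0 912)
(mv 851 (cons (fin 852 2 848)
(mv 850 (cons (fin 911 2 847)
(mv 786 (cons (fin 1043 7 786)
(fin 722 4 722)))))))))
(mv 978 (cons (fin 911 0 911)
(mv 980 (cons (fin 981 3 913)
(fin 915 0 912))))))))))
(cons (mv 911 (cons (cons (mv 846 (cons (fin 847 3 846)
(mv 850 (cons (fin 851 2 847)
(mv 910 (cons (fin 845 3 845)
(fin 849 2 846)))))))
(mv 850 (cons (fin 851 2 847)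
(mv 849 (cons (fin 910 2 846)
(mv 721 (cons (fin 785 5 720)
(mv 975 (cons (fin 974 1 910)
(mv 978 (cons (fin 979 0 911)
(mv 1042 (cons (fin 1106 7 849)
(mv 1043 (cons (fin 1041 3 975)
(fin 1107 4 850))))))))))))))))
(cons (mv 846 (cons (fin 847 3 846)
(mv 910 (cons (fin 845 3 845)
(mv 974 (cons (fin 973 1 909)
(fin 975 1 910)))))))
(mv 847 (cons (fin 846 3 846)
(mv 783 (cons (fin 719 4 719)
(fin 975 4 783))))))))
(cons (mv 915 (cons (fin 975 1 911)
(mv 852 (cons (fin 851 2 848)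
(mv 916 (cons (fin 853 2 849)
(mv 980 (cons (fin 979 0 912)
(fin 981 0 913)))))))))
(mv 975 (cons (fin 915 1 911)
(mv 974 (cons (fin 911 1 910)
(fin 973 2 909))))))))))
(cons (mv 911 (cons (cons (mv 847 (cons (fin 1104 7 847)
(mv 783 (cons (fin 719 4 719)
(fin 975 4 783)))))
(mv 910 (cons (cons (mv 845 (cons (fin 846 3 845)
(mv 844 (cons (fin 909 3 844)
(mv 974 (cons (fin 973 1 909)
(mv 914 (cons (fin 975 1 910)
(mv 851 (cons (fin 850 2 847)
(mv 915 (cons (fin 852 2 848)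
(mv 979 (cons (fin 978 0 911)
(fin 980 0 912)))))))))))))))
(cons (mv 845 (cons (fin 846 3 845)
(mv 909 (cons (fin 844 3 844)
(mv 908 (cons (fin 975 0 908)
(mv 972 (cons (fin 971 1 907)
(fin 973 1 908)))))))))
(mv 845 (cons (fin 846 3 845)
(mv 909 (cons (fin 844 3 844)
(mv 975 (cons (fin 908 0 908)
(mv 914 (cons (fin 974 1 910)
(fin 915 1 911)))))))))))
(cons (cons (mv 973 (cons (fin 974 1 909)
(mv 909 (cons (fin 972 1 908)
(mv 975 (cons (fin 908 0 908)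
(mv 914 (cons (fin 915 1 911)
(mv 850 (cons (fin 851 2 847)
(mv 978 (cons (fin 979 0 911)
(mv 1104 (cons (fin 1168 7 911)
(mv 1103 (cons (fin 1167 5 911)
(mv 1039 (cons (fin 846 7 846)
(mv 1102 (cons (fin 1166 5 910)
(mv 1041 (cons (fin 1042 1 1038)
(fin 1101 2 1037)))))))))))))))))))))))
(mv 973 (cons (fin 974 1 909)
(mv 909 (cons (fin 972 1 908)
(mv 844 (cons (fin 845 3 844)
(mv 908 (cons (fin 843 3 843)
(fin 975 0 908))))))))))
(cons (mv 845 (cons (fin 846 3 845)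
(mv 909 (cons (fin 844 3 844)
(mv 973 (cons (fin 972 1 908)
(fin 974 1 909)))))))
(mv 845 (cons (fin 846 3 845)
(mv 974 (cons (fin 973 1 909)
(mv 914 (cons (fin 975 1 910)
(mv 851 (cons (fin 850 2 847)
(mv 915 (cons (fin 852 2 848)
(mv 979 (cons (fin 978 0 911)
(fin 980 0 912))))))))))))))))))
(cons (mv 914 (cons (mv 975 (cons (fin 974 1 910)
(fin 915 1 911)))
(cons (mv 846 (cons (fin 847 3 846)
(mv 845 (cons (fin 910 3 845)
(mv 851 (cons (fin 850 2 847)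
(mv 915 (cons (fin 852 2 848)
(mv 979 (cons (fin 978 0 911)
(fin 980 0 912)))))))))))
(mv 846 (cons (fin 847 3 846)
(mv 850 (cons (fin 851 2 847)
(mv 910 (cons (fin 845 3 845)
(mv 974 (cons (fin 973 1 909)
(fin 975 1 910))))))))))))
(mv 847 (cons (fin 1104 7 847)
(mv 719 (cons (fin 783 4 719)
(mv 846 (cons (fin 914 3 846)
(mv 845 (cons (fin 910 3 845)
(fin 844 0 844))))))))))))
(cons (mv 914 (cons (cons (cons (mv 1104 (cons (fin 849 6 848)
(mv 911 (cons (fin 847 7 847)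
(mv 850 (cons (fin 851 2 847)
(mv 979 (cons (fin 978 0 911)
(mv 915 (cons (fin 980 0 912)
(mv 722 (cons (fin 786 4 722)
(mv 1107 (cons (fin 1043 7 850)
(mv 1167 (cons (fin 1103 5 911)
(mv 1168 (cons (fin 1231 5 975)
(mv 1169 (cons (fin 1233 4 976)
(mv 1170 (cons (fin 1106 2 1103)
(mv 1171 (cons (fin 1108 2 1104)
(mv 1235 (cons (fin 1234 0 1167)
(fin 1236 0 1168)))))))))))))))))))))))))))
(mv 979 (cons (cons (mv 911 (cons (fin 978 0 911)
(mv 846 (cons (fin 847 3 846)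
(mv 845 (cons (fin 910 3 845)
(mv 851 (cons (fin 850 2 847)
(mv 915 (cons (fin 852 2 848)
(fin 980 0 912)))))))))))
(mv 915 (cons (fin 980 0 912)
(mv 851 (cons (fin 852 2 848)
(mv 1043 (cons (cons (mv 850 (cons (fin 786 7 786)
(fin 1107 7 850)))
(mv 1042 (cons (fin 1106 5 850)
(mv 787 (cons (fin 978 5 786)
(mv 722 (cons (fin 786 7 722)
(mv 658 (cons (fin 723 7 658)
(mv 724 (cons (fin 788 6 723)
(mv 1108 (cons (fin 1044 4 851)
(mv 1107 (cons (fin 1041 0 1040)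
(fin 1172 4 915))))))))))))))))
(cons (mv 786 (cons (fin 850 7 786)
(mv 787 (cons (fin 722 7 722)
(mv 978 (cons (fin 723 5 722)
(fin 1042 5 786)))))))
(mv 850 (cons (fin 1107 7 850)
(mv 1042 (cons (fin 1106 5 850)
(mv 787 (cons (fin 978 5 786)
(mv 723 (cons (fin 659 5 658)
(mv 724 (cons (fin 660 6 659)
(fin 788 6 723)))))))))))))))))))
(cons (mv 911 (cons (fin 978 0 911)
(mv 846 (cons (fin 847 3 846)
(mv 850 (cons (fin 851 2 847)
(mv 910 (cons (fin 845 3 845)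
(fin 849 2 846)))))))))
(cons (mv 915 (cons (fin 980 0 912)
(mv 851 (cons (fin 852 2 848)
(mv 850 (cons (fin 911 2 847)
(mv 786 (cons (fin 1043 7 786)
(fin 722 4 722)))))))))
(mv 978 (cons (fin 911 0 911)
(mv 980 (cons (fin 981 3 913)
(fin 915 0 912))))))))))
(cons (mv 911 (cons (mv 847 (cons (fin 846 3 846)
(fin 1104 7 847)))
(mv 851 (cons (fin 850 2 847)
(mv 915 (cons (fin 852 2 848)
(mv 979 (cons (fin 978 0 911)
(fin 980 0 912)))))))))
(mv 849 (cons (fin 1104 6 848)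
(mv 785 (cons (fin 721 5 720)
(mv 915 (cons (cons (mv 852 (cons (fin 851 2 848)
(mv 916 (cons (fin 853 2 849)
(mv 980 (cons (fin 979 0 912)
(fin 981 0 913)))))))
(mv 916 (cons (mv 980 (cons (fin 979 0 912)
(fin 981 0 913)))
(cons (mv 917 (cons (fin 850 3 849)
(mv 854 (cons (fin 853 2 850)
(mv 918 (cons (fin 855 2 851)
(mv 982 (cons (fin 981 0 914)
(fin 983 0 915)))))))))
(mv 850 (cons (fin 917 3 849)
(mv 978 (cons (fin 1042 7 785)
(mv 979 (cons (fin 980 0 912)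
(mv 786 (cons (fin 722 4 722)
(fin 1043 4 786)))))))))))))
(cons (mv 852 (cons (fin 851 2 848)
(mv 916 (cons (fin 853 2 849)
(mv 850 (cons (fin 917 3 849)
(mv 978 (cons (fin 1042 7 785)
(mv 786 (cons (mv 722 (cons (fin 658 5 657)
(fin 979 4 722)))
(cons (mv 722 (cons (fin 658 5 657)
(mv 723 (cons (fin 659 6 658)
(fin 787 6 722)))))
(mv 787 (cons (fin 723 6 722)
(mv 788 (cons (fin 789 1 785)
(mv 724 (cons (fin 725 2 721)
(fin 979 5 723))))))))))))))))))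
(cons (mv 852 (cons (fin 851 2 848)
(mv 916 (cons (fin 853 2 849)
(mv 917 (cons (fin 850 3 849)
(mv 981 (cons (fin 980 0 913)
(fin 982 0 914)))))))))
(mv 851 (cons (fin 852 2 848)
(mv 979 (cons (fin 980 0 912)
(mv 978 (cons (mv 787 (cons (fin 723 5 722)
(fin 1042 5 786)))
(cons (mv 787 (cons (fin 723 5 722)
(mv 724 (cons (fin 788 6 723)
(mv 786 (cons (fin 722 7 722)
(mv 1043 (cons (fin 850 7 786)
(mv 1107 (cons (fin 1171 7 914)
(mv 1108 (cons (fin 1044 4 851)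
(fin 1172 4 915)))))))))))))
(mv 1042 (cons (fin 850 7 785)
(fin 1106 7 849))))))))))))))))))))
(cons (cons (mv 849 (cons (fin 1104 6 848)
(mv 785 (cons (fin 721 5 720)
(mv 978 (cons (mv 1042 (cons (fin 850 7 785)
(fin 1106 7 849)))
(cons (mv 911 (cons (fin 979 0 911)
(mv 850 (cons (fin 910 2 846)
(fin 851 2 847)))))
(mv 979 (cons (fin 911 0 911)
(mv 980 (cons (fin 981 3 913)
(mv 1042 (cons (fin 1106 7 849)
(mv 1041 (cons (fin 1039 2 975)
(fin 1043 2 976))))))))))))))))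
(mv 849 (cons (fin 1104 6 848)
(mv 785 (cons (fin 721 5 720)
(mv 978 (cons (mv 1042 (cons (fin 850 7 785)
(fin 1106 7 849)))
(cons (mv 911 (cons (fin 979 0 911)
(mv 846 (cons (fin 847 3 846)
(mv 910 (cons (fin 845 3 845)
(fin 850 2 846)))))))
(mv 979 (cons (fin 911 0 911)
(mv 980 (cons (fin 981 3 913)
(fin 915 0 912)))))))))))))
(cons (mv 911 (cons (mv 847 (cons (fin 846 3 846)
(fin 1104 7 847)))
(cons (mv 846 (cons (fin 847 3 846)
(mv 850 (cons (fin 851 2 847)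
(mv 910 (cons (fin 845 3 845)
(fin 849 2 846)))))))
(mv 849 (cons (fin 1104 6 848)
(mv 850 (cons (fin 910 2 846)
(fin 851 2 847))))))))
(mv 1104 (cons (fin 849 6 848)
(mv 911 (cons (fin 847 7 847)
(mv 979 (cons (fin 978 0 911)
(mv 915 (cons (fin 980 0 912)
(mv 852 (cons (fin 851 2 848)
(mv 916 (cons (fin 853 2 849)
(mv 724 (cons (fin 788 5 723)
(mv 1107 (cons (fin 1043 6 851)
(mv 1167 (cons (fin 1103 5 911)
(mv 1168 (cons (fin 1231 5 975)
(mv 1169 (cons (fin 1233 4 976)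
(mv 1170 (cons (fin 1106 2 1103)
(mv 1171 (cons (fin 1108 2 1104)
(mv 1235 (cons (fin 1234 0 1167)
(fin 1236 0 1168)))))))))))))))))))))))))))))))))
(mv 1104 (cons (fin 849 6 848)
(mv 1168 (cons (cons (mv 1167 (cons (fin 1103 5 911)
(fin 1231 5 975)))
(mv 1233 (cons (fin 1169 4 976)
(mv 1232 (cons (fin 1297 4 1040)
(mv 1039 (cons (fin 975 7 975)
(mv 1295 (cons (fin 1231 5 1039)
(mv 1296 (cons (fin 1103 7 1039)
(fin 1359 5 1103))))))))))))
(cons (mv 1103 (cons (fin 1167 5 911)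
(mv 1233 (cons (fin 1169 4 976)
(mv 1232 (cons (fin 1297 4 1040)
(mv 1039 (cons (fin 975 7 975)
(fin 1296 7 1039)))))))))
(mv 1231 (cons (fin 1167 5 975)
(mv 1232 (cons (fin 1295 5 1039)
(mv 1233 (cons (fin 1169 4 976)
(fin 1297 4 1040)))))))))))))))))
(cons (mv 848 (cons (cons (mv 783 (cons (fin 847 7 783)
(mv 784 (cons (fin 719 7 719)
(mv 785 (cons (fin 721 6 720)
(fin 849 6 784)))))))
(mv 785 (cons (fin 849 6 784)
(mv 784 (cons (fin 721 6 720)
(mv 1039 (cons (fin 975 5 783)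
(fin 1103 5 847))))))))
(cons (mv 783 (cons (fin 847 7 783)
(mv 784 (cons (fin 719 7 719)
(mv 1039 (cons (fin 975 5 783)
(fin 1103 5 847)))))))
(mv 847 (cons (fin 783 7 783)
(mv 849 (cons (fin 785 6 784)
(mv 1039 (cons (fin 1103 5 847)
(mv 846 (cons (cons (mv 913 (cons (fin 845 0 845)
(fin 914 0 846)))
(mv 781 (cons (fin 782 3 781)
(mv 780 (cons (fin 845 3 780)
(mv 910 (cons (fin 909 1 845)
(mv 850 (cons (fin 911 1 846)
(mv 787 (cons (fin 786 2 783)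
(mv 851 (cons (fin 788 2 784)
(mv 915 (cons (fin 914 0 847)
(fin 916 0 848))))))))))))))))
(cons (mv 781 (cons (fin 782 3 781)
(mv 909 (cons (fin 910 1 845)
(mv 914 (cons (fin 913 0 846)
(mv 850 (cons (fin 915 0 847)
(mv 787 (cons (fin 786 2 783)
(mv 851 (cons (fin 911 1 847)
(fin 788 2 784)))))))))))))
(mv 781 (cons (fin 782 3 781)
(mv 845 (cons (fin 780 3 780)
(fin 913 0 845)))))))))))))))))
(cons (mv 848 (cons (cons (mv 785 (cons (fin 849 6 784)
(mv 784 (cons (fin 721 6 720)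
(mv 1039 (cons (fin 975 5 783)
(fin 1103 5 847)))))))
(mv 1039 (cons (fin 1103 5 847)
(mv 784 (cons (fin 975 5 783)
(mv 719 (cons (fin 783 7 719)
(mv 720 (cons (fin 655 7 655)
(mv 721 (cons (fin 657 6 656)
(fin 785 6 720))))))))))))
(cons (mv 849 (cons (fin 785 6 784)
(mv 913 (cons (fin 1104 6 848)
(mv 911 (cons (mv 850 (cons (fin 851 1 847)
(fin 910 2 846)))
(cons (mv 910 (cons (fin 909 2 845)
(mv 845 (cons (fin 846 3 845)
(mv 974 (cons (fin 973 1 909)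
(mv 914 (cons (fin 975 1 910)
(mv 915 (cons (fin 916 3 848)
(mv 979 (cons (fin 978 0 911)
(fin 980 0 912)))))))))))))
(mv 850 (cons (fin 851 1 847)
(mv 914 (cons (mv 915 (cons (fin 916 3 848)
(fin 975 1 911)))
(cons (mv 975 (cons (fin 974 1 910)
(mv 720 (cons (fin 784 5 719)
(mv 978 (cons (fin 979 0 911)
(mv 1042 (cons (fin 1106 7 849)
(mv 1043 (cons (fin 1041 3 975)
(fin 1107 4 850)))))))))))
(mv 915 (cons (fin 916 3 848)
(mv 979 (cons (fin 978 0 911)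
(fin 980 0 912)))))))))))))))))
(cons (mv 1039 (cons (fin 1103 5 847)
(mv 975 (cons (fin 784 5 783)
(mv 1038 (cons (cons (mv 1037 (cons (fin 1036 2 972)
(mv 972 (cons (fin 973 3 972)
(mv 1101 (cons (fin 1100 1 1036)
(mv 1041 (cons (fin 1102 1 1037)
(mv 1042 (cons (fin 974 3 974)
(fin 1043 3 975)))))))))))
(cons (mv 974 (cons (mv 973 (cons (fin 1041 3 973)
(fin 913 2 909)))
(cons (mv 1041 (cons (fin 1042 3 974)
(mv 1102 (cons (fin 1101 1 1037)
(mv 1166 (cons (fin 911 6 910)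
(fin 1230 6 974)))))))
(mv 973 (cons (fin 913 2 909)
(fin 972 0 972))))))
(mv 1037 (cons (fin 1036 2 972)
(mv 973 (cons (fin 972 3 972)
(mv 1101 (cons (fin 1100 1 1036)
(mv 1102 (cons (fin 1041 1 1037)
(mv 909 (cons (fin 845 4 845)
(fin 1166 4 909)))))))))))))
(cons (mv 1037 (cons (fin 1036 2 972)
(mv 1101 (cons (fin 1100 1 1036)
(mv 1041 (cons (fin 1102 1 1037)
(mv 1042 (cons (fin 974 3 974)
(fin 1043 3 975)))))))))
(cons (mv 1037 (cons (fin 1036 2 972)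
(mv 973 (cons (fin 972 3 972)
(mv 913 (cons (fin 974 2 909)
(mv 914 (cons (fin 915 1 911)
(mv 1100 (cons (fin 1101 1 1036)
(mv 1104 (cons (fin 849 6 848)
(mv 1168 (cons (fin 911 7 911)
(fin 1232 7 975)))))))))))))))
(mv 1037 (cons (fin 1036 2 972)
(mv 973 (cons (fin 972 3 972)
(mv 974 (cons (fin 1041 3 973)
(fin 913 2 909)))))))))))))))
(mv 849 (cons (fin 785 6 784)
(mv 1103 (cons (fin 1039 5 847)
(mv 1104 (cons (fin 1167 5 911)
(fin 913 6 848)))))))))))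
(mv 848 (cons (cons (mv 783 (cons (fin 847 7 783)
(mv 784 (cons (fin 719 7 719)
(mv 785 (cons (fin 721 6 720)
(fin 849 6 784)))))))
(cons (mv 785 (cons (fin 849 6 784)
(mv 784 (cons (fin 721 6 720)
(mv 719 (cons (fin 783 7 719)
(mv 720 (cons (fin 655 7 655)
(mv 975 (cons (fin 911 5 719)
(fin 1039 5 783)))))))))))
(mv 783 (cons (fin 847 7 783)
(mv 784 (cons (fin 719 7 719)
(mv 721 (cons (fin 785 6 720)
(mv 720 (cons (fin 657 6 656)
(mv 975 (cons (fin 911 5 719)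
(fin 1039 5 783)))))))))))))
(cons (mv 785 (cons (fin 849 6 784)
(mv 784 (cons (fin 721 6 720)
(mv 975 (cons (fin 1039 5 783)
(mv 911 (cons (fin 720 5 719)
(mv 1104 (cons (fin 847 7 847)
(fin 1168 7 911)))))))))))
(cons (mv 783 (cons (fin 847 7 783)
(mv 784 (cons (fin 719 7 719)
(mv 975 (cons (fin 1039 5 783)
(mv 911 (cons (fin 720 5 719)
(mv 1104 (cons (fin 1168 7 911)
(mv 913 (cons (fin 849 6 848)
(mv 914 (cons (fin 974 1 910)
(fin 915 1 911)))))))))))))))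
(mv 847 (cons (fin 783 7 783)
(mv 849 (cons (fin 785 6 784)
(mv 1104 (cons (fin 911 7 847)
(fin 913 6 848))))))))))))))
(cons (cons (mv 848 (cons (cons (mv 783 (cons (fin 847 7 783)
(mv 784 (cons (fin 719 7 719)
(mv 1039 (cons (fin 975 5 783)
(fin 1103 5 847)))))))
(mv 1039 (cons (fin 1103 5 847)
(mv 784 (cons (fin 975 5 783)
(mv 719 (cons (fin 783 7 719)
(mv 720 (cons (fin 655 7 655)
(mv 721 (cons (fin 657 6 656)
(fin 785 6 720))))))))))))
(cons (mv 784 (cons (cons (mv 783 (cons (fin 719 7 719)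
(fin 847 7 783)))
(mv 721 (cons (fin 785 6 720)
(mv 720 (cons (fin 657 6 656)
(mv 655 (cons (fin 719 7 655)
(mv 656 (cons (fin 591 7 591)
(mv 911 (cons (fin 847 5 655)
(fin 975 5 719))))))))))))
(cons (mv 719 (cons (fin 783 7 719)
(mv 720 (cons (fin 655 7 655)
(mv 721 (cons (fin 657 6 656)
(fin 785 6 720)))))))
(mv 721 (cons (fin 785 6 720)
(mv 720 (cons (fin 657 6 656)
(mv 847 (cons (fin 783 7 783)
(mv 911 (cons (fin 1104 7 847)
(fin 656 5 655))))))))))))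
(cons (mv 1039 (cons (fin 1103 5 847)
(mv 975 (cons (fin 784 5 783)
(mv 1038 (cons (cons (mv 1037 (cons (fin 1036 2 972)
(mv 972 (cons (fin 973 3 972)
(mv 1101 (cons (fin 1100 1 1036)
(mv 1041 (cons (fin 1102 1 1037)
(mv 1042 (cons (fin 974 3 974)
(fin 1043 3 975)))))))))))
(cons (mv 974 (cons (mv 973 (cons (fin 1041 3 973)
(fin 913 2 909)))
(cons (mv 1041 (cons (fin 1042 3 974)
(mv 1102 (cons (fin 1101 1 1037)
(mv 911 (cons (fin 847 5 846)
(fin 1166 6 910)))))))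
(mv 973 (cons (fin 913 2 909)
(fin 972 0 972))))))
(mv 1037 (cons (fin 1036 2 972)
(mv 973 (cons (fin 972 3 972)
(mv 1101 (cons (fin 1100 1 1036)
(mv 1102 (cons (fin 1041 1 1037)
(mv 909 (cons (fin 845 4 845)
(fin 1166 4 909)))))))))))))
(cons (mv 1037 (cons (fin 1036 2 972)
(mv 1101 (cons (fin 1100 1 1036)
(mv 1041 (cons (fin 1102 1 1037)
(mv 1042 (cons (fin 974 3 974)
(fin 1043 3 975)))))))))
(cons (mv 1037 (cons (fin 1036 2 972)
(mv 973 (cons (fin 972 3 972)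
(mv 974 (cons (fin 913 2 909)
(mv 908 (cons (fin 909 3 908)
(mv 1101 (cons (fin 1100 1 1036)
(mv 910 (cons (fin 846 5 845)
(fin 1165 6 909)))))))))))))
(mv 1037 (cons (fin 1036 2 972)
(mv 973 (cons (fin 972 3 972)
(mv 974 (cons (fin 1041 3 973)
(fin 913 2 909)))))))))))))))
(mv 847 (cons (fin 783 7 783)
(mv 1103 (cons (fin 1039 5 847)
(mv 1104 (cons (fin 911 7 847)
(fin 1167 5 911)))))))))))
(cons (mv 848 (cons (cons (mv 783 (cons (fin 847 7 783)
(mv 784 (cons (fin 719 7 719)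
(mv 785 (cons (fin 721 6 720)
(fin 849 6 784)))))))
(mv 849 (cons (fin 785 6 784)
(mv 913 (cons (fin 1104 6 848)
(mv 911 (cons (mv 850 (cons (fin 851 1 847)
(fin 910 2 846)))
(cons (mv 910 (cons (fin 909 2 845)
(mv 845 (cons (fin 846 3 845)
(mv 974 (cons (fin 973 1 909)
(mv 914 (cons (fin 975 1 910)
(mv 915 (cons (fin 916 3 848)
(mv 979 (cons (fin 978 0 911)
(fin 980 0 912)))))))))))))
(mv 850 (cons (fin 851 1 847)
(mv 914 (cons (mv 915 (cons (fin 916 3 848)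
(fin 975 1 911)))
(cons (mv 975 (cons (fin 974 1 910)
(mv 720 (cons (fin 784 5 719)
(mv 978 (cons (fin 979 0 911)
(mv 1042 (cons (fin 1106 7 849)
(mv 1043 (cons (fin 1041 3 975)
(fin 1107 4 850)))))))))))
(mv 915 (cons (fin 916 3 848)
(mv 979 (cons (fin 978 0 911)
(fin 980 0 912))))))))))))))))))
(cons (mv 784 (cons (cons (mv 783 (cons (fin 719 7 719)
(fin 847 7 783)))
(mv 721 (cons (fin 785 6 720)
(mv 720 (cons (fin 657 6 656)
(mv 655 (cons (fin 719 7 655)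
(mv 656 (cons (fin 591 7 591)
(mv 911 (cons (fin 847 5 655)
(fin 975 5 719))))))))))))
(cons (mv 719 (cons (fin 783 7 719)
(mv 720 (cons (fin 655 7 655)
(mv 721 (cons (fin 657 6 656)
(fin 785 6 720)))))))
(mv 721 (cons (fin 785 6 720)
(mv 720 (cons (fin 657 6 656)
(mv 847 (cons (fin 783 7 783)
(mv 911 (cons (fin 1104 7 847)
(fin 656 5 655))))))))))))
(cons (mv 847 (cons (fin 783 7 783)
(mv 911 (cons (fin 1104 7 847)
(mv 913 (cons (mv 846 (cons (fin 914 3 846)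
(fin 845 0 845)))
(cons (mv 846 (cons (fin 845 0 845)
(mv 910 (cons (mv 849 (cons (fin 909 1 845)
(fin 850 1 846)))
(cons (mv 909 (cons (fin 908 2 844)
(mv 973 (cons (fin 972 1 908)
(fin 974 1 909)))))
(mv 849 (cons (fin 850 1 846)
(mv 782 (cons (fin 781 3 781)
(mv 718 (cons (fin 654 4 654)
(fin 975 4 718))))))))))))
(mv 914 (cons (fin 915 3 847)
(mv 850 (cons (fin 851 2 847)
(mv 849 (cons (fin 910 1 846)
(mv 786 (cons (fin 787 2 783)
(mv 658 (cons (fin 722 5 657)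
(mv 975 (cons (fin 974 1 910)
(mv 720 (cons (fin 784 5 719)
(mv 978 (cons (fin 979 0 911)
(mv 1042 (cons (fin 1106 7 849)
(mv 1043 (cons (fin 1041 3 975)
(fin 1107 4 850))))))))))))))))))))))))))))
(mv 847 (cons (fin 783 7 783)
(mv 849 (cons (fin 785 6 784)
(mv 1104 (cons (fin 911 7 847)
(fin 913 6 848)))))))))))
(mv 848 (cons (cons (mv 783 (cons (fin 847 7 783)
(mv 784 (cons (fin 719 7 719)
(mv 785 (cons (fin 721 6 720)
(fin 849 6 784)))))))
(mv 785 (cons (fin 849 6 784)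
(mv 784 (cons (fin 721 6 720)
(mv 1039 (cons (fin 975 5 783)
(fin 1103 5 847))))))))
(cons (mv 783 (cons (fin 847 7 783)
(mv 784 (cons (fin 719 7 719)
(mv 1039 (cons (fin 975 5 783)
(fin 1103 5 847)))))))
(mv 785 (cons (fin 849 6 784)
(mv 847 (cons (fin 783 7 783)
(mv 1103 (cons (fin 1039 5 847)
(mv 1104 (cons (fin 911 7 847)
(fin 1167 5 911))))))))))))))
(cons (mv 1104 (cons (cons (mv 847 (cons (fin 911 7 847)
(mv 849 (cons (fin 913 6 848)
(mv 848 (cons (fin 785 6 784)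
(mv 1103 (cons (fin 1039 5 847)
(fin 1167 5 911)))))))))
(cons (mv 849 (cons (fin 913 6 848)
(mv 785 (cons (fin 848 6 784)
(mv 911 (cons (fin 847 7 847)
(mv 1168 (cons (fin 975 7 911)
(mv 1231 (cons (fin 1167 5 975)
(mv 1232 (cons (fin 1295 5 1039)
(mv 1233 (cons (fin 1169 4 976)
(fin 1297 4 1040)))))))))))))))
(mv 849 (cons (fin 913 6 848)
(mv 848 (cons (fin 785 6 784)
(mv 911 (cons (fin 847 7 847)
(mv 850 (cons (fin 851 1 847)
(mv 909 (cons (fin 910 2 845)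
(mv 975 (cons (fin 1168 7 911)
(mv 784 (cons (fin 720 5 719)
(fin 1039 5 783)))))))))))))))))
(cons (mv 849 (cons (fin 913 6 848)
(mv 848 (cons (fin 785 6 784)
(mv 1103 (cons (fin 1039 5 847)
(fin 1167 5 911)))))))
(cons (mv 911 (cons (fin 847 7 847)
(mv 975 (cons (fin 1168 7 911)
(mv 1103 (cons (fin 1167 5 911)
(mv 1039 (cons (fin 848 5 847)
(mv 846 (cons (fin 910 7 846)
(mv 1102 (cons (fin 1166 5 910)
(mv 1041 (cons (fin 1042 1 1038)
(fin 1101 2 1037)))))))))))))))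
(mv 849 (cons (fin 913 6 848)
(mv 911 (cons (fin 847 7 847)
(mv 1103 (cons (fin 1167 5 911)
(mv 1168 (cons (fin 975 7 911)
(mv 1233 (cons (fin 1169 4 976)
(mv 1232 (cons (fin 1297 4 1040)
(mv 1295 (cons (fin 1231 5 1039)
(mv 1296 (cons (fin 1039 7 1039)
(fin 1359 5 1103)))))))))))))))))))))
(cons (mv 1104 (cons (cons (mv 847 (cons (fin 911 7 847)
(mv 848 (cons (fin 783 7 783)
(mv 1103 (cons (fin 1039 5 847)
(fin 1167 5 911)))))))
(mv 849 (cons (fin 913 6 848)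
(mv 911 (cons (fin 847 7 847)
(mv 1168 (cons (fin 975 7 911)
(mv 1231 (cons (fin 1167 5 975)
(mv 1232 (cons (fin 1295 5 1039)
(mv 1233 (cons (fin 1169 4 976)
(fin 1297 4 1040))))))))))))))
(cons (mv 849 (cons (fin 913 6 848)
(mv 1168 (cons (mv 1167 (cons (fin 1103 5 911)
(fin 1231 5 975)))
(cons (mv 1233 (cons (fin 1169 4 976)
(mv 1232 (cons (fin 1297 4 1040)
(mv 1039 (cons (fin 975 7 975)
(mv 1103 (cons (fin 1296 7 1039)
(fin 848 5 847)))))))))
(mv 1231 (cons (fin 1167 5 975)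
(mv 1232 (cons (fin 1295 5 1039)
(mv 1233 (cons (fin 1169 4 976)
(fin 1297 4 1040))))))))))))
(mv 911 (cons (fin 847 7 847)
(mv 913 (cons (fin 849 6 848)
(mv 975 (cons (fin 1168 7 911)
(mv 914 (cons (fin 974 1 910)
(fin 915 1 911))))))))))))
(mv 848 (cons (cons (mv 783 (cons (fin 847 7 783)
(mv 719 (cons (fin 784 7 719)
(mv 849 (cons (fin 785 6 784)
(mv 1103 (cons (fin 1039 5 847)
(mv 1104 (cons (fin 1167 5 911)
(fin 913 6 848)))))))))))
(mv 849 (cons (fin 785 6 784)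
(mv 1103 (cons (fin 1039 5 847)
(mv 1104 (cons (fin 1167 5 911)
(fin 913 6 848))))))))
(cons (mv 847 (cons (fin 783 7 783)
(mv 1103 (cons (fin 1039 5 847)
(mv 1104 (cons (fin 911 7 847)
(fin 1167 5 911)))))))
(mv 783 (cons (fin 847 7 783)
(mv 784 (cons (fin 719 7 719)
(mv 785 (cons (fin 721 6 720)
(fin 849 6 784)))))))))))))))
(mv 1104 (cons (cons (mv 1168 (cons (cons (mv 911 (cons (fin 975 7 911)
(mv 847 (cons (fin 912 7 847)
(mv 913 (cons (fin 977 6 912)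
(mv 1231 (cons (fin 1167 5 975)
(mv 1232 (cons (fin 1295 5 1039)
(mv 1233 (cons (fin 1169 4 976)
(fin 1297 4 1040)))))))))))))
(cons (mv 913 (cons (fin 977 6 912)
(mv 849 (cons (fin 912 6 848)
(mv 1231 (cons (fin 1167 5 975)
(mv 1232 (cons (fin 1295 5 1039)
(mv 1233 (cons (fin 1169 4 976)
(fin 1297 4 1040)))))))))))
(mv 911 (cons (fin 975 7 911)
(mv 847 (cons (fin 912 7 847)
(mv 977 (cons (fin 913 6 912)
(mv 1232 (cons (fin 1041 6 976)
(mv 1233 (cons (fin 1169 4 976)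
(fin 1297 4 1040)))))))))))))
(cons (cons (mv 911 (cons (fin 975 7 911)
(mv 847 (cons (fin 912 7 847)
(mv 1231 (cons (fin 1167 5 975)
(mv 1232 (cons (fin 1295 5 1039)
(mv 1233 (cons (fin 1169 4 976)
(fin 1297 4 1040)))))))))))
(mv 911 (cons (fin 975 7 911)
(mv 847 (cons (fin 912 7 847)
(mv 977 (cons (fin 913 6 912)
(mv 1231 (cons (fin 1167 5 975)
(mv 1232 (cons (fin 1295 5 1039)
(fin 1041 6 976))))))))))))
(cons (mv 911 (cons (fin 975 7 911)
(mv 912 (cons (fin 847 7 847)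
(mv 913 (cons (fin 849 6 848)
(fin 977 6 912)))))))
(mv 911 (cons (fin 975 7 911)
(mv 913 (cons (fin 977 6 912)
(mv 1231 (cons (fin 1167 5 975)
(mv 1232 (cons (fin 1295 5 1039)
(mv 1233 (cons (fin 1169 4 976)
(fin 1297 4 1040)))))))))))))))
(cons (mv 912 (cons (cons (mv 847 (cons (fin 911 7 847)
(mv 848 (cons (fin 783 7 783)
(mv 849 (cons (fin 785 6 784)
(fin 913 6 848)))))))
(mv 849 (cons (fin 913 6 848)
(mv 848 (cons (fin 785 6 784)
(mv 1103 (cons (fin 1039 5 847)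
(fin 1167 5 911))))))))
(cons (mv 847 (cons (fin 911 7 847)
(mv 848 (cons (fin 783 7 783)
(mv 1103 (cons (fin 1039 5 847)
(fin 1167 5 911)))))))
(mv 911 (cons (fin 847 7 847)
(mv 913 (cons (fin 849 6 848)
(mv 1103 (cons (fin 1167 5 911)
(mv 910 (cons (cons (mv 845 (cons (fin 846 3 845)
(mv 909 (cons (fin 844 3 844)
(fin 977 0 909)))))
(mv 845 (cons (fin 846 3 845)
(mv 974 (cons (fin 973 1 909)
(mv 914 (cons (fin 975 1 910)
(mv 851 (cons (fin 850 2 847)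
(mv 915 (cons (fin 852 2 848)
(mv 916 (cons (fin 977 1 912)
(mv 980 (cons (fin 979 0 912)
(fin 981 0 913))))))))))))))))
(cons (mv 909 (cons (fin 977 0 909)
(mv 973 (cons (fin 972 1 908)
(fin 974 1 909)))))
(mv 845 (cons (fin 846 3 845)
(mv 909 (cons (fin 844 3 844)
(mv 973 (cons (fin 972 1 908)
(fin 974 1 909)))))))))))))))))))
(mv 1168 (cons (cons (mv 911 (cons (fin 975 7 911)
(mv 913 (cons (fin 977 6 912)
(mv 1231 (cons (fin 1167 5 975)
(mv 1232 (cons (fin 1295 5 1039)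
(mv 1233 (cons (fin 1169 4 976)
(fin 1297 4 1040)))))))))))
(cons (mv 913 (cons (fin 977 6 912)
(mv 1231 (cons (fin 1167 5 975)
(mv 1232 (cons (fin 1295 5 1039)
(mv 1233 (cons (fin 1169 4 976)
(fin 1297 4 1040)))))))))
(mv 911 (cons (fin 975 7 911)
(mv 1231 (cons (fin 1167 5 975)
(mv 1232 (cons (fin 1295 5 1039)
(mv 1233 (cons (fin 1169 4 976)
(fin 1297 4 1040)))))))))))
(cons (mv 911 (cons (fin 975 7 911)
(mv 977 (cons (fin 913 6 912)
(mv 1232 (cons (fin 1041 6 976)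
(mv 1233 (cons (fin 1169 4 976)
(fin 1297 4 1040)))))))))
(cons (mv 911 (cons (fin 975 7 911)
(mv 977 (cons (fin 913 6 912)
(mv 1231 (cons (fin 1167 5 975)
(mv 1232 (cons (fin 1295 5 1039)
(fin 1041 6 976)))))))))
(mv 911 (cons (fin 975 7 911)
(mv 913 (cons (fin 977 6 912)
(mv 1167 (cons (fin 1231 5 975)
(mv 1169 (cons (fin 1233 4 976)
(mv 1166 (cons (cons (mv 1101 (cons (fin 1102 3 1101)
(mv 1165 (cons (fin 1100 3 1100)
(mv 1229 (cons (fin 1228 1 1164)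
(fin 1230 1 1165)))))))
(mv 1229 (cons (fin 1230 1 1165)
(mv 1165 (cons (fin 1228 1 1164)
(mv 1100 (cons (fin 1101 3 1100)
(mv 1164 (cons (fin 1099 3 1099)
(fin 1103 2 1100))))))))))
(cons (mv 1229 (cons (fin 1230 1 1165)
(mv 1165 (cons (fin 1228 1 1164)
(mv 1103 (cons (fin 1164 2 1100)
(mv 1170 (cons (fin 1102 3 1102)
(fin 1171 3 1103)))))))))
(mv 1102 (cons (fin 1101 3 1101)
(mv 1170 (cons (fin 1103 3 1102)
(mv 1107 (cons (fin 1106 2 1103)
(mv 1171 (cons (fin 1108 2 1104)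
(mv 1235 (cons (fin 1234 0 1167)
(fin 1236 0 1168))))))))))))))))))))))))))))
(cons (cons (mv 1168 (cons (cons (mv 911 (cons (fin 975 7 911)
(mv 847 (cons (fin 912 7 847)
(mv 1231 (cons (fin 1167 5 975)
(mv 1232 (cons (fin 1295 5 1039)
(mv 1233 (cons (fin 1169 4 976)
(fin 1297 4 1040)))))))))))
(mv 1167 (cons (fin 1231 5 975)
(mv 1103 (cons (fin 912 5 911)
(mv 1169 (cons (fin 1233 4 976)
(mv 1102 (cons (fin 1170 3 1102)
(fin 1101 0 1101))))))))))
(cons (mv 975 (cons (fin 911 7 911)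
(mv 1232 (cons (fin 1039 7 975)
(mv 1233 (cons (fin 1169 4 976)
(fin 1297 4 1040)))))))
(mv 911 (cons (fin 975 7 911)
(mv 912 (cons (fin 847 7 847)
(mv 1167 (cons (fin 1103 5 911)
(fin 1231 5 975))))))))))
(mv 1168 (cons (cons (mv 913 (cons (fin 977 6 912)
(mv 849 (cons (fin 912 6 848)
(mv 1231 (cons (fin 1167 5 975)
(mv 1232 (cons (fin 1295 5 1039)
(mv 1233 (cons (fin 1169 4 976)
(fin 1297 4 1040)))))))))))
(mv 913 (cons (fin 977 6 912)
(mv 849 (cons (fin 912 6 848)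
(mv 1233 (cons (fin 1169 4 976)
(mv 1232 (cons (fin 1297 4 1040)
(mv 1039 (cons (fin 975 7 975)
(mv 1295 (cons (fin 1231 5 1039)
(mv 1296 (cons (fin 1103 7 1039)
(fin 1359 5 1103))))))))))))))))
(cons (mv 1167 (cons (fin 1231 5 975)
(mv 1103 (cons (fin 912 5 911)
(mv 1169 (cons (fin 1233 4 976)
(mv 1102 (cons (fin 1170 3 1102)
(fin 1101 0 1101)))))))))
(cons (mv 913 (cons (fin 977 6 912)
(mv 912 (cons (fin 849 6 848)
(mv 1103 (cons (fin 1167 5 911)
(mv 1039 (cons (fin 848 5 847)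
(mv 1232 (cons (fin 975 7 975)
(fin 1296 7 1039)))))))))))
(mv 913 (cons (fin 977 6 912)
(mv 1231 (cons (fin 1167 5 975)
(mv 1232 (cons (fin 1295 5 1039)
(mv 1233 (cons (fin 1169 4 976)
(fin 1297 4 1040))))))))))))))
(cons (mv 1168 (cons (cons (mv 911 (cons (fin 975 7 911)
(mv 847 (cons (fin 912 7 847)
(mv 977 (cons (fin 913 6 912)
(mv 1232 (cons (fin 1041 6 976)
(mv 1233 (cons (fin 1169 4 976)
(fin 1297 4 1040)))))))))))
(mv 977 (cons (fin 913 6 912)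
(mv 1232 (cons (fin 1041 6 976)
(mv 1233 (cons (fin 1169 4 976)
(fin 1297 4 1040))))))))
(cons (mv 975 (cons (fin 911 7 911)
(mv 1232 (cons (fin 1039 7 975)
(mv 1233 (cons (fin 1169 4 976)
(fin 1297 4 1040)))))))
(mv 911 (cons (fin 975 7 911)
(mv 912 (cons (fin 847 7 847)
(mv 913 (cons (fin 849 6 848)
(fin 977 6 912))))))))))
(mv 1168 (cons (cons (mv 913 (cons (fin 977 6 912)
(mv 849 (cons (fin 912 6 848)
(mv 1231 (cons (fin 1167 5 975)
(mv 1232 (cons (fin 1295 5 1039)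
(mv 1233 (cons (fin 1169 4 976)
(fin 1297 4 1040)))))))))))
(mv 977 (cons (fin 913 6 912)
(mv 1232 (cons (fin 1041 6 976)
(mv 1233 (cons (fin 1169 4 976)
(fin 1297 4 1040))))))))
(cons (mv 1167 (cons (fin 1231 5 975)
(mv 912 (cons (fin 1103 5 911)
(mv 847 (cons (fin 911 7 847)
(mv 848 (cons (fin 783 7 783)
(mv 849 (cons (fin 785 6 784)
(fin 913 6 848)))))))))))
(mv 1167 (cons (fin 1231 5 975)
(mv 1103 (cons (fin 912 5 911)
(mv 1169 (cons (fin 1233 4 976)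
(mv 1102 (cons (fin 1170 3 1102)
(fin 1101 0 1101)))))))))))))))))))
(cons (cons (ref 3 0)
(cons (mv 1104 (cons (cons (mv 1168 (cons (cons (mv 911 (cons (fin 975 7 911)
(mv 847 (cons (fin 912 7 847)
(mv 913 (cons (fin 977 6 912)
(mv 1231 (cons (fin 1167 5 975)
(mv 1232 (cons (fin 1295 5 1039)
(mv 1233 (cons (fin 1169 4 976)
(fin 1297 4 1040)))))))))))))
(mv 913 (cons (fin 977 6 912)
(mv 849 (cons (fin 912 6 848)
(mv 1231 (cons (fin 1167 5 975)
(mv 1232 (cons (fin 1295 5 1039)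
(mv 1233 (cons (fin 1169 4 976)
(fin 1297 4 1040))))))))))))
(cons (mv 911 (cons (fin 975 7 911)
(mv 912 (cons (fin 847 7 847)
(mv 913 (cons (fin 849 6 848)
(fin 977 6 912)))))))
(cons (mv 911 (cons (fin 975 7 911)
(mv 847 (cons (fin 912 7 847)
(mv 1231 (cons (fin 1167 5 975)
(mv 1232 (cons (fin 1295 5 1039)
(mv 1233 (cons (fin 1169 4 976)
(fin 1297 4 1040)))))))))))
(mv 911 (cons (fin 975 7 911)
(mv 913 (cons (fin 977 6 912)
(mv 1231 (cons (fin 1167 5 975)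
(mv 1232 (cons (fin 1295 5 1039)
(mv 1233 (cons (fin 1169 4 976)
(fin 1297 4 1040)))))))))))))))
(cons (mv 912 (cons (cons (mv 847 (cons (fin 911 7 847)
(mv 848 (cons (fin 783 7 783)
(mv 849 (cons (fin 785 6 784)
(fin 913 6 848)))))))
(mv 849 (cons (fin 913 6 848)
(mv 848 (cons (fin 785 6 784)
(mv 1103 (cons (fin 1039 5 847)
(fin 1167 5 911))))))))
(cons (mv 847 (cons (fin 911 7 847)
(mv 848 (cons (fin 783 7 783)
(mv 1103 (cons (fin 1039 5 847)
(fin 1167 5 911)))))))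
(mv 911 (cons (fin 847 7 847)
(mv 913 (cons (fin 849 6 848)
(mv 1103 (cons (fin 1167 5 911)
(mv 910 (cons (cons (mv 977 (cons (fin 909 0 909)
(fin 978 0 910)))
(mv 845 (cons (fin 846 3 845)
(mv 844 (cons (fin 909 3 844)
(mv 974 (cons (fin 973 1 909)
(mv 914 (cons (fin 975 1 910)
(mv 851 (cons (fin 850 2 847)
(mv 915 (cons (fin 852 2 848)
(mv 979 (cons (fin 978 0 911)
(fin 980 0 912))))))))))))))))
(cons (mv 845 (cons (fin 846 3 845)
(mv 973 (cons (fin 974 1 909)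
(mv 978 (cons (fin 977 0 910)
(mv 914 (cons (fin 979 0 911)
(mv 851 (cons (fin 850 2 847)
(mv 915 (cons (fin 975 1 911)
(fin 852 2 848)))))))))))))
(mv 845 (cons (fin 846 3 845)
(mv 909 (cons (fin 844 3 844)
(fin 977 0 909)))))))))))))))))
(mv 1168 (cons (cons (mv 911 (cons (fin 975 7 911)
(mv 913 (cons (fin 977 6 912)
(mv 1231 (cons (fin 1167 5 975)
(mv 1232 (cons (fin 1295 5 1039)
(mv 1233 (cons (fin 1169 4 976)
(fin 1297 4 1040)))))))))))
(cons (mv 913 (cons (fin 977 6 912)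
(mv 1231 (cons (fin 1167 5 975)
(mv 1232 (cons (fin 1295 5 1039)
(mv 1233 (cons (fin 1169 4 976)
(fin 1297 4 1040)))))))))
(mv 913 (cons (fin 977 6 912)
(mv 975 (cons (fin 911 7 911)
(mv 1232 (cons (fin 1039 7 975)
(mv 1233 (cons (fin 1169 4 976)
(fin 1297 4 1040)))))))))))
(cons (mv 913 (cons (fin 977 6 912)
(mv 975 (cons (fin 911 7 911)
(mv 1231 (cons (fin 1167 5 975)
(mv 1232 (cons (fin 1039 7 975)
(fin 1295 5 1039)))))))))
(cons (mv 911 (cons (fin 975 7 911)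
(mv 1231 (cons (fin 1167 5 975)
(mv 1232 (cons (fin 1295 5 1039)
(mv 1233 (cons (fin 1169 4 976)
(fin 1297 4 1040)))))))))
(mv 911 (cons (fin 975 7 911)
(mv 913 (cons (fin 977 6 912)
(mv 1167 (cons (fin 1231 5 975)
(mv 1169 (cons (fin 1233 4 976)
(mv 1166 (cons (cons (mv 1101 (cons (fin 1102 3 1101)
(mv 1165 (cons (fin 1100 3 1100)
(mv 1229 (cons (fin 1228 1 1164)
(fin 1230 1 1165)))))))
(mv 1229 (cons (fin 1230 1 1165)
(mv 1165 (cons (fin 1228 1 1164)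
(mv 1100 (cons (fin 1101 3 1100)
(mv 1164 (cons (fin 1099 3 1099)
(fin 1103 2 1100))))))))))
(cons (mv 1229 (cons (fin 1230 1 1165)
(mv 1165 (cons (fin 1228 1 1164)
(mv 1103 (cons (fin 1164 2 1100)
(mv 1170 (cons (fin 1102 3 1102)
(fin 1171 3 1103)))))))))
(mv 1102 (cons (fin 1101 3 1101)
(mv 1170 (cons (fin 1103 3 1102)
(mv 1107 (cons (fin 1106 2 1103)
(mv 1171 (cons (fin 1108 2 1104)
(mv 1235 (cons (fin 1234 0 1167)
(fin 1236 0 1168))))))))))))))))))))))))))))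
(cons (cons (mv 1168 (cons (cons (mv 913 (cons (fin 977 6 912)
(mv 849 (cons (fin 912 6 848)
(mv 1231 (cons (fin 1167 5 975)
(mv 1232 (cons (fin 1295 5 1039)
(mv 1233 (cons (fin 1169 4 976)
(fin 1297 4 1040)))))))))))
(mv 913 (cons (fin 977 6 912)
(mv 849 (cons (fin 912 6 848)
(mv 1233 (cons (fin 1169 4 976)
(mv 1232 (cons (fin 1297 4 1040)
(mv 1039 (cons (fin 975 7 975)
(mv 1295 (cons (fin 1231 5 1039)
(mv 1296 (cons (fin 1103 7 1039)
(fin 1359 5 1103))))))))))))))))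
(cons (mv 913 (cons (fin 977 6 912)
(mv 912 (cons (fin 849 6 848)
(mv 1103 (cons (fin 1167 5 911)
(mv 1039 (cons (fin 848 5 847)
(mv 1232 (cons (fin 975 7 975)
(fin 1296 7 1039)))))))))))
(cons (mv 1167 (cons (fin 1231 5 975)
(mv 1103 (cons (fin 912 5 911)
(mv 1169 (cons (fin 1233 4 976)
(mv 1102 (cons (fin 1170 3 1102)
(fin 1101 0 1101)))))))))
(mv 913 (cons (fin 977 6 912)
(mv 1231 (cons (fin 1167 5 975)
(mv 1232 (cons (fin 1295 5 1039)
(mv 1233 (cons (fin 1169 4 976)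
(fin 1297 4 1040)))))))))))))
(mv 912 (cons (cons (mv 847 (cons (fin 911 7 847)
(mv 783 (cons (fin 848 7 783)
(mv 913 (cons (fin 849 6 848)
(mv 1168 (cons (fin 977 6 912)
(mv 1233 (cons (fin 1169 4 976)
(mv 1232 (cons (fin 1297 4 1040)
(mv 1039 (cons (fin 975 7 975)
(mv 1295 (cons (fin 1231 5 1039)
(mv 1296 (cons (fin 1103 7 1039)
(fin 1359 5 1103)))))))))))))))))))
(cons (mv 849 (cons (fin 913 6 848)
(mv 848 (cons (fin 785 6 784)
(mv 783 (cons (fin 847 7 783)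
(mv 784 (cons (fin 719 7 719)
(mv 1039 (cons (fin 975 5 783)
(fin 1103 5 847)))))))))))
(mv 847 (cons (fin 911 7 847)
(mv 848 (cons (fin 783 7 783)
(mv 785 (cons (fin 849 6 784)
(mv 784 (cons (fin 721 6 720)
(mv 1039 (cons (fin 975 5 783)
(fin 1103 5 847)))))))))))))
(cons (cons (mv 849 (cons (fin 913 6 848)
(mv 848 (cons (fin 785 6 784)
(mv 1039 (cons (fin 1103 5 847)
(mv 975 (cons (fin 784 5 783)
(mv 1168 (cons (fin 911 7 911)
(fin 1232 7 975)))))))))))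
(mv 847 (cons (fin 911 7 847)
(mv 848 (cons (fin 783 7 783)
(mv 1039 (cons (fin 1103 5 847)
(mv 975 (cons (fin 784 5 783)
(mv 1168 (cons (fin 1232 7 975)
(mv 977 (cons (fin 913 6 912)
(mv 978 (cons (fin 1038 1 974)
(fin 979 1 975))))))))))))))))
(cons (mv 847 (cons (fin 911 7 847)
(mv 913 (cons (fin 849 6 848)
(mv 1168 (cons (fin 977 6 912)
(mv 1233 (cons (fin 1169 4 976)
(mv 1232 (cons (fin 1297 4 1040)
(mv 1039 (cons (fin 975 7 975)
(mv 1295 (cons (fin 1231 5 1039)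
(mv 1296 (cons (fin 1103 7 1039)
(fin 1359 5 1103)))))))))))))))))
(mv 847 (cons (fin 911 7 847)
(mv 848 (cons (fin 783 7 783)
(mv 849 (cons (fin 785 6 784)
(fin 913 6 848))))))))))))
(cons (mv 1168 (cons (cons (mv 911 (cons (fin 975 7 911)
(mv 847 (cons (fin 912 7 847)
(mv 1231 (cons (fin 1167 5 975)
(mv 1232 (cons (fin 1295 5 1039)
(mv 1233 (cons (fin 1169 4 976)
(fin 1297 4 1040)))))))))))
(mv 975 (cons (fin 911 7 911)
(mv 1232 (cons (fin 1039 7 975)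
(mv 1233 (cons (fin 1169 4 976)
(fin 1297 4 1040))))))))
(cons (mv 1167 (cons (fin 1231 5 975)
(mv 1103 (cons (fin 912 5 911)
(mv 1169 (cons (fin 1233 4 976)
(mv 1102 (cons (fin 1170 3 1102)
(fin 1101 0 1101)))))))))
(mv 911 (cons (fin 975 7 911)
(mv 912 (cons (fin 847 7 847)
(mv 1167 (cons (fin 1103 5 911)
(fin 1231 5 975))))))))))
(mv 912 (cons (cons (mv 847 (cons (fin 911 7 847)
(mv 783 (cons (fin 848 7 783)
(mv 913 (cons (fin 849 6 848)
(mv 1103 (cons (fin 1167 5 911)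
(mv 1168 (cons (fin 977 6 912)
(mv 1233 (cons (fin 1169 4 976)
(mv 1232 (cons (fin 1297 4 1040)
(mv 1295 (cons (fin 1231 5 1039)
(mv 1296 (cons (fin 1039 7 1039)
(fin 1359 5 1103)))))))))))))))))))
(cons (mv 847 (cons (fin 911 7 847)
(mv 848 (cons (fin 783 7 783)
(mv 1103 (cons (fin 1039 5 847)
(fin 1167 5 911)))))))
(mv 847 (cons (fin 911 7 847)
(mv 783 (cons (fin 848 7 783)
(mv 913 (cons (fin 849 6 848)
(mv 1168 (cons (fin 977 6 912)
(mv 1231 (cons (fin 1167 5 975)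
(mv 1232 (cons (fin 1295 5 1039)
(mv 1233 (cons (fin 1169 4 976)
(fin 1297 4 1040)))))))))))))))))
(cons (mv 847 (cons (fin 911 7 847)
(mv 848 (cons (fin 783 7 783)
(mv 849 (cons (fin 785 6 784)
(fin 913 6 848)))))))
(cons (mv 849 (cons (fin 913 6 848)
(mv 848 (cons (fin 785 6 784)
(mv 1103 (cons (fin 1039 5 847)
(fin 1167 5 911)))))))
(mv 847 (cons (fin 911 7 847)
(mv 913 (cons (fin 849 6 848)
(mv 1103 (cons (fin 1167 5 911)
(mv 1168 (cons (fin 977 6 912)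
(mv 1233 (cons (fin 1169 4 976)
(mv 1232 (cons (fin 1297 4 1040)
(mv 1295 (cons (fin 1231 5 1039)
(mv 1296 (cons (fin 1039 7 1039)
(fin 1359 5 1103)))))))))))))))))))))))))
(mv 912 (cons (cons (cons (mv 848 (cons (cons (mv 783 (cons (fin 847 7 783)
(mv 784 (cons (fin 719 7 719)
(mv 785 (cons (fin 721 6 720)
(fin 849 6 784)))))))
(cons (mv 785 (cons (fin 849 6 784)
(mv 784 (cons (fin 721 6 720)
(mv 719 (cons (fin 783 7 719)
(mv 720 (cons (fin 655 7 655)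
(mv 975 (cons (fin 911 5 719)
(fin 1039 5 783)))))))))))
(mv 783 (cons (fin 847 7 783)
(mv 784 (cons (fin 719 7 719)
(mv 721 (cons (fin 785 6 720)
(mv 720 (cons (fin 657 6 656)
(mv 975 (cons (fin 911 5 719)
(fin 1039 5 783)))))))))))))
(cons (mv 785 (cons (fin 849 6 784)
(mv 784 (cons (fin 721 6 720)
(mv 975 (cons (fin 1039 5 783)
(mv 720 (cons (fin 911 5 719)
(mv 977 (cons (fin 913 4 720)
(fin 1041 4 784)))))))))))
(cons (mv 783 (cons (fin 847 7 783)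
(mv 784 (cons (fin 719 7 719)
(mv 975 (cons (fin 1039 5 783)
(mv 720 (cons (fin 911 5 719)
(mv 977 (cons (fin 913 4 720)
(fin 1041 4 784)))))))))))
(mv 847 (cons (fin 783 7 783)
(mv 849 (cons (fin 785 6 784)
(mv 1104 (cons (fin 911 7 847)
(fin 913 6 848)))))))))))
(mv 1104 (cons (cons (mv 847 (cons (fin 911 7 847)
(mv 913 (cons (fin 849 6 848)
(mv 1168 (cons (fin 977 6 912)
(mv 1231 (cons (fin 1167 5 975)
(mv 1232 (cons (fin 1295 5 1039)
(mv 1233 (cons (fin 1169 4 976)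
(fin 1297 4 1040)))))))))))))
(mv 913 (cons (fin 849 6 848)
(mv 1168 (cons (fin 977 6 912)
(mv 1231 (cons (fin 1167 5 975)
(mv 1232 (cons (fin 1295 5 1039)
(mv 1233 (cons (fin 1169 4 976)
(fin 1297 4 1040))))))))))))
(cons (mv 911 (cons (fin 847 7 847)
(mv 1168 (cons (fin 975 7 911)
(mv 1231 (cons (fin 1167 5 975)
(mv 1232 (cons (fin 1295 5 1039)
(mv 1233 (cons (fin 1169 4 976)
(fin 1297 4 1040)))))))))))
(mv 911 (cons (fin 847 7 847)
(mv 913 (cons (fin 849 6 848)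
(mv 910 (cons (cons (mv 977 (cons (fin 909 0 909)
(fin 978 0 910)))
(mv 845 (cons (fin 846 3 845)
(mv 844 (cons (fin 909 3 844)
(mv 974 (cons (fin 973 1 909)
(mv 914 (cons (fin 975 1 910)
(mv 851 (cons (fin 850 2 847)
(mv 915 (cons (fin 852 2 848)
(mv 979 (cons (fin 978 0 911)
(fin 980 0 912))))))))))))))))
(cons (mv 845 (cons (fin 846 3 845)
(mv 973 (cons (fin 974 1 909)
(mv 978 (cons (fin 977 0 910)
(mv 914 (cons (fin 979 0 911)
(mv 851 (cons (fin 850 2 847)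
(mv 915 (cons (fin 975 1 911)
(fin 852 2 848)))))))))))))
(mv 845 (cons (fin 846 3 845)
(mv 909 (cons (fin 844 3 844)
(fin 977 0 909))))))))))))))))
(cons (mv 848 (cons (cons (mv 783 (cons (fin 847 7 783)
(mv 784 (cons (fin 719 7 719)
(mv 785 (cons (fin 721 6 720)
(fin 849 6 784)))))))
(mv 785 (cons (fin 849 6 784)
(mv 784 (cons (fin 721 6 720)
(mv 975 (cons (fin 1039 5 783)
(mv 720 (cons (fin 911 5 719)
(mv 977 (cons (fin 913 4 720)
(fin 1041 4 784))))))))))))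
(cons (mv 783 (cons (fin 847 7 783)
(mv 784 (cons (fin 719 7 719)
(mv 975 (cons (fin 1039 5 783)
(mv 720 (cons (fin 911 5 719)
(mv 977 (cons (fin 913 4 720)
(fin 1041 4 784)))))))))))
(mv 847 (cons (fin 783 7 783)
(mv 849 (cons (fin 785 6 784)
(mv 846 (cons (cons (mv 913 (cons (fin 845 0 845)
(fin 914 0 846)))
(mv 781 (cons (fin 782 3 781)
(mv 780 (cons (fin 845 3 780)
(mv 910 (cons (fin 909 1 845)
(mv 850 (cons (fin 911 1 846)
(mv 787 (cons (fin 786 2 783)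
(mv 851 (cons (fin 788 2 784)
(mv 915 (cons (fin 914 0 847)
(fin 916 0 848))))))))))))))))
(cons (mv 781 (cons (fin 782 3 781)
(mv 909 (cons (fin 910 1 845)
(mv 914 (cons (fin 913 0 846)
(mv 850 (cons (fin 915 0 847)
(mv 787 (cons (fin 786 2 783)
(mv 851 (cons (fin 911 1 847)
(fin 788 2 784)))))))))))))
(mv 781 (cons (fin 782 3 781)
(mv 845 (cons (fin 780 3 780)
(fin 913 0 845)))))))))))))))
(mv 848 (cons (cons (mv 785 (cons (fin 849 6 784)
(mv 784 (cons (fin 721 6 720)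
(mv 719 (cons (fin 783 7 719)
(mv 720 (cons (fin 655 7 655)
(mv 975 (cons (fin 911 5 719)
(fin 1039 5 783)))))))))))
(mv 784 (cons (cons (mv 719 (cons (fin 783 7 719)
(mv 720 (cons (fin 655 7 655)
(mv 721 (cons (fin 657 6 656)
(fin 785 6 720)))))))
(mv 721 (cons (fin 785 6 720)
(mv 720 (cons (fin 657 6 656)
(mv 975 (cons (fin 911 5 719)
(fin 1039 5 783))))))))
(cons (mv 719 (cons (fin 783 7 719)
(mv 720 (cons (fin 655 7 655)
(mv 975 (cons (fin 911 5 719)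
(fin 1039 5 783)))))))
(mv 719 (cons (fin 783 7 719)
(mv 721 (cons (fin 785 6 720)
(mv 975 (cons (fin 1039 5 783)
(mv 977 (cons (fin 1041 4 784)
(mv 974 (cons (mv 913 (cons (fin 973 2 909)
(fin 914 2 910)))
(cons (mv 909 (cons (fin 910 3 909)
(mv 973 (cons (fin 908 3 908)
(mv 1037 (cons (fin 1036 1 972)
(fin 1038 1 973)))))))
(mv 909 (cons (fin 910 3 909)
(mv 914 (cons (fin 913 2 910)
(mv 978 (cons (fin 915 2 911)
(mv 979 (cons (fin 911 3 911)
(mv 1043 (cons (fin 1042 0 975)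
(fin 1044 0 976))))))))))))))))))))))))))
(cons (mv 784 (cons (cons (mv 719 (cons (fin 783 7 719)
(mv 720 (cons (fin 655 7 655)
(mv 975 (cons (fin 911 5 719)
(fin 1039 5 783)))))))
(mv 719 (cons (fin 783 7 719)
(mv 720 (cons (fin 655 7 655)
(mv 977 (cons (fin 913 4 720)
(fin 1041 4 784))))))))
(cons (mv 975 (cons (fin 1039 5 783)
(mv 720 (cons (fin 911 5 719)
(mv 977 (cons (fin 913 4 720)
(fin 1041 4 784)))))))
(mv 719 (cons (fin 783 7 719)
(mv 975 (cons (fin 1039 5 783)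
(mv 977 (cons (fin 1041 4 784)
(mv 913 (cons (mv 914 (cons (fin 915 1 911)
(fin 974 2 910)))
(mv 1104 (cons (fin 849 6 848)
(fin 1168 6 912))))))))))))))
(cons (mv 849 (cons (fin 785 6 784)
(mv 913 (cons (fin 1104 6 848)
(mv 911 (cons (mv 850 (cons (fin 851 1 847)
(fin 910 2 846)))
(cons (mv 850 (cons (fin 851 1 847)
(mv 914 (cons (mv 915 (cons (fin 916 3 848)
(fin 975 1 911)))
(cons (mv 975 (cons (fin 974 1 910)
(mv 978 (cons (fin 979 0 911)
(mv 1042 (cons (fin 1106 7 849)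
(mv 1043 (cons (fin 1041 3 975)
(fin 977 0 975)))))))))
(mv 915 (cons (fin 916 3 848)
(mv 979 (cons (fin 978 0 911)
(fin 980 0 912))))))))))
(mv 910 (cons (fin 909 2 845)
(mv 845 (cons (fin 846 3 845)
(mv 973 (cons (fin 974 1 909)
(mv 978 (cons (fin 977 0 910)
(mv 914 (cons (fin 979 0 911)
(mv 915 (cons (fin 916 3 848)
(fin 975 1 911))))))))))))))))))))
(mv 785 (cons (fin 849 6 784)
(mv 784 (cons (fin 721 6 720)
(mv 719 (cons (fin 783 7 719)
(mv 720 (cons (fin 655 7 655)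
(mv 977 (cons (fin 913 4 720)
(fin 1041 4 784)))))))))))))))))
(cons (cons (mv 848 (cons (cons (mv 783 (cons (fin 847 7 783)
(mv 784 (cons (fin 719 7 719)
(mv 721 (cons (fin 785 6 720)
(mv 720 (cons (fin 657 6 656)
(mv 975 (cons (fin 911 5 719)
(fin 1039 5 783)))))))))))
(mv 784 (cons (cons (mv 719 (cons (fin 783 7 719)
(mv 720 (cons (fin 655 7 655)
(mv 721 (cons (fin 657 6 656)
(fin 785 6 720)))))))
(mv 721 (cons (fin 785 6 720)
(mv 720 (cons (fin 657 6 656)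
(mv 975 (cons (fin 911 5 719)
(fin 1039 5 783))))))))
(cons (mv 719 (cons (fin 783 7 719)
(mv 720 (cons (fin 655 7 655)
(mv 975 (cons (fin 911 5 719)
(fin 1039 5 783)))))))
(mv 719 (cons (fin 783 7 719)
(mv 721 (cons (fin 785 6 720)
(mv 975 (cons (fin 1039 5 783)
(mv 977 (cons (fin 1041 4 784)
(mv 974 (cons (mv 913 (cons (fin 973 2 909)
(fin 914 2 910)))
(cons (mv 909 (cons (fin 910 3 909)
(mv 973 (cons (fin 908 3 908)
(mv 1037 (cons (fin 1036 1 972)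
(fin 1038 1 973)))))))
(mv 909 (cons (fin 910 3 909)
(mv 914 (cons (fin 913 2 910)
(mv 978 (cons (fin 915 2 911)
(mv 979 (cons (fin 911 3 911)
(mv 1043 (cons (fin 1042 0 975)
(fin 1044 0 976))))))))))))))))))))))))))
(cons (mv 784 (cons (cons (mv 721 (cons (fin 785 6 720)
(mv 720 (cons (fin 657 6 656)
(mv 975 (cons (fin 911 5 719)
(fin 1039 5 783)))))))
(mv 721 (cons (fin 785 6 720)
(mv 720 (cons (fin 657 6 656)
(mv 977 (cons (fin 913 4 720)
(fin 1041 4 784))))))))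
(cons (mv 975 (cons (fin 1039 5 783)
(mv 720 (cons (fin 911 5 719)
(mv 977 (cons (fin 913 4 720)
(fin 1041 4 784)))))))
(mv 721 (cons (fin 785 6 720)
(mv 975 (cons (fin 1039 5 783)
(mv 977 (cons (fin 1041 4 784)
(mv 911 (cons (mv 910 (cons (fin 978 3 910)
(fin 909 0 909)))
(mv 1104 (cons (fin 847 7 847)
(fin 1168 7 911))))))))))))))
(cons (mv 847 (cons (fin 783 7 783)
(mv 911 (cons (fin 1104 7 847)
(mv 913 (cons (mv 846 (cons (fin 914 3 846)
(fin 845 0 845)))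
(cons (mv 845 (cons (fin 846 0 845)
(mv 910 (cons (mv 909 (cons (fin 844 3 844)
(fin 908 2 844)))
(mv 974 (cons (fin 973 1 909)
(mv 977 (cons (fin 978 0 910)
(mv 1038 (cons (fin 1102 6 846)
(mv 1037 (cons (fin 975 1 973)
(fin 1039 2 973)))))))))))))
(mv 914 (cons (fin 915 3 847)
(mv 850 (cons (fin 851 2 847)
(mv 974 (cons (fin 975 1 910)
(mv 910 (cons (fin 973 1 909)
(mv 909 (cons (fin 908 2 844)
(fin 977 0 909))))))))))))))))))
(mv 783 (cons (fin 847 7 783)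
(mv 784 (cons (fin 719 7 719)
(mv 721 (cons (fin 785 6 720)
(mv 720 (cons (fin 657 6 656)
(mv 977 (cons (fin 913 4 720)
(fin 1041 4 784)))))))))))))))
(mv 848 (cons (cons (mv 783 (cons (fin 847 7 783)
(mv 784 (cons (fin 719 7 719)
(mv 785 (cons (fin 721 6 720)
(fin 849 6 784)))))))
(mv 783 (cons (fin 847 7 783)
(mv 784 (cons (fin 719 7 719)
(mv 721 (cons (fin 785 6 720)
(mv 720 (cons (fin 657 6 656)
(mv 977 (cons (fin 913 4 720)
(fin 1041 4 784))))))))))))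
(cons (mv 783 (cons (fin 847 7 783)
(mv 784 (cons (fin 719 7 719)
(mv 975 (cons (fin 1039 5 783)
(mv 977 (cons (fin 1041 4 784)
(mv 913 (cons (fin 720 4 720)
(mv 914 (cons (fin 915 1 911)
(fin 974 2 910)))))))))))))
(cons (mv 785 (cons (fin 849 6 784)
(mv 784 (cons (fin 721 6 720)
(mv 975 (cons (fin 1039 5 783)
(mv 977 (cons (fin 1041 4 784)
(mv 913 (cons (fin 720 4 720)
(mv 914 (cons (fin 915 1 911)
(fin 974 2 910)))))))))))))
(mv 847 (cons (fin 783 7 783)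
(mv 849 (cons (fin 785 6 784)
(mv 913 (cons (fin 1104 6 848)
(mv 846 (cons (fin 845 0 845)
(fin 914 0 846))))))))))))))
(cons (mv 848 (cons (cons (mv 783 (cons (fin 847 7 783)
(mv 784 (cons (fin 719 7 719)
(mv 785 (cons (fin 721 6 720)
(fin 849 6 784)))))))
(mv 785 (cons (fin 849 6 784)
(mv 784 (cons (fin 721 6 720)
(mv 719 (cons (fin 783 7 719)
(mv 720 (cons (fin 655 7 655)
(mv 975 (cons (fin 911 5 719)
(fin 1039 5 783))))))))))))
(cons (mv 785 (cons (fin 849 6 784)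
(mv 784 (cons (fin 721 6 720)
(mv 975 (cons (fin 1039 5 783)
(mv 911 (cons (fin 720 5 719)
(mv 1104 (cons (fin 847 7 847)
(fin 1168 7 911)))))))))))
(cons (mv 783 (cons (fin 847 7 783)
(mv 784 (cons (fin 719 7 719)
(mv 975 (cons (fin 1039 5 783)
(mv 911 (cons (fin 720 5 719)
(mv 977 (cons (fin 1041 4 784)
(mv 910 (cons (fin 978 3 910)
(fin 909 0 909)))))))))))))
(mv 847 (cons (fin 783 7 783)
(mv 849 (cons (fin 785 6 784)
(mv 911 (cons (fin 1104 7 847)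
(mv 850 (cons (fin 910 1 846)
(fin 851 1 847)))))))))))))
(cons (mv 848 (cons (cons (mv 783 (cons (fin 847 7 783)
(mv 784 (cons (fin 719 7 719)
(mv 785 (cons (fin 721 6 720)
(fin 849 6 784)))))))
(cons (mv 783 (cons (fin 847 7 783)
(mv 784 (cons (fin 719 7 719)
(mv 721 (cons (fin 785 6 720)
(mv 720 (cons (fin 657 6 656)
(mv 977 (cons (fin 913 4 720)
(fin 1041 4 784)))))))))))
(mv 785 (cons (fin 849 6 784)
(mv 784 (cons (fin 721 6 720)
(mv 719 (cons (fin 783 7 719)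
(mv 720 (cons (fin 655 7 655)
(mv 977 (cons (fin 913 4 720)
(fin 1041 4 784)))))))))))))
(cons (mv 783 (cons (fin 847 7 783)
(mv 784 (cons (fin 719 7 719)
(mv 977 (cons (fin 1041 4 784)
(mv 913 (cons (fin 720 4 720)
(mv 1104 (cons (fin 849 6 848)
(fin 1168 6 912)))))))))))
(cons (mv 785 (cons (fin 849 6 784)
(mv 784 (cons (fin 721 6 720)
(mv 977 (cons (fin 1041 4 784)
(mv 913 (cons (fin 720 4 720)
(mv 1104 (cons (fin 1168 6 912)
(mv 911 (cons (fin 847 7 847)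
(mv 910 (cons (fin 909 0 909)
(fin 978 0 910)))))))))))))))
(mv 847 (cons (fin 783 7 783)
(mv 849 (cons (fin 785 6 784)
(mv 1104 (cons (fin 911 7 847)
(fin 913 6 848)))))))))))
(mv 848 (cons (cons (mv 783 (cons (fin 847 7 783)
(mv 784 (cons (fin 719 7 719)
(mv 785 (cons (fin 721 6 720)
(fin 849 6 784)))))))
(cons (mv 785 (cons (fin 849 6 784)
(mv 784 (cons (fin 721 6 720)
(mv 719 (cons (fin 783 7 719)
(mv 720 (cons (fin 655 7 655)
(mv 975 (cons (fin 911 5 719)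
(fin 1039 5 783)))))))))))
(mv 783 (cons (fin 847 7 783)
(mv 784 (cons (fin 719 7 719)
(mv 721 (cons (fin 785 6 720)
(mv 720 (cons (fin 657 6 656)
(mv 975 (cons (fin 911 5 719)
(fin 1039 5 783)))))))))))))
(cons (mv 785 (cons (fin 849 6 784)
(mv 784 (cons (fin 721 6 720)
(mv 975 (cons (fin 1039 5 783)
(mv 911 (cons (fin 720 5 719)
(mv 1104 (cons (fin 847 7 847)
(fin 1168 7 911)))))))))))
(cons (mv 783 (cons (fin 847 7 783)
(mv 784 (cons (fin 719 7 719)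
(mv 975 (cons (fin 1039 5 783)
(mv 911 (cons (fin 720 5 719)
(mv 1104 (cons (fin 1168 7 911)
(mv 913 (cons (fin 849 6 848)
(mv 914 (cons (fin 974 1 910)
(fin 915 1 911)))))))))))))))
(mv 847 (cons (fin 783 7 783)
(mv 849 (cons (fin 785 6 784)
(mv 1104 (cons (fin 911 7 847)
(fin 913 6 848))))))))))))))))))
(cons (ref 0 0)
(cons (mv 912 (cons (cons (cons (mv 848 (cons (cons (mv 783 (cons (fin 847 7 783)
(mv 719 (cons (fin 784 7 719)
(mv 849 (cons (fin 785 6 784)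
(mv 1103 (cons (fin 1039 5 847)
(mv 1104 (cons (fin 1167 5 911)
(fin 913 6 848)))))))))))
(mv 785 (cons (fin 849 6 784)
(mv 784 (cons (fin 721 6 720)
(mv 1039 (cons (fin 975 5 783)
(fin 1103 5 847))))))))
(cons (mv 783 (cons (fin 847 7 783)
(mv 784 (cons (fin 719 7 719)
(mv 1039 (cons (fin 975 5 783)
(fin 1103 5 847)))))))
(cons (mv 783 (cons (fin 847 7 783)
(mv 784 (cons (fin 719 7 719)
(mv 785 (cons (fin 721 6 720)
(fin 849 6 784)))))))
(mv 783 (cons (fin 847 7 783)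
(mv 849 (cons (fin 785 6 784)
(mv 1103 (cons (fin 1039 5 847)
(mv 1104 (cons (fin 1167 5 911)
(fin 913 6 848)))))))))))))
(mv 1104 (cons (cons (mv 847 (cons (fin 911 7 847)
(mv 913 (cons (fin 849 6 848)
(mv 1103 (cons (fin 1167 5 911)
(mv 1168 (cons (fin 977 6 912)
(mv 1233 (cons (fin 1169 4 976)
(mv 1232 (cons (fin 1297 4 1040)
(mv 1039 (cons (fin 975 7 975)
(fin 1296 7 1039)))))))))))))))
(cons (mv 913 (cons (fin 849 6 848)
(mv 1103 (cons (fin 1167 5 911)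
(mv 1168 (cons (fin 977 6 912)
(mv 1233 (cons (fin 1169 4 976)
(mv 1232 (cons (fin 1297 4 1040)
(mv 1039 (cons (fin 975 7 975)
(fin 1296 7 1039)))))))))))))
(mv 911 (cons (fin 847 7 847)
(mv 1103 (cons (fin 1167 5 911)
(mv 1168 (cons (fin 975 7 911)
(mv 1233 (cons (fin 1169 4 976)
(mv 1232 (cons (fin 1297 4 1040)
(mv 1039 (cons (fin 1296 7 1039)
(mv 1041 (cons (fin 977 6 976)
(mv 1042 (cons (fin 1102 1 1038)
(fin 1043 1 1039)))))))))))))))))))
(cons (cons (mv 911 (cons (fin 847 7 847)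
(mv 913 (cons (fin 849 6 848)
(mv 1168 (cons (fin 975 7 911)
(fin 977 6 912)))))))
(mv 911 (cons (fin 847 7 847)
(mv 913 (cons (fin 849 6 848)
(mv 1103 (cons (fin 1167 5 911)
(mv 910 (cons (cons (mv 977 (cons (fin 909 0 909)
(fin 978 0 910)))
(mv 845 (cons (fin 846 3 845)
(mv 844 (cons (fin 909 3 844)
(mv 974 (cons (fin 973 1 909)
(mv 914 (cons (fin 975 1 910)
(mv 851 (cons (fin 850 2 847)
(mv 915 (cons (fin 852 2 848)
(mv 979 (cons (fin 978 0 911)
(fin 980 0 912))))))))))))))))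
(cons (mv 845 (cons (fin 846 3 845)
(mv 973 (cons (fin 974 1 909)
(mv 978 (cons (fin 977 0 910)
(mv 914 (cons (fin 979 0 911)
(mv 851 (cons (fin 850 2 847)
(mv 915 (cons (fin 975 1 911)
(fin 852 2 848)))))))))))))
(mv 845 (cons (fin 846 3 845)
(mv 909 (cons (fin 844 3 844)
(fin 977 0 909)))))))))))))))
(cons (mv 911 (cons (fin 847 7 847)
(mv 913 (cons (fin 849 6 848)
(mv 977 (cons (fin 1168 6 912)
(mv 910 (cons (fin 909 0 909)
(fin 978 0 910)))))))))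
(mv 911 (cons (fin 847 7 847)
(mv 913 (cons (fin 849 6 848)
(mv 975 (cons (fin 1168 7 911)
(mv 914 (cons (fin 974 1 910)
(fin 915 1 911))))))))))))))
(cons (mv 848 (cons (cons (mv 783 (cons (fin 847 7 783)
(mv 784 (cons (fin 719 7 719)
(mv 785 (cons (fin 721 6 720)
(fin 849 6 784)))))))
(mv 785 (cons (fin 849 6 784)
(mv 784 (cons (fin 721 6 720)
(mv 1039 (cons (fin 975 5 783)
(fin 1103 5 847))))))))
(cons (mv 783 (cons (fin 847 7 783)
(mv 784 (cons (fin 719 7 719)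
(mv 1039 (cons (fin 975 5 783)
(fin 1103 5 847)))))))
(mv 847 (cons (fin 783 7 783)
(mv 849 (cons (fin 785 6 784)
(mv 1039 (cons (fin 1103 5 847)
(mv 846 (cons (cons (mv 913 (cons (fin 845 0 845)
(fin 914 0 846)))
(mv 781 (cons (fin 782 3 781)
(mv 780 (cons (fin 845 3 780)
(mv 910 (cons (fin 909 1 845)
(mv 850 (cons (fin 911 1 846)
(mv 787 (cons (fin 786 2 783)
(mv 851 (cons (fin 788 2 784)
(mv 915 (cons (fin 914 0 847)
(fin 916 0 848))))))))))))))))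
(cons (mv 781 (cons (fin 782 3 781)
(mv 909 (cons (fin 910 1 845)
(mv 914 (cons (fin 913 0 846)
(mv 850 (cons (fin 915 0 847)
(mv 787 (cons (fin 786 2 783)
(mv 851 (cons (fin 911 1 847)
(fin 788 2 784)))))))))))))
(mv 781 (cons (fin 782 3 781)
(mv 845 (cons (fin 780 3 780)
(fin 913 0 845)))))))))))))))))
(mv 848 (cons (cons (mv 785 (cons (fin 849 6 784)
(mv 784 (cons (fin 721 6 720)
(mv 1039 (cons (fin 975 5 783)
(fin 1103 5 847)))))))
(mv 1039 (cons (fin 1103 5 847)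
(mv 784 (cons (fin 975 5 783)
(mv 719 (cons (fin 783 7 719)
(mv 720 (cons (fin 655 7 655)
(mv 721 (cons (fin 657 6 656)
(fin 785 6 720))))))))))))
(cons (mv 785 (cons (fin 849 6 784)
(mv 784 (cons (fin 721 6 720)
(mv 719 (cons (fin 783 7 719)
(mv 720 (cons (fin 655 7 655)
(mv 977 (cons (fin 913 4 720)
(fin 1041 4 784)))))))))))
(cons (mv 1039 (cons (fin 1103 5 847)
(mv 784 (cons (fin 975 5 783)
(mv 719 (cons (fin 783 7 719)
(mv 720 (cons (fin 655 7 655)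
(mv 977 (cons (fin 913 4 720)
(fin 1041 4 784)))))))))))
(mv 849 (cons (fin 785 6 784)
(mv 1103 (cons (fin 1039 5 847)
(mv 1104 (cons (fin 1167 5 911)
(fin 913 6 848)))))))))))))
(cons (cons (mv 848 (cons (cons (mv 783 (cons (fin 847 7 783)
(mv 784 (cons (fin 719 7 719)
(mv 1039 (cons (fin 975 5 783)
(fin 1103 5 847)))))))
(mv 1039 (cons (fin 1103 5 847)
(mv 784 (cons (fin 975 5 783)
(mv 719 (cons (fin 783 7 719)
(mv 720 (cons (fin 655 7 655)
(mv 721 (cons (fin 657 6 656)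
(fin 785 6 720))))))))))))
(cons (mv 783 (cons (fin 847 7 783)
(mv 784 (cons (fin 719 7 719)
(mv 721 (cons (fin 785 6 720)
(mv 720 (cons (fin 657 6 656)
(mv 977 (cons (fin 913 4 720)
(fin 1041 4 784)))))))))))
(cons (mv 1039 (cons (fin 1103 5 847)
(mv 784 (cons (fin 975 5 783)
(mv 721 (cons (fin 785 6 720)
(mv 720 (cons (fin 657 6 656)
(mv 977 (cons (fin 913 4 720)
(fin 1041 4 784)))))))))))
(mv 847 (cons (fin 783 7 783)
(mv 1103 (cons (fin 1039 5 847)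
(mv 1104 (cons (fin 911 7 847)
(fin 1167 5 911)))))))))))
(mv 848 (cons (cons (mv 783 (cons (fin 847 7 783)
(mv 784 (cons (fin 719 7 719)
(mv 785 (cons (fin 721 6 720)
(fin 849 6 784)))))))
(cons (mv 785 (cons (fin 849 6 784)
(mv 784 (cons (fin 721 6 720)
(mv 719 (cons (fin 783 7 719)
(mv 720 (cons (fin 655 7 655)
(mv 975 (cons (fin 911 5 719)
(fin 1039 5 783)))))))))))
(mv 783 (cons (fin 847 7 783)
(mv 784 (cons (fin 719 7 719)
(mv 721 (cons (fin 785 6 720)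
(mv 720 (cons (fin 657 6 656)
(mv 975 (cons (fin 911 5 719)
(fin 1039 5 783)))))))))))))
(cons (mv 785 (cons (fin 849 6 784)
(mv 784 (cons (fin 721 6 720)
(mv 975 (cons (fin 1039 5 783)
(mv 720 (cons (fin 911 5 719)
(mv 977 (cons (fin 913 4 720)
(fin 1041 4 784)))))))))))
(cons (mv 783 (cons (fin 847 7 783)
(mv 784 (cons (fin 719 7 719)
(mv 975 (cons (fin 1039 5 783)
(mv 720 (cons (fin 911 5 719)
(mv 977 (cons (fin 913 4 720)
(fin 1041 4 784)))))))))))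
(mv 847 (cons (fin 783 7 783)
(mv 849 (cons (fin 785 6 784)
(mv 1104 (cons (fin 911 7 847)
(fin 913 6 848))))))))))))
(cons (mv 848 (cons (cons (mv 783 (cons (fin 847 7 783)
(mv 784 (cons (fin 719 7 719)
(mv 785 (cons (fin 721 6 720)
(fin 849 6 784)))))))
(mv 785 (cons (fin 849 6 784)
(mv 784 (cons (fin 721 6 720)
(mv 1039 (cons (fin 975 5 783)
(fin 1103 5 847))))))))
(cons (mv 783 (cons (fin 847 7 783)
(mv 784 (cons (fin 719 7 719)
(mv 1039 (cons (fin 975 5 783)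
(fin 1103 5 847)))))))
(mv 785 (cons (fin 849 6 784)
(mv 847 (cons (fin 783 7 783)
(mv 1103 (cons (fin 1039 5 847)
(mv 1104 (cons (fin 911 7 847)
(fin 1167 5 911))))))))))))
(cons (mv 848 (cons (cons (mv 783 (cons (fin 847 7 783)
(mv 784 (cons (fin 719 7 719)
(mv 785 (cons (fin 721 6 720)
(fin 849 6 784)))))))
(cons (mv 783 (cons (fin 847 7 783)
(mv 784 (cons (fin 719 7 719)
(mv 721 (cons (fin 785 6 720)
(mv 720 (cons (fin 657 6 656)
(mv 977 (cons (fin 913 4 720)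
(fin 1041 4 784)))))))))))
(mv 785 (cons (fin 849 6 784)
(mv 784 (cons (fin 721 6 720)
(mv 719 (cons (fin 783 7 719)
(mv 720 (cons (fin 655 7 655)
(mv 977 (cons (fin 913 4 720)
(fin 1041 4 784)))))))))))))
(cons (mv 785 (cons (fin 849 6 784)
(mv 784 (cons (fin 721 6 720)
(mv 977 (cons (fin 1041 4 784)
(mv 720 (cons (fin 913 4 720)
(mv 655 (cons (fin 719 7 655)
(mv 656 (cons (fin 591 7 591)
(mv 911 (cons (fin 847 5 655)
(fin 975 5 719)))))))))))))))
(cons (mv 783 (cons (fin 847 7 783)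
(mv 784 (cons (fin 719 7 719)
(mv 977 (cons (fin 1041 4 784)
(mv 913 (cons (fin 720 4 720)
(mv 1104 (cons (fin 849 6 848)
(fin 1168 6 912)))))))))))
(mv 847 (cons (fin 783 7 783)
(mv 849 (cons (fin 785 6 784)
(mv 1104 (cons (fin 911 7 847)
(fin 913 6 848)))))))))))
(mv 848 (cons (cons (mv 783 (cons (fin 847 7 783)
(mv 719 (cons (fin 784 7 719)
(mv 849 (cons (fin 785 6 784)
(mv 1103 (cons (fin 1039 5 847)
(mv 1104 (cons (fin 1167 5 911)
(fin 913 6 848)))))))))))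
(cons (mv 783 (cons (fin 847 7 783)
(mv 784 (cons (fin 719 7 719)
(mv 721 (cons (fin 785 6 720)
(mv 720 (cons (fin 657 6 656)
(mv 977 (cons (fin 913 4 720)
(fin 1041 4 784)))))))))))
(mv 785 (cons (fin 849 6 784)
(mv 784 (cons (fin 721 6 720)
(mv 719 (cons (fin 783 7 719)
(mv 720 (cons (fin 655 7 655)
(mv 977 (cons (fin 913 4 720)
(fin 1041 4 784)))))))))))))
(cons (cons (mv 783 (cons (fin 847 7 783)
(mv 784 (cons (fin 719 7 719)
(mv 977 (cons (fin 1041 4 784)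
(mv 913 (cons (fin 720 4 720)
(mv 1104 (cons (fin 849 6 848)
(fin 1168 6 912)))))))))))
(mv 785 (cons (fin 849 6 784)
(mv 784 (cons (fin 721 6 720)
(mv 977 (cons (fin 1041 4 784)
(mv 913 (cons (fin 720 4 720)
(mv 1039 (cons (fin 1103 5 847)
(mv 978 (cons (fin 979 1 975)
(mv 911 (cons (fin 910 0 910)
(mv 1104 (cons (fin 847 7 847)
(fin 1168 6 912))))))))))))))))))
(cons (mv 783 (cons (fin 847 7 783)
(mv 849 (cons (fin 785 6 784)
(mv 1103 (cons (fin 1039 5 847)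
(mv 1104 (cons (fin 1167 5 911)
(fin 913 6 848)))))))))
(mv 783 (cons (fin 847 7 783)
(mv 784 (cons (fin 719 7 719)
(mv 785 (cons (fin 721 6 720)
(fin 849 6 784))))))))))))))))
(mv 912 (cons (cons (cons (mv 848 (cons (cons (mv 783 (cons (fin 847 7 783)
(mv 784 (cons (fin 719 7 719)
(mv 785 (cons (fin 721 6 720)
(fin 849 6 784)))))))
(mv 785 (cons (fin 849 6 784)
(mv 784 (cons (fin 721 6 720)
(mv 1039 (cons (fin 975 5 783)
(fin 1103 5 847))))))))
(cons (mv 783 (cons (fin 847 7 783)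
(mv 784 (cons (fin 719 7 719)
(mv 1039 (cons (fin 975 5 783)
(fin 1103 5 847)))))))
(mv 847 (cons (fin 783 7 783)
(mv 849 (cons (fin 785 6 784)
(mv 1104 (cons (fin 911 7 847)
(fin 913 6 848))))))))))
(mv 1104 (cons (cons (mv 847 (cons (fin 911 7 847)
(mv 913 (cons (fin 849 6 848)
(mv 1168 (cons (fin 977 6 912)
(mv 1233 (cons (fin 1169 4 976)
(mv 1232 (cons (fin 1297 4 1040)
(mv 1039 (cons (fin 975 7 975)
(mv 1295 (cons (fin 1231 5 1039)
(mv 1296 (cons (fin 1103 7 1039)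
(fin 1359 5 1103)))))))))))))))))
(cons (mv 913 (cons (fin 849 6 848)
(mv 1168 (cons (fin 977 6 912)
(mv 1233 (cons (fin 1169 4 976)
(mv 1232 (cons (fin 1297 4 1040)
(mv 1039 (cons (fin 975 7 975)
(mv 1295 (cons (fin 1231 5 1039)
(mv 1296 (cons (fin 1103 7 1039)
(fin 1359 5 1103)))))))))))))))
(mv 911 (cons (fin 847 7 847)
(mv 975 (cons (fin 1168 7 911)
(mv 977 (cons (mv 910 (cons (fin 978 3 910)
(fin 909 0 909)))
(cons (mv 909 (cons (fin 910 0 909)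
(mv 974 (cons (mv 973 (cons (fin 908 3 908)
(fin 972 2 908)))
(mv 1038 (cons (fin 1037 1 973)
(mv 1041 (cons (fin 1042 0 974)
(mv 1102 (cons (fin 1166 6 910)
(mv 1101 (cons (fin 1039 1 1037)
(fin 1103 2 1037)))))))))))))
(mv 978 (cons (fin 979 3 911)
(mv 914 (cons (fin 915 2 911)
(mv 1038 (cons (fin 1039 1 974)
(mv 974 (cons (fin 1037 1 973)
(mv 973 (cons (fin 972 2 908)
(fin 1041 0 973))))))))))))))))))))
(cons (mv 911 (cons (fin 847 7 847)
(mv 913 (cons (fin 849 6 848)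
(mv 910 (cons (cons (mv 977 (cons (fin 909 0 909)
(fin 978 0 910)))
(mv 845 (cons (fin 846 3 845)
(mv 844 (cons (fin 909 3 844)
(mv 974 (cons (fin 973 1 909)
(mv 914 (cons (fin 975 1 910)
(mv 851 (cons (fin 850 2 847)
(mv 915 (cons (fin 852 2 848)
(mv 979 (cons (fin 978 0 911)
(fin 980 0 912))))))))))))))))
(cons (mv 845 (cons (fin 846 3 845)
(mv 973 (cons (fin 974 1 909)
(mv 978 (cons (fin 977 0 910)
(mv 914 (cons (fin 979 0 911)
(mv 851 (cons (fin 850 2 847)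
(mv 915 (cons (fin 975 1 911)
(fin 852 2 848)))))))))))))
(mv 845 (cons (fin 846 3 845)
(mv 909 (cons (fin 844 3 844)
(fin 977 0 909))))))))))))
(cons (mv 911 (cons (fin 847 7 847)
(mv 913 (cons (fin 849 6 848)
(mv 977 (cons (fin 1168 6 912)
(mv 910 (cons (fin 909 0 909)
(fin 978 0 910)))))))))
(mv 911 (cons (fin 847 7 847)
(mv 913 (cons (fin 849 6 848)
(mv 975 (cons (fin 1168 7 911)
(mv 914 (cons (fin 974 1 910)
(fin 915 1 911))))))))))))))
(cons (mv 848 (cons (cons (mv 783 (cons (fin 847 7 783)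
(mv 784 (cons (fin 719 7 719)
(mv 785 (cons (fin 721 6 720)
(fin 849 6 784)))))))
(mv 785 (cons (fin 849 6 784)
(mv 784 (cons (fin 721 6 720)
(mv 1039 (cons (fin 975 5 783)
(fin 1103 5 847))))))))
(cons (mv 783 (cons (fin 847 7 783)
(mv 784 (cons (fin 719 7 719)
(mv 1039 (cons (fin 975 5 783)
(fin 1103 5 847)))))))
(mv 847 (cons (fin 783 7 783)
(mv 849 (cons (fin 785 6 784)
(mv 1039 (cons (fin 1103 5 847)
(mv 846 (cons (cons (mv 913 (cons (fin 845 0 845)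
(fin 914 0 846)))
(mv 781 (cons (fin 782 3 781)
(mv 780 (cons (fin 845 3 780)
(mv 910 (cons (fin 909 1 845)
(mv 850 (cons (fin 911 1 846)
(mv 787 (cons (fin 786 2 783)
(mv 851 (cons (fin 788 2 784)
(mv 915 (cons (fin 914 0 847)
(fin 916 0 848))))))))))))))))
(cons (mv 781 (cons (fin 782 3 781)
(mv 909 (cons (fin 910 1 845)
(mv 914 (cons (fin 913 0 846)
(mv 850 (cons (fin 915 0 847)
(mv 787 (cons (fin 786 2 783)
(mv 851 (cons (fin 911 1 847)
(fin 788 2 784)))))))))))))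
(mv 781 (cons (fin 782 3 781)
(mv 845 (cons (fin 780 3 780)
(fin 913 0 845)))))))))))))))))
(mv 848 (cons (cons (mv 785 (cons (fin 849 6 784)
(mv 784 (cons (fin 721 6 720)
(mv 1039 (cons (fin 975 5 783)
(fin 1103 5 847)))))))
(mv 1039 (cons (fin 1103 5 847)
(mv 784 (cons (fin 975 5 783)
(mv 719 (cons (fin 783 7 719)
(mv 720 (cons (fin 655 7 655)
(mv 721 (cons (fin 657 6 656)
(fin 785 6 720))))))))))))
(cons (mv 785 (cons (fin 849 6 784)
(mv 784 (cons (fin 721 6 720)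
(mv 719 (cons (fin 783 7 719)
(mv 720 (cons (fin 655 7 655)
(mv 977 (cons (fin 913 4 720)
(fin 1041 4 784)))))))))))
(cons (mv 1039 (cons (fin 1103 5 847)
(mv 784 (cons (fin 975 5 783)
(mv 719 (cons (fin 783 7 719)
(mv 720 (cons (fin 655 7 655)
(mv 977 (cons (fin 913 4 720)
(fin 1041 4 784)))))))))))
(mv 849 (cons (fin 785 6 784)
(mv 913 (cons (fin 1104 6 848)
(mv 1039 (cons (fin 1103 5 847)
(mv 911 (cons (mv 850 (cons (fin 851 1 847)
(fin 910 2 846)))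
(cons (mv 850 (cons (fin 851 1 847)
(mv 977 (cons (mv 786 (cons (fin 1041 6 785)
(mv 722 (cons (fin 658 5 657)
(fin 914 5 721)))))
(mv 978 (cons (fin 979 3 911)
(mv 1038 (cons (fin 975 1 974)
(fin 1037 2 973)))))))))
(mv 910 (cons (fin 909 2 845)
(mv 845 (cons (fin 846 3 845)
(mv 973 (cons (fin 974 1 909)
(mv 978 (cons (fin 977 0 910)
(mv 914 (cons (fin 979 0 911)
(mv 915 (cons (fin 916 3 848)
(fin 975 1 911))))))))))))))))))))))))))))
(cons (cons (mv 848 (cons (cons (mv 783 (cons (fin 847 7 783)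
(mv 784 (cons (fin 719 7 719)
(mv 1039 (cons (fin 975 5 783)
(fin 1103 5 847)))))))
(mv 1039 (cons (fin 1103 5 847)
(mv 784 (cons (fin 975 5 783)
(mv 719 (cons (fin 783 7 719)
(mv 720 (cons (fin 655 7 655)
(mv 721 (cons (fin 657 6 656)
(fin 785 6 720))))))))))))
(cons (mv 783 (cons (fin 847 7 783)
(mv 784 (cons (fin 719 7 719)
(mv 721 (cons (fin 785 6 720)
(mv 720 (cons (fin 657 6 656)
(mv 977 (cons (fin 913 4 720)
(fin 1041 4 784)))))))))))
(cons (mv 1039 (cons (fin 1103 5 847)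
(mv 784 (cons (fin 975 5 783)
(mv 721 (cons (fin 785 6 720)
(mv 720 (cons (fin 657 6 656)
(mv 977 (cons (fin 913 4 720)
(fin 1041 4 784)))))))))))
(mv 847 (cons (fin 783 7 783)
(mv 911 (cons (fin 1104 7 847)
(mv 1039 (cons (fin 1103 5 847)
(mv 977 (cons (cons (mv 909 (cons (fin 910 0 909)
(mv 978 (cons (fin 979 3 911)
(mv 1038 (cons (fin 975 1 974)
(fin 1037 2 973)))))))
(mv 909 (cons (fin 910 0 909)
(mv 1038 (cons (fin 1037 2 973)
(mv 975 (cons (fin 1102 5 846)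
(mv 846 (cons (fin 782 7 782)
(mv 845 (cons (fin 908 1 844)
(fin 844 0 844))))))))))))
(cons (mv 978 (cons (fin 979 3 911)
(mv 1038 (cons (fin 975 1 974)
(fin 1037 2 973)))))
(cons (mv 910 (cons (fin 909 0 909)
(mv 978 (cons (fin 975 3 910)
(fin 979 3 911)))))
(mv 909 (cons (fin 910 0 909)
(mv 978 (cons (fin 979 3 911)
(mv 1038 (cons (fin 1037 2 973)
(fin 1041 2 974)))))))))))))))))))))
(mv 848 (cons (cons (mv 783 (cons (fin 847 7 783)
(mv 784 (cons (fin 719 7 719)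
(mv 785 (cons (fin 721 6 720)
(fin 849 6 784)))))))
(mv 783 (cons (fin 847 7 783)
(mv 784 (cons (fin 719 7 719)
(mv 1039 (cons (fin 975 5 783)
(fin 1103 5 847))))))))
(cons (mv 785 (cons (fin 849 6 784)
(mv 784 (cons (fin 721 6 720)
(mv 1039 (cons (fin 975 5 783)
(fin 1103 5 847)))))))
(mv 847 (cons (fin 783 7 783)
(mv 849 (cons (fin 785 6 784)
(mv 913 (cons (fin 1104 6 848)
(mv 846 (cons (fin 845 0 845)
(fin 914 0 846)))))))))))))
(cons (mv 848 (cons (cons (mv 783 (cons (fin 847 7 783)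
(mv 784 (cons (fin 719 7 719)
(mv 785 (cons (fin 721 6 720)
(fin 849 6 784)))))))
(mv 785 (cons (fin 849 6 784)
(mv 784 (cons (fin 721 6 720)
(mv 1039 (cons (fin 975 5 783)
(fin 1103 5 847))))))))
(cons (mv 783 (cons (fin 847 7 783)
(mv 784 (cons (fin 719 7 719)
(mv 1039 (cons (fin 975 5 783)
(fin 1103 5 847)))))))
(mv 847 (cons (fin 783 7 783)
(mv 849 (cons (fin 785 6 784)
(mv 911 (cons (fin 1104 7 847)
(mv 850 (cons (fin 910 1 846)
(fin 851 1 847))))))))))))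
(cons (mv 848 (cons (cons (mv 783 (cons (fin 847 7 783)
(mv 784 (cons (fin 719 7 719)
(mv 785 (cons (fin 721 6 720)
(fin 849 6 784)))))))
(cons (mv 783 (cons (fin 847 7 783)
(mv 784 (cons (fin 719 7 719)
(mv 721 (cons (fin 785 6 720)
(mv 720 (cons (fin 657 6 656)
(mv 977 (cons (fin 913 4 720)
(fin 1041 4 784)))))))))))
(mv 785 (cons (fin 849 6 784)
(mv 784 (cons (fin 721 6 720)
(mv 719 (cons (fin 783 7 719)
(mv 720 (cons (fin 655 7 655)
(mv 977 (cons (fin 913 4 720)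
(fin 1041 4 784)))))))))))))
(cons (mv 785 (cons (fin 849 6 784)
(mv 784 (cons (fin 721 6 720)
(mv 977 (cons (fin 1041 4 784)
(mv 720 (cons (fin 913 4 720)
(mv 655 (cons (fin 719 7 655)
(mv 656 (cons (fin 591 7 591)
(mv 911 (cons (fin 847 5 655)
(fin 975 5 719)))))))))))))))
(cons (mv 783 (cons (fin 847 7 783)
(mv 784 (cons (fin 719 7 719)
(mv 977 (cons (fin 1041 4 784)
(mv 913 (cons (fin 720 4 720)
(mv 1104 (cons (fin 849 6 848)
(fin 1168 6 912)))))))))))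
(mv 847 (cons (fin 783 7 783)
(mv 849 (cons (fin 785 6 784)
(mv 1104 (cons (fin 911 7 847)
(fin 913 6 848)))))))))))
(mv 848 (cons (cons (mv 783 (cons (fin 847 7 783)
(mv 784 (cons (fin 719 7 719)
(mv 785 (cons (fin 721 6 720)
(fin 849 6 784)))))))
(cons (mv 783 (cons (fin 847 7 783)
(mv 784 (cons (fin 719 7 719)
(mv 721 (cons (fin 785 6 720)
(mv 720 (cons (fin 657 6 656)
(mv 977 (cons (fin 913 4 720)
(fin 1041 4 784)))))))))))
(mv 785 (cons (fin 849 6 784)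
(mv 784 (cons (fin 721 6 720)
(mv 719 (cons (fin 783 7 719)
(mv 720 (cons (fin 655 7 655)
(mv 977 (cons (fin 913 4 720)
(fin 1041 4 784)))))))))))))
(cons (mv 783 (cons (fin 847 7 783)
(mv 784 (cons (fin 719 7 719)
(mv 977 (cons (fin 1041 4 784)
(mv 913 (cons (fin 720 4 720)
(mv 1104 (cons (fin 849 6 848)
(fin 1168 6 912)))))))))))
(cons (mv 785 (cons (fin 849 6 784)
(mv 784 (cons (fin 721 6 720)
(mv 977 (cons (fin 1041 4 784)
(mv 913 (cons (fin 720 4 720)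
(mv 1039 (cons (fin 1103 5 847)
(mv 978 (cons (fin 979 1 975)
(mv 911 (cons (fin 910 0 910)
(mv 1104 (cons (fin 847 7 847)
(fin 1168 6 912)))))))))))))))))
(mv 847 (cons (fin 783 7 783)
(mv 849 (cons (fin 785 6 784)
(mv 1104 (cons (fin 911 7 847)
(fin 913 6 848))))))))))))))))))))))
def l76 : Lem := ⟨11781361728633673532894774498354952494238773929196300355071513798753168641589311119865182769801300280680127783231251635087526446289021607771691249214388576215221396663491984443067742263787264024212477244347842938066577043117995647400274369612403653814737339068225047641453182709824206687753689912418253153056587776, 6556956190649441482306642403024730416646899664896369466333326473981829053780133397561455126530307494300899446949869459280668338773122619675146871620199667231790345421413900658308483739178827503413736799811780224793503737751616076994186988844733734752993742004949408927463628131910923391153800618594168818132811430529395161692576250161729691120123802934810219963428826790494969789168655802919153350823286508552368894577713870798848,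 6556956190649441482306642403024730416646899664896369466333326473981829053780133397561455126530307494300899446949869459280668338773122619675146871620199667231790345421413900658308483739178827503413736799811780224793503737751616076994186988844733734752993742004949408927463628131910923391153800618594168818132811430529395161692576250161729691120123802934810219963428826790494969789168655802919153350823286508552368894577713870798848, 20, 33⟩
theorem l76_valid : l76.Valid :=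
  Lem.valid_of_chk t76 t76_valid [1040] c76 l76 (by decide +kernel)
end Crest.Agent.SnakyAux
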