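import Crest.Agent.S0047_aux.Checker
import Crest.Agent.S0047_aux.L0
import Crest.Agent.S0047_aux.L1
import Crest.Agent.S0047_aux.L2
import Crest.Agent.S0047_aux.L3
import Crest.Agent.S0047_aux.L4
import Crest.Agent.S0047_aux.L5
import Crest.Agent.S0047_aux.L6
import Crest.Agent.S0047_aux.L7
import Crest.Agent.S0047_aux.L8
import Crest.Agent.S0047_aux.L9
import Crest.Agent.S0047_aux.L10
import Crest.Agent.S0047_aux.L18
import Crest.Agent.S0047_aux.L19
import Crest.Agent.S0047_aux.L20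
import Crest.Agent.S0047_aux.L21
import Crest.Agent.S0047_aux.L22
import Crest.Agent.S0047_aux.L23
import Crest.Agent.S0047_aux.L24
import Crest.Agent.S0047_aux.L25
import Crest.Agent.S0047_aux.L26
import Crest.Agent.S0047_aux.L49
import Crest.Agent.S0047_aux.L50
import Crest.Agent.S0047_aux.L51
import Crest.Agent.S0047_aux.L52
import Crest.Agent.S0047_aux.L53
import Crest.Agent.S0047_aux.L54
import Crest.Agent.S0047_aux.L55
import Crest.Agent.S0047_aux.L56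
import Crest.Agent.S0047_aux.L57
import Crest.Agent.S0047_aux.L63
import Crest.Agent.S0047_aux.L64
import Crest.Agent.S0047_aux.L65
import Crest.Agent.S0047_aux.L66
import Crest.Agent.S0047_aux.L67
import Crest.Agent.S0047_aux.L68
import Crest.Agent.S0047_aux.L69
import Crest.Agent.S0047_aux.L70
import Crest.Agent.S0047_aux.L71
import Crest.Agent.S0047_aux.L76
import Crest.Agent.S0047_aux.L77
import Crest.Agent.S0047_aux.L78
import Crest.Agent.S0047_aux.L79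
import Crest.Agent.S0047_aux.L129
import Crest.Agent.S0047_aux.L130
import Crest.Agent.S0047_aux.L131
import Crest.Agent.S0047_aux.L132
set_option autoImplicit false
set_option maxRecDepth 100000
namespace Crest.Agent.SnakyAux
open Cert
def tRoot : Tbl := (Tbl.node (Tbl.node (Tbl.node (Tbl.node (Tbl.node (Tbl.node (Tbl.leaf l0) (Tbl.leaf l66)) (Tbl.leaf l23)) (Tbl.node (Tbl.node (Tbl.leaf l8) (Tbl.leaf l78)) (Tbl.leaf l53))) (Tbl.node (Tbl.node (Tbl.node (Tbl.leaf l4) (Tbl.leaf l70)) (Tbl.leaf l49)) (Tbl.node (Tbl.node (Tbl.leaf l19) (Tbl.leaf l131)) (Tbl.leaf l57)))) (Tbl.node (Tbl.node (Tbl.node (Tbl.node (Tbl.leaf l2) (Tbl.leaf l68)) (Tbl.leaf l25)) (Tbl.node (Tbl.node (Tbl.leaf l10) (Tbl.leaf l129)) (Tbl.leaf l55))) (Tbl.node (Tbl.node (Tbl.node (Tbl.leaf l6) (Tbl.leaf l76)) (Tbl.leaf l51)) (Tbl.node (Tbl.leaf l21) (Tbl.leaf l64))))) (Tbl.node (Tbl.node (Tbl.node (Tbl.node (Tbl.node (Tbl.leaf l1)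 (Tbl.leaf l67)) (Tbl.leaf l24)) (Tbl.node (Tbl.node (Tbl.leaf l9) (Tbl.leaf l79)) (Tbl.leaf l54))) (Tbl.node (Tbl.node (Tbl.node (Tbl.leaf l5) (Tbl.leaf l71)) (Tbl.leaf l50)) (Tbl.node (Tbl.node (Tbl.leaf l20) (Tbl.leaf l132)) (Tbl.leaf l63)))) (Tbl.node (Tbl.node (Tbl.node (Tbl.node (Tbl.leaf l3) (Tbl.leaf l69)) (Tbl.leaf l26)) (Tbl.node (Tbl.node (Tbl.leaf l18) (Tbl.leaf l130)) (Tbl.leaf l56))) (Tbl.node (Tbl.node (Tbl.node (Tbl.leaf l7) (Tbl.leaf l77)) (Tbl.leaf l52)) (Tbl.node (Tbl.leaf l22) (Tbl.leaf l65))))))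
theorem tRoot_valid : tRoot.Valid := (Tbl.valid_node (Tbl.valid_node (Tbl.valid_node (Tbl.valid_node (Tbl.valid_node (Tbl.valid_node (Tbl.valid_leaf l0_valid) (Tbl.valid_leaf l66_valid)) (Tbl.valid_leaf l23_valid)) (Tbl.valid_node (Tbl.valid_node (Tbl.valid_leaf l8_valid) (Tbl.valid_leaf l78_valid)) (Tbl.valid_leaf l53_valid))) (Tbl.valid_node (Tbl.valid_node (Tbl.valid_node (Tbl.valid_leaf l4_valid) (Tbl.valid_leaf l70_valid)) (Tbl.valid_leaf l49_valid)) (Tbl.valid_node (Tbl.valid_node (Tbl.valid_leaf l19_valid) (Tbl.valid_leaf l131_valid)) (Tbl.valid_leaf l57_valid)))) (Tbl.valid_node (Tbl.valid_node (Tbl.valid_node (Tbl.valid_node (Tbl.valid_leaf l2_valid) (Tbl.valid_leaf l68_valid)) (Tbl.valid_leaf l25_valid)) (Tbl.valid_node (Tbl.valid_node (Tbl.valid_leaf l10_valid) (Tbl.valid_leaf l129_valid)) (Tbl.valid_leaf l55_valid))) (Tbl.valid_node (Tbl.valid_node (Tbl.valid_node (Tbl.valid_leaf l6_valid)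 (Tbl.valid_leaf l76_valid)) (Tbl.valid_leaf l51_valid)) (Tbl.valid_node (Tbl.valid_leaf l21_valid) (Tbl.valid_leaf l64_valid))))) (Tbl.valid_node (Tbl.valid_node (Tbl.valid_node (Tbl.valid_node (Tbl.valid_node (Tbl.valid_leaf l1_valid) (Tbl.valid_leaf l67_valid)) (Tbl.valid_leaf l24_valid)) (Tbl.valid_node (Tbl.valid_node (Tbl.valid_leaf l9_valid) (Tbl.valid_leaf l79_valid)) (Tbl.valid_leaf l54_valid))) (Tbl.valid_node (Tbl.valid_node (Tbl.valid_node (Tbl.valid_leaf l5_valid) (Tbl.valid_leaf l71_valid)) (Tbl.valid_leaf l50_valid)) (Tbl.valid_node (Tbl.valid_node (Tbl.valid_leaf l20_valid) (Tbl.valid_leaf l132_valid)) (Tbl.valid_leaf l63_valid)))) (Tbl.valid_node (Tbl.valid_node (Tbl.valid_node (Tbl.valid_node (Tbl.valid_leaf l3_valid) (Tbl.valid_leaf l69_valid)) (Tbl.valid_leaf l26_valid)) (Tbl.valid_node (Tbl.valid_node (Tbl.valid_leaf l18_valid) (Tbl.valid_leaf l130_valid)) (Tbl.valid_leaf l56_valid)))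 (Tbl.valid_node (Tbl.valid_node (Tbl.valid_node (Tbl.valid_leaf l7_valid) (Tbl.valid_leaf l77_valid)) (Tbl.valid_leaf l52_valid)) (Tbl.valid_node (Tbl.valid_leaf l22_valid) (Tbl.valid_leaf l65_valid))))))
def cRoot : Cert :=
(mv 1040 (cons (cons (cons (cons (cons (ref 0 0)
(ref 1 0))
(cons (ref 3 0)
(cons (ref 5 0)
(ref 6 0))))
(cons (cons (ref 7 0)
(cons (ref 8 0)
(ref 9 0)))
(cons (ref 10 0)
(cons (ref 12 0)
(ref 13 0)))))
(cons (cons (cons (ref 14 0)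
(cons (ref 15 0)
(ref 4 0)))
(cons (ref 16 0)
(cons (ref 17 0)
(ref 19 0))))
(cons (cons (ref 21 0)
(cons (ref 22 0)
(ref 23 0)))
(cons (ref 24 0)
(cons (ref 25 0)
(ref 20 0))))))
(cons (cons (cons (cons (ref 2 0)
(ref 26 0))
(cons (ref 27 0)
(cons (ref 28 0)
(ref 18 0))))
(cons (cons (ref 30 0)
(cons (ref 31 0)
(ref 32 0)))
(cons (ref 33 0)
(cons (ref 34 0)
(ref 11 0)))))
(cons (cons (cons (ref 35 0)
(cons (ref 29 0)
(ref 36 0)))
(cons (ref 37 0)
(cons (ref 39 0)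
(ref 40 0))))
(cons (cons (ref 41 0)
(cons (ref 38 0)
(ref 43 0)))
(cons (ref 44 0)
(cons (ref 42 0)
(ref 45 0))))))))
theorem root_MW : MW 21 ∅ ∅ := MW_of_chk tRoot tRoot_valid cRoot (by decide +kernel)
end Crest.Agent.SnakyAux
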